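import Mathlib

/-!
Row 7 (S0007), section B, algebra: Noetherianity lifts along adic completeness.
-/

set_option autoImplicit false

namespace Crest.Agent.R007.BAlg

open MvPolynomial

section lift

variable {σ : Type*} {A : Type*} [CommRing A]

/-- homogeneous component of a product with a homogeneous factor -/
theorem hc_mul_of_homog {R : Type*} [CommSemiring R] (n m : ℕ) (h q : MvPolynomial σ R)
    (hq : q.IsHomogeneous m) :
    homogeneousComponent n (h * q) =
      if m ≤ n then homogeneousComponent (n - m) h * q else 0 := by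
  classical
  ext d
  rw [coeff_homogeneousComponent]
  by_cases hmn : m ≤ n
  · rw [if_pos hmn]
    by_cases hd : d.degree = n
    · rw [if_pos hd, coeff_mul, coeff_mul]
      apply Finset.sum_congr rfl
      rintro ⟨a, b⟩ hab
      rw [Finset.HasAntidiagonal.mem_antidiagonal] at hab
      simp only at hab ⊢
      by_cases hb : b.degree = m
      · have ha : a.degree = n - m := by
          have : d.degree = a.degree + b.degree := by rw [← hab]; simp
          omega
        rw [coeff_homogeneousComponent, if_pos ha]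
      · rw [hq.coeff_eq_zero hb]; simp
    · rw [if_neg hd]
      have hh : (homogeneousComponent (n - m) h * q).IsHomogeneous (n - m + m) :=
        (homogeneousComponent_isHomogeneous _ _).mul hq
      rw [Nat.sub_add_cancel hmn] at hh
      exact (hh.coeff_eq_zero hd).symm
  · rw [if_neg hmn, coeff_zero]
    by_cases hd : d.degree = n
    · rw [if_pos hd, coeff_mul]
      apply Finset.sum_eq_zero
      rintro ⟨a, b⟩ hab
      rw [Finset.HasAntidiagonal.mem_antidiagonal] at hab
      simp only at hab ⊢
      have hb : b.degree ≠ m := by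
        have : d.degree = a.degree + b.degree := by rw [← hab]; simp
        omega
      rw [hq.coeff_eq_zero hb]; simp
    · rw [if_neg hd]

/-- a homogeneous polynomial lifts to a homogeneous polynomial -/
theorem exists_homog_lift {B : Type*} [CommRing B] (φ : A →+* B) (hφ : Function.Surjective φ)
    (n : ℕ) (p : MvPolynomial σ B) (hp : p.IsHomogeneous n) :
    ∃ q : MvPolynomial σ A, q.IsHomogeneous n ∧ map φ q = p := by
  classical
  obtain ⟨q, hq⟩ := map_surjective φ hφ p
  refine ⟨homogeneousComponent n q, homogeneousComponent_isHomogeneous _ _, ?_⟩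
  ext d
  rw [coeff_map, coeff_homogeneousComponent]
  by_cases hd : d.degree = n
  · rw [if_pos hd, ← hq, coeff_map]
  · rw [if_neg hd, map_zero, hp.coeff_eq_zero hd]

/-- a homogeneous polynomial of degree `n` with coefficients in `I`, evaluated at elements of `I`,
lies in `I^(n+1)` -/
theorem eval_mem_pow_succ (I : Ideal A) (f : σ → A) (hf : ∀ i, f i ∈ I) (n : ℕ)
    (q : MvPolynomial σ A) (hq : q.IsHomogeneous n)
    (h0 : map (Ideal.Quotient.mk I) q = 0) : eval f q ∈ I ^ (n + 1) := by
  classical
  rw [eval_eq]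
  apply Ideal.sum_mem
  intro d hd
  have hc : coeff d q ∈ I := by
    have := congrArg (coeff d) h0
    rw [coeff_map, coeff_zero] at this
    exact Ideal.Quotient.eq_zero_iff_mem.mp this
  have hdeg : d.degree = n := by
    by_contra hne
    exact (mem_support_iff.mp hd) (hq.coeff_eq_zero hne)
  have hprod : ∏ i ∈ d.support, f i ^ d i ∈ I ^ n := by
    rw [← hdeg, Finsupp.degree_apply]
    rw [← Finset.prod_pow_eq_pow_sum]
    exact Ideal.prod_mem_prod fun i _ => Ideal.pow_mem_pow (hf i) _
  rw [pow_succ']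
  exact Ideal.mul_mem_mul hc hprod

/-- a homogeneous polynomial of degree `n` evaluated at elements of `I` lies in `I^n` -/
theorem eval_mem_pow (I : Ideal A) (f : σ → A) (hf : ∀ i, f i ∈ I) (n : ℕ)
    (q : MvPolynomial σ A) (hq : q.IsHomogeneous n) : eval f q ∈ I ^ n := by
  classical
  rw [eval_eq]
  apply Ideal.sum_mem
  intro d hd
  have hdeg : d.degree = n := by
    by_contra hne
    exact (mem_support_iff.mp hd) (hq.coeff_eq_zero hne)
  have hprod : ∏ i ∈ d.support, f i ^ d i ∈ I ^ n := by
    rw [← hdeg, Finsupp.degree_apply]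
    rw [← Finset.prod_pow_eq_pow_sum]
    exact Ideal.prod_mem_prod fun i _ => Ideal.pow_mem_pow (hf i) _
  exact Ideal.mul_mem_left _ _ hprod

/-- leading forms of elements of `J` -/
def lead (I : Ideal A) (f : σ → A) (J : Ideal A) : Set (MvPolynomial σ (A ⧸ I)) :=
  {p | ∃ (n : ℕ) (q : MvPolynomial σ A) (g : A), q.IsHomogeneous n ∧
    map (Ideal.Quotient.mk I) q = p ∧ g ∈ J ∧ eval f q - g ∈ I ^ (n + 1)}

variable [Finite σ]

theorem exists_approx (I : Ideal A) (f : σ → A) (hI : I = Ideal.span (Set.range f))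
    [IsNoetherianRing (A ⧸ I)] (J : Ideal A) :
    ∃ (S : Finset A) (D : ℕ), (∀ g ∈ S, g ∈ J) ∧
      ∀ n : ℕ, ∀ x ∈ J, x ∈ I ^ n → ∃ c : A → A, (∀ g, c g ∈ I ^ (n - D)) ∧
        x - ∑ g ∈ S, c g * g ∈ I ^ (n + 1) := by
  classical
  have hf : ∀ i, f i ∈ I := fun i => by rw [hI]; exact Ideal.subset_span ⟨i, rfl⟩
  have hfg : (Submodule.span (MvPolynomial σ (A ⧸ I)) (lead I f J)).FG :=
    (inferInstance : IsNoetherianRing (MvPolynomial σ (A ⧸ I))).noetherian _
  rw [Submodule.fg_span_iff_fg_span_finset_subset] at hfg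
  obtain ⟨s, hs, hspan⟩ := hfg
  -- data for each element of s
  have hdat : ∀ p : s, ∃ (n : ℕ) (q : MvPolynomial σ A) (g : A), q.IsHomogeneous n ∧
    map (Ideal.Quotient.mk I) q = p.1 ∧ g ∈ J ∧ eval f q - g ∈ I ^ (n + 1) := fun p => hs p.2
  choose nn qq gg hqh hqm hgJ hgI using hdat
  refine ⟨Finset.univ.image gg, Finset.univ.sup nn, ?_, ?_⟩
  · intro g hg
    obtain ⟨p, -, rfl⟩ := Finset.mem_image.mp hg
    exact hgJ p
  intro n x hxJ hxn
  rw [hI, Ideal.mem_span_pow_iff_exists_isHomogeneous] at hxn
  obtain ⟨q, hq, hqx⟩ := hxn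
  have hlead : map (Ideal.Quotient.mk I) q ∈ lead I f J :=
    ⟨n, q, x, hq, rfl, hxJ, by rw [hqx, sub_self]; exact zero_mem _⟩
  have hmem : map (Ideal.Quotient.mk I) q ∈ Submodule.span (MvPolynomial σ (A ⧸ I))
      (s : Set (MvPolynomial σ (A ⧸ I))) := by
    rw [← hspan]; exact Submodule.subset_span hlead
  rw [Submodule.mem_span_finset'] at hmem
  obtain ⟨h, hh⟩ := hmem
  -- take the degree n part
  have hp : (map (Ideal.Quotient.mk I) q).IsHomogeneous n := hq.map _
  have hcomp : map (Ideal.Quotient.mk I) q =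
      ∑ p : s, (if nn p ≤ n then homogeneousComponent (n - nn p) (h p) * p.1 else 0) := by
    rw [← homogeneousComponent_eq_self hp, ← hh, map_sum]
    apply Finset.sum_congr rfl
    intro p _
    rw [smul_eq_mul]
    exact hc_mul_of_homog n (nn p) _ _ (by rw [← hqm p]; exact (hqh p).map _)
  -- lift the coefficients
  have hlift : ∀ p : s, ∃ t : MvPolynomial σ A, t.IsHomogeneous (n - nn p) ∧
      map (Ideal.Quotient.mk I) t =
        if nn p ≤ n then homogeneousComponent (n - nn p) (h p) else 0 := by
    intro p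
    apply exists_homog_lift _ Ideal.Quotient.mk_surjective
    split_ifs
    · exact homogeneousComponent_isHomogeneous _ _
    · exact isHomogeneous_zero _ _ _
  choose t ht htm using hlift
  -- coefficients with t p replaced by zero if nn p > n
  let t' : s → MvPolynomial σ A := fun p => if nn p ≤ n then t p else 0
  have ht'h : ∀ p, (t' p * qq p).IsHomogeneous n := by
    intro p
    simp only [t']
    split_ifs with hle
    · have := (ht p).mul (hqh p)
      rwa [Nat.sub_add_cancel hle] at this
    · rw [zero_mul]; exact isHomogeneous_zero _ _ _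
  have ht'm : ∀ p, map (Ideal.Quotient.mk I) (t' p * qq p) =
      if nn p ≤ n then homogeneousComponent (n - nn p) (h p) * p.1 else 0 := by
    intro p
    simp only [t']
    split_ifs with hle
    · rw [map_mul, htm p, if_pos hle, hqm p]
    · simp
  have hdiff : eval f (q - ∑ p, t' p * qq p) ∈ I ^ (n + 1) := by
    apply eval_mem_pow_succ I f hf n
    · exact hq.sub (IsHomogeneous.sum _ _ _ fun p _ => ht'h p)
    · rw [map_sub, map_sum, hcomp, sub_eq_zero]
      exact Finset.sum_congr rfl fun p _ => (ht'm p).symm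
  refine ⟨fun g => ∑ p : s, if gg p = g then eval f (t' p) else 0, ?_, ?_⟩
  · intro g
    apply Ideal.sum_mem
    intro p _
    split_ifs with hg
    · simp only [t']
      split_ifs with hle
      · have h1 := eval_mem_pow I f hf _ _ (ht p)
        exact Ideal.pow_le_pow_right (Nat.sub_le_sub_left (Finset.le_sup (Finset.mem_univ p)) n) h1
      · simp
    · exact zero_mem _
  · have hsum : ∑ g ∈ Finset.univ.image gg, (∑ p : s, if gg p = g then eval f (t' p) else 0) * g
        = ∑ p : s, eval f (t' p) * gg p := by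
      simp_rw [Finset.sum_mul]
      rw [Finset.sum_comm]
      apply Finset.sum_congr rfl
      intro p _
      rw [Finset.sum_eq_single (gg p)]
      · simp
      · intro b _ hb
        rw [if_neg (Ne.symm hb), zero_mul]
      · intro hn
        exact absurd (Finset.mem_image_of_mem gg (Finset.mem_univ p)) hn
    rw [hsum]
    have hkey : x - ∑ p : s, eval f (t' p) * gg p =
        eval f (q - ∑ p, t' p * qq p) + ∑ p : s, eval f (t' p) * (eval f (qq p) - gg p) := by
      rw [map_sub, map_sum, hqx]
      simp_rw [map_mul, mul_sub, Finset.sum_sub_distrib]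
      ring
    rw [hkey]
    apply Ideal.add_mem _ hdiff
    apply Ideal.sum_mem
    intro p _
    simp only [t']
    split_ifs with hle
    · have h1 := eval_mem_pow I f hf _ _ (ht p)
      have h2 := Ideal.mul_mem_mul h1 (hgI p)
      rw [← pow_add] at h2
      have h3 : n - nn p + (nn p + 1) = n + 1 := by omega
      rwa [h3] at h2
    · simp

end lift

/-- **Noetherianity lifts**: `A` complete for a finitely generated ideal `I` with `A/I` Noetherian. -/
theorem noeth_of_adic {A : Type*} [CommRing A] (I : Ideal A) (hfg : I.FG) [IsAdicComplete I A]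
    [IsNoetherianRing (A ⧸ I)] : IsNoetherianRing A := by
  classical
  obtain ⟨T, hT⟩ := hfg
  let f : T → A := fun x => x.1
  have hI : I = Ideal.span (Set.range f) := by
    rw [← hT]; simp [f]
  refine ⟨fun J' => ?_⟩
  let J : Ideal A := J'
  change J.FG
  obtain ⟨S, D, hSJ, hS⟩ := exists_approx I f hI J
  refine ⟨S, le_antisymm (Submodule.span_le.mpr fun g hg => hSJ g hg) ?_⟩
  intro x hx
  -- successive approximations
  have hstep : ∀ n : ℕ, ∀ y : {y : A // y ∈ J ∧ y ∈ I ^ n}, ∃ c : A → A,
      (∀ g, c g ∈ I ^ (n - D)) ∧ y.1 - ∑ g ∈ S, c g * g ∈ I ^ (n + 1) := by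
    intro n y
    exact hS n y.1 y.2.1 y.2.2
  choose c hc1 hc2 using hstep
  let rec' : (n : ℕ) → {y : A // y ∈ J ∧ y ∈ I ^ n} := fun n =>
    Nat.rec (motive := fun n => {y : A // y ∈ J ∧ y ∈ I ^ n})
      ⟨x, hx, by simp⟩
      (fun n y => ⟨y.1 - ∑ g ∈ S, c n y g * g,
        ⟨J.sub_mem y.2.1 (J.sum_mem fun g hg => Ideal.mul_mem_left J _ (hSJ g hg)), hc2 n y⟩⟩) n
  have hrec0 : (rec' 0).1 = x := rfl
  have hrecs : ∀ n, (rec' (n + 1)).1 = (rec' n).1 - ∑ g ∈ S, c n (rec' n) g * g := fun n => rfl
  -- partial sums of coefficients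
  let C : ℕ → A → A := fun n g => ∑ k ∈ Finset.range n, c k (rec' k) g
  have hCsum : ∀ n, x - ∑ g ∈ S, C n g * g = (rec' n).1 := by
    intro n
    induction n with
    | zero => simp [C, hrec0]
    | succ n ih =>
      rw [hrecs, ← ih]
      simp only [C, Finset.sum_range_succ, add_mul, Finset.sum_add_distrib]
      ring
  have hCauchy : ∀ g, ∀ {m n : ℕ}, m ≤ n → C (m + D) g ≡ C (n + D) g
      [SMOD (I ^ m • ⊤ : Submodule A A)] := by
    intro g m n hmn
    rw [SModEq.sub_mem]
    have : C (m + D) g - C (n + D) g = - ∑ k ∈ Finset.Ico (m + D) (n + D), c k (rec' k) g := by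
      simp only [C]
      rw [Finset.sum_Ico_eq_sub _ (by omega)]
      ring
    rw [this, smul_eq_mul, Ideal.mul_top]
    apply neg_mem
    apply Ideal.sum_mem
    intro k hk
    rw [Finset.mem_Ico] at hk
    exact Ideal.pow_le_pow_right (by omega) (hc1 k (rec' k) g)
  have hlim : ∀ g, ∃ L : A, ∀ n, C (n + D) g ≡ L [SMOD (I ^ n • ⊤ : Submodule A A)] :=
    fun g => IsPrecomplete.prec' (I := I) (M := A) (fun n => C (n + D) g) (hCauchy g)
  choose L hL using hlim
  have hfin : x - ∑ g ∈ S, L g * g = 0 := by
    apply IsHausdorff.haus' (I := I) (M := A)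
    intro n
    rw [SModEq.sub_mem, sub_zero, smul_eq_mul, Ideal.mul_top]
    have h1 : x - ∑ g ∈ S, L g * g = (x - ∑ g ∈ S, C (n + D) g * g) +
        ∑ g ∈ S, (C (n + D) g - L g) * g := by
      simp_rw [sub_mul, Finset.sum_sub_distrib]
      ring
    rw [h1, hCsum]
    apply Ideal.add_mem
    · exact Ideal.pow_le_pow_right (by omega) (rec' (n + D)).2.2
    · apply Ideal.sum_mem
      intro g _
      apply Ideal.mul_mem_right
      have := hL g n
      rw [SModEq.sub_mem, smul_eq_mul, Ideal.mul_top] at this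
      exact this
  rw [sub_eq_zero] at hfin
  rw [hfin]
  exact Submodule.sum_mem _ fun g hg =>
    Submodule.smul_mem _ (L g) (Submodule.subset_span hg)

end Crest.Agent.R007.BAlg
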