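import Crest.Agent.R007.BAlg1

/-!
Row 7 (S0007), section B, algebra: Krull dimension of an adically complete ring.
-/

set_option autoImplicit false

namespace Crest.Agent.R007.BAlg

/-- a ring is complete for an ideal of square zero -/
theorem isAdicComplete_of_sq {B : Type*} [CommRing B] (J : Ideal B) (hJ : J ^ 2 = ⊥) :
    IsAdicComplete J B where
  haus' x hx := by
    have := hx 2
    rw [SModEq.sub_mem, sub_zero, hJ, smul_eq_mul, Ideal.mul_top] at this
    simpa using this
  prec' f hf := by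
    refine ⟨f 2, fun n => ?_⟩
    rcases le_total n 2 with hn | hn
    · exact hf hn
    · have h := (hf hn).symm
      rw [SModEq.sub_mem, smul_eq_mul, Ideal.mul_top] at h
      rw [hJ] at h
      have h' : f n - f 2 = 0 := by simpa using h
      rw [sub_eq_zero.mp h']

/-- a nilpotent element (of square zero) does not change the Krull dimension -/
theorem ringKrullDim_quot_nil {B : Type*} [CommRing B] (b : B) (hb : b ^ 2 = 0) :
    ringKrullDim (B ⧸ Ideal.span {b}) = ringKrullDim B := by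
  rw [ringKrullDim_quotient]
  have h : PrimeSpectrum.zeroLocus ((Ideal.span {b} : Ideal B) : Set B) = Set.univ := by
    rw [PrimeSpectrum.zeroLocus_span]
    ext p
    simp only [PrimeSpectrum.mem_zeroLocus, Set.singleton_subset_iff, Set.mem_univ, iff_true,
      SetLike.mem_coe]
    exact p.2.mem_of_pow_mem 2 (by rw [hb]; exact zero_mem _)
  rw [h, ringKrullDim]
  exact Order.krullDim_eq_of_orderIso OrderIso.Set.univ

/-- **Noetherianity and dimension bound.** `A` complete for the f.g. ideal `I`, `y' ^ 2 ∈ I`,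
`A / (I + (y'))` Noetherian of dimension `≤ d`: then `A` is Noetherian and
`dim A ≤ d + (number of generators of I)`. -/
theorem noeth_and_dim {A : Type*} [CommRing A] (I : Ideal A) (hfg : I.FG) [IsAdicComplete I A]
    (y' : A) (hy : y' ^ 2 ∈ I) (hN : IsNoetherianRing (A ⧸ (I ⊔ Ideal.span {y'}))) (d : WithBot ℕ∞)
    (hd : ringKrullDim (A ⧸ (I ⊔ Ideal.span {y'})) ≤ d) :
    IsNoetherianRing A ∧ ringKrullDim A ≤ d + (I.spanFinrank : ℕ) := by
  classical
  let b : A ⧸ I := Ideal.Quotient.mk I y'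
  have hb : b ^ 2 = 0 := by
    change (Ideal.Quotient.mk I y') ^ 2 = 0
    rw [← map_pow, Ideal.Quotient.eq_zero_iff_mem]
    exact hy
  have hmap : (Ideal.span {y'}).map (Ideal.Quotient.mk I) = Ideal.span {b} := by
    rw [Ideal.map_span, Set.image_singleton]
  let e : ((A ⧸ I) ⧸ (Ideal.span {y'}).map (Ideal.Quotient.mk I)) ≃+* (A ⧸ (I ⊔ Ideal.span {y'})) :=
    DoubleQuot.quotQuotEquivQuotSup I (Ideal.span {y'})
  let e2 : ((A ⧸ I) ⧸ Ideal.span {b}) ≃+* ((A ⧸ I) ⧸ (Ideal.span {y'}).map (Ideal.Quotient.mk I)) :=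
    Ideal.quotEquivOfEq hmap.symm
  let e3 : ((A ⧸ I) ⧸ Ideal.span {b}) ≃+* (A ⧸ (I ⊔ Ideal.span {y'})) := e2.trans e
  have : IsNoetherianRing ((A ⧸ I) ⧸ Ideal.span {b}) :=
    isNoetherianRing_of_ringEquiv _ e3.symm
  have hJ : (Ideal.span {b}) ^ 2 = ⊥ := by
    rw [Ideal.span_singleton_pow, hb]
    simp
  have : IsAdicComplete (Ideal.span {b}) (A ⧸ I) := isAdicComplete_of_sq _ hJ
  have : IsNoetherianRing (A ⧸ I) := noeth_of_adic (Ideal.span {b}) ⟨{b}, by simp⟩
  have hA : IsNoetherianRing A := noeth_of_adic I hfg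
  refine ⟨hA, ?_⟩
  have h1 : ringKrullDim A ≤ ringKrullDim (A ⧸ I) + (I.spanFinrank : ℕ) :=
    ringKrullDim_le_ringKrullDim_quotient_add_spanFinrank I
      (by rw [← Ideal.jacobson_bot]; exact IsAdicComplete.le_jacobson_bot I)
  have h2 : ringKrullDim (A ⧸ I) ≤ d := by
    rw [← ringKrullDim_quot_nil b hb, ringKrullDim_eq_of_ringEquiv e3]
    exact hd
  exact h1.trans (by gcongr)

/-- **dim ≤ 4**: the case of two generators and `dim A/(a,b,y') ≤ 2`. -/
theorem dim_le_four {A : Type*} [CommRing A] (a b y' : A)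
    [IsAdicComplete (Ideal.span {a, b}) A] (hy : y' ^ 2 ∈ Ideal.span {a, b})
    (hN : IsNoetherianRing (A ⧸ (Ideal.span {a, b, y'})))
    (hd : ringKrullDim (A ⧸ (Ideal.span {a, b, y'})) ≤ 2) :
    IsNoetherianRing A ∧ ringKrullDim A ≤ 4 := by
  classical
  have hsup : (Ideal.span {a, b} : Ideal A) ⊔ Ideal.span {y'} = Ideal.span {a, b, y'} := by
    rw [← Ideal.span_union]
    congr 1
    ext x
    simp only [Set.mem_union, Set.mem_insert_iff, Set.mem_singleton_iff]
    tauto
  have hN' : IsNoetherianRing (A ⧸ ((Ideal.span {a, b} : Ideal A) ⊔ Ideal.span {y'})) := by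
    rw [hsup]; exact hN
  have hd' : ringKrullDim (A ⧸ ((Ideal.span {a, b} : Ideal A) ⊔ Ideal.span {y'})) ≤ 2 := by
    rw [hsup]; exact hd
  obtain ⟨h1, h2⟩ := noeth_and_dim (Ideal.span {a, b}) ⟨{a, b}, by simp⟩ y' hy hN' 2 hd'
  refine ⟨h1, h2.trans ?_⟩
  have h3 : (Ideal.span {a, b} : Ideal A).spanFinrank ≤ 2 := by
    have h4 := Submodule.spanFinrank_span_le_ncard_of_finite (R := A) (M := A) (s := {a, b})
      (Set.toFinite _)
    exact h4.trans (Set.ncard_insert_le _ _ |>.trans (by simp))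
  have h5 : (((Ideal.span {a, b} : Ideal A).spanFinrank : ℕ) : WithBot ℕ∞) ≤ (2 : WithBot ℕ∞) := by
    exact_mod_cast h3
  calc (2 : WithBot ℕ∞) + ((Ideal.span {a, b} : Ideal A).spanFinrank : ℕ) ≤ 2 + 2 := by
        gcongr
    _ = 4 := by norm_num

end Crest.Agent.R007.BAlg
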