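import Crest.Agent.R007.BAlg2

/-!
Row 7 (S0007), section B, algebra: inverse limits of `p`-adically complete rings are complete for
every finitely generated topologically nilpotent ideal.
-/

set_option autoImplicit false

namespace Crest.Agent.R007.BAlg

section Lim

variable {T : Type*} [CommRing T] {R : ℕ → Type*} [∀ k, CommRing (R k)]

/-- `T` is the inverse limit of the `R k` -/
structure IsLim (π : ∀ k, T →+* R k) (ρ : ∀ k, R (k + 1) →+* R k) : Prop where
  comp : ∀ k x, ρ k (π (k + 1) x) = π k x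
  inj : ∀ x, (∀ k, π k x = 0) → x = 0
  lift : ∀ a : ∀ k, R k, (∀ k, ρ k (a (k + 1)) = a k) → ∃ x : T, ∀ k, π k x = a k

variable {π : ∀ k, T →+* R k} {ρ : ∀ k, R (k + 1) →+* R k} (p : ℕ)

theorem map_span_pow {S S' : Type*} [CommRing S] [CommRing S'] (f : S →+* S') (p m : ℕ) (x : S)
    (hx : x ∈ (Ideal.span {(p : S)}) ^ m) : f x ∈ (Ideal.span {(p : S')}) ^ m := by
  have h := Ideal.mem_map_of_mem f hx
  rwa [Ideal.map_pow, Ideal.map_span, Set.image_singleton, map_natCast] at h

theorem eq_zero_of_forall_pow {S : Type*} [CommRing S] (J : Ideal S) [IsHausdorff J S] (x : S)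
    (hx : ∀ m, x ∈ J ^ m) : x = 0 := by
  apply IsHausdorff.haus' (I := J) (M := S)
  intro n
  rw [SModEq.sub_mem, sub_zero, smul_eq_mul, Ideal.mul_top]
  exact hx n

/-- the ideal `I` is topologically nilpotent -/
def TopNil (π : ∀ k, T →+* R k) (I : Ideal T) : Prop :=
  ∀ k, ∃ n : ℕ, ∀ m : ℕ, ∀ x ∈ I ^ (n * m), π k x ∈ (Ideal.span {(p : R k)}) ^ m

theorem topNil_of_map_le (π : ∀ k, T →+* R k) (I : Ideal T)
    (h : ∀ k, ∃ n : ℕ, (I ^ n).map (π k) ≤ Ideal.span {(p : R k)}) : TopNil p π I := by
  intro k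
  obtain ⟨n, hn⟩ := h k
  refine ⟨n, fun m x hx => ?_⟩
  have h1 := Ideal.mem_map_of_mem (π k) hx
  rw [pow_mul, Ideal.map_pow] at h1
  exact Ideal.pow_right_mono hn m h1

/-- the usual case `I = (p, y)`, `y` nilpotent modulo `p` on every stage -/
theorem topNil_pair (π : ∀ k, T →+* R k) (y : T)
    (h : ∀ k, ∃ n : ℕ, (π k y) ^ n ∈ Ideal.span {(p : R k)}) :
    TopNil p π (Ideal.span {(p : T), y}) := by
  apply topNil_of_map_le
  intro k
  obtain ⟨n, hn⟩ := h k
  refine ⟨n, ?_⟩
  rw [Ideal.map_pow, Ideal.map_span, Set.image_pair, map_natCast]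
  have h1 : Ideal.span {(p : R k), π k y} = Ideal.span {(p : R k)} ⊔ Ideal.span {π k y} := by
    rw [← Ideal.span_union]; rfl
  rw [h1]
  -- work modulo p
  intro x hx
  rw [← Ideal.Quotient.eq_zero_iff_mem, ← Ideal.mem_bot]
  have h2 := Ideal.mem_map_of_mem (Ideal.Quotient.mk (Ideal.span {(p : R k)})) hx
  rw [Ideal.map_pow, Ideal.map_sup, Ideal.map_quotient_self, bot_sup_eq,
    Ideal.map_span, Set.image_singleton, Ideal.span_singleton_pow, ← map_pow,
    Ideal.Quotient.eq_zero_iff_mem.mpr hn] at h2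
  simpa using h2

variable {p}

/-- convergent series in the limit ring -/
theorem series (hT : IsLim π ρ) [∀ k, IsAdicComplete (Ideal.span {(p : R k)}) (R k)] (I : Ideal T)
    (hI : TopNil p π I) (c : ℕ → T) (hc : ∀ j, c j ∈ I ^ j) :
    ∃ S : T, ∀ k m : ℕ, ∃ N : ℕ, ∀ n, N ≤ n →
      π k (S - ∑ j ∈ Finset.range n, c j) ∈ (Ideal.span {(p : R k)}) ^ m := by
  classical
  choose N hN using hI
  have hlim : ∀ k, ∃ L : R k, ∀ m : ℕ, ∀ n, N k * m ≤ n →
      L - π k (∑ j ∈ Finset.range n, c j) ∈ (Ideal.span {(p : R k)}) ^ m := by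
    intro k
    have htail : ∀ m n n', N k * m ≤ n → n ≤ n' → π k (∑ j ∈ Finset.range n', c j) -
        π k (∑ j ∈ Finset.range n, c j) ∈ (Ideal.span {(p : R k)}) ^ m := by
      intro m n n' h1 h2
      rw [← map_sub, ← Finset.sum_Ico_eq_sub _ h2]
      apply hN k m
      apply Ideal.sum_mem
      intro j hj
      rw [Finset.mem_Ico] at hj
      exact Ideal.pow_le_pow_right (h1.trans hj.1) (hc j)
    obtain ⟨L, hL⟩ := IsPrecomplete.prec' (I := Ideal.span {(p : R k)}) (M := R k)
      (fun m => π k (∑ j ∈ Finset.range (N k * m), c j)) (by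
        intro m m' hmm
        rw [SModEq.sub_mem, smul_eq_mul, Ideal.mul_top, ← neg_sub]
        apply neg_mem
        exact htail m _ _ le_rfl (Nat.mul_le_mul_left _ hmm))
    refine ⟨L, fun m n hn => ?_⟩
    have h1 := hL m
    rw [SModEq.sub_mem, smul_eq_mul, Ideal.mul_top] at h1
    have h2 := htail m (N k * m) n le_rfl hn
    have h3 : L - π k (∑ j ∈ Finset.range n, c j) =
        - (π k (∑ j ∈ Finset.range (N k * m), c j) - L) - (π k (∑ j ∈ Finset.range n, c j) -
        π k (∑ j ∈ Finset.range (N k * m), c j)) := by ring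
    rw [h3]
    exact Ideal.sub_mem _ (neg_mem h1) h2
  choose L hL using hlim
  obtain ⟨S, hS⟩ := hT.lift L (by
    intro k
    rw [← sub_eq_zero]
    apply eq_zero_of_forall_pow (Ideal.span {(p : R k)})
    intro m
    let n := max (N k * m) (N (k + 1) * m)
    have h1 := hL k m n (le_max_left _ _)
    have h2 := map_span_pow (ρ k) p m _ (hL (k + 1) m n (le_max_right _ _))
    rw [map_sub, hT.comp] at h2
    have h3 : ρ k (L (k + 1)) - L k = (ρ k (L (k + 1)) - π k (∑ j ∈ Finset.range n, c j)) -
      (L k - π k (∑ j ∈ Finset.range n, c j)) := by ring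
    rw [h3]
    exact Ideal.sub_mem _ h2 h1)
  refine ⟨S, fun k m => ⟨N k * m, fun n hn => ?_⟩⟩
  rw [map_sub, hS]
  exact hL k m n hn

/-- **Completeness of inverse limits**: for `T = lim R k` with all `R k` `p`-adically complete, every
finitely generated topologically nilpotent ideal `I` makes `T` `I`-adically complete. -/
theorem isAdicComplete_of_isLim (hT : IsLim π ρ)
    [∀ k, IsAdicComplete (Ideal.span {(p : R k)}) (R k)] (I : Ideal T) (hfg : I.FG)
    (hI : TopNil p π I) : IsAdicComplete I T where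
  haus' x hx := by
    apply hT.inj
    intro k
    obtain ⟨n, hn⟩ := hI k
    apply eq_zero_of_forall_pow (Ideal.span {(p : R k)})
    intro m
    apply hn m
    have := hx (n * m)
    rwa [SModEq.sub_mem, sub_zero, smul_eq_mul, Ideal.mul_top] at this
  prec' f hf := by
    classical
    have hf' : ∀ {m n}, m ≤ n → f n - f m ∈ I ^ m := by
      intro m n hmn
      have h := (hf hmn)
      rw [SModEq.sub_mem, smul_eq_mul, Ideal.mul_top] at h
      rw [← neg_sub]
      exact neg_mem h
    obtain ⟨S, hS⟩ := series hT I hI (fun j => f (j + 1) - f j) (fun j => hf' (Nat.le_succ j))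
    refine ⟨S + f 0, fun n => ?_⟩
    rw [SModEq.sub_mem, smul_eq_mul, Ideal.mul_top, ← neg_sub]
    apply neg_mem
    -- generators of I^n
    obtain ⟨G, hG⟩ := hfg.pow (n := n)
    have hcoef : ∀ i : ℕ, ∃ a : G → T, (∀ g, a g ∈ I ^ i) ∧
        f (n + i + 1) - f (n + i) = ∑ g : G, a g * g.1 := by
      intro i
      have h1 : f (n + i + 1) - f (n + i) ∈ I ^ i • (Submodule.span T (G : Set T)) := by
        have hG' : Submodule.span T (G : Set T) = I ^ n := hG
        rw [hG', smul_eq_mul, ← pow_add, add_comm i n]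
        exact hf' (Nat.le_succ _)
      have h2 : Submodule.span T (G : Set T) = Submodule.span T (Set.range (fun g : G => g.1)) := by
        congr 1; ext z; simp
      rw [h2, Submodule.mem_ideal_smul_span_iff_exists_sum] at h1
      obtain ⟨a, ha, hsum⟩ := h1
      refine ⟨a, ha, ?_⟩
      rw [← hsum, Finsupp.sum_fintype _ _ (by simp)]
      simp
    choose a ha hsum using hcoef
    have hSl : ∀ g : G, ∃ S : T, ∀ k m : ℕ, ∃ N : ℕ, ∀ n, N ≤ n →
      π k (S - ∑ j ∈ Finset.range n, a j g) ∈ (Ideal.span {(p : R k)}) ^ m :=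
      fun g => series hT I hI (fun j => a j g) (fun j => ha j g)
    choose Sl hSl using hSl
    have hkey : S + f 0 - f n = ∑ g : G, Sl g * g.1 := by
      rw [← sub_eq_zero]
      apply hT.inj
      intro k
      apply eq_zero_of_forall_pow (Ideal.span {(p : R k)})
      intro m
      obtain ⟨N0, hN0⟩ := hS k m
      have : ∃ N1 : ℕ, ∀ g : G, ∀ n, N1 ≤ n →
          π k (Sl g - ∑ j ∈ Finset.range n, a j g) ∈ (Ideal.span {(p : R k)}) ^ m := by
        choose N1 hN1 using fun g => hSl g k m
        exact ⟨Finset.univ.sup N1, fun g n hn => hN1 g n ((Finset.le_sup (Finset.mem_univ g)).trans hn)⟩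
      obtain ⟨N1, hN1⟩ := this
      let M := max N0 N1
      have e1 : ∑ j ∈ Finset.range (n + M), (f (j + 1) - f j) = f (n + M) - f 0 :=
        Finset.sum_range_sub f (n + M)
      have e2 : f (n + M) - f n = ∑ g : G, (∑ j ∈ Finset.range M, a j g) * g.1 := by
        have e3 : f (n + M) - f n = ∑ j ∈ Finset.range M, (f (n + j + 1) - f (n + j)) := by
          have := Finset.sum_range_sub (fun j => f (n + j)) M
          simp only [add_zero] at this
          rw [← this]
          rfl
        rw [e3]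
        simp_rw [hsum, Finset.sum_mul]
        rw [Finset.sum_comm]
      have e4 : S + f 0 - f n - ∑ g : G, Sl g * g.1 =
          (S - ∑ j ∈ Finset.range (n + M), (f (j + 1) - f j)) -
          ∑ g : G, (Sl g - ∑ j ∈ Finset.range M, a j g) * g.1 := by
        rw [e1]
        simp_rw [sub_mul, Finset.sum_sub_distrib]
        rw [← e2]
        ring
      rw [e4, map_sub]
      apply Ideal.sub_mem
      · exact hN0 _ (le_trans (le_max_left _ _) (Nat.le_add_left _ _))
      · rw [map_sum]
        apply Ideal.sum_mem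
        intro g _
        rw [map_mul]
        apply Ideal.mul_mem_right
        exact hN1 g M (le_max_right _ _)
    rw [hkey]
    apply Ideal.sum_mem
    intro g _
    apply Ideal.mul_mem_left
    rw [← hG]
    exact Submodule.subset_span g.2

end Lim

section finite

/-- modules finite over an adically complete ring are precomplete -/
theorem isPrecomplete_of_finite {A M : Type*} [CommRing A] [AddCommGroup M] [Module A M]
    (J : Ideal A) [IsAdicComplete J A] [Module.Finite A M] : IsPrecomplete J M where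
  prec' f hf := by
    classical
    obtain ⟨G, hG⟩ := (Module.Finite.fg_top : (⊤ : Submodule A M).FG)
    have hcoef : ∀ i : ℕ, ∃ a : G → A, (∀ g, a g ∈ J ^ i) ∧
        f (i + 1) - f i = ∑ g : G, a g • g.1 := by
      intro i
      have h0 := hf (Nat.le_succ i)
      rw [SModEq.sub_mem] at h0
      have h1 : f (i + 1) - f i ∈ J ^ i • (Submodule.span A (G : Set M)) := by
        rw [hG, ← neg_sub]
        exact neg_mem h0
      have h2 : Submodule.span A (G : Set M) = Submodule.span A (Set.range (fun g : G => g.1)) := by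
        congr 1; ext z; simp
      rw [h2, Submodule.mem_ideal_smul_span_iff_exists_sum] at h1
      obtain ⟨a, ha, hsum⟩ := h1
      refine ⟨a, ha, ?_⟩
      rw [← hsum, Finsupp.sum_fintype _ _ (by simp)]
    choose a ha hsum using hcoef
    have hlim : ∀ g : G, ∃ S : A, ∀ n, (∑ j ∈ Finset.range n, a j g) ≡ S
        [SMOD (J ^ n • ⊤ : Submodule A A)] := by
      intro g
      apply IsPrecomplete.prec' (I := J) (M := A) (fun n => ∑ j ∈ Finset.range n, a j g)
      intro m n hmn
      rw [SModEq.sub_mem, smul_eq_mul, Ideal.mul_top, ← neg_sub, ← Finset.sum_Ico_eq_sub _ hmn]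
      apply neg_mem
      apply Ideal.sum_mem
      intro j hj
      rw [Finset.mem_Ico] at hj
      exact Ideal.pow_le_pow_right hj.1 (ha j g)
    choose S hS using hlim
    refine ⟨f 0 + ∑ g : G, S g • g.1, fun n => ?_⟩
    have e1 : f n = f 0 + ∑ g : G, (∑ j ∈ Finset.range n, a j g) • g.1 := by
      have := Finset.sum_range_sub f n
      simp_rw [hsum] at this
      rw [Finset.sum_comm] at this
      simp_rw [Finset.sum_smul]
      rw [this]
      abel
    rw [SModEq.sub_mem, e1]
    have e2 : f 0 + ∑ g : G, (∑ j ∈ Finset.range n, a j g) • g.1 - (f 0 + ∑ g : G, S g • g.1) =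
        ∑ g : G, ((∑ j ∈ Finset.range n, a j g) - S g) • g.1 := by
      simp_rw [sub_smul, Finset.sum_sub_distrib]
      abel
    rw [e2]
    apply Submodule.sum_mem
    intro g _
    apply Submodule.smul_mem_smul _ Submodule.mem_top
    have := hS g n
    rwa [SModEq.sub_mem, smul_eq_mul, Ideal.mul_top] at this

/-- a commutative ring finite over `ℤ_[p]` is `p`-adically complete -/
theorem isAdicComplete_of_finite_padic (p : ℕ) [Fact p.Prime] (R : Type*) [CommRing R]
    [Algebra ℤ_[p] R] [Module.Finite ℤ_[p] R] : IsAdicComplete (Ideal.span {(p : R)}) R := by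
  have hmax : (IsLocalRing.maximalIdeal ℤ_[p]).map (algebraMap ℤ_[p] R) = Ideal.span {(p : R)} := by
    rw [PadicInt.maximalIdeal_eq_span_p, Ideal.map_span, Set.image_singleton, map_natCast]
  rw [← hmax]
  have h1 : IsPrecomplete (IsLocalRing.maximalIdeal ℤ_[p]) R := isPrecomplete_of_finite _
  have h2 : IsHausdorff (IsLocalRing.maximalIdeal ℤ_[p]) R :=
    IsHausdorff.of_isLocalRing _ _ (IsLocalRing.maximalIdeal.isMaximal _).ne_top
  have h3 : IsAdicComplete (IsLocalRing.maximalIdeal ℤ_[p]) R := { toIsHausdorff := h2, toIsPrecomplete := h1 }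
  exact (IsAdicComplete.map_algebraMap_iff _ _).mpr h3

end finite

end Crest.Agent.R007.BAlg
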