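import Crest.Agent.R007.BAlg3

/-!
Row 7 (S0007), section B, algebra: finitely generated ideals of the inverse limit are closed.
-/

set_option autoImplicit false

namespace Crest.Agent.R007.BAlg

open CategoryTheory in
/-- König's lemma for sequences of finite nonempty types -/
theorem konig.{v} {X : ℕ → Type v} [∀ n, Finite (X n)] [∀ n, Nonempty (X n)]
    (f : ∀ n, X (n + 1) → X n) : ∃ u : ∀ n, X n, ∀ n, f n (u (n + 1)) = u n := by
  let F : ℕᵒᵖ ⥤ Type v := Functor.ofOpSequence (X := X) (fun n => TypeCat.ofHom (f n))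
  have : ∀ j : ℕᵒᵖ, Finite (F.obj j) := fun j => inferInstanceAs (Finite (X j.unop))
  have : ∀ j : ℕᵒᵖ, Nonempty (F.obj j) := fun j => inferInstanceAs (Nonempty (X j.unop))
  obtain ⟨u, hu⟩ := nonempty_sections_of_finite_inverse_system F
  refine ⟨fun n => u (Opposite.op n), fun n => ?_⟩
  have h := hu (homOfLE (Nat.le_succ n)).op
  have h2 := Functor.ofOpSequence_map_homOfLE_succ (X := X) (fun n => TypeCat.ofHom (f n)) n
  change (Functor.ofOpSequence (X := X) (fun n => TypeCat.ofHom (f n))).map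
    (homOfLE (Nat.le_add_right n 1)).op (u (Opposite.op (n+1))) = u (Opposite.op n) at h
  rw [h2] at h
  exact h

section Lim

variable {T : Type*} [CommRing T] {R : ℕ → Type*} [∀ k, CommRing (R k)]
variable {π : ∀ k, T →+* R k} {ρ : ∀ k, R (k + 1) →+* R k} {p : ℕ}

/-- convergent series in the limit ring, general form -/
theorem series' (hT : IsLim π ρ) [∀ k, IsAdicComplete (Ideal.span {(p : R k)}) (R k)] (c : ℕ → T)
    (hc : ∀ k m : ℕ, ∃ N, ∀ j, N ≤ j → π k (c j) ∈ (Ideal.span {(p : R k)}) ^ m) :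
    ∃ S : T, ∀ k m : ℕ, ∃ N : ℕ, ∀ n, N ≤ n →
      π k (S - ∑ j ∈ Finset.range n, c j) ∈ (Ideal.span {(p : R k)}) ^ m := by
  classical
  choose N0 hN0 using hc
  let N : ℕ → ℕ → ℕ := fun k m => ∑ i ∈ Finset.range (m + 1), N0 k i
  have hmono : ∀ k m m', m ≤ m' → N k m ≤ N k m' := by
    intro k m m' hmm
    exact Finset.sum_le_sum_of_subset (Finset.range_mono (by omega))
  have hN : ∀ k m j, N k m ≤ j → π k (c j) ∈ (Ideal.span {(p : R k)}) ^ m := by
    intro k m j hj
    apply hN0 k m j
    refine le_trans ?_ hj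
    exact Finset.single_le_sum (f := fun i => N0 k i) (fun i _ => Nat.zero_le _)
      (Finset.mem_range.mpr (Nat.lt_succ_self m))
  have hlim : ∀ k, ∃ L : R k, ∀ m : ℕ, ∀ n, N k m ≤ n →
      L - π k (∑ j ∈ Finset.range n, c j) ∈ (Ideal.span {(p : R k)}) ^ m := by
    intro k
    have htail : ∀ m n n', N k m ≤ n → n ≤ n' → π k (∑ j ∈ Finset.range n', c j) -
        π k (∑ j ∈ Finset.range n, c j) ∈ (Ideal.span {(p : R k)}) ^ m := by
      intro m n n' h1 h2
      rw [← map_sub, ← Finset.sum_Ico_eq_sub _ h2, map_sum]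
      apply Ideal.sum_mem
      intro j hj
      rw [Finset.mem_Ico] at hj
      exact hN k m j (h1.trans hj.1)
    obtain ⟨L, hL⟩ := IsPrecomplete.prec' (I := Ideal.span {(p : R k)}) (M := R k)
      (fun m => π k (∑ j ∈ Finset.range (N k m), c j)) (by
        intro m m' hmm
        rw [SModEq.sub_mem, smul_eq_mul, Ideal.mul_top, ← neg_sub]
        apply neg_mem
        exact htail m _ _ le_rfl (hmono k m m' hmm))
    refine ⟨L, fun m n hn => ?_⟩
    have h1 := hL m
    rw [SModEq.sub_mem, smul_eq_mul, Ideal.mul_top] at h1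
    have h2 := htail m (N k m) n le_rfl hn
    have h3 : L - π k (∑ j ∈ Finset.range n, c j) =
        - (π k (∑ j ∈ Finset.range (N k m), c j) - L) - (π k (∑ j ∈ Finset.range n, c j) -
        π k (∑ j ∈ Finset.range (N k m), c j)) := by ring
    rw [h3]
    exact Ideal.sub_mem _ (neg_mem h1) h2
  choose L hL using hlim
  obtain ⟨S, hS⟩ := hT.lift L (by
    intro k
    rw [← sub_eq_zero]
    apply eq_zero_of_forall_pow (Ideal.span {(p : R k)})
    intro m
    let n := max (N k m) (N (k + 1) m)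
    have h1 := hL k m n (le_max_left _ _)
    have h2 := map_span_pow (ρ k) p m _ (hL (k + 1) m n (le_max_right _ _))
    rw [map_sub, hT.comp] at h2
    have h3 : ρ k (L (k + 1)) - L k = (ρ k (L (k + 1)) - π k (∑ j ∈ Finset.range n, c j)) -
      (L k - π k (∑ j ∈ Finset.range n, c j)) := by ring
    rw [h3]
    exact Ideal.sub_mem _ h2 h1)
  refine ⟨S, fun k m => ⟨N k m, fun n hn => ?_⟩⟩
  rw [map_sub, hS]
  exact hL k m n hn

/-- small at stage `j` implies small at stage `k ≤ j` -/
theorem small_of_le (hT : IsLim π ρ) {k j : ℕ} (hkj : k ≤ j) (m : ℕ) (z : T)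
    (hz : π j z ∈ (Ideal.span {(p : R j)}) ^ m) : π k z ∈ (Ideal.span {(p : R k)}) ^ m := by
  induction j, hkj using Nat.le_induction with
  | base => exact hz
  | succ j hkj ih =>
    apply ih
    have := map_span_pow (ρ j) p m _ hz
    rwa [hT.comp] at this

/-- **Finitely generated ideals are closed**: if the image of `x` in every stage lies in the ideal
generated by the image of `J`, then `x ∈ J`. -/
theorem mem_of_forall_mem_map (hT : IsLim π ρ)
    [∀ k, IsAdicComplete (Ideal.span {(p : R k)}) (R k)] (hπ : ∀ k, Function.Surjective (π k))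
    (hfin : ∀ k m, Finite (R k ⧸ (Ideal.span {(p : R k)}) ^ m)) (J : Ideal T) (hJ : J.FG) (x : T)
    (hx : ∀ k, π k x ∈ J.map (π k)) : x ∈ J := by
  classical
  obtain ⟨G, hG⟩ := hJ
  let P : ∀ k, Ideal (R k) := fun k => (Ideal.span {(p : R k)}) ^ k
  have hfin' : ∀ k, Finite (R k ⧸ P k) := fun k => hfin k k
  let X : ℕ → Type _ := fun k => {a : G → R k ⧸ P k //
    ∑ g : G, a g * Ideal.Quotient.mk (P k) (π k g.1) = Ideal.Quotient.mk (P k) (π k x)}
  have hXfin : ∀ k, Finite (X k) := fun k => Subtype.finite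
  have hXne : ∀ k, Nonempty (X k) := by
    intro k
    have h1 := hx k
    rw [← hG, Ideal.map_span] at h1
    have h2 : (⇑(π k) '' (G : Set T)) = Set.range (fun g : G => π k g.1) := by
      ext z; simp
    rw [h2, Ideal.mem_span_range_iff_exists_fun] at h1
    obtain ⟨c, hc⟩ := h1
    exact ⟨⟨fun g => Ideal.Quotient.mk (P k) (c g), by rw [← hc, map_sum]; simp_rw [map_mul]⟩⟩
  have hle : ∀ k, P (k + 1) ≤ (P k).comap (ρ k) := by
    intro k z hz
    rw [Ideal.mem_comap]
    exact Ideal.pow_le_pow_right (Nat.le_succ k) (map_span_pow (ρ k) p (k + 1) z hz)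
  let q : ∀ k, (R (k + 1) ⧸ P (k + 1)) →+* (R k ⧸ P k) := fun k =>
    Ideal.quotientMap (P k) (ρ k) (hle k)
  have hq : ∀ k (z : R (k + 1)), q k (Ideal.Quotient.mk _ z) = Ideal.Quotient.mk _ (ρ k z) :=
    fun k z => Ideal.quotientMap_mk
  obtain ⟨u, hu⟩ := konig (X := X) (fun k a => ⟨fun g => q k (a.1 g), by
    have h1 := congrArg (q k) a.2
    rw [map_sum] at h1
    simp_rw [map_mul, hq, hT.comp] at h1
    exact h1⟩)
  have hu' : ∀ k g, q k ((u (k + 1)).1 g) = (u k).1 g := by
    intro k g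
    have := congrArg Subtype.val (hu k)
    exact congrFun this g
  -- lifts to T
  have hlift : ∀ k g, ∃ t : T, Ideal.Quotient.mk (P k) (π k t) = (u k).1 g := by
    intro k g
    obtain ⟨z, hz⟩ := Ideal.Quotient.mk_surjective ((u k).1 g)
    obtain ⟨t, ht⟩ := hπ k z
    exact ⟨t, by rw [ht, hz]⟩
  choose t ht using hlift
  have hdiff : ∀ j g, π j (t (j + 1) g - t j g) ∈ P j := by
    intro j g
    rw [← Ideal.Quotient.eq_zero_iff_mem, map_sub, map_sub, ht j g, ← hT.comp, ← hq, ht, hu',
      sub_self]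
  have hser : ∀ g, ∃ S : T, ∀ k m : ℕ, ∃ N : ℕ, ∀ n, N ≤ n →
      π k (S - ∑ j ∈ Finset.range n, (t (j + 1) g - t j g)) ∈ (Ideal.span {(p : R k)}) ^ m := by
    intro g
    apply series' hT
    intro k m
    refine ⟨max k m, fun j hj => ?_⟩
    have h1 := small_of_le (p := p) hT ((le_max_left k m).trans hj) j _ (hdiff j g)
    exact Ideal.pow_le_pow_right ((le_max_right k m).trans hj) h1
  choose S hS using hser
  have hkey : x = ∑ g : G, (S g + t 0 g) * g.1 := by
    rw [← sub_eq_zero]
    apply hT.inj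
    intro k
    apply eq_zero_of_forall_pow (Ideal.span {(p : R k)})
    intro m
    have : ∃ N1 : ℕ, ∀ g : G, ∀ n, N1 ≤ n →
        π k (S g - ∑ j ∈ Finset.range n, (t (j + 1) g - t j g)) ∈
          (Ideal.span {(p : R k)}) ^ m := by
      choose N1 hN1 using fun g => hS g k m
      exact ⟨Finset.univ.sup N1, fun g n hn => hN1 g n ((Finset.le_sup (Finset.mem_univ g)).trans hn)⟩
    obtain ⟨N1, hN1⟩ := this
    let n := max N1 (max k m)
    have e0 : ∀ g : G, ∑ j ∈ Finset.range n, (t (j + 1) g - t j g) = t n g - t 0 g :=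
      fun g => Finset.sum_range_sub (fun j => t j g) n
    have e1 : x - ∑ g : G, (S g + t 0 g) * g.1 = - (∑ g : G, t n g * g.1 - x) -
        ∑ g : G, (S g - ∑ j ∈ Finset.range n, (t (j + 1) g - t j g)) * g.1 := by
      simp_rw [e0, sub_mul, add_mul, Finset.sum_sub_distrib, Finset.sum_add_distrib]
      ring
    rw [e1, map_sub]
    apply Ideal.sub_mem
    · rw [map_neg]
      apply neg_mem
      have h1 : π n (∑ g : G, t n g * g.1 - x) ∈ (Ideal.span {(p : R n)}) ^ n := by
        have h2 := (u n).2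
        have h3 : Ideal.Quotient.mk (P n) (π n (∑ g : G, t n g * g.1 - x)) = 0 := by
          rw [map_sub, map_sub, map_sum, map_sum]
          simp_rw [map_mul, ht]
          rw [h2, sub_self]
        exact Ideal.Quotient.eq_zero_iff_mem.mp h3
      have h2 := small_of_le (p := p) hT ((le_max_left k m).trans (le_max_right N1 _)) n _ h1
      exact Ideal.pow_le_pow_right ((le_max_right k m).trans (le_max_right N1 _)) h2
    · rw [map_sum]
      apply Ideal.sum_mem
      intro g _
      rw [map_mul]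
      apply Ideal.mul_mem_right
      exact hN1 g n (le_max_left _ _)
  rw [hkey]
  apply Ideal.sum_mem
  intro g _
  apply Ideal.mul_mem_left
  rw [← hG]
  exact Submodule.subset_span g.2

end Lim

/-- for a commutative ring finite over `ℤ_[p]` the quotients by powers of `p` are finite -/
theorem finite_quot_of_finite_padic (p : ℕ) [Fact p.Prime] (R : Type*) [CommRing R]
    [Algebra ℤ_[p] R] [Module.Finite ℤ_[p] R] (m : ℕ) :
    Finite (R ⧸ (Ideal.span {(p : R)}) ^ m) := by
  classical
  -- `ℤ_[p] / p^m` is finite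
  have hZ : Finite (ℤ_[p] ⧸ (Ideal.span {(p : ℤ_[p]) ^ m})) := by
    have hs : Function.Injective (Ideal.Quotient.lift (Ideal.span {(p : ℤ_[p]) ^ m})
        (PadicInt.toZModPow (p := p) m) (by
          intro a ha
          have := PadicInt.ker_toZModPow (p := p) m
          rw [← RingHom.mem_ker, this]; exact ha)) := by
      rw [RingHom.injective_iff_ker_eq_bot, Ideal.ker_quotient_lift, PadicInt.ker_toZModPow,
        Ideal.map_quotient_self]
    have : NeZero (p ^ m) := ⟨pow_ne_zero _ (Fact.out : p.Prime).ne_zero⟩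
    exact Finite.of_injective _ hs
  have hm : (Ideal.span {(p : R)}) ^ m = Ideal.span {(p : R) ^ m} := Ideal.span_singleton_pow _ _
  rw [hm]
  -- the quotient is a finite module over the finite ring
  obtain ⟨G, hG⟩ := (Module.Finite.fg_top : (⊤ : Submodule ℤ_[p] R).FG)
  let φ : (G → ℤ_[p] ⧸ (Ideal.span {(p : ℤ_[p]) ^ m})) → R ⧸ Ideal.span {(p : R) ^ m} := fun a =>
    ∑ g : G, (Ideal.quotientMap (Ideal.span {(p : R) ^ m}) (algebraMap ℤ_[p] R) (by
      rw [Ideal.span_singleton_le_iff_mem, Ideal.mem_comap, map_pow, map_natCast]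
      exact Ideal.mem_span_singleton_self _)) (a g) * Ideal.Quotient.mk _ g.1
  have hsurj : Function.Surjective φ := by
    intro z
    obtain ⟨r, rfl⟩ := Ideal.Quotient.mk_surjective z
    have hr : r ∈ (⊤ : Submodule ℤ_[p] R) := trivial
    rw [← hG] at hr
    have h2 : Submodule.span ℤ_[p] (G : Set R) =
        Submodule.span ℤ_[p] (Set.range (fun g : G => g.1)) := by
      congr 1; ext z; simp
    rw [h2, Submodule.mem_span_range_iff_exists_fun] at hr
    obtain ⟨c, hc⟩ := hr
    refine ⟨fun g => Ideal.Quotient.mk _ (c g), ?_⟩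
    simp only [φ, Ideal.quotientMap_mk]
    rw [← hc, map_sum]
    apply Finset.sum_congr rfl
    intro g _
    rw [Algebra.smul_def, map_mul]
  exact Finite.of_surjective φ hsurj

end Crest.Agent.R007.BAlg
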