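import Crest.Prelude.Def_HeckeTwo
import Mathlib

/-! Row 7, base layer 1: diamond operators on `MF N i` exist. -/

set_option autoImplicit false
open scoped ModularForm MatrixGroups Manifold
open Crest.NumberTheoryR.HeckeTwoAdic UpperHalfPlane CongruenceSubgroup Matrix
open ModularForm

namespace Crest.Agent.R007.Base

/-- slash by a rational matrix keeps boundedness at all cusps -/
lemma bdd_slash {N : ℕ} [NeZero N] {i : ℕ} (f : MF N i) (g : GL (Fin 2) ℚ) {c : OnePoint ℝ}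
    (hc : IsCusp c ((Gamma1 N : Subgroup SL(2, ℤ)) : Subgroup (GL (Fin 2) ℝ))) :
    c.IsBoundedAt ((⇑f) ∣[(i:ℤ)] (g.map (Rat.castHom ℝ))) i := by
  rw [← OnePoint.IsBoundedAt.smul_iff]
  apply ModularFormClass.bdd_at_cusps f
  rw [Subgroup.IsArithmetic.isCusp_iff_isCusp_SL2Z, isCusp_SL2Z_iff] at hc ⊢
  obtain ⟨x, rfl⟩ := hc
  refine ⟨g • x, ?_⟩
  rw [← Rat.coe_castHom, OnePoint.map_smul]

lemma inv1 {N : ℕ} {i : ℕ} (f : MF N i) {δ : SL(2, ℤ)} (hδ : δ ∈ Gamma1 N) :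
    (⇑f) ∣[(i:ℤ)] δ = ⇑f := by
  rw [SL_slash]
  exact SlashInvariantFormClass.slash_action_eq f _ (Subgroup.mem_map_of_mem _ hδ)

lemma mem1_iff {N : ℕ} (g : Gamma0 N) : (g : SL(2, ℤ)) ∈ Gamma1 N ↔ Gamma0Map N g = 1 := by
  rw [← Gamma1_mem', Gamma1_to_Gamma0_mem, Gamma1_mem]

lemma map_mul_inv_eq_one {N : ℕ} (g h : Gamma0 N) (e : Gamma0Map N g = Gamma0Map N h) :
    Gamma0Map N (g * h⁻¹) = 1 := by
  rw [map_mul, e, ← map_mul, mul_inv_cancel, map_one]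

/-- two elements of `Γ₀(N)` with the same lower right entry mod `N` slash alike -/
lemma slash_eq_of {N : ℕ} {i : ℕ} (f : MF N i) {γ γ' : SL(2, ℤ)} (hγ : γ ∈ Gamma0 N)
    (hγ' : γ' ∈ Gamma0 N) (e : ((γ 1 1 : ℤ) : ZMod N) = ((γ' 1 1 : ℤ) : ZMod N)) :
    (⇑f) ∣[(i:ℤ)] γ = (⇑f) ∣[(i:ℤ)] γ' := by
  have h : γ * γ'⁻¹ ∈ Gamma1 N := by
    have := (mem1_iff ((⟨γ, hγ⟩ : Gamma0 N) * (⟨γ', hγ'⟩ : Gamma0 N)⁻¹)).2
      (map_mul_inv_eq_one _ _ e)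
    simpa using this
  calc (⇑f) ∣[(i:ℤ)] γ = (⇑f) ∣[(i:ℤ)] ((γ * γ'⁻¹) * γ') := by rw [inv_mul_cancel_right]
    _ = _ := by rw [SlashAction.slash_mul, inv1 f h]

lemma slash_inv1 {N : ℕ} {i : ℕ} (f : MF N i) {γ δ : SL(2, ℤ)} (hγ : γ ∈ Gamma0 N)
    (hδ : δ ∈ Gamma1 N) : ((⇑f) ∣[(i:ℤ)] γ) ∣[(i:ℤ)] δ = (⇑f) ∣[(i:ℤ)] γ := by
  rw [← SlashAction.slash_mul]
  have hδ0 : δ ∈ Gamma0 N := Gamma1_in_Gamma0 N hδ
  refine slash_eq_of f (Subgroup.mul_mem _ hγ hδ0) hγ ?_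
  have h1 : Gamma0Map N ((⟨γ, hγ⟩ : Gamma0 N) * ⟨δ, hδ0⟩) = Gamma0Map N ⟨γ, hγ⟩ := by
    rw [map_mul, (mem1_iff (⟨δ, hδ0⟩ : Gamma0 N)).1 hδ, mul_one]
  exact h1

/-- constructor of modular forms of level `Γ₁(N)` -/
noncomputable def mkMF (N i : ℕ) [NeZero N] (F : ℍ → ℂ) (hinv : ∀ δ ∈ Gamma1 N, F ∣[(i:ℤ)] δ = F)
    (hol : MDiff F)
    (hb : ∀ c : OnePoint ℝ, IsCusp c ((Gamma1 N : Subgroup SL(2, ℤ)) : Subgroup (GL (Fin 2) ℝ)) →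
      c.IsBoundedAt F i) : MF N i where
  toFun := F
  slash_action_eq' := by
    rintro γ hγ
    obtain ⟨δ, hδ, rfl⟩ := Subgroup.mem_map.1 hγ
    have := hinv δ hδ
    rwa [SL_slash] at this
  holo' := hol
  bdd_at_cusps' := fun {c} hc => hb c hc

@[simp] lemma coe_mkMF {N i : ℕ} [NeZero N] {F : ℍ → ℂ} {h1 h2 h3} :
    ⇑(mkMF N i F h1 h2 h3) = F := rfl

/-- `SL(2,ℤ)` as rational matrices -/
lemma SL_eq_map (γ : SL(2, ℤ)) :
    (γ : GL (Fin 2) ℝ) = ((γ : GL (Fin 2) ℚ)).map (Rat.castHom ℝ) := by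
  ext i j
  simp

lemma mdiff_slash {N i : ℕ} (f : MF N i) (g : GL (Fin 2) ℝ) : MDiff ((⇑f) ∣[(i:ℤ)] g) :=
  (ModularFormClass.holo f).slash _ g

open Classical in
/-- the diamond operator -/
noncomputable def dia (N : ℕ) [NeZero N] (d i : ℕ) : MF N i →ₗ[ℂ] MF N i :=
  if h : ∃ γ : SL(2, ℤ), γ ∈ Gamma0 N ∧ ((γ 1 1 : ℤ) : ZMod N) = d then
    { toFun := fun f => mkMF N i ((⇑f) ∣[(i:ℤ)] h.choose)
        (fun δ hδ => slash_inv1 f h.choose_spec.1 hδ)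
        (by rw [SL_slash]; exact mdiff_slash f _)
        (fun c hc => by rw [SL_slash, SL_eq_map]; exact bdd_slash f _ hc)
      map_add' := fun f g => by
        apply DFunLike.coe_injective
        have h1 : ⇑(f + g) = ⇑f + ⇑g := rfl
        simp only [coe_mkMF, h1, SlashAction.add_slash]
        rfl
      map_smul' := fun a f => by
        apply DFunLike.coe_injective
        have h1 : ⇑(a • f) = a • ⇑f := rfl
        simp only [coe_mkMF, h1, ModularForm.SL_smul_slash]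
        rfl }
  else 0

end Crest.Agent.R007.Base
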