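import Crest.Agent.R007.Base1

/-! Row 7, base layer 2: relations of the diamond operators, coset permutation. -/

set_option autoImplicit false
open scoped ModularForm MatrixGroups Manifold
open Crest.NumberTheoryR.HeckeTwoAdic UpperHalfPlane CongruenceSubgroup Matrix
open ModularForm

namespace Crest.Agent.R007.Base

/-- `SL(2,ℤ)` element from four integers -/
def mkSL (a b c d : ℤ) (h : a * d - b * c = 1) : SL(2, ℤ) :=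
  ⟨!![a, b; c, d], by rw [Matrix.det_fin_two_of]; exact h⟩

@[simp] lemma mkSL_00 {a b c d : ℤ} {h : a * d - b * c = 1} : (mkSL a b c d h) 0 0 = a := rfl
@[simp] lemma mkSL_01 {a b c d : ℤ} {h : a * d - b * c = 1} : (mkSL a b c d h) 0 1 = b := rfl
@[simp] lemma mkSL_10 {a b c d : ℤ} {h : a * d - b * c = 1} : (mkSL a b c d h) 1 0 = c := rfl
@[simp] lemma mkSL_11 {a b c d : ℤ} {h : a * d - b * c = 1} : (mkSL a b c d h) 1 1 = d := rfl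

theorem isDiamondFamily (N : ℕ) [NeZero N] : IsDiamondFamily N (dia N) := by
  intro d i γ hγ hd f
  have h : ∃ γ : SL(2, ℤ), γ ∈ Gamma0 N ∧ ((γ 1 1 : ℤ) : ZMod N) = d := ⟨γ, hγ, hd⟩
  have e : ⇑(dia N d i f) = (⇑f) ∣[(i:ℤ)] h.choose := by
    unfold dia
    rw [dif_pos h]
    rfl
  rw [e]
  exact slash_eq_of f h.choose_spec.1 hγ (h.choose_spec.2.trans hd.symm)

/-- a matrix in `Γ₀(N)` with lower right entry `d` mod `N` -/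
lemma exists_gamma (N : ℕ) [NeZero N] (d : ℕ) (hd : d.Coprime N) :
    ∃ γ : SL(2, ℤ), γ ∈ Gamma0 N ∧ ((γ 1 1 : ℤ) : ZMod N) = d := by
  have hc : IsCoprime (d : ℤ) (N : ℤ) := Nat.isCoprime_iff_coprime.2 hd
  obtain ⟨u, v, huv⟩ := hc
  refine ⟨mkSL u (-v) N d (by linarith), ?_, ?_⟩
  · rw [Gamma0_mem, mkSL_10]; simp
  · rw [mkSL_11]; simp

lemma coprime_of_prime {N ℓ : ℕ} (hℓ : ℓ.Prime) (h : ¬ ℓ ∣ 2 * N) : ℓ.Coprime N :=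
  (Nat.Prime.coprime_iff_not_dvd hℓ).2 (fun h' => h (Dvd.dvd.mul_left h' 2))

section fam
variable {N : ℕ} [NeZero N] {D T : ℕ → (i : ℕ) → (MF N i →ₗ[ℂ] MF N i)}

/-- slash by an element of `Γ₀(N)` only depends on the diamond operator -/
lemma D_mul (hD : IsDiamondFamily N D) {d e m : ℕ} (hd : d.Coprime N) (he : e.Coprime N)
    (hm : ((m : ℕ) : ZMod N) = d * e) (i : ℕ) (f : MF N i) :
    D e i (D d i f) = D m i f := by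
  obtain ⟨γ, hγ, h1⟩ := exists_gamma N d hd
  obtain ⟨δ, hδ, h2⟩ := exists_gamma N e he
  apply DFunLike.coe_injective
  rw [hD e i δ hδ h2, hD d i γ hγ h1, ← SlashAction.slash_mul]
  symm
  apply hD m i _ (Subgroup.mul_mem _ hγ hδ)
  have := map_mul (Gamma0Map N) (⟨γ, hγ⟩ : Gamma0 N) ⟨δ, hδ⟩
  have h3 : (((γ * δ) 1 1 : ℤ) : ZMod N) = ((γ 1 1 : ℤ) : ZMod N) * ((δ 1 1 : ℤ) : ZMod N) := this
  rw [h3, h1, h2, hm]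

lemma D_comm (hD : IsDiamondFamily N D) {d e : ℕ} (hd : d.Coprime N) (he : e.Coprime N)
    (i : ℕ) (f : MF N i) : D e i (D d i f) = D d i (D e i f) := by
  rw [D_mul hD hd he (m := d * e) (by push_cast; rfl),
    D_mul hD he hd (m := d * e) (by push_cast; ring)]

end fam

/-! ### coset matrices -/

lemma upperMat_mul_SL {ℓ j : ℕ} (hℓ : ℓ ≠ 0) (γ δ : SL(2, ℤ)) (j' : ℕ)
    (h1 : (γ 0 0 : ℤ) + j * γ 1 0 = δ 0 0) (h2 : (γ 0 1 : ℤ) + j * γ 1 1 = j' * δ 0 0 + ℓ * δ 0 1)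
    (h3 : (ℓ : ℤ) * γ 1 0 = δ 1 0) (h4 : (ℓ : ℤ) * γ 1 1 = j' * δ 1 0 + ℓ * δ 1 1) :
    upperMat ℓ j hℓ * (γ : GL (Fin 2) ℝ) = (δ : GL (Fin 2) ℝ) * upperMat ℓ j' hℓ := by
  have h1' : ((γ 0 0 : ℤ) : ℝ) + j * (γ 1 0 : ℤ) = (δ 0 0 : ℤ) := by exact_mod_cast h1
  have h2' : ((γ 0 1 : ℤ) : ℝ) + j * (γ 1 1 : ℤ) = j' * (δ 0 0 : ℤ) + ℓ * (δ 0 1 : ℤ) := by
    exact_mod_cast h2
  have h3' : (ℓ : ℝ) * (γ 1 0 : ℤ) = (δ 1 0 : ℤ) := by exact_mod_cast h3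
  have h4' : (ℓ : ℝ) * (γ 1 1 : ℤ) = j' * (δ 1 0 : ℤ) + ℓ * (δ 1 1 : ℤ) := by exact_mod_cast h4
  apply Units.ext
  apply Matrix.ext
  intro a b
  fin_cases a <;> fin_cases b <;>
    simp [upperMat, mat2, Matrix.mul_apply, Fin.sum_univ_two] <;> linarith

lemma upperMat_mul_SL' {ℓ j : ℕ} (hℓ : ℓ ≠ 0) (γ δ : SL(2, ℤ))
    (h1 : (γ 0 0 : ℤ) + j * γ 1 0 = ℓ * δ 0 0) (h2 : (γ 0 1 : ℤ) + j * γ 1 1 = δ 0 1)
    (h3 : (γ 1 0 : ℤ) = δ 1 0) (h4 : (ℓ : ℤ) * γ 1 1 = δ 1 1) :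
    upperMat ℓ j hℓ * (γ : GL (Fin 2) ℝ) = (δ : GL (Fin 2) ℝ) * lowerMat ℓ hℓ := by
  have h1' : ((γ 0 0 : ℤ) : ℝ) + j * (γ 1 0 : ℤ) = ℓ * (δ 0 0 : ℤ) := by exact_mod_cast h1
  have h2' : ((γ 0 1 : ℤ) : ℝ) + j * (γ 1 1 : ℤ) = (δ 0 1 : ℤ) := by exact_mod_cast h2
  have h3' : ((γ 1 0 : ℤ) : ℝ) = (δ 1 0 : ℤ) := by exact_mod_cast h3
  have h4' : (ℓ : ℝ) * (γ 1 1 : ℤ) = (δ 1 1 : ℤ) := by exact_mod_cast h4
  apply Units.ext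
  apply Matrix.ext
  intro a b
  fin_cases a <;> fin_cases b <;>
    simp [upperMat, lowerMat, mat2, Matrix.mul_apply, Fin.sum_univ_two] <;>
    first | linarith | (rw [h3']; ring)

lemma lowerMat_mul_SL {ℓ : ℕ} (hℓ : ℓ ≠ 0) (γ δ : SL(2, ℤ)) (j' : ℕ)
    (h1 : (ℓ : ℤ) * γ 0 0 = δ 0 0) (h2 : (ℓ : ℤ) * γ 0 1 = j' * δ 0 0 + ℓ * δ 0 1)
    (h3 : (γ 1 0 : ℤ) = δ 1 0) (h4 : (γ 1 1 : ℤ) = j' * δ 1 0 + ℓ * δ 1 1) :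
    lowerMat ℓ hℓ * (γ : GL (Fin 2) ℝ) = (δ : GL (Fin 2) ℝ) * upperMat ℓ j' hℓ := by
  have h1' : (ℓ : ℝ) * (γ 0 0 : ℤ) = (δ 0 0 : ℤ) := by exact_mod_cast h1
  have h2' : (ℓ : ℝ) * (γ 0 1 : ℤ) = j' * (δ 0 0 : ℤ) + ℓ * (δ 0 1 : ℤ) := by exact_mod_cast h2
  have h3' : ((γ 1 0 : ℤ) : ℝ) = (δ 1 0 : ℤ) := by exact_mod_cast h3
  have h4' : ((γ 1 1 : ℤ) : ℝ) = j' * (δ 1 0 : ℤ) + ℓ * (δ 1 1 : ℤ) := by exact_mod_cast h4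
  apply Units.ext
  apply Matrix.ext
  intro a b
  fin_cases a <;> fin_cases b <;>
    simp [upperMat, lowerMat, mat2, Matrix.mul_apply, Fin.sum_univ_two] <;> linarith

lemma lowerMat_mul_SL' {ℓ : ℕ} (hℓ : ℓ ≠ 0) (γ δ : SL(2, ℤ))
    (h1 : (γ 0 0 : ℤ) = δ 0 0) (h2 : (ℓ : ℤ) * γ 0 1 = δ 0 1)
    (h3 : (γ 1 0 : ℤ) = ℓ * δ 1 0) (h4 : (γ 1 1 : ℤ) = δ 1 1) :
    lowerMat ℓ hℓ * (γ : GL (Fin 2) ℝ) = (δ : GL (Fin 2) ℝ) * lowerMat ℓ hℓ := by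
  have h1' : ((γ 0 0 : ℤ) : ℝ) = (δ 0 0 : ℤ) := by exact_mod_cast h1
  have h2' : (ℓ : ℝ) * (γ 0 1 : ℤ) = (δ 0 1 : ℤ) := by exact_mod_cast h2
  have h3' : ((γ 1 0 : ℤ) : ℝ) = ℓ * (δ 1 0 : ℤ) := by exact_mod_cast h3
  have h4' : ((γ 1 1 : ℤ) : ℝ) = (δ 1 1 : ℤ) := by exact_mod_cast h4
  apply Units.ext
  apply Matrix.ext
  intro a b
  fin_cases a <;> fin_cases b <;>
    simp [lowerMat, mat2, Matrix.mul_apply, Fin.sum_univ_two] <;>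
    first | linarith | (rw [h1']; ring)

end Crest.Agent.R007.Base
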