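import Crest.Agent.R007.Base2

/-! Row 7, base layer 3: Hecke operators exist and commute with diamonds. -/

set_option autoImplicit false
open scoped ModularForm MatrixGroups Manifold OnePoint
open Crest.NumberTheoryR.HeckeTwoAdic UpperHalfPlane CongruenceSubgroup Matrix
open ModularForm

namespace Crest.Agent.R007.Base

section
variable {N : ℕ} [NeZero N] {D T : ℕ → (i : ℕ) → (MF N i →ₗ[ℂ] MF N i)}
variable {ℓ : ℕ} [hp : Fact ℓ.Prime]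

/-- one summand of `T_ℓ` -/
noncomputable def piece (D : ℕ → (i : ℕ) → (MF N i →ₗ[ℂ] MF N i)) (ℓ : ℕ) [hp : Fact ℓ.Prime]
    {i : ℕ} (f : MF N i) (x : OnePoint (ZMod ℓ)) : ℍ → ℂ :=
  x.elim ((⇑(D ℓ i f)) ∣[(i:ℤ)] lowerMat ℓ hp.out.ne_zero)
    (fun j : ZMod ℓ => (⇑f) ∣[(i:ℤ)] upperMat ℓ j.val hp.out.ne_zero)

/-- the Möbius matrix through which `γ` permutes the cosets -/
noncomputable def mob (ℓ : ℕ) [hp : Fact ℓ.Prime] (γ : SL(2, ℤ)) : GL (Fin 2) (ZMod ℓ) :=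
  Matrix.GeneralLinearGroup.mkOfDetNeZero
    !![((γ 1 1 : ℤ) : ZMod ℓ), ((γ 0 1 : ℤ) : ZMod ℓ); ((γ 1 0 : ℤ) : ZMod ℓ), ((γ 0 0 : ℤ) : ZMod ℓ)]
    (by
      have h := γ.det_coe
      rw [Matrix.det_fin_two] at h
      have h2 : ((γ 1 1 : ℤ) : ZMod ℓ) * ((γ 0 0 : ℤ) : ZMod ℓ) -
        ((γ 0 1 : ℤ) : ZMod ℓ) * ((γ 1 0 : ℤ) : ZMod ℓ) = 1 := by
        have := congrArg (fun z : ℤ => (z : ZMod ℓ)) h
        push_cast at this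
        rw [← this]; ring
      rw [Matrix.det_fin_two_of, h2]
      exact one_ne_zero)

@[simp] lemma mob_00 (γ : SL(2, ℤ)) : (mob ℓ γ) 0 0 = ((γ 1 1 : ℤ) : ZMod ℓ) := rfl
@[simp] lemma mob_01 (γ : SL(2, ℤ)) : (mob ℓ γ) 0 1 = ((γ 0 1 : ℤ) : ZMod ℓ) := rfl
@[simp] lemma mob_10 (γ : SL(2, ℤ)) : (mob ℓ γ) 1 0 = ((γ 1 0 : ℤ) : ZMod ℓ) := rfl
@[simp] lemma mob_11 (γ : SL(2, ℤ)) : (mob ℓ γ) 1 1 = ((γ 0 0 : ℤ) : ZMod ℓ) := rfl

lemma detSL (γ : SL(2, ℤ)) : (γ 0 0 : ℤ) * γ 1 1 - γ 0 1 * γ 1 0 = 1 := by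
  have h := γ.det_coe
  rwa [Matrix.det_fin_two] at h

lemma cast_val_int (j : ZMod ℓ) : (((j.val : ℕ) : ℤ) : ZMod ℓ) = j := by
  simp

omit [NeZero N] in
lemma N_dvd_of_mem {γ : SL(2, ℤ)} (h : γ ∈ Gamma0 N) : (N : ℤ) ∣ γ 1 0 := by
  rw [Gamma0_mem] at h
  exact (ZMod.intCast_zmod_eq_zero_iff_dvd _ _).1 h

omit [NeZero N] in
lemma mem_of_N_dvd {γ : SL(2, ℤ)} (h : (N : ℤ) ∣ γ 1 0) : γ ∈ Gamma0 N := by
  rw [Gamma0_mem]
  exact (ZMod.intCast_zmod_eq_zero_iff_dvd _ _).2 h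

/-- coprimality of `d` and `N` from `γ ∈ Γ₀(N)` -/
lemma coprime_of_lr {γ : SL(2, ℤ)} (h : γ ∈ Gamma0 N) {d : ℕ}
    (hd : ((γ 1 1 : ℤ) : ZMod N) = d) : d.Coprime N := by
  obtain ⟨c, hc⟩ := N_dvd_of_mem h
  rw [← ZMod.isUnit_iff_coprime, ← hd]
  have h1 : (((γ 0 0 : ℤ) * γ 1 1 - γ 0 1 * γ 1 0 : ℤ) : ZMod N) = 1 := by
    rw [detSL]; simp
  rw [hc] at h1
  push_cast at h1
  rw [ZMod.natCast_self, zero_mul, mul_zero, sub_zero] at h1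
  exact IsUnit.of_mul_eq_one_right _ h1

lemma piece_slash (hD : IsDiamondFamily N D) (hℓN : ¬ ℓ ∣ 2 * N) {i : ℕ} (f : MF N i)
    {γ : SL(2, ℤ)} (hγ : γ ∈ Gamma0 N) {d : ℕ} (hd : ((γ 1 1 : ℤ) : ZMod N) = d)
    (x : OnePoint (ZMod ℓ)) :
    (piece D ℓ f x) ∣[(i:ℤ)] γ = piece D ℓ (D d i f) (mob ℓ γ • x) := by
  have hℓ := hp.out
  have hℓ0 : ℓ ≠ 0 := hℓ.ne_zero
  have hcop : ℓ.Coprime N := coprime_of_prime hℓ hℓN
  have hdcop : d.Coprime N := coprime_of_lr hγ hd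
  have hdet := detSL γ
  obtain ⟨c', hc'⟩ := N_dvd_of_mem hγ
  cases x with
  | infty =>
    rw [OnePoint.smul_infty_eq_ite]
    by_cases hc : (mob ℓ γ) 1 0 = 0
    · rw [if_pos hc]
      rw [mob_10] at hc
      obtain ⟨c1, hc1⟩ := (ZMod.intCast_zmod_eq_zero_iff_dvd _ _).1 hc
      have hNc1 : (N : ℤ) ∣ c1 := by
        have : (N : ℤ) ∣ (ℓ : ℤ) * c1 := by rw [← hc1]; exact N_dvd_of_mem hγ
        exact IsCoprime.dvd_of_dvd_mul_left (Nat.isCoprime_iff_coprime.2 hcop.symm) this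
      set δ : SL(2, ℤ) := mkSL (γ 0 0) (ℓ * γ 0 1) c1 (γ 1 1) (by
        rw [hc1] at hdet; linarith) with hδ
      have hδ0 : δ ∈ Gamma0 N := mem_of_N_dvd hNc1
      have hδd : ((δ 1 1 : ℤ) : ZMod N) = d := hd
      change ((⇑(D ℓ i f)) ∣[(i:ℤ)] lowerMat ℓ hℓ0) ∣[(i:ℤ)] γ =
        (⇑(D ℓ i (D d i f))) ∣[(i:ℤ)] lowerMat ℓ hℓ0
      rw [SL_slash, ← SlashAction.slash_mul,
        lowerMat_mul_SL' hℓ0 γ δ rfl rfl (by rw [hc1]; rfl) rfl, SlashAction.slash_mul,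
        ← SL_slash, ← hD d i δ hδ0 hδd, D_comm hD hcop hdcop]
    · rw [if_neg hc]
      rw [mob_10] at hc
      set y : ZMod ℓ := (mob ℓ γ) 0 0 / (mob ℓ γ) 1 0 with hy
      have hy2 : ((γ 1 1 - (y.val : ℤ) * γ 1 0 : ℤ) : ZMod ℓ) = 0 := by
        push_cast
        rw [ZMod.natCast_zmod_val, hy, mob_00, mob_10, div_mul_cancel₀ _ hc, sub_self]
      obtain ⟨e, he⟩ := (ZMod.intCast_zmod_eq_zero_iff_dvd _ _).1 hy2
      set δ : SL(2, ℤ) := mkSL (ℓ * γ 0 0) (γ 0 1 - y.val * γ 0 0) (γ 1 0) e (by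
        have : (ℓ : ℤ) * γ 0 0 * e = γ 0 0 * (γ 1 1 - (y.val : ℤ) * γ 1 0) := by
          rw [he]; ring
        rw [this]; linarith) with hδ
      have hδ0 : δ ∈ Gamma0 N := mem_of_N_dvd (N_dvd_of_mem hγ)
      change ((⇑(D ℓ i f)) ∣[(i:ℤ)] lowerMat ℓ hℓ0) ∣[(i:ℤ)] γ =
        (⇑(D d i f)) ∣[(i:ℤ)] upperMat ℓ y.val hℓ0
      rw [SL_slash, ← SlashAction.slash_mul,
        lowerMat_mul_SL hℓ0 γ δ y.val rfl
          (by simp only [hδ, mkSL_00, mkSL_01]; ring) rfl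
          (by simp only [hδ, mkSL_10, mkSL_11]; linarith),
        SlashAction.slash_mul, ← SL_slash]
      congr 1
      -- `⟨e⟩⟨ℓ⟩ f = ⟨d⟩ f`
      have hNe : (((ℓ : ℤ) * e : ℤ) : ZMod N) = d := by
        rw [← he, ← hd, hc']
        push_cast
        rw [ZMod.natCast_self]; ring
      set e' : ℕ := ((e : ZMod N)).val with he'
      have he2 : ((e : ℤ) : ZMod N) = e' := by rw [he', ZMod.natCast_zmod_val]
      rw [← hD e' i δ hδ0 he2]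
      have hecop : e'.Coprime N := coprime_of_lr hδ0 he2
      rw [D_mul hD hcop hecop (m := d)]
      rw [← he2, ← hNe]; push_cast; rfl
  | coe j =>
    rw [OnePoint.smul_some_eq_ite]
    by_cases hc : (mob ℓ γ) 1 0 * j + (mob ℓ γ) 1 1 = 0
    · rw [if_pos hc]
      rw [mob_10, mob_11] at hc
      have hc2 : ((γ 0 0 + (j.val : ℤ) * γ 1 0 : ℤ) : ZMod ℓ) = 0 := by
        push_cast
        rw [ZMod.natCast_zmod_val, ← hc]; ring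
      obtain ⟨a, ha⟩ := (ZMod.intCast_zmod_eq_zero_iff_dvd _ _).1 hc2
      set δ : SL(2, ℤ) := mkSL a (γ 0 1 + j.val * γ 1 1) (γ 1 0) (ℓ * γ 1 1) (by
        have : a * ((ℓ : ℤ) * γ 1 1) = (γ 0 0 + (j.val : ℤ) * γ 1 0) * γ 1 1 := by
          rw [ha]; ring
        rw [this]; linarith) with hδ
      have hδ0 : δ ∈ Gamma0 N := mem_of_N_dvd (N_dvd_of_mem hγ)
      change ((⇑f) ∣[(i:ℤ)] upperMat ℓ j.val hℓ0) ∣[(i:ℤ)] γ =
        (⇑(D ℓ i (D d i f))) ∣[(i:ℤ)] lowerMat ℓ hℓ0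
      rw [SL_slash, ← SlashAction.slash_mul,
        upperMat_mul_SL' hℓ0 γ δ (by rw [ha]; rfl) rfl rfl rfl,
        SlashAction.slash_mul, ← SL_slash]
      congr 1
      rw [D_mul hD hdcop hcop (m := d * ℓ) (by push_cast; rfl)]
      symm
      apply hD _ i δ hδ0
      change ((((ℓ : ℤ) * γ 1 1 : ℤ)) : ZMod N) = _
      push_cast
      rw [hd]; ring
    · rw [if_neg hc]
      rw [mob_10, mob_11] at hc
      set y : ZMod ℓ := ((mob ℓ γ) 0 0 * j + (mob ℓ γ) 0 1) / ((mob ℓ γ) 1 0 * j + (mob ℓ γ) 1 1)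
        with hy
      have hy2 : ((γ 0 1 + (j.val : ℤ) * γ 1 1 - y.val * (γ 0 0 + (j.val : ℤ) * γ 1 0) : ℤ) :
          ZMod ℓ) = 0 := by
        push_cast
        rw [ZMod.natCast_zmod_val, ZMod.natCast_zmod_val]
        have : y * (((γ 1 0 : ℤ) : ZMod ℓ) * j + ((γ 0 0 : ℤ) : ZMod ℓ)) =
            ((γ 1 1 : ℤ) : ZMod ℓ) * j + ((γ 0 1 : ℤ) : ZMod ℓ) := by
          rw [hy, mob_00, mob_01, mob_10, mob_11, div_mul_cancel₀ _ hc]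
        linear_combination -this
      obtain ⟨b, hb⟩ := (ZMod.intCast_zmod_eq_zero_iff_dvd _ _).1 hy2
      set δ : SL(2, ℤ) := mkSL (γ 0 0 + j.val * γ 1 0) b (ℓ * γ 1 0) (γ 1 1 - y.val * γ 1 0) (by
        have : b * ((ℓ : ℤ) * γ 1 0) =
            (γ 0 1 + (j.val : ℤ) * γ 1 1 - y.val * (γ 0 0 + (j.val : ℤ) * γ 1 0)) * γ 1 0 := by
          rw [hb]; ring
        rw [this]; linarith) with hδ
      have hδ0 : δ ∈ Gamma0 N := mem_of_N_dvd (Dvd.dvd.mul_left (N_dvd_of_mem hγ) _)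
      change ((⇑f) ∣[(i:ℤ)] upperMat ℓ j.val hℓ0) ∣[(i:ℤ)] γ =
        (⇑(D d i f)) ∣[(i:ℤ)] upperMat ℓ y.val hℓ0
      rw [SL_slash, ← SlashAction.slash_mul,
        upperMat_mul_SL hℓ0 γ δ y.val rfl
          (by simp only [hδ, mkSL_00, mkSL_01]; linarith) rfl
          (by simp only [hδ, mkSL_10, mkSL_11]; ring),
        SlashAction.slash_mul, ← SL_slash]
      congr 1
      symm
      apply hD _ i δ hδ0
      change (((γ 1 1 - (y.val : ℤ) * γ 1 0 : ℤ)) : ZMod N) = _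
      rw [← hd, hc']
      push_cast
      rw [ZMod.natCast_self]; ring

/-- the function underlying `T_ℓ f` -/
noncomputable def hk (D : ℕ → (i : ℕ) → (MF N i →ₗ[ℂ] MF N i)) (ℓ : ℕ) [hp : Fact ℓ.Prime]
    {i : ℕ} (f : MF N i) : ℍ → ℂ :=
  (∑ j ∈ Finset.range ℓ, (⇑f) ∣[(i : ℤ)] upperMat ℓ j hp.out.ne_zero) +
      (⇑(D ℓ i f)) ∣[(i : ℤ)] lowerMat ℓ hp.out.ne_zero

instance : Fintype (OnePoint (ZMod ℓ)) := inferInstanceAs (Fintype (Option (ZMod ℓ)))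

lemma sum_onePoint {A : Type*} [AddCommMonoid A] (g : OnePoint (ZMod ℓ) → A) :
    ∑ x, g x = g ∞ + ∑ j : ZMod ℓ, g (j : OnePoint (ZMod ℓ)) :=
  Fintype.sum_option (α := ZMod ℓ) g

lemma sum_range_zmod {A : Type*} [AddCommMonoid A] (g : ℕ → A) :
    ∑ j ∈ Finset.range ℓ, g j = ∑ j : ZMod ℓ, g j.val := by
  rw [← Fin.sum_univ_eq_sum_range]
  refine Fintype.sum_equiv (ZMod.finEquiv ℓ).toEquiv _ _ ?_
  intro x
  have hℓ0 : ℓ ≠ 0 := hp.out.ne_zero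
  obtain ⟨m, rfl⟩ := Nat.exists_eq_succ_of_ne_zero hℓ0
  rfl

lemma hk_eq_sum {i : ℕ} (f : MF N i) : hk D ℓ f = ∑ x, piece D ℓ f x := by
  rw [sum_onePoint, hk, sum_range_zmod, add_comm]
  rfl

lemma hk_slash (hD : IsDiamondFamily N D) (hℓN : ¬ ℓ ∣ 2 * N) {i : ℕ} (f : MF N i)
    {γ : SL(2, ℤ)} (hγ : γ ∈ Gamma0 N) {d : ℕ} (hd : ((γ 1 1 : ℤ) : ZMod N) = d) :
    (hk D ℓ f) ∣[(i:ℤ)] γ = hk D ℓ (D d i f) := by
  rw [hk_eq_sum, hk_eq_sum, SL_slash, SlashAction.sum_slash]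
  simp_rw [← SL_slash, piece_slash hD hℓN f hγ hd]
  exact Equiv.sum_comp (MulAction.toPerm (mob ℓ γ)) (fun x => piece D ℓ (D d i f) x)

end

end Crest.Agent.R007.Base
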