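import Crest.Agent.R007.Base3

/-! Row 7, base layer 4: Hecke operators exist and commute. -/

set_option autoImplicit false
open scoped ModularForm MatrixGroups Manifold OnePoint
open Crest.NumberTheoryR.HeckeTwoAdic UpperHalfPlane CongruenceSubgroup Matrix
open ModularForm

namespace Crest.Agent.R007.Base

section
variable {N : ℕ} [NeZero N] {D T : ℕ → (i : ℕ) → (MF N i →ₗ[ℂ] MF N i)}

/-- rational version of `upperMat` -/
noncomputable def upperQ (ℓ j : ℕ) (hℓ : ℓ ≠ 0) : GL (Fin 2) ℚ :=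
  Matrix.GeneralLinearGroup.mkOfDetNeZero !![1, (j:ℚ); 0, (ℓ:ℚ)] (by
    simp [Matrix.det_fin_two_of, hℓ])

/-- rational version of `lowerMat` -/
noncomputable def lowerQ (ℓ : ℕ) (hℓ : ℓ ≠ 0) : GL (Fin 2) ℚ :=
  Matrix.GeneralLinearGroup.mkOfDetNeZero !![(ℓ:ℚ), 0; 0, 1] (by
    simp [Matrix.det_fin_two_of, hℓ])

lemma upperQ_map (ℓ j : ℕ) (hℓ : ℓ ≠ 0) :
    upperMat ℓ j hℓ = (upperQ ℓ j hℓ).map (Rat.castHom ℝ) := by
  ext a b
  fin_cases a <;> fin_cases b <;> simp [upperMat, upperQ, mat2]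

lemma lowerQ_map (ℓ : ℕ) (hℓ : ℓ ≠ 0) :
    lowerMat ℓ hℓ = (lowerQ ℓ hℓ).map (Rat.castHom ℝ) := by
  ext a b
  fin_cases a <;> fin_cases b <;> simp [lowerMat, lowerQ, mat2]

lemma bdd_zero {i : ℕ} {c : OnePoint ℝ} : c.IsBoundedAt (0 : ℍ → ℂ) i := by
  intro g hg
  rw [SlashAction.zero_slash]
  exact Filter.zero_zeroAtFilter _ |>.boundedAtFilter

lemma bdd_sum {ι : Type*} (s : Finset ι) {i : ℕ} {c : OnePoint ℝ} (F : ι → ℍ → ℂ)
    (h : ∀ j ∈ s, c.IsBoundedAt (F j) i) : c.IsBoundedAt (∑ j ∈ s, F j) i := by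
  classical
  induction s using Finset.induction_on with
  | empty => simpa using bdd_zero
  | insert a s ha ih =>
    rw [Finset.sum_insert ha]
    exact (h a (Finset.mem_insert_self a s)).add
      (ih (fun j hj => h j (Finset.mem_insert_of_mem hj)))

lemma mdiff_sum {ι : Type*} (s : Finset ι) (F : ι → ℍ → ℂ)
    (h : ∀ j ∈ s, MDiff (F j)) : MDiff (∑ j ∈ s, F j) := by
  classical
  induction s using Finset.induction_on with
  | empty =>
    rw [Finset.sum_empty]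
    exact mdifferentiable_const (c := (0:ℂ))
  | insert a s ha ih =>
    rw [Finset.sum_insert ha]
    exact (h a (Finset.mem_insert_self a s)).add
      (ih (fun j hj => h j (Finset.mem_insert_of_mem hj)))

variable {ℓ : ℕ} [hp : Fact ℓ.Prime]

lemma hk_mdiff {i : ℕ} (f : MF N i) : MDiff (hk D ℓ f) := by
  unfold hk
  exact (mdiff_sum _ _ (fun j _ => mdiff_slash f _)).add (mdiff_slash _ _)

lemma hk_bdd {i : ℕ} (f : MF N i) {c : OnePoint ℝ}
    (hc : IsCusp c ((Gamma1 N : Subgroup SL(2, ℤ)) : Subgroup (GL (Fin 2) ℝ))) :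
    c.IsBoundedAt (hk D ℓ f) i := by
  unfold hk
  refine (bdd_sum _ _ (fun j _ => ?_)).add ?_
  · rw [upperQ_map]; exact bdd_slash f _ hc
  · rw [lowerQ_map]; exact bdd_slash _ _ hc

lemma hk_inv1 (hD : IsDiamondFamily N D) (hℓN : ¬ ℓ ∣ 2 * N) {i : ℕ} (f : MF N i)
    {δ : SL(2, ℤ)} (hδ : δ ∈ Gamma1 N) :
    (hk D ℓ f) ∣[(i:ℤ)] δ = hk D ℓ f := by
  have hδ0 : δ ∈ Gamma0 N := Gamma1_in_Gamma0 N hδ
  have h1 : ((δ 1 1 : ℤ) : ZMod N) = ((1:ℕ) : ZMod N) := by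
    have := (Gamma1_mem N δ).1 hδ
    rw [this.2.1, Nat.cast_one]
  rw [hk_slash hD hℓN f hδ0 h1]
  congr 1
  apply DFunLike.coe_injective
  rw [hD 1 i δ hδ0 h1 f, inv1 f hδ]

lemma hk_add {i : ℕ} (f g : MF N i) : hk D ℓ (f + g) = hk D ℓ f + hk D ℓ g := by
  have h1 : ⇑(f + g) = ⇑f + ⇑g := rfl
  have h2 : ⇑(D ℓ i f + D ℓ i g) = ⇑(D ℓ i f) + ⇑(D ℓ i g) := rfl
  simp only [hk, h1, map_add, h2, SlashAction.add_slash, Finset.sum_add_distrib]
  abel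

lemma pos_upperMat (ℓ j : ℕ) (hℓ : ℓ ≠ 0) : 0 < (upperMat ℓ j hℓ).det.val := by
  have : (upperMat ℓ j hℓ).det.val = (ℓ:ℝ) := by
    simp [upperMat, mat2, Matrix.det_fin_two]
  rw [this]
  exact_mod_cast Nat.pos_of_ne_zero hℓ

lemma pos_lowerMat (ℓ : ℕ) (hℓ : ℓ ≠ 0) : 0 < (lowerMat ℓ hℓ).det.val := by
  have : (lowerMat ℓ hℓ).det.val = (ℓ:ℝ) := by
    simp [lowerMat, mat2, Matrix.det_fin_two]
  rw [this]
  exact_mod_cast Nat.pos_of_ne_zero hℓ

lemma smul_slash_pos {k : ℤ} {g : GL (Fin 2) ℝ} (hg : 0 < g.det.val) (a : ℂ) (F : ℍ → ℂ) :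
    (a • F) ∣[k] g = a • (F ∣[k] g) := by
  rw [ModularForm.smul_slash, UpperHalfPlane.σ, if_pos hg]
  rfl

lemma hk_smul {i : ℕ} (a : ℂ) (f : MF N i) : hk D ℓ (a • f) = a • hk D ℓ f := by
  have h1 : ⇑(a • f) = a • ⇑f := rfl
  have h2 : ⇑(a • D ℓ i f) = a • ⇑(D ℓ i f) := rfl
  simp only [hk, h1, map_smul, h2, smul_slash_pos (pos_upperMat _ _ _),
    smul_slash_pos (pos_lowerMat _ _), smul_add, Finset.smul_sum]

/-- the Hecke operator attached to a diamond family -/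
noncomputable def heckeAux (hD : IsDiamondFamily N D) (ℓ : ℕ) [hp : Fact ℓ.Prime]
    (hℓN : ¬ ℓ ∣ 2 * N) (i : ℕ) : MF N i →ₗ[ℂ] MF N i where
  toFun f := mkMF N i (hk D ℓ f) (fun δ hδ => hk_inv1 hD hℓN f hδ) (hk_mdiff f)
    (fun c hc => hk_bdd f hc)
  map_add' f g := by
    apply DFunLike.coe_injective
    exact hk_add f g
  map_smul' a f := by
    apply DFunLike.coe_injective
    exact hk_smul a f

end

section
variable (N : ℕ) [NeZero N]

open Classical in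
/-- the Hecke operators -/
noncomputable def hecke (ℓ i : ℕ) : MF N i →ₗ[ℂ] MF N i :=
  if h : ℓ.Prime ∧ ¬ ℓ ∣ 2 * N then
    haveI : Fact ℓ.Prime := ⟨h.1⟩
    heckeAux (isDiamondFamily N) ℓ h.2 i
  else 0

theorem isHeckeFamily : IsHeckeFamily N (hecke N) (dia N) := by
  intro ℓ hℓ hℓN i f
  unfold hecke
  rw [dif_pos ⟨hℓ, hℓN⟩]
  rfl

/-- existence of the families -/
theorem exists_families : ∃ T D : ℕ → (i : ℕ) → (MF N i →ₗ[ℂ] MF N i),
    IsDiamondFamily N D ∧ IsHeckeFamily N T D :=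
  ⟨hecke N, dia N, isDiamondFamily N, isHeckeFamily N⟩

end

end Crest.Agent.R007.Base
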