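import Crest.Agent.R007.Base4

/-! Row 7, base layer 5: commutation of all Hecke and diamond operators. -/

set_option autoImplicit false
open scoped ModularForm MatrixGroups Manifold OnePoint
open Crest.NumberTheoryR.HeckeTwoAdic UpperHalfPlane CongruenceSubgroup Matrix
open ModularForm

namespace Crest.Agent.R007.Base

/-- `T_ℓ` commutes with `⟨d⟩` -/
theorem T_D_comm {N : ℕ} [NeZero N] {D T : ℕ → (i : ℕ) → (MF N i →ₗ[ℂ] MF N i)}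
    (hD : IsDiamondFamily N D) (hT : IsHeckeFamily N T D) {ℓ : ℕ} (hℓ : ℓ.Prime)
    (hℓN : ¬ ℓ ∣ 2 * N) {d : ℕ} (hd : d.Coprime N) (i : ℕ) (f : MF N i) :
    T ℓ i (D d i f) = D d i (T ℓ i f) := by
  have : Fact ℓ.Prime := ⟨hℓ⟩
  obtain ⟨γ, hγ, h1⟩ := exists_gamma N d hd
  apply DFunLike.coe_injective
  have e1 : ⇑(T ℓ i f) = hk D ℓ f := hT ℓ hℓ hℓN i f
  have e2 : ⇑(T ℓ i (D d i f)) = hk D ℓ (D d i f) := hT ℓ hℓ hℓN i _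
  rw [hD d i γ hγ h1, e1, hk_slash hD hℓN f hγ h1, e2]

/-- the matrix `(ℓ t; 0 m)` -/
noncomputable def tri (ℓ t m : ℕ) (hℓ : ℓ ≠ 0) (hm : m ≠ 0) : GL (Fin 2) ℝ :=
  Matrix.GeneralLinearGroup.mkOfDetNeZero (mat2 ℓ t 0 m) (by
    simp [Matrix.det_fin_two, mat2, hℓ, hm])

lemma upper_mul_upper {ℓ m : ℕ} (hℓ : ℓ ≠ 0) (hm : m ≠ 0) (r j : ℕ) :
    upperMat m r hm * upperMat ℓ j hℓ = upperMat (m * ℓ) (j + r * ℓ) (mul_ne_zero hm hℓ) := by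
  apply Units.ext
  apply Matrix.ext
  intro a b
  fin_cases a <;> fin_cases b <;>
    simp [upperMat, mat2, Matrix.mul_apply, Fin.sum_univ_two]

lemma lower_mul_upper {ℓ m : ℕ} (hℓ : ℓ ≠ 0) (hm : m ≠ 0) (j : ℕ) :
    lowerMat ℓ hℓ * upperMat m j hm = tri ℓ (ℓ * j) m hℓ hm := by
  apply Units.ext
  apply Matrix.ext
  intro a b
  fin_cases a <;> fin_cases b <;>
    simp [upperMat, lowerMat, tri, mat2, Matrix.mul_apply, Fin.sum_univ_two]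

lemma upper_mul_lower {ℓ m : ℕ} (hℓ : ℓ ≠ 0) (hm : m ≠ 0) (j : ℕ) :
    upperMat m j hm * lowerMat ℓ hℓ = tri ℓ j m hℓ hm := by
  apply Units.ext
  apply Matrix.ext
  intro a b
  fin_cases a <;> fin_cases b <;>
    simp [upperMat, lowerMat, tri, mat2, Matrix.mul_apply, Fin.sum_univ_two]

lemma lower_mul_lower {ℓ m : ℕ} (hℓ : ℓ ≠ 0) (hm : m ≠ 0) :
    lowerMat ℓ hℓ * lowerMat m hm = lowerMat m hm * lowerMat ℓ hℓ := by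
  apply Units.ext
  apply Matrix.ext
  intro a b
  fin_cases a <;> fin_cases b <;>
    simp [lowerMat, mat2, Matrix.mul_apply, Fin.sum_univ_two, mul_comm]

lemma shift_mul_tri {ℓ m : ℕ} (hℓ : ℓ ≠ 0) (hm : m ≠ 0) (t s : ℕ) :
    (mkSL 1 s 0 1 (by ring) : GL (Fin 2) ℝ) * tri ℓ t m hℓ hm = tri ℓ (t + s * m) m hℓ hm := by
  apply Units.ext
  apply Matrix.ext
  intro a b
  fin_cases a <;> fin_cases b <;>
    simp [tri, mat2, Matrix.mul_apply, Fin.sum_univ_two]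

/-- `U_ℓ` on functions -/
noncomputable def Uf (i ℓ : ℕ) (hℓ : ℓ ≠ 0) (g : ℍ → ℂ) : ℍ → ℂ :=
  ∑ j ∈ Finset.range ℓ, g ∣[(i:ℤ)] upperMat ℓ j hℓ

/-- `V_ℓ` on functions -/
noncomputable def Vf (i ℓ : ℕ) (hℓ : ℓ ≠ 0) (g : ℍ → ℂ) : ℍ → ℂ :=
  g ∣[(i:ℤ)] lowerMat ℓ hℓ

lemma Uf_add {i ℓ : ℕ} (hℓ : ℓ ≠ 0) (g h : ℍ → ℂ) :
    Uf i ℓ hℓ (g + h) = Uf i ℓ hℓ g + Uf i ℓ hℓ h := by
  simp only [Uf, SlashAction.add_slash, Finset.sum_add_distrib]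

lemma Vf_add {i ℓ : ℕ} (hℓ : ℓ ≠ 0) (g h : ℍ → ℂ) :
    Vf i ℓ hℓ (g + h) = Vf i ℓ hℓ g + Vf i ℓ hℓ h := by
  simp only [Vf, SlashAction.add_slash]

lemma sum_range_mul' {A : Type*} [AddCommMonoid A] {ℓ m : ℕ} (hℓ : ℓ ≠ 0) (g : ℕ → A) :
    ∑ j ∈ Finset.range ℓ, ∑ r ∈ Finset.range m, g (j + r * ℓ) =
      ∑ t ∈ Finset.range (m * ℓ), g t := by
  rw [← Finset.sum_product']
  refine Finset.sum_nbij' (fun p => p.1 + p.2 * ℓ) (fun t => (t % ℓ, t / ℓ)) ?_ ?_ ?_ ?_ ?_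
  · rintro ⟨a, b⟩ h
    simp only [Finset.mem_product, Finset.mem_range] at h ⊢
    calc a + b * ℓ < ℓ + b * ℓ := by omega
      _ = (b + 1) * ℓ := by ring
      _ ≤ m * ℓ := Nat.mul_le_mul_right _ h.2
  · intro t h
    simp only [Finset.mem_product, Finset.mem_range] at h ⊢
    exact ⟨Nat.mod_lt _ (Nat.pos_of_ne_zero hℓ), Nat.div_lt_of_lt_mul (by rwa [mul_comm] at h)⟩
  · rintro ⟨a, b⟩ h
    simp only [Finset.mem_product, Finset.mem_range] at h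
    simp only [Nat.add_mul_mod_self_right, Nat.mod_eq_of_lt h.1, Prod.mk.injEq, true_and]
    rw [Nat.add_mul_div_right _ _ (Nat.pos_of_ne_zero hℓ), Nat.div_eq_of_lt h.1, zero_add]
  · intro t h
    simp only
    rw [mul_comm]
    exact Nat.mod_add_div t ℓ
  · rintro ⟨a, b⟩ h
    rfl

lemma Uf_Uf {i ℓ m : ℕ} (hℓ : ℓ ≠ 0) (hm : m ≠ 0) (g : ℍ → ℂ) :
    Uf i ℓ hℓ (Uf i m hm g) =
      ∑ t ∈ Finset.range (m * ℓ), g ∣[(i:ℤ)] upperMat (m * ℓ) t (mul_ne_zero hm hℓ) := by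
  unfold Uf
  simp_rw [SlashAction.sum_slash, ← SlashAction.slash_mul, upper_mul_upper]
  exact sum_range_mul' hℓ (fun t => g ∣[(i:ℤ)] upperMat (m * ℓ) t (mul_ne_zero hm hℓ))

lemma upperMat_congr {a b t : ℕ} (h : a = b) (ha : a ≠ 0) (hb : b ≠ 0) :
    upperMat a t ha = upperMat b t hb := by
  subst h; rfl

lemma Uf_comm {i ℓ m : ℕ} (hℓ : ℓ ≠ 0) (hm : m ≠ 0) (g : ℍ → ℂ) :
    Uf i ℓ hℓ (Uf i m hm g) = Uf i m hm (Uf i ℓ hℓ g) := by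
  rw [Uf_Uf, Uf_Uf]
  have h : m * ℓ = ℓ * m := mul_comm _ _
  refine Finset.sum_congr (congrArg Finset.range h) (fun t _ => ?_)
  rw [upperMat_congr h (mul_ne_zero hm hℓ) (mul_ne_zero hℓ hm)]

lemma Vf_comm {i ℓ m : ℕ} (hℓ : ℓ ≠ 0) (hm : m ≠ 0) (g : ℍ → ℂ) :
    Vf i ℓ hℓ (Vf i m hm g) = Vf i m hm (Vf i ℓ hℓ g) := by
  unfold Vf
  rw [← SlashAction.slash_mul, ← SlashAction.slash_mul, lower_mul_lower]

lemma mkSL_shift_mem (N : ℕ) (s : ℕ) : mkSL 1 s 0 1 (by ring) ∈ Gamma1 N := by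
  rw [Gamma1_mem]
  simp

lemma Uf_Vf_comm {N i ℓ m : ℕ} [NeZero N] (hℓ : ℓ.Prime) (hm : m.Prime) (hne : ℓ ≠ m)
    (f : MF N i) :
    Uf i m hm.ne_zero (Vf i ℓ hℓ.ne_zero ⇑f) = Vf i ℓ hℓ.ne_zero (Uf i m hm.ne_zero ⇑f) := by
  have : Fact m.Prime := ⟨hm⟩
  unfold Uf Vf
  rw [SlashAction.sum_slash]
  simp_rw [← SlashAction.slash_mul, lower_mul_upper, upper_mul_lower]
  -- periodicity
  have per : ∀ t s : ℕ, (⇑f) ∣[(i:ℤ)] tri ℓ (t + s * m) m hℓ.ne_zero hm.ne_zero =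
      (⇑f) ∣[(i:ℤ)] tri ℓ t m hℓ.ne_zero hm.ne_zero := by
    intro t s
    rw [← shift_mul_tri, SlashAction.slash_mul, ← SL_slash, inv1 f (mkSL_shift_mem N s)]
  have red : ∀ t : ℕ, (⇑f) ∣[(i:ℤ)] tri ℓ t m hℓ.ne_zero hm.ne_zero =
      (⇑f) ∣[(i:ℤ)] tri ℓ (t : ZMod m).val m hℓ.ne_zero hm.ne_zero := by
    intro t
    rw [ZMod.val_natCast]
    conv_lhs => rw [← Nat.mod_add_div t m, mul_comm m (t / m)]
    exact per _ _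
  rw [sum_range_zmod, sum_range_zmod]
  have hu : IsUnit ((ℓ : ℕ) : ZMod m) := by
    rw [ZMod.isUnit_iff_coprime]
    exact (Nat.coprime_primes hℓ hm).2 hne
  obtain ⟨u, hu⟩ := hu
  rw [← Equiv.sum_comp (Units.mulLeft u)
    (fun x : ZMod m => (⇑f) ∣[(i:ℤ)] tri ℓ x.val m hℓ.ne_zero hm.ne_zero)]
  refine Finset.sum_congr rfl (fun x _ => ?_)
  rw [red (ℓ * x.val)]
  congr 2
  push_cast
  rw [ZMod.natCast_zmod_val, ← hu]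
  rfl

/-- the Hecke operators commute -/
theorem T_comm {N : ℕ} [NeZero N] {D T : ℕ → (i : ℕ) → (MF N i →ₗ[ℂ] MF N i)}
    (hD : IsDiamondFamily N D) (hT : IsHeckeFamily N T D) {ℓ m : ℕ} (hℓ : ℓ.Prime)
    (hℓN : ¬ ℓ ∣ 2 * N) (hm : m.Prime) (hmN : ¬ m ∣ 2 * N) (i : ℕ) (f : MF N i) :
    T ℓ i (T m i f) = T m i (T ℓ i f) := by
  rcases eq_or_ne ℓ m with rfl | hne
  · rfl
  have hcℓ := coprime_of_prime hℓ hℓN
  have hcm := coprime_of_prime hm hmN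
  have key : ∀ {p : ℕ} (hp : p.Prime) (_ : ¬ p ∣ 2 * N) (g : MF N i),
      ⇑(T p i g) = Uf i p hp.ne_zero ⇑g + Vf i p hp.ne_zero ⇑(D p i g) :=
    fun hp hpN g => hT _ hp hpN i g
  apply DFunLike.coe_injective
  rw [key hℓ hℓN (T m i f), ← T_D_comm hD hT hm hmN hcℓ, key hm hmN (D ℓ i f), key hm hmN f,
    key hm hmN (T ℓ i f), ← T_D_comm hD hT hℓ hℓN hcm, key hℓ hℓN (D m i f), key hℓ hℓN f]
  rw [Uf_add, Vf_add, Uf_add, Vf_add, Uf_comm, Uf_Vf_comm hm hℓ hne.symm (D m i f),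
    ← Uf_Vf_comm hℓ hm hne (D ℓ i f), Vf_comm, D_comm hD hcℓ hcm]
  abel

/-- the generators of the finite stages commute -/
theorem gens_comm {N : ℕ} [NeZero N] {D T : ℕ → (i : ℕ) → (MF N i →ₗ[ℂ] MF N i)}
    (hD : IsDiamondFamily N D) (hT : IsHeckeFamily N T D) (k : ℕ) :
    ∀ a ∈ heckeGens N T D k, ∀ b ∈ heckeGens N T D k, a * b = b * a := by
  rintro a ⟨ℓ, hℓ, hℓN, ha⟩ b ⟨m, hm, hmN, hb⟩
  have hcℓ := coprime_of_prime hℓ hℓN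
  have hcm := coprime_of_prime hm hmN
  rcases ha with rfl | rfl <;> rcases hb with rfl | rfl
  · funext i
    apply LinearMap.ext
    intro f
    exact T_comm hD hT hℓ hℓN hm hmN _ f
  · funext i
    apply LinearMap.ext
    intro f
    change T ℓ _ ((m : ℂ) ^ (i : ℕ) • D m _ f) = (m : ℂ) ^ (i : ℕ) • D m _ (T ℓ _ f)
    rw [map_smul, T_D_comm hD hT hℓ hℓN hcm]
  · funext i
    apply LinearMap.ext
    intro f
    change (ℓ : ℂ) ^ (i : ℕ) • D ℓ _ (T m _ f) = T m _ ((ℓ : ℂ) ^ (i : ℕ) • D ℓ _ f)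
    rw [map_smul, T_D_comm hD hT hm hmN hcℓ]
  · funext i
    apply LinearMap.ext
    intro f
    change (ℓ : ℂ) ^ (i : ℕ) • D ℓ _ ((m : ℂ) ^ (i : ℕ) • D m _ f) =
      (m : ℂ) ^ (i : ℕ) • D m _ ((ℓ : ℂ) ^ (i : ℕ) • D ℓ _ f)
    rw [map_smul, map_smul, D_comm hD hcm hcℓ, smul_comm]

end Crest.Agent.R007.Base
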