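import Mathlib

/-! Row 7, node O: the coefficient ring `OO ⊂ ℂ`: localisation of `ℤ[all roots of unity of odd order]`
at a prime over `2`. -/

set_option autoImplicit false

namespace Crest.Agent.R007.Coef

open Polynomial

/-- roots of unity of odd order in `ℂ` -/
def oddRoots : Submonoid ℂ where
  carrier := {z | ∃ n : ℕ, Odd n ∧ z ^ n = 1}
  one_mem' := ⟨1, odd_one, by simp⟩
  mul_mem' := by
    rintro z w ⟨n, hn, hz⟩ ⟨m, hm, hw⟩
    refine ⟨n * m, hn.mul hm, ?_⟩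
    rw [mul_pow, pow_mul, hz, one_pow, mul_comm n m, pow_mul, hw, one_pow, one_mul]

/-- the ring generated by the roots of unity of odd order -/
def A0 : Subring ℂ := Subring.closure (oddRoots : Set ℂ)

lemma root_mem_A0 {n : ℕ} (hn : Odd n) {z : ℂ} (hz : z ^ n = 1) : z ∈ A0 :=
  Subring.subset_closure ⟨n, hn, hz⟩

lemma isIntegral_of_mem_A0 {z : ℂ} (hz : z ∈ A0) : IsIntegral ℤ z := by
  refine Subring.closure_induction (p := fun x _ => IsIntegral ℤ x) ?_ ?_ ?_ ?_ ?_ ?_ hz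
  · rintro x ⟨n, hn, hx⟩
    exact IsIntegral.of_pow (Odd.pos hn) (by rw [hx]; exact isIntegral_one)
  · exact isIntegral_zero
  · exact isIntegral_one
  · intro x y _ _ hx hy; exact hx.add hy
  · intro x _ hx; exact hx.neg
  · intro x y _ _ hx hy; exact hx.mul hy

lemma add_pow2 {Q : Type*} [CommRing Q] (h2 : (2 : Q) = 0) (a b : Q) (n : ℕ) :
    (a + b) ^ (2 ^ n) = a ^ (2 ^ n) + b ^ (2 ^ n) := by
  induction n with
  | zero => simp
  | succ n ih =>
    rw [pow_succ, pow_mul, ih, pow_mul, pow_mul]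
    linear_combination (a ^ (2 ^ n)) * (b ^ (2 ^ n)) * h2

lemma pow2_mul {Q : Type*} [CommRing Q] {x : Q} {f : ℕ} (h : x ^ (2 ^ f) = x) (k : ℕ) :
    x ^ (2 ^ (f * k)) = x := by
  induction k with
  | zero => simp
  | succ k ih =>
    rw [Nat.mul_succ, pow_add, pow_mul, ih, h]

lemma neg_fix {Q : Type*} [CommRing Q] (h2 : (2 : Q) = 0) {x : Q} {f : ℕ} (hf : 1 ≤ f)
    (h : x ^ (2 ^ f) = x) : (-x) ^ (2 ^ f) = -x := by
  have hev : Even (2 ^ f) := Nat.even_pow.2 ⟨even_two, by omega⟩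
  rw [hev.neg_pow, h]
  linear_combination x * h2

/-- every element of `A0/2` is fixed by a power of Frobenius -/
theorem frob_quot (x : A0 ⧸ Ideal.span {(2 : A0)}) : ∃ f : ℕ, 1 ≤ f ∧ x ^ (2 ^ f) = x := by
  have h2 : (2 : A0 ⧸ Ideal.span {(2 : A0)}) = 0 := by
    have : (Ideal.Quotient.mk (Ideal.span {(2 : A0)})) (2 : A0) = 0 :=
      Ideal.Quotient.eq_zero_iff_mem.2 (Ideal.subset_span rfl)
    rwa [map_ofNat] at this
  obtain ⟨⟨z, hz⟩, rfl⟩ := Ideal.Quotient.mk_surjective x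
  refine Subring.closure_induction
    (p := fun z hz => ∃ f : ℕ, 1 ≤ f ∧
      (Ideal.Quotient.mk (Ideal.span {(2 : A0)})) (⟨z, hz⟩ : A0) ^ (2 ^ f) =
      (Ideal.Quotient.mk (Ideal.span {(2 : A0)})) (⟨z, hz⟩ : A0)) ?_ ?_ ?_ ?_ ?_ ?_ hz
  · rintro z ⟨n, hn, hzn⟩
    refine ⟨n.totient, Nat.totient_pos.2 hn.pos, ?_⟩
    rw [← map_pow]
    congr 1
    apply Subtype.ext
    change z ^ (2 ^ n.totient) = z
    have h1 : 2 ^ n.totient ≡ 1 [MOD n] :=
      Nat.ModEq.pow_totient (Nat.coprime_two_left.2 hn)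
    have h3 : 1 ≤ 2 ^ n.totient := Nat.one_le_two_pow
    obtain ⟨k, hk⟩ := (Nat.modEq_iff_dvd' h3).1 h1.symm
    have h4 : 2 ^ n.totient = 1 + n * k := by omega
    rw [h4, pow_add, pow_mul, hzn, one_pow, pow_one, mul_one]
  · refine ⟨1, le_rfl, ?_⟩
    have : (⟨0, Subring.zero_mem _⟩ : A0) = 0 := rfl
    rw [this, map_zero]; simp
  · refine ⟨1, le_rfl, ?_⟩
    have : (⟨1, Subring.one_mem _⟩ : A0) = 1 := rfl
    rw [this, map_one]; simp
  · rintro x y hx hy ⟨f, hf, h⟩ ⟨g, hg, h'⟩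
    refine ⟨f * g, Nat.one_le_iff_ne_zero.2 (by positivity), ?_⟩
    have e : (⟨x + y, Subring.add_mem _ hx hy⟩ : A0) = ⟨x, hx⟩ + ⟨y, hy⟩ := rfl
    rw [e, map_add, add_pow2 h2, pow2_mul h, mul_comm f g, pow2_mul h']
  · rintro x hx ⟨f, hf, h⟩
    refine ⟨f, hf, ?_⟩
    have e : (⟨-x, Subring.neg_mem _ hx⟩ : A0) = -⟨x, hx⟩ := rfl
    rw [e, map_neg]
    exact neg_fix h2 hf h
  · rintro x y hx hy ⟨f, hf, h⟩ ⟨g, hg, h'⟩
    refine ⟨f * g, Nat.one_le_iff_ne_zero.2 (by positivity), ?_⟩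
    have e : (⟨x * y, Subring.mul_mem _ hx hy⟩ : A0) = ⟨x, hx⟩ * ⟨y, hy⟩ := rfl
    rw [e, map_mul, mul_pow, pow2_mul h, mul_comm f g, pow2_mul h']

theorem frob_A0 (z : A0) : ∃ f : ℕ, 1 ≤ f ∧ ∃ w : A0, z ^ (2 ^ f) - z = 2 * w := by
  obtain ⟨f, hf, h⟩ := frob_quot (Ideal.Quotient.mk _ z)
  refine ⟨f, hf, ?_⟩
  rw [← map_pow, Ideal.Quotient.eq, Ideal.mem_span_singleton'] at h
  obtain ⟨w, hw⟩ := h
  exact ⟨w, by rw [← hw, mul_comm]⟩

lemma two_not_unit_A0 : (Ideal.span {(2 : A0)}) ≠ ⊤ := by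
  intro h
  rw [Ideal.eq_top_iff_one, Ideal.mem_span_singleton'] at h
  obtain ⟨w, hw⟩ := h
  have h1 : (w : ℂ) * 2 = 1 := congrArg (Subtype.val : A0 → ℂ) hw
  have hw2 : (w : ℂ) = ((1 / 2 : ℚ) : ℂ) := by
    push_cast
    field_simp
    exact h1
  have hint : IsIntegral ℤ ((1 / 2 : ℚ) : ℂ) := by
    rw [← hw2]; exact isIntegral_of_mem_A0 w.2
  have hint2 : IsIntegral ℤ (1 / 2 : ℚ) := by
    have : IsIntegral ℤ (algebraMap ℚ ℂ (1/2 : ℚ)) := by simpa using hint
    exact (isIntegral_algebraMap_iff (algebraMap ℚ ℂ).injective).1 this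
  obtain ⟨m, hm⟩ := IsIntegrallyClosed.isIntegral_iff.1 hint2
  have h3 : (m : ℚ) = 1 / 2 := by simpa using hm
  have h4 : ((2 * m : ℤ) : ℚ) = 1 := by push_cast; rw [h3]; norm_num
  have h5 : 2 * m = 1 := by exact_mod_cast h4
  omega

/-- a chosen maximal ideal of `A0` above `2` -/
noncomputable def P0 : Ideal A0 := (Ideal.exists_le_maximal _ two_not_unit_A0).choose

instance P0_max : P0.IsMaximal := (Ideal.exists_le_maximal _ two_not_unit_A0).choose_spec.1

lemma two_mem_P0 : (2 : A0) ∈ P0 :=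
  (Ideal.exists_le_maximal _ two_not_unit_A0).choose_spec.2 (Ideal.subset_span rfl)

/-- the coefficient ring -/
noncomputable def OO : Subring ℂ := (LocalSubring.ofPrime A0 P0).toSubring

noncomputable instance : Algebra A0 OO := inferInstanceAs (Algebra A0 (LocalSubring.ofPrime A0 P0).toSubring)

instance : IsScalarTower A0 OO ℂ :=
  inferInstanceAs (IsScalarTower A0 (LocalSubring.ofPrime A0 P0).toSubring ℂ)

instance : IsLocalization.AtPrime OO P0 :=
  inferInstanceAs (IsLocalization.AtPrime (LocalSubring.ofPrime A0 P0).toSubring P0)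

instance : IsLocalRing OO := IsLocalization.AtPrime.isLocalRing OO P0

instance : IsDomain OO := inferInstance

lemma A0_le_OO : A0 ≤ OO := LocalSubring.le_ofPrime A0 P0

lemma coe_algebraMap (x : A0) : ((algebraMap A0 OO x : OO) : ℂ) = x := rfl

/-- roots of unity of odd order are in `OO` -/
theorem root_mem {n : ℕ} (hn : Odd n) {z : ℂ} (hz : z ^ n = 1) : z ∈ OO :=
  A0_le_OO (root_mem_A0 hn hz)

/-- membership -/
theorem mem_iff {z : ℂ} : z ∈ OO ↔ ∃ x y : A0, y ∉ P0 ∧ z * y = x := by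
  constructor
  · intro hz
    obtain ⟨⟨x, s⟩, h⟩ := IsLocalization.surj P0.primeCompl (⟨z, hz⟩ : OO)
    refine ⟨x, s, s.2, ?_⟩
    have := congrArg (Subtype.val : OO → ℂ) h
    simpa [coe_algebraMap] using this
  · rintro ⟨x, y, hy, h⟩
    have hu : IsUnit (algebraMap A0 OO y) := IsLocalization.map_units OO (⟨y, hy⟩ : P0.primeCompl)
    obtain ⟨u, hu⟩ := hu
    have hy0 : (y : ℂ) ≠ 0 := by
      intro h0
      apply hy
      have : y = 0 := Subtype.ext h0
      rw [this]; exact P0.zero_mem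
    have h1 : (((u⁻¹ : OOˣ) : OO) : ℂ) * y = 1 := by
      have : ((u⁻¹ : OOˣ) : OO) * (u : OO) = 1 := u.inv_mul
      rw [hu] at this
      exact congrArg (Subtype.val : OO → ℂ) this
    have : z = x * (((u⁻¹ : OOˣ) : OO) : ℂ) := by
      have h2 : z * y * (((u⁻¹ : OOˣ) : OO) : ℂ) = x * (((u⁻¹ : OOˣ) : OO) : ℂ) := by rw [h]
      rw [← h2]
      linear_combination -z * h1
    rw [this]
    exact OO.mul_mem (A0_le_OO x.2) (SetLike.coe_mem _)

lemma isUnit_algebraMap_iff {x : A0} : IsUnit (algebraMap A0 OO x) ↔ x ∉ P0 :=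
  IsLocalization.AtPrime.isUnit_to_map_iff OO P0 x

/-- an element of `OO` whose inverse lies in `OO` -/
lemma isUnit_iff {x : OO} : IsUnit x ↔ x ≠ 0 ∧ (x : ℂ)⁻¹ ∈ OO := by
  constructor
  · rintro ⟨u, rfl⟩
    have h1 : ((u : OO) : ℂ) * (((u⁻¹ : OOˣ) : OO) : ℂ) = 1 := by
      have : (u : OO) * ((u⁻¹ : OOˣ) : OO) = 1 := u.mul_inv
      exact congrArg (Subtype.val : OO → ℂ) this
    refine ⟨u.ne_zero, ?_⟩
    rw [inv_eq_of_mul_eq_one_right h1]
    exact SetLike.coe_mem _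
  · rintro ⟨hx, h⟩
    have hx0 : (x : ℂ) ≠ 0 := fun h0 => hx (Subtype.ext h0)
    exact ⟨⟨x, ⟨(x:ℂ)⁻¹, h⟩, Subtype.ext (mul_inv_cancel₀ hx0), Subtype.ext (inv_mul_cancel₀ hx0)⟩,
      rfl⟩

lemma two_not_isUnit : ¬ IsUnit (2 : OO) := by
  have h := (isUnit_algebraMap_iff (x := (2 : A0))).not.2 (by simpa using two_mem_P0)
  rwa [map_ofNat] at h

lemma odd_not_mem_P0 {n : ℕ} (hn : Odd n) : (n : A0) ∉ P0 := by
  intro h
  obtain ⟨k, rfl⟩ := hn
  apply P0_max.ne_top
  rw [Ideal.eq_top_iff_one]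
  have h1 : (1 : A0) = ((2 * k + 1 : ℕ) : A0) - 2 * (k : A0) := by push_cast; ring
  rw [h1]
  exact P0.sub_mem h (P0.mul_mem_right _ two_mem_P0)

theorem isUnit_odd {n : ℕ} (hn : Odd n) : IsUnit (n : OO) := by
  have := (isUnit_algebraMap_iff (x := (n : A0))).2 (odd_not_mem_P0 hn)
  simpa using this

theorem inv_nat_mem {n : ℕ} (hn : Odd n) : (n : ℂ)⁻¹ ∈ OO := by
  have := (isUnit_iff.1 (isUnit_odd hn)).2
  simpa using this

theorem isUnit_odd_int {n : ℤ} (hn : Odd n) : IsUnit (n : OO) := by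
  have h := isUnit_odd (n := n.natAbs) (Int.natAbs_odd.2 hn)
  rcases Int.natAbs_eq n with h1 | h1
  · rw [h1, Int.cast_natCast]; exact h
  · rw [h1, Int.cast_neg, Int.cast_natCast]; exact IsUnit.neg h

theorem ratCast_mem {r : ℚ} (hr : Odd r.den) : (r : ℂ) ∈ OO := by
  have h : (r : ℂ) = (r.num : ℂ) * ((r.den : ℂ))⁻¹ := by
    rw [← div_eq_mul_inv]
    exact Rat.cast_def r
  rw [h]
  exact OO.mul_mem (intCast_mem OO r.num) (inv_nat_mem hr)

theorem ratCast_mem_iff {r : ℚ} : (r : ℂ) ∈ OO ↔ Odd r.den := by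
  refine ⟨fun h => ?_, ratCast_mem⟩
  by_contra hodd
  rw [Nat.not_odd_iff_even] at hodd
  obtain ⟨k, hk⟩ := hodd.two_dvd
  have hnum : Odd r.num := by
    rw [← Int.natAbs_odd]
    by_contra h1
    rw [Nat.not_odd_iff_even] at h1
    have := Nat.dvd_gcd h1.two_dvd hodd.two_dvd
    rw [r.reduced] at this
    omega
  have h1 : (⟨(r:ℂ), h⟩ : OO) * (r.den : OO) = (r.num : OO) := by
    apply Subtype.ext
    change (r : ℂ) * ((r.den : OO) : ℂ) = ((r.num : OO) : ℂ)
    push_cast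
    have := Rat.mul_den_eq_num r
    exact_mod_cast this
  have h2 : IsUnit ((2 : OO) * ((k : OO) * ⟨(r:ℂ), h⟩)) := by
    have : (2 : OO) * ((k : OO) * ⟨(r:ℂ), h⟩) = (r.num : OO) := by
      rw [← h1, hk]; push_cast; ring
    rw [this]
    exact isUnit_odd_int hnum
  exact two_not_isUnit (isUnit_of_mul_isUnit_left h2)

/-! ### uniformizer -/

/-- the maximal ideal is generated by `2` -/
theorem maximalIdeal_eq : IsLocalRing.maximalIdeal OO = Ideal.span {(2 : OO)} := by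
  apply le_antisymm
  · intro z hz
    obtain ⟨x, y, hy, h⟩ := mem_iff.1 z.2
    have hz' : z * algebraMap A0 OO y = algebraMap A0 OO x := Subtype.ext h
    have hyu : IsUnit (algebraMap A0 OO y) := isUnit_algebraMap_iff.2 hy
    have hx : x ∈ P0 := by
      by_contra hx
      have hxu : IsUnit (algebraMap A0 OO x) := isUnit_algebraMap_iff.2 hx
      rw [← hz'] at hxu
      exact (IsLocalRing.mem_maximalIdeal _).1 hz (isUnit_of_mul_isUnit_left hxu)
    obtain ⟨f, hf, w, hw⟩ := frob_A0 x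
    -- x (1 - x^(2^f-1)) = -2 w
    have h1 : x * (1 - x ^ (2 ^ f - 1)) = - (2 * w) := by
      rw [← hw]
      have : x ^ (2 ^ f) = x * x ^ (2 ^ f - 1) := by
        rw [← pow_succ']
        congr 1
        have := Nat.one_le_two_pow (n := f)
        omega
      rw [this]; ring
    have hne : 2 ^ f - 1 ≠ 0 := by
      have : 2 ^ 1 ≤ 2 ^ f := Nat.pow_le_pow_right (by norm_num) hf
      omega
    have hu : (1 - x ^ (2 ^ f - 1)) ∉ P0 := by
      intro h2
      apply P0_max.ne_top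
      rw [Ideal.eq_top_iff_one]
      have h3 : (1 : A0) = (1 - x ^ (2 ^ f - 1)) + x ^ (2 ^ f - 1) := by ring
      rw [h3]
      exact P0.add_mem h2 (Ideal.pow_mem_of_mem _ hx _ (Nat.pos_of_ne_zero hne))
    have huu : IsUnit (algebraMap A0 OO (1 - x ^ (2 ^ f - 1))) := isUnit_algebraMap_iff.2 hu
    have h4 : z * (algebraMap A0 OO y * algebraMap A0 OO (1 - x ^ (2 ^ f - 1))) =
        2 * (- algebraMap A0 OO w) := by
      rw [← mul_assoc, hz', ← map_mul, h1, map_neg, map_mul, map_ofNat]; ring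
    rw [Ideal.mem_span_singleton]
    exact (hyu.mul huu).dvd_mul_right.1 ⟨_, h4⟩
  · rw [Ideal.span_singleton_le_iff_mem, IsLocalRing.mem_maximalIdeal]
    exact two_not_isUnit

lemma isUnit_iff_not_dvd {z : OO} : IsUnit z ↔ ¬ (2 : OO) ∣ z := by
  have h := (IsLocalRing.mem_maximalIdeal (R := OO) z)
  rw [maximalIdeal_eq, Ideal.mem_span_singleton] at h
  rw [h]
  simp [mem_nonunits_iff]

theorem prime_two : Prime (2 : OO) := by
  refine ⟨?_, two_not_isUnit, ?_⟩
  · intro h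
    have : ((2 : OO) : ℂ) = 0 := by rw [h]; rfl
    have h2 : (2 : ℂ) = 0 := this
    norm_num at h2
  · intro a b hab
    by_contra hcon
    push Not at hcon
    exact (isUnit_iff_not_dvd.1 ((isUnit_iff_not_dvd.2 hcon.1).mul (isUnit_iff_not_dvd.2 hcon.2))) hab

lemma two_ne_zero_OO : (2 : OO) ≠ 0 := prime_two.ne_zero

/-- every nonzero element divides a power of two -/
theorem exists_dvd_two_pow {z : OO} (hz : z ≠ 0) : ∃ m : ℕ, z ∣ (2 : OO) ^ m := by
  obtain ⟨x, y, hy, h⟩ := mem_iff.1 z.2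
  have hz' : z * algebraMap A0 OO y = algebraMap A0 OO x := Subtype.ext h
  have hzdvd : z ∣ algebraMap A0 OO x := ⟨_, hz'.symm⟩
  have hx0 : x ≠ 0 := by
    rintro rfl
    rw [map_zero] at hz'
    rcases mul_eq_zero.1 hz' with h1 | h1
    · exact hz h1
    · have := isUnit_algebraMap_iff.2 hy
      rw [h1] at this
      exact not_isUnit_zero this
  have : Nontrivial A0 := inferInstance
  have hxi : IsIntegral ℤ x := by
    have h1 : IsIntegral ℤ (x : ℂ) := isIntegral_of_mem_A0 x.2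
    exact (isIntegral_algHom_iff (A0.subtype.toIntAlgHom) Subtype.val_injective).1 h1
  have hne := Ideal.comap_ne_bot_of_integral_mem (R := ℤ) (I := Ideal.span {x}) hx0
    (Ideal.mem_span_singleton_self x) hxi
  obtain ⟨s, hs, hs0⟩ := Submodule.exists_mem_ne_zero_of_ne_bot hne
  rw [Ideal.mem_comap, Ideal.mem_span_singleton] at hs
  obtain ⟨t, ht⟩ := hs
  have ht' : algebraMap A0 OO x * algebraMap A0 OO t = (s : OO) := by
    rw [← map_mul, ← ht]; simp
  -- s = 2^m * odd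
  obtain ⟨m, k, hk, hsk⟩ := Nat.exists_eq_two_pow_mul_odd (Int.natAbs_ne_zero.2 hs0)
  refine ⟨m, ?_⟩
  have hsdvd : z ∣ (s : OO) := hzdvd.trans ⟨_, ht'.symm⟩
  have hsn : z ∣ ((s.natAbs : ℕ) : OO) := by
    rcases Int.natAbs_eq s with h1 | h1
    · rw [h1, Int.cast_natCast] at hsdvd; exact hsdvd
    · rw [h1, Int.cast_neg, Int.cast_natCast, dvd_neg] at hsdvd; exact hsdvd
  rw [hsk] at hsn
  push_cast at hsn
  exact (isUnit_odd hk).dvd_mul_right.1 hsn

/-- every nonzero element is a unit times a power of `2` -/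
theorem exists_eq_two_pow_mul_unit {z : OO} (hz : z ≠ 0) : ∃ (m : ℕ) (u : OOˣ), z = 2 ^ m * u := by
  obtain ⟨M, hM⟩ := exists_dvd_two_pow hz
  have hfin : ∃ n, ¬ (2 : OO) ^ (n + 1) ∣ z := by
    refine ⟨M, fun h => ?_⟩
    have h1 := h.trans hM
    rw [pow_succ] at h1
    obtain ⟨c, hc⟩ := h1
    have h2 : (2 : OO) ^ M * 1 = 2 ^ M * (2 * c) := by rw [mul_one]; rw [← mul_assoc]; exact hc
    have h3 := mul_left_cancel₀ (pow_ne_zero M two_ne_zero_OO) h2
    exact two_not_isUnit (IsUnit.of_mul_eq_one _ h3.symm)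
  classical
  have hspec := Nat.find_spec hfin
  have hmin : (2 : OO) ^ (Nat.find hfin) ∣ z := by
    rcases Nat.eq_zero_or_pos (Nat.find hfin) with h0 | h0
    · rw [h0, pow_zero]; exact one_dvd z
    · have := Nat.find_min hfin (m := Nat.find hfin - 1) (by omega)
      push Not at this
      rwa [Nat.sub_add_cancel h0] at this
  obtain ⟨c, hc⟩ := hmin
  have hcu : IsUnit c := by
    rw [isUnit_iff_not_dvd]
    rintro ⟨e, he⟩
    apply hspec
    rw [pow_succ]
    refine ⟨e, ?_⟩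
    rw [mul_assoc, ← he]
    exact hc
  obtain ⟨u, rfl⟩ := hcu
  exact ⟨_, u, hc⟩

instance : IsDiscreteValuationRing OO := by
  apply IsDiscreteValuationRing.ofHasUnitMulPowIrreducibleFactorization
  refine ⟨2, prime_two.irreducible, ?_⟩
  intro x hx
  obtain ⟨m, u, h⟩ := exists_eq_two_pow_mul_unit hx
  exact ⟨m, u, h.symm⟩

/-- the field generated by the roots of unity of odd order -/
noncomputable def K0 : Subfield ℂ := Subfield.closure (oddRoots : Set ℂ)

lemma mem_K0_iff {z : ℂ} : z ∈ K0 ↔ ∃ x ∈ A0, ∃ y ∈ A0, x / y = z :=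
  Subfield.mem_closure_iff

lemma OO_le_K0 {z : ℂ} (hz : z ∈ OO) : z ∈ K0 := by
  obtain ⟨x, y, hy, h⟩ := mem_iff.1 hz
  refine mem_K0_iff.2 ⟨x, x.2, y, y.2, ?_⟩
  have hy0 : (y : ℂ) ≠ 0 := by
    intro h0
    apply hy
    have : y = 0 := Subtype.ext h0
    rw [this]; exact P0.zero_mem
  rw [← h, mul_div_cancel_right₀ _ hy0]

/-- denominators are powers of `2` -/
theorem two_pow_mul_mem {z : ℂ} (hz : z ∈ K0) : ∃ m : ℕ, (2 : ℂ) ^ m * z ∈ OO := by
  obtain ⟨x, hx, y, hy, rfl⟩ := mem_K0_iff.1 hz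
  by_cases hy0 : y = 0
  · exact ⟨0, by rw [hy0]; simp [OO.zero_mem]⟩
  obtain ⟨m, c, hc⟩ := exists_dvd_two_pow (z := (⟨y, A0_le_OO hy⟩ : OO))
    (fun h => hy0 (congrArg (Subtype.val : OO → ℂ) h))
  refine ⟨m, ?_⟩
  have h1 : (2 : ℂ) ^ m = y * (c : ℂ) := congrArg (Subtype.val : OO → ℂ) hc
  rw [h1]
  have h2 : y * (c:ℂ) * (x / y) = x * c := by field_simp
  rw [h2]
  exact OO.mul_mem (A0_le_OO hx) c.2

/-- roots of unity of odd order are separated by reduction -/
theorem isUnit_one_sub {n : ℕ} (hn : Odd n) {z : ℂ} (hz : z ^ n = 1) (h1 : z ≠ 1) :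
    IsUnit (1 - (⟨z, root_mem hn hz⟩ : OO)) := by
  have hpos : 0 < n := hn.pos
  -- z is a root of `1 + X + ... `; reduce to a primitive root of order k | n
  set k := orderOf z with hk
  have hkn : k ∣ n := orderOf_dvd_of_pow_eq_one hz
  have hkodd : Odd k := hn.of_dvd_nat hkn
  have hprim : IsPrimitiveRoot z k := IsPrimitiveRoot.orderOf z
  have hk1 : 1 < k := by
    rcases Nat.lt_or_ge 1 k with h | h
    · exact h
    · exfalso
      have hkpos : 0 < k := hkodd.pos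
      have hk' : k = 1 := by omega
      apply h1
      have := hprim.pow_eq_one
      rwa [hk', pow_one] at this
  -- ∏_{i<k-1} (1 - z^(i+1)) = k
  have hprod : ∏ i ∈ Finset.range (k - 1), (1 - z ^ (i + 1)) = (k : ℂ) := by
    obtain ⟨k', hk'⟩ : ∃ k', k = k' + 1 := ⟨k - 1, by omega⟩
    rw [hk'] at hprim ⊢
    simpa using hprim.prod_one_sub_pow_eq_order
  rw [isUnit_iff_not_dvd]
  intro hdvd
  have hdvd2 : (2 : OO) ∣ (k : OO) := by
    refine hdvd.trans ?_
    refine ⟨∏ i ∈ Finset.range (k - 1 - 1), (1 - (⟨z, root_mem hn hz⟩ : OO) ^ (i + 1 + 1)), ?_⟩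
    have h0 : k - 1 = (k - 1 - 1) + 1 := by omega
    apply Subtype.ext
    have : ((k : OO) : ℂ) = k := by simp
    rw [this, ← hprod, h0, Finset.prod_range_succ']
    push_cast
    rw [mul_comm]
    simp
  exact (isUnit_iff_not_dvd.1 (isUnit_odd hkodd)) hdvd2

theorem isUnit_one_add {n : ℕ} (hn : Odd n) {z : ℂ} (hz : z ^ n = 1) (h1 : z ≠ 1) :
    IsUnit (1 + (⟨z, root_mem hn hz⟩ : OO)) := by
  have h2 : (z * z) ^ n = 1 := by rw [mul_pow, hz, one_mul]
  have h3 : z * z ≠ 1 := by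
    intro h
    apply h1
    obtain ⟨k, hk⟩ := hn
    have : z ^ n = z := by
      rw [hk, pow_succ, pow_mul, pow_two, h, one_pow, one_mul]
    rw [← this, hz]
  have h4 := isUnit_one_sub hn h2 h3
  have h5 : (1 - (⟨z * z, root_mem hn h2⟩ : OO)) =
      (1 - (⟨z, root_mem hn hz⟩ : OO)) * (1 + (⟨z, root_mem hn hz⟩ : OO)) := by
    apply Subtype.ext
    change 1 - z * z = (1 - z) * (1 + z)
    ring
  rw [h5] at h4
  exact isUnit_of_mul_isUnit_right h4

theorem inv_one_sub_mem {n : ℕ} (hn : Odd n) {z : ℂ} (hz : z ^ n = 1) (h1 : z ≠ 1) :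
    (1 - z)⁻¹ ∈ OO := (isUnit_iff.1 (isUnit_one_sub hn hz h1)).2

theorem inv_one_add_mem {n : ℕ} (hn : Odd n) {z : ℂ} (hz : z ^ n = 1) (h1 : z ≠ 1) :
    (1 + z)⁻¹ ∈ OO := (isUnit_iff.1 (isUnit_one_add hn hz h1)).2

/-! ### residue field -/

/-- the residue field, an algebraic closure of `𝔽₂` -/
abbrev kappa : Type := IsLocalRing.ResidueField OO

/-- the residue map -/
noncomputable abbrev res : OO →+* kappa := IsLocalRing.residue OO

lemma res_surjective : Function.Surjective res := IsLocalRing.residue_surjective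

lemma res_eq_zero_iff {z : OO} : res z = 0 ↔ (2 : OO) ∣ z := by
  rw [IsLocalRing.residue_eq_zero_iff, maximalIdeal_eq, Ideal.mem_span_singleton]

instance : CharP kappa 2 := by
  apply CharTwo.of_one_ne_zero_of_two_eq_zero one_ne_zero
  have : res (2 : OO) = 0 := res_eq_zero_iff.2 dvd_rfl
  rwa [map_ofNat] at this

/-- the residue map is already surjective on `A0` -/
lemma res_A0_surjective (x : kappa) : ∃ a : A0, res (algebraMap A0 OO a) = x := by
  obtain ⟨z, rfl⟩ := res_surjective x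
  obtain ⟨a, y, hy, h⟩ := mem_iff.1 z.2
  have hz' : z * algebraMap A0 OO y = algebraMap A0 OO a := Subtype.ext h
  have hy' : (Ideal.Quotient.mk P0) y ≠ 0 := by rwa [Ne, Ideal.Quotient.eq_zero_iff_mem]
  obtain ⟨b, hb⟩ : ∃ b : A0, y * b - 1 ∈ P0 := by
    let _ := Ideal.Quotient.field P0
    obtain ⟨b, hb⟩ := Ideal.Quotient.mk_surjective ((Ideal.Quotient.mk P0 y)⁻¹)
    refine ⟨b, ?_⟩
    rw [← Ideal.Quotient.eq, map_mul, hb, map_one]
    exact mul_inv_cancel₀ hy'
  refine ⟨a * b, ?_⟩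
  have h1 : res (algebraMap A0 OO (y * b - 1)) = 0 := by
    rw [IsLocalRing.residue_eq_zero_iff, IsLocalRing.mem_maximalIdeal, mem_nonunits_iff,
      isUnit_algebraMap_iff, not_not]
    exact hb
  rw [map_sub, map_sub, map_mul, map_mul, map_one, map_one, sub_eq_zero] at h1
  rw [map_mul, map_mul, ← hz', map_mul, mul_assoc, h1, mul_one]

/-- every element of `kappa` is fixed by a power of Frobenius -/
theorem frob_kappa (x : kappa) : ∃ f : ℕ, 1 ≤ f ∧ x ^ (2 ^ f) = x := by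
  obtain ⟨a, rfl⟩ := res_A0_surjective x
  obtain ⟨f, hf, w, hw⟩ := frob_A0 a
  refine ⟨f, hf, ?_⟩
  have h1 : a ^ (2 ^ f) = a + 2 * w := by rw [← hw]; ring
  rw [← map_pow, ← map_pow, h1, map_add, map_add, map_mul, map_mul, map_ofNat, map_ofNat,
    CharTwo.two_eq_zero, zero_mul, add_zero]

/-- every nonzero element of `kappa` is the reduction of a root of unity of odd order -/
theorem exists_root_lift {F : Type*} [Field F] [Algebra kappa F] {n : ℕ} (hn : Odd n) {α : F}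
    (hα : α ^ n = 1) : ∃ (z : ℂ) (hz : z ^ n = 1),
      algebraMap kappa F (res ⟨z, root_mem hn hz⟩) = α := by
  have hpos : 0 < n := hn.pos
  have hne : n ≠ 0 := hpos.ne'
  set z : ℂ := Complex.exp (2 * Real.pi * Complex.I / n) with hz
  have hprim : IsPrimitiveRoot z n := Complex.isPrimitiveRoot_exp n hne
  have hz1 : z ^ n = 1 := hprim.pow_eq_one
  set w : OO := ⟨z, root_mem hn hz1⟩ with hw
  have hwprim : IsPrimitiveRoot w n := by
    have : IsPrimitiveRoot (OO.subtype w) n := hprim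
    exact IsPrimitiveRoot.of_map_of_injective this OO.subtype_injective
  have h1 : (X ^ n - 1 : Polynomial OO) = ∏ μ ∈ Polynomial.nthRootsFinset n (1 : OO), (X - C μ) :=
    X_pow_sub_one_eq_prod hpos hwprim
  have h2 := congrArg (fun p : Polynomial OO =>
    Polynomial.eval₂ ((algebraMap kappa F).comp res) α p) h1
  simp only [Polynomial.eval₂_sub, Polynomial.eval₂_pow, Polynomial.eval₂_X,
    Polynomial.eval₂_one, Polynomial.eval₂_finsetProd, Polynomial.eval₂_C] at h2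
  rw [hα, sub_self] at h2
  obtain ⟨μ, hμ, h3⟩ := Finset.prod_eq_zero_iff.1 h2.symm
  have hμn : μ ^ n = 1 := by
    have := (Polynomial.mem_nthRootsFinset hpos (1 : OO)).1 hμ
    exact this
  refine ⟨(μ : ℂ), congrArg (Subtype.val : OO → ℂ) hμn, ?_⟩
  rw [sub_eq_zero] at h3
  exact h3.symm

noncomputable instance : Algebra (ZMod 2) kappa := ZMod.algebra kappa 2

/-- an element of a field of characteristic `2`, algebraic over `kappa`, is fixed by a power of
Frobenius -/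
instance : Algebra.IsAlgebraic (ZMod 2) kappa := by
  refine ⟨fun x => ?_⟩
  obtain ⟨f, hf, h⟩ := frob_kappa x
  refine ⟨X ^ (2 ^ f) - X, ?_, ?_⟩
  · intro h0
    have h1 : (X ^ (2 ^ f) - X : Polynomial (ZMod 2)).coeff 1 = 0 := by rw [h0]; simp
    have hne : (1:ℕ) ≠ 2 ^ f := by
      have : 2 ^ 1 ≤ 2 ^ f := Nat.pow_le_pow_right (by norm_num) hf
      omega
    rw [Polynomial.coeff_sub, Polynomial.coeff_X_pow, Polynomial.coeff_X_one, if_neg hne] at h1
    norm_num at h1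
  · simp [h]

instance : IsAlgClosed kappa := by
  apply IsAlgClosed.of_exists_root
  intro p hp hirr
  -- a root in the algebraic closure
  obtain ⟨α, hα⟩ := IsAlgClosed.exists_aeval_eq_zero (AlgebraicClosure kappa) p
    (Polynomial.degree_pos_of_irreducible hirr).ne'
  by_cases hα0 : α = 0
  · refine ⟨0, ?_⟩
    rw [hα0] at hα
    have h1 : algebraMap kappa (AlgebraicClosure kappa) (p.eval 0) = 0 := by
      rw [← hα]
      simp [Polynomial.aeval_def, Polynomial.eval₂_at_zero, Polynomial.coeff_zero_eq_eval_zero]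
    exact (map_eq_zero _).1 h1
  have halg : IsAlgebraic (ZMod 2) α := by
    have h1 : Algebra.IsAlgebraic kappa (AlgebraicClosure kappa) := inferInstance
    have h2 : Algebra.IsAlgebraic (ZMod 2) (AlgebraicClosure kappa) :=
      Algebra.IsAlgebraic.trans (ZMod 2) kappa (AlgebraicClosure kappa)
    exact h2.isAlgebraic α
  have hfd : FiniteDimensional (ZMod 2) (IntermediateField.adjoin (ZMod 2) {α}) :=
    IntermediateField.adjoin.finiteDimensional halg.isIntegral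
  have hfin : Finite (IntermediateField.adjoin (ZMod 2) {α}) := Module.finite_of_finite (ZMod 2)
  have := Fintype.ofFinite (IntermediateField.adjoin (ZMod 2) {α})
  set q := Fintype.card (IntermediateField.adjoin (ZMod 2) {α}) with hq
  obtain ⟨⟨m, hm⟩, _, hcard⟩ := FiniteField.card (IntermediateField.adjoin (ZMod 2) {α}) 2
  have hqpow : q = 2 ^ m := hcard
  set a : IntermediateField.adjoin (ZMod 2) {α} := ⟨α, IntermediateField.mem_adjoin_simple_self _ α⟩
    with ha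
  have ha0 : a ≠ 0 := fun h => hα0 (congrArg Subtype.val h)
  have h1 : a ^ (q - 1) = 1 := FiniteField.pow_card_sub_one_eq_one a ha0
  have h2 : α ^ (q - 1) = 1 := congrArg Subtype.val h1
  have hodd : Odd (q - 1) := by
    rw [hqpow]
    have hm' : m ≠ 0 := by omega
    exact Nat.Even.sub_odd Nat.one_le_two_pow (Nat.even_pow.2 ⟨even_two, hm'⟩) odd_one
  obtain ⟨z, hz, h3⟩ := exists_root_lift (F := AlgebraicClosure kappa) hodd h2
  refine ⟨res ⟨z, root_mem hodd hz⟩, ?_⟩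
  have h4 : algebraMap kappa (AlgebraicClosure kappa) (p.eval (res ⟨z, root_mem hodd hz⟩)) = 0 := by
    rw [← hα, ← h3, Polynomial.aeval_algebraMap_apply]
    rfl
  exact (map_eq_zero _).1 h4

/-- every nonzero element of `kappa` is the reduction of a root of unity of odd order -/
theorem exists_root_res {x : kappa} (hx : x ≠ 0) : ∃ (n : ℕ) (hn : Odd n) (z : ℂ)
    (hz : z ^ n = 1), res ⟨z, root_mem hn hz⟩ = x := by
  obtain ⟨f, hf, h⟩ := frob_kappa x
  have hodd : Odd (2 ^ f - 1) :=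
    Nat.Even.sub_odd Nat.one_le_two_pow (Nat.even_pow.2 ⟨even_two, by omega⟩) odd_one
  have h1 : x ^ (2 ^ f - 1) = 1 := by
    have h2 : x ^ (2 ^ f) = x * x ^ (2 ^ f - 1) := by
      rw [← pow_succ']
      congr 1
      have := Nat.one_le_two_pow (n := f)
      omega
    rw [h2] at h
    exact mul_left_cancel₀ hx (by rw [h, mul_one])
  obtain ⟨z, hz, h3⟩ := exists_root_lift (F := kappa) hodd h1
  exact ⟨_, hodd, z, hz, h3⟩

/-- roots of unity of odd order with the same reduction are equal -/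
theorem root_res_injective {n : ℕ} (hn : Odd n) {z w : ℂ} (hz : z ^ n = 1) (hw : w ^ n = 1)
    (h : res ⟨z, root_mem hn hz⟩ = res ⟨w, root_mem hn hw⟩) : z = w := by
  by_contra hne
  have hw0 : w ≠ 0 := by
    rintro rfl
    rw [zero_pow hn.pos.ne'] at hw
    exact zero_ne_one hw
  have h1 : (z * w⁻¹) ^ n = 1 := by rw [mul_pow, hz, inv_pow, hw, inv_one, one_mul]
  have h2 : z * w⁻¹ ≠ 1 := by
    intro h3
    apply hne
    rw [← div_eq_mul_inv, div_eq_one_iff_eq hw0] at h3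
    exact h3
  have h4 := isUnit_one_sub hn h1 h2
  have h5 : (⟨w, root_mem hn hw⟩ : OO) * (1 - (⟨z * w⁻¹, root_mem hn h1⟩ : OO)) =
      (⟨w, root_mem hn hw⟩ : OO) - (⟨z, root_mem hn hz⟩ : OO) := by
    apply Subtype.ext
    change w * (1 - z * w⁻¹) = w - z
    field_simp
  have h6 : IsUnit ((⟨w, root_mem hn hw⟩ : OO)) := by
    refine IsUnit.of_mul_eq_one ((⟨w, root_mem hn hw⟩ : OO) ^ (n - 1)) ?_
    apply Subtype.ext
    change w * w ^ (n - 1) = 1
    rw [← pow_succ', Nat.sub_add_cancel hn.pos, hw]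
  have h7 : IsUnit ((⟨w, root_mem hn hw⟩ : OO) - (⟨z, root_mem hn hz⟩ : OO)) := by
    rw [← h5]; exact h6.mul h4
  have h8 : res ((⟨w, root_mem hn hw⟩ : OO) - (⟨z, root_mem hn hz⟩ : OO)) = 0 := by
    rw [map_sub, h, sub_self]
  exact (isUnit_iff_not_dvd.1 h7) (res_eq_zero_iff.1 h8)

end Crest.Agent.R007.Coef
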