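import Crest.Agent.R007.DMain
import Crest.Agent.R007.Lev1

/-! Row 7, section D: the form `Δ(lτ)` as a function on `X`. -/

set_option autoImplicit false

namespace Crest.Agent.R007.Dsec

open UpperHalfPlane ModularForm CongruenceSubgroup Matrix
open Crest.Agent.R007.Lat Crest.Agent.R007.Mix
open scoped MatrixGroups Manifold ModularForm

/-- `Δ` as a function on `X` -/
noncomputable def Dx : X → ℂ := lift 12 Lev1.Dl

lemma Dl_mem_PB : Lev1.Dl ∈ PB ((1 : ℕ) : ℝ) := by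
  have h := Lev1.isF_Dl
  exact ⟨h.periodic, h.holo, h.bdd_infty⟩

lemma Dx_mem_MX : Dx ∈ MX 1 12 := by
  refine ⟨(Lev1.isF_Dl).toModularForm, rfl⟩

lemma Dx_mem_MO : Dx ∈ MO 12 := ⟨1, odd_one, Dx_mem_MX⟩

lemma Dx_inv (γ : SL(2, ℤ)) : sl Dx (sG γ) = Dx := by
  apply (mem_MX_iff.1 Dx_mem_MX).2.1 γ
  rw [Gamma_mem]
  exact ⟨Subsingleton.elim _ _, Subsingleton.elim _ _, Subsingleton.elim _ _, Subsingleton.elim _ _⟩

lemma res_Dx : res Dx = Lev1.Dl := res_lift _ _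

lemma qf_Dl : qf Lev1.Dl = emb 1 ℂ (Rat.qe 1 Lev1.Dl) := qf_eq' 1 odd_one Dl_mem_PB

lemma qf_Dl_nat (n : ℕ) : (qf Lev1.Dl).coeff (n : ℚ) = PowerSeries.coeff n (Rat.qe 1 Lev1.Dl) := by
  rw [qf_Dl]
  have := emb_coeff 1 (Rat.qe 1 Lev1.Dl) n
  rwa [Nat.cast_one, div_one] at this

lemma qf_Dl_of_notMem {r : ℚ} (hr : ∀ n : ℕ, (n : ℚ) ≠ r) : (qf Lev1.Dl).coeff r = 0 := by
  apply qf_coeff_of_notMem odd_one Dl_mem_PB
  intro n
  rw [Nat.cast_one, div_one]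
  exact hr n

lemma qf_Dl_mem (S : Subring ℂ) (r : ℚ) : (qf Lev1.Dl).coeff r ∈ S := by
  by_cases hr : ∃ n : ℕ, (n : ℚ) = r
  · obtain ⟨n, rfl⟩ := hr
    rw [qf_Dl_nat]
    exact (Lev1.isR_one_iff.1 (Lev1.isR_Dl (S := S))).2 n
  · push Not at hr
    rw [qf_Dl_of_notMem hr]
    exact S.zero_mem

lemma qf_Dl_one : (qf Lev1.Dl).coeff 1 = 1 := by
  have := qf_Dl_nat 1
  rw [Nat.cast_one] at this
  rw [this, Lev1.coeff_one_Dl]

lemma qf_Dl_lt {r : ℚ} (hr : r < 1) : (qf Lev1.Dl).coeff r = 0 := by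
  by_cases h : ∃ n : ℕ, (n : ℚ) = r
  · obtain ⟨n, rfl⟩ := h
    have : n = 0 := by
      have : n < 1 := by exact_mod_cast hr
      omega
    subst this
    rw [qf_Dl_nat, Lev1.coeff_zero_Dl]
  · push Not at h
    exact qf_Dl_of_notMem h

lemma ut_pos {l : ℕ} (hl : 0 < l) : 0 < (ut l 0 1).det := by
  rw [ut_det, mul_one]; exact_mod_cast hl

/-- `Δ(lτ)` -/
noncomputable def xD (l : ℕ) (hl : 0 < l) : X → ℂ := sl Dx (iG (ut l 0 1) (ut_pos hl))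

lemma xD_mem_MX {l : ℕ} (hl : 0 < l) : xD l hl ∈ MX l 12 := by
  have := MX_sl_iG Dx_mem_MX (ut l 0 1) (ut_pos hl)
  have e : 1 * (ut l 0 1).det.natAbs = l := by rw [ut_det]; simp
  rw [e] at this
  exact this

lemma res_xD {l : ℕ} (hl : 0 < l) :
    res (xD l hl) = fun τ => Lev1.Dl (iG (ut ((l : ℕ) : ℤ) ((0 : ℕ) : ℤ) ((1 : ℕ) : ℤ)) (ut_pos hl) • τ) := by
  funext τ
  have := res_sl_ut (MX_le_Wt Dx_mem_MX) (a := l) (b := 0) (d := 1) (ut_pos hl) τ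
  rw [xD, this, res_Dx]
  simp

/-- the coefficient of `Δ(lτ)` at `s l` is the coefficient of `Δ` at `s` -/
lemma qf_xD {l : ℕ} (hl : 0 < l) (hlo : Odd l) (s : ℚ) :
    (qf (res (xD l hl))).coeff (s * l) = (qf Lev1.Dl).coeff s := by
  rw [res_xD]
  have h := qf_comp_ut (f := Lev1.Dl) ⟨1, odd_one, Dl_mem_PB⟩ (a := l) (b := 0) (d := 1) hlo odd_one
    (ut_pos hl) s
  have e1 : s * (l : ℚ) / ((1 : ℕ) : ℚ) = s * l := by simp
  have e2 : ee (s * ((0 : ℕ) : ℚ) / ((1 : ℕ) : ℚ)) = 1 := by simp [ee]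
  rw [e1, e2, one_mul] at h
  exact h

lemma qf_xD' {l : ℕ} (hl : 0 < l) (hlo : Odd l) (r : ℚ) :
    (qf (res (xD l hl))).coeff r = (qf Lev1.Dl).coeff (r / l) := by
  have hl0 : (l : ℚ) ≠ 0 := by exact_mod_cast hl.ne'
  have := qf_xD hl hlo (r / l)
  rwa [div_mul_cancel₀ _ hl0] at this

lemma xD_coeff_mem (S : Subring ℂ) {l : ℕ} (hl : 0 < l) (hlo : Odd l) (r : ℚ) :
    (qf (res (xD l hl))).coeff r ∈ S := by
  rw [qf_xD' hl hlo]
  exact qf_Dl_mem S _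

lemma xD_coeff_lt {l : ℕ} (hl : 0 < l) (hlo : Odd l) {r : ℚ} (hr : r < l) :
    (qf (res (xD l hl))).coeff r = 0 := by
  rw [qf_xD' hl hlo]
  apply qf_Dl_lt
  rw [div_lt_one (by exact_mod_cast hl)]
  exact hr

lemma xD_coeff_self {l : ℕ} (hl : 0 < l) (hlo : Odd l) :
    (qf (res (xD l hl))).coeff l = 1 := by
  rw [qf_xD' hl hlo, div_self (by exact_mod_cast hl.ne')]
  exact qf_Dl_one

/-- `Γ₀(l)`-invariance -/
lemma xD_inv {l : ℕ} (hl : 0 < l) {γ : SL(2, ℤ)} (h : (l : ℤ) ∣ γ 1 0) :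
    sl (xD l hl) (sG γ) = xD l hl := by
  obtain ⟨c, hc⟩ := h
  have hdet : γ 0 0 * γ 1 1 - γ 0 1 * γ 1 0 = 1 := by
    have := γ.2
    rwa [Matrix.det_fin_two] at this
  let δ : SL(2, ℤ) := ⟨!![γ 0 0, l * γ 0 1; c, γ 1 1], by
    rw [Matrix.det_fin_two_of]
    rw [hc] at hdet
    linarith⟩
  have e : ut l 0 1 * γ.1 = δ.1 * ut l 0 1 := by
    rw [ut]
    ext i j
    fin_cases i <;> fin_cases j
    · simp [Matrix.mul_apply, Fin.sum_univ_two, δ]; ring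
    · simp [Matrix.mul_apply, Fin.sum_univ_two, δ]
    · simp [Matrix.mul_apply, Fin.sum_univ_two, δ]
      rw [mul_comm] 
      exact hc
    · simp [Matrix.mul_apply, Fin.sum_univ_two, δ]
  have e2 : iG (ut l 0 1) (ut_pos hl) * sG γ = sG δ * iG (ut l 0 1) (ut_pos hl) := by
    rw [sG, sG, ← iG_mul (ut l 0 1) γ.1 _ _ (by rw [Matrix.det_mul, γ.2, mul_one]; exact ut_pos hl),
      ← iG_mul δ.1 (ut l 0 1) _ _ (by rw [Matrix.det_mul, δ.2, one_mul]; exact ut_pos hl)]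
    exact iG_congr e _
  rw [xD, ← sl_mul_right, e2, sl_mul_right, Dx_inv δ]

section
variable {O : Subring ℂ} (hodd : ∀ n : ℕ, Odd n → (n : ℂ)⁻¹ ∈ O)
  (hroot : ∀ x : ℚ, Odd x.den → ee x ∈ O)

include hodd hroot in
lemma Dx_mem_Lk : Dx ∈ Lk O 12 := by
  apply Lk_of_SL hodd hroot Dx_mem_MO
  intro γ r
  rw [Dx_inv, res_Dx]
  exact qf_Dl_mem O r

include hodd hroot in
lemma xD_mem_LM {M l : ℕ} [NeZero M] (hl : 0 < l) (hlo : Odd l) (hlM : l ∣ M) :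
    LM O M 12 (xD l hl) := by
  have : NeZero l := ⟨hl.ne'⟩
  refine ⟨MX_mono hlM (xD_mem_MX hl), Lk_sl (Dx_mem_Lk hodd hroot) (iG_mem_G2 _ _ ?_)⟩
  rw [ut_det, mul_one]
  exact_mod_cast hlo

/-- `Δ(lτ)` is not `0` mod 2 -/
lemma xD_not_Two (hone : (1 : ℂ) ∉ twO O) {l : ℕ} (hl : 0 < l) (hlo : Odd l) :
    ¬ Two O (res (xD l hl)) := by
  intro h
  apply hone
  rw [← xD_coeff_self hl hlo]
  exact Two_iff.1 h _

end

end Crest.Agent.R007.Dsec
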