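import Mathlib

/-! Row 7, section D, (D1): a subgroup of `SL₂(ℤ)` containing `Γ(M)`, `T`, and for each prime
`l ∣ M` an element with lower left entry prime to `l`, is everything. -/

set_option autoImplicit false

open Matrix Matrix.SpecialLinearGroup ModularGroup CongruenceSubgroup

open scoped MatrixGroups

namespace Crest.Agent.R007.DGrp

/-- lower unipotent -/
def Lo (n : ℤ) : SL(2, ℤ) := ⟨!![1, 0; n, 1], by simp [Matrix.det_fin_two]⟩

theorem Lo_add (m n : ℤ) : Lo (m + n) = Lo m * Lo n := by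
  apply Subtype.ext
  show (!![1, 0; m + n, 1] : Matrix (Fin 2) (Fin 2) ℤ) = !![1, 0; m, 1] * !![1, 0; n, 1]
  ext i j
  fin_cases i <;> fin_cases j <;> simp [Matrix.mul_apply, Fin.sum_univ_two]

theorem Lo_zero : Lo 0 = 1 := by
  apply Subtype.ext
  show (!![1, 0; 0, 1] : Matrix (Fin 2) (Fin 2) ℤ) = 1
  ext i j
  fin_cases i <;> fin_cases j <;> simp

theorem Lo_neg (m : ℤ) : Lo (-m) = (Lo m)⁻¹ := by
  rw [eq_inv_iff_mul_eq_one, ← Lo_add]; simp [Lo_zero]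

/-- The exponents `n` with `Lo n ∈ S`. -/
def J (S : Subgroup SL(2, ℤ)) : AddSubgroup ℤ where
  carrier := {n | Lo n ∈ S}
  add_mem' {a b} ha hb := by
    show Lo (a + b) ∈ S
    rw [Lo_add]; exact S.mul_mem ha hb
  zero_mem' := by
    show Lo 0 ∈ S
    rw [Lo_zero]; exact S.one_mem
  neg_mem' {a} ha := by
    show Lo (-a) ∈ S
    rw [Lo_neg]; exact S.inv_mem ha

theorem mem_J {S : Subgroup SL(2, ℤ)} {n : ℤ} : n ∈ J S ↔ Lo n ∈ S := Iff.rfl

/-- congruent matrices -/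
theorem mem_of_congr {M : ℕ} {S : Subgroup SL(2, ℤ)} (hG : Gamma M ≤ S) {g h : SL(2, ℤ)}
    (hg : g ∈ S) (hgh : ∀ i j, ((g i j : ℤ) : ZMod M) = ((h i j : ℤ) : ZMod M)) : h ∈ S := by
  have h1 : g⁻¹ * h ∈ Gamma M := by
    rw [Gamma_mem', map_mul, map_inv, inv_mul_eq_one]
    ext i j
    simpa using hgh i j
  have := S.mul_mem hg (hG h1)
  simpa using this

theorem T_zpow_mem {S : Subgroup SL(2, ℤ)} (hT : T ∈ S) (n : ℤ) : T ^ n ∈ S := S.zpow_mem hT n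

theorem key {M : ℕ} (hM : 0 < M) {S : Subgroup SL(2, ℤ)} (hG : Gamma M ≤ S) (hT : T ∈ S)
    {l : ℕ} (hl : l.Prime) (hlM : l ∣ M) {g : SL(2, ℤ)} (hg : g ∈ S) (hgl : ¬ (l : ℤ) ∣ g 1 0) :
    ∃ n ∈ J S, ¬ (l : ℤ) ∣ n := by
  -- M = l^e * m
  obtain ⟨e, m, hlm, hMe⟩ := Nat.exists_eq_pow_mul_and_not_dvd hM.ne' l hl.ne_one
  set a := g 0 0 with ha
  set b := g 0 1 with hb
  set c := g 1 0 with hc
  set d := g 1 1 with hd
  have hdet : a * d - b * c = 1 := by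
    have := g.det_coe
    rw [Matrix.det_fin_two] at this
    exact this
  -- y with l^e | a + y c
  obtain ⟨y, hy⟩ : ∃ y : ℤ, ((l : ℤ) ^ e) ∣ a + y * c := by
    have hco : IsCoprime c ((l : ℤ) ^ e) := by
      apply IsCoprime.pow_right
      rw [isCoprime_comm, (Nat.prime_iff_prime_int.mp hl).coprime_iff_not_dvd]
      exact hgl
    obtain ⟨u, v, huv⟩ := hco
    exact ⟨-a * u, v * a, by linear_combination (-a) * huv⟩
  set a' := a + y * c with ha'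
  -- the conjugate of T^m
  have hA : T ^ y * g ∈ S := S.mul_mem (T_zpow_mem hT y) hg
  have hH : (T ^ y * g) * T ^ (m : ℤ) * (T ^ y * g)⁻¹ ∈ S :=
    S.mul_mem (S.mul_mem hA (T_zpow_mem hT m)) (S.inv_mem hA)
  obtain ⟨k, hk⟩ := hy
  have hHent : (((T ^ y * g) * T ^ (m : ℤ) * (T ^ y * g)⁻¹ : SL(2, ℤ)) :
      Matrix (Fin 2) (Fin 2) ℤ) =
      !![1 - m * a' * c, m * a' ^ 2; -(m * c ^ 2), 1 + m * a' * c] := by
    have hg2 : ((g : SL(2, ℤ)) : Matrix (Fin 2) (Fin 2) ℤ) = !![a, b; c, d] := by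
      ext i j; fin_cases i <;> fin_cases j <;> rfl
    have h0 : (((T ^ y * g) * T ^ (m : ℤ) * (T ^ y * g)⁻¹ : SL(2, ℤ)) :
      Matrix (Fin 2) (Fin 2) ℤ) = (((T ^ y : SL(2, ℤ)) : Matrix (Fin 2) (Fin 2) ℤ) * g.1) *
        ((T ^ (m : ℤ) : SL(2, ℤ)) : Matrix (Fin 2) (Fin 2) ℤ) *
        Matrix.adjugate (((T ^ y : SL(2, ℤ)) : Matrix (Fin 2) (Fin 2) ℤ) * g.1) := rfl
    rw [h0, coe_T_zpow, coe_T_zpow, hg2, Matrix.adjugate_fin_two]
    ext i j
    fin_cases i <;> fin_cases j <;>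
      simp [Matrix.mul_apply, Fin.sum_univ_two, ha'] <;> first | ring1 | linear_combination hdet
  refine ⟨-(m * c ^ 2), ?_, ?_⟩
  · rw [mem_J]
    refine mem_of_congr hG hH ?_
    have hdvd : ((M : ℕ) : ℤ) ∣ m * a' := by
      rw [hMe, hk]; push_cast; exact ⟨k, by ring⟩
    have h0 : ((m * a' : ℤ) : ZMod M) = 0 := (ZMod.intCast_zmod_eq_zero_iff_dvd _ _).mpr hdvd
    intro i j
    rw [hHent]
    have e1 : ((m * a' * c : ℤ) : ZMod M) = 0 := by rw [Int.cast_mul, h0, zero_mul]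
    have e2 : ((m * a' ^ 2 : ℤ) : ZMod M) = 0 := by
      rw [pow_two, ← mul_assoc, Int.cast_mul, h0, zero_mul]
    fin_cases i <;> fin_cases j
    · show ((1 - m * a' * c : ℤ) : ZMod M) = ((1 : ℤ) : ZMod M)
      rw [Int.cast_sub, e1, sub_zero]
    · show ((m * a' ^ 2 : ℤ) : ZMod M) = ((0 : ℤ) : ZMod M)
      rw [e2, Int.cast_zero]
    · rfl
    · show ((1 + m * a' * c : ℤ) : ZMod M) = ((1 : ℤ) : ZMod M)
      rw [Int.cast_add, e1, add_zero]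
  · intro h
    rw [dvd_neg] at h
    have hp := Nat.prime_iff_prime_int.mp hl
    rcases hp.dvd_or_dvd h with h1 | h1
    · exact hlm (by exact_mod_cast h1)
    · exact hgl (hp.dvd_of_dvd_pow h1)

/-- **(D1)** -/
theorem eq_top (M : ℕ) (hM : 0 < M) (S : Subgroup SL(2, ℤ)) (hG : Gamma M ≤ S) (hT : T ∈ S)
    (h : ∀ l : ℕ, l.Prime → l ∣ M → ∃ g ∈ S, ¬ (l : ℤ) ∣ g 1 0) : S = ⊤ := by
  have hMJ : (M : ℤ) ∈ J S := by
    rw [mem_J]
    apply hG
    rw [Gamma_mem]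
    simp [Lo]
  have hJ1 : (1 : ℤ) ∈ J S := by
    obtain ⟨j, hj⟩ := Int.subgroup_cyclic (J S)
    rw [← AddSubgroup.zmultiples_eq_closure] at hj
    have hjM : j ∣ (M : ℤ) := by
      rw [hj, Int.mem_zmultiples_iff] at hMJ; exact hMJ
    rcases Nat.eq_or_lt_of_le (Nat.one_le_iff_ne_zero.mpr (by
      intro h0
      rw [Int.natAbs_eq_zero] at h0
      rw [h0, zero_dvd_iff] at hjM
      omega : j.natAbs ≠ 0)) with h1 | h1
    · rw [hj, Int.mem_zmultiples_iff]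
      exact Int.natAbs_dvd.mp (by rw [← h1]; simp)
    · exfalso
      obtain ⟨l, hl, hlj⟩ := Nat.exists_prime_and_dvd (n := j.natAbs) (by omega)
      have hlj' : (l : ℤ) ∣ j := Int.natCast_dvd.mpr hlj
      obtain ⟨g, hg, hgl⟩ := h l hl (by exact_mod_cast hlj'.trans hjM)
      obtain ⟨n, hn, hln⟩ := key hM hG hT hl (by exact_mod_cast hlj'.trans hjM) hg hgl
      rw [hj, Int.mem_zmultiples_iff] at hn
      exact hln (hlj'.trans hn)
  rw [eq_top_iff, ← SpecialLinearGroup.SL2Z_generators, Subgroup.closure_le]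
  have hS : ModularGroup.S = T⁻¹ * Lo 1 * T⁻¹ := by
    have h0 : ((T⁻¹ * Lo 1 * T⁻¹ : SL(2, ℤ)) : Matrix (Fin 2) (Fin 2) ℤ) =
      ((T⁻¹ : SL(2, ℤ)) : Matrix (Fin 2) (Fin 2) ℤ) * !![1, 0; 1, 1] *
        ((T⁻¹ : SL(2, ℤ)) : Matrix (Fin 2) (Fin 2) ℤ) := rfl
    apply Matrix.SpecialLinearGroup.ext
    intro i j
    rw [h0, ModularGroup.coe_T_inv, ModularGroup.coe_S]
    fin_cases i <;> fin_cases j <;> simp [Matrix.mul_apply, Fin.sum_univ_two]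
  rintro x (rfl | rfl)
  · rw [hS]
    exact S.mul_mem (S.mul_mem (S.inv_mem hT) hJ1) (S.inv_mem hT)
  · exact hT

end Crest.Agent.R007.DGrp
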