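import Mathlib
import Crest.Agent.R007.HeckeA

/-! Row 7: modular forms of all levels as functions on `X = ℍ × ℂˣ` (based lattices `ℤ wτ + ℤ w`). -/

set_option autoImplicit false

namespace Crest.Agent.R007.Lat

open UpperHalfPlane ModularForm CongruenceSubgroup Matrix
open scoped MatrixGroups Manifold ModularForm

/-- points: `(τ, w)` with `w ≠ 0`, i.e. the based lattice `ℤ wτ + ℤ w`. -/
@[ext] structure X where
  t : ℍ
  w : ℂˣ

lemma det_pos (g : GL(2, ℝ)⁺) : 0 < ((g : GL (Fin 2) ℝ)).det.val := g.2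

lemma sigma_id (g : GL(2, ℝ)⁺) (z : ℂ) : σ (g : GL (Fin 2) ℝ) z = z := by
  unfold σ
  rw [if_pos (det_pos g)]
  rfl

/-- the automorphy factor as a unit -/
noncomputable def dn (g : GL(2, ℝ)⁺) (z : ℍ) : ℂˣ :=
  Units.mk0 (denom (g : GL (Fin 2) ℝ) z) (denom_ne_zero _ z)

@[simp] lemma dn_val (g : GL(2, ℝ)⁺) (z : ℍ) : (dn g z : ℂ) = denom (g : GL (Fin 2) ℝ) z := rfl

lemma dn_mul (g h : GL(2, ℝ)⁺) (z : ℍ) : dn (g * h) z = dn g (h • z) * dn h z := by
  apply Units.ext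
  rw [Units.val_mul, dn_val, dn_val, dn_val]
  have := denom_cocycle_σ (g : GL (Fin 2) ℝ) (h : GL (Fin 2) ℝ) z
  rw [sigma_id] at this
  exact this

lemma dn_one (z : ℍ) : dn 1 z = 1 := by
  apply Units.ext
  simp

noncomputable instance : MulAction (GL(2, ℝ)⁺) X where
  smul g x := ⟨g • x.t, dn g x.t * x.w⟩
  one_smul x := by
    ext
    · exact congrArg _ (one_smul _ _)
    · change ((dn 1 x.t * x.w : ℂˣ) : ℂ) = x.w
      rw [dn_one, one_mul]
  mul_smul g h x := by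
    apply X.ext
    · exact mul_smul g h x.t
    · change dn (g * h) x.t * x.w = dn g (h • x.t) * (dn h x.t * x.w)
      rw [dn_mul, mul_assoc]

@[simp] lemma smul_t (g : GL(2, ℝ)⁺) (x : X) : (g • x).t = g • x.t := rfl
@[simp] lemma smul_w (g : GL(2, ℝ)⁺) (x : X) : (g • x).w = dn g x.t * x.w := rfl

/-- the right action on functions, `F ∥ g` -/
noncomputable def sl (F : X → ℂ) (g : GL(2, ℝ)⁺) : X → ℂ := fun x => F (g • x)

@[simp] lemma sl_apply (F : X → ℂ) (g : GL(2, ℝ)⁺) (x : X) : sl F g x = F (g • x) := rfl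
lemma sl_mul_right (F : X → ℂ) (g h : GL(2, ℝ)⁺) : sl F (g * h) = sl (sl F g) h := by
  funext x; simp [sl, mul_smul]
lemma sl_one_right (F : X → ℂ) : sl F 1 = F := by funext x; simp [sl]
lemma sl_mul (F G : X → ℂ) (g : GL(2, ℝ)⁺) : sl (F * G) g = sl F g * sl G g := rfl
lemma sl_add (F G : X → ℂ) (g : GL(2, ℝ)⁺) : sl (F + G) g = sl F g + sl G g := rfl
lemma sl_sub (F G : X → ℂ) (g : GL(2, ℝ)⁺) : sl (F - G) g = sl F g - sl G g := rfl
lemma sl_smul (c : ℂ) (F : X → ℂ) (g : GL(2, ℝ)⁺) : sl (c • F) g = c • sl F g := rfl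
lemma sl_one (g : GL(2, ℝ)⁺) : sl 1 g = 1 := rfl
lemma sl_zero (g : GL(2, ℝ)⁺) : sl 0 g = 0 := rfl

/-- slash as an algebra homomorphism -/
noncomputable def slHom (g : GL(2, ℝ)⁺) : (X → ℂ) →ₐ[ℂ] (X → ℂ) where
  toFun F := sl F g
  map_one' := rfl
  map_mul' _ _ := rfl
  map_zero' := rfl
  map_add' _ _ := rfl
  commutes' _ := rfl

@[simp] lemma slHom_apply (g : GL(2, ℝ)⁺) (F : X → ℂ) : slHom g F = sl F g := rfl

/-- the weight `k` function attached to `f` -/
noncomputable def lift (k : ℕ) (f : ℍ → ℂ) : X → ℂ := fun x => ((x.w⁻¹ : ℂˣ) : ℂ) ^ k * f x.t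

lemma lift_apply (k : ℕ) (f : ℍ → ℂ) (x : X) : lift k f x = ((x.w⁻¹ : ℂˣ) : ℂ) ^ k * f x.t := rfl

/-- homogeneous functions of weight `k` -/
def Wt (k : ℕ) : Submodule ℂ (X → ℂ) where
  carrier := {F | ∀ (c : ℂˣ) (x : X), F ⟨x.t, c * x.w⟩ = ((c⁻¹ : ℂˣ) : ℂ) ^ k * F x}
  zero_mem' := by intro c x; simp
  add_mem' := by
    intro F G hF hG c x
    simp only [Pi.add_apply, hF c x, hG c x]; ring
  smul_mem' := by
    intro a F hF c x
    simp only [Pi.smul_apply, hF c x, smul_eq_mul]; ring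

lemma mem_Wt {k : ℕ} {F : X → ℂ} :
    F ∈ Wt k ↔ ∀ (c : ℂˣ) (x : X), F ⟨x.t, c * x.w⟩ = ((c⁻¹ : ℂˣ) : ℂ) ^ k * F x := Iff.rfl

/-- restriction to `w = 1` -/
def res (F : X → ℂ) : ℍ → ℂ := fun τ => F ⟨τ, 1⟩

@[simp] lemma res_apply (F : X → ℂ) (τ : ℍ) : res F τ = F ⟨τ, 1⟩ := rfl
lemma res_mul (F G : X → ℂ) : res (F * G) = res F * res G := rfl
lemma res_add (F G : X → ℂ) : res (F + G) = res F + res G := rfl
lemma res_sub (F G : X → ℂ) : res (F - G) = res F - res G := rfl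
lemma res_smul (c : ℂ) (F : X → ℂ) : res (c • F) = c • res F := rfl
lemma res_one : res 1 = 1 := rfl

/-- restriction as an algebra homomorphism -/
def resHom : (X → ℂ) →ₐ[ℂ] (ℍ → ℂ) where
  toFun F := res F
  map_one' := rfl
  map_mul' _ _ := rfl
  map_zero' := rfl
  map_add' _ _ := rfl
  commutes' _ := rfl

lemma lift_mem (k : ℕ) (f : ℍ → ℂ) : lift k f ∈ Wt k := by
  intro c x
  simp only [lift_apply, mul_inv, Units.val_mul, mul_pow]
  ring

@[simp] lemma res_lift (k : ℕ) (f : ℍ → ℂ) : res (lift k f) = f := by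
  funext τ; simp [lift_apply]

lemma lift_res {k : ℕ} {F : X → ℂ} (hF : F ∈ Wt k) : lift k (res F) = F := by
  funext x
  have := hF x.w ⟨x.t, 1⟩
  simp only [mul_one] at this
  rw [lift_apply, res_apply, ← this]

lemma lift_inj {k : ℕ} {f g : ℍ → ℂ} (h : lift k f = lift k g) : f = g := by
  rw [← res_lift k f, h, res_lift]

lemma lift_add (k : ℕ) (f g : ℍ → ℂ) : lift k (f + g) = lift k f + lift k g := by
  funext x; simp [lift_apply, mul_add]
lemma lift_sub (k : ℕ) (f g : ℍ → ℂ) : lift k (f - g) = lift k f - lift k g := by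
  funext x; simp [lift_apply, mul_sub]
lemma lift_smul (k : ℕ) (c : ℂ) (f : ℍ → ℂ) : lift k (c • f) = c • lift k f := by
  funext x; simp [lift_apply]; ring
lemma lift_zero (k : ℕ) : lift k 0 = 0 := by funext x; simp [lift_apply]
lemma lift_mul (k l : ℕ) (f g : ℍ → ℂ) : lift (k + l) (f * g) = lift k f * lift l g := by
  funext x; simp [lift_apply, pow_add]; ring
lemma lift_one : lift 0 1 = 1 := by funext x; simp [lift_apply]

lemma Wt_mul {k l : ℕ} {F G : X → ℂ} (hF : F ∈ Wt k) (hG : G ∈ Wt l) : F * G ∈ Wt (k + l) := by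
  intro c x
  simp only [Pi.mul_apply, hF c x, hG c x, pow_add]; ring

lemma Wt_one : (1 : X → ℂ) ∈ Wt 0 := by intro c x; simp

lemma Wt_sl {k : ℕ} {F : X → ℂ} (hF : F ∈ Wt k) (g : GL(2, ℝ)⁺) : sl F g ∈ Wt k := by
  intro c x
  have := hF c (g • x)
  simp only [sl_apply]
  rw [← this]
  congr 1
  apply X.ext
  · rfl
  · change dn g x.t * (c * x.w) = c * (dn g x.t * x.w)
    exact mul_left_comm _ _ _

/-- functions of different weights are linearly independent -/
lemma Wt_indep {n : ℕ} {F : ℕ → X → ℂ} (hF : ∀ k, F k ∈ Wt k)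
    (h : ∑ k ∈ Finset.range n, F k = 0) : ∀ k < n, F k = 0 := by
  intro k hk
  funext x
  -- polynomial in the variable `c`
  let P : Polynomial ℂ := ∑ j ∈ Finset.range n, Polynomial.C (F j x) * Polynomial.X ^ j
  have hP : ∀ c : ℂˣ, P.eval (c : ℂ) = 0 := by
    intro c
    have h1 := congrFun h ⟨x.t, c⁻¹ * x.w⟩
    rw [Finset.sum_apply] at h1
    have h2 : ∀ j, F j ⟨x.t, c⁻¹ * x.w⟩ = (c : ℂ) ^ j * F j x := by
      intro j
      have := hF j c⁻¹ x
      rwa [inv_inv] at this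
    simp only [h2, Pi.zero_apply] at h1
    simp only [P, Polynomial.eval_finsetSum, Polynomial.eval_mul, Polynomial.eval_C,
      Polynomial.eval_pow, Polynomial.eval_X]
    rw [← h1]
    exact Finset.sum_congr rfl fun j _ => mul_comm _ _
  have hP0 : P = 0 := by
    apply Polynomial.eq_zero_of_infinite_isRoot
    refine Set.Infinite.mono (s := {z : ℂ | z ≠ 0}) ?_ ?_
    · intro z hz
      exact hP (Units.mk0 z hz)
    · exact (Set.finite_singleton (0 : ℂ)).infinite_compl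
  have := congrArg (fun Q => Polynomial.coeff Q k) hP0
  simp only [P, Polynomial.finsetSum_coeff, Polynomial.coeff_C_mul_X_pow, Polynomial.coeff_zero] at this
  rw [Finset.sum_eq_single k] at this
  · simpa using this
  · intro b _ hb
    rw [if_neg (Ne.symm hb)]
  · intro hk'
    exact absurd (Finset.mem_range.2 hk) hk'

lemma Wt_unique {n : ℕ} {F G : ℕ → X → ℂ} (hF : ∀ k, F k ∈ Wt k) (hG : ∀ k, G k ∈ Wt k)
    (h : ∑ k ∈ Finset.range n, F k = ∑ k ∈ Finset.range n, G k) : ∀ k < n, F k = G k := by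
  intro k hk
  have := Wt_indep (n := n) (F := fun k => F k - G k) (fun k => sub_mem (hF k) (hG k))
    (by rw [Finset.sum_sub_distrib, h, sub_self]) k hk
  exact sub_eq_zero.1 this

end Crest.Agent.R007.Lat
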