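import Mathlib
import Crest.Agent.R007.Lat1

/-! Row 7: `MX M k`, `MO k`, the group `G2`, stability. -/

set_option autoImplicit false

namespace Crest.Agent.R007.Lat

open UpperHalfPlane ModularForm CongruenceSubgroup Matrix
open scoped MatrixGroups Manifold ModularForm

/-- integral matrices of positive determinant in `GL(2,ℝ)⁺` -/
noncomputable def iG (A : Matrix (Fin 2) (Fin 2) ℤ) (h : 0 < A.det) : GL(2, ℝ)⁺ :=
  ⟨toGL A h.ne', by
    rw [Matrix.mem_glpos, toGL_det]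
    exact_mod_cast h⟩

lemma iG_coe (A : Matrix (Fin 2) (Fin 2) ℤ) (h : 0 < A.det) :
    ((iG A h : GL(2, ℝ)⁺) : GL (Fin 2) ℝ) = toGL A h.ne' := rfl

lemma iG_val (A : Matrix (Fin 2) (Fin 2) ℤ) (h : 0 < A.det) :
    (((iG A h : GL(2, ℝ)⁺) : GL (Fin 2) ℝ) : Matrix (Fin 2) (Fin 2) ℝ) = A.map (Int.cast : ℤ → ℝ) := rfl

lemma iG_mul (A B : Matrix (Fin 2) (Fin 2) ℤ) (h : 0 < A.det) (h' : 0 < B.det)
    (h'' : 0 < (A * B).det) : iG (A * B) h'' = iG A h * iG B h' := by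
  apply Subtype.ext
  exact toGL_mul A B h.ne' h'.ne' h''.ne'

lemma iG_congr {A B : Matrix (Fin 2) (Fin 2) ℤ} (e : A = B) (h : 0 < A.det) :
    iG A h = iG B (e ▸ h) := by subst e; rfl

/-- `SL(2,ℤ)` inside `GL(2,ℝ)⁺` -/
noncomputable def sG (γ : SL(2, ℤ)) : GL(2, ℝ)⁺ := iG γ.1 (by simp)

lemma sG_coe (γ : SL(2, ℤ)) : ((sG γ : GL(2, ℝ)⁺) : GL (Fin 2) ℝ) = Matrix.SpecialLinearGroup.mapGL ℝ γ :=
  (mapGL_eq_toGL γ).symm

lemma sG_mul (γ δ : SL(2, ℤ)) : sG (γ * δ) = sG γ * sG δ := by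
  rw [sG, sG, sG, ← iG_mul _ _ _ _ (by simp)]
  rfl

lemma sG_one : sG 1 = 1 := by
  apply Subtype.ext
  rw [sG_coe]
  simp

/-- slash versus `sl` -/
lemma slash_eq_res (k : ℕ) (f : ℍ → ℂ) (g : GL(2, ℝ)⁺) :
    f ∣[(k : ℤ)] (g : GL (Fin 2) ℝ) =
      (((g : GL (Fin 2) ℝ).det.val : ℂ) ^ ((k : ℤ) - 1)) • res (sl (lift k f) g) := by
  funext τ
  rw [slash_apply, Pi.smul_apply, sigma_id, abs_of_pos (det_pos g)]
  simp only [res_apply, sl_apply, lift_apply, smul_t, smul_w, mul_one, smul_eq_mul, dn_val,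
    Units.val_inv_eq_inv_val, _root_.zpow_neg, zpow_natCast, inv_pow]
  have : (g : GL (Fin 2) ℝ) • τ = g • τ := rfl
  rw [this]
  ring

lemma slash_SL_eq_res (k : ℕ) (f : ℍ → ℂ) (γ : SL(2, ℤ)) :
    f ∣[(k : ℤ)] γ = res (sl (lift k f) (sG γ)) := by
  have h := slash_eq_res k f (sG γ)
  rw [sG_coe] at h
  have h2 : f ∣[(k : ℤ)] γ = f ∣[(k : ℤ)] (Matrix.SpecialLinearGroup.mapGL ℝ γ) := rfl
  rw [h2, h]
  have : (((Matrix.SpecialLinearGroup.mapGL ℝ γ).det.val : ℝ)) = 1 := by simp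
  rw [this]
  simp

lemma sl_lift (k : ℕ) (f : ℍ → ℂ) (g : GL(2, ℝ)⁺) : sl (lift k f) g = lift k (res (sl (lift k f) g)) :=
  (lift_res (Wt_sl (lift_mem k f) g)).symm

lemma sl_lift_SL (k : ℕ) (f : ℍ → ℂ) (γ : SL(2, ℤ)) :
    sl (lift k f) (sG γ) = lift k (f ∣[(k : ℤ)] γ) := by
  rw [sl_lift, slash_SL_eq_res]

lemma res_sl_eq (k : ℕ) (f : ℍ → ℂ) (g : GL(2, ℝ)⁺) :
    res (sl (lift k f) g) =
      (((g : GL (Fin 2) ℝ).det.val : ℂ) ^ (1 - (k : ℤ))) • (f ∣[(k : ℤ)] (g : GL (Fin 2) ℝ)) := by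
  rw [slash_eq_res, smul_smul, ← zpow_add₀]
  · simp
  · exact_mod_cast (det_pos g).ne'

/-- level `Γ(M)`, weight `k`, as functions on `X` -/
def MX (M k : ℕ) : Submodule ℂ (X → ℂ) where
  carrier := {F | ∃ f : ModularForm ((Gamma M : Subgroup SL(2, ℤ)) : Subgroup (GL (Fin 2) ℝ)) (k : ℤ),
    F = lift k f}
  zero_mem' := ⟨0, by rw [FunLike.coe_zero, lift_zero]⟩
  add_mem' := by
    rintro _ _ ⟨f, rfl⟩ ⟨g, rfl⟩
    exact ⟨f + g, by rw [FunLike.coe_add, lift_add]⟩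
  smul_mem' := by
    rintro c _ ⟨f, rfl⟩
    exact ⟨c • f, by rw [FunLike.coe_smul, lift_smul]⟩

lemma mem_MX {M k : ℕ} {F : X → ℂ} : F ∈ MX M k ↔
    ∃ f : ModularForm ((Gamma M : Subgroup SL(2, ℤ)) : Subgroup (GL (Fin 2) ℝ)) (k : ℤ), F = lift k f :=
  Iff.rfl

/-- the intrinsic characterisation -/
lemma mem_MX_iff {M : ℕ} [NeZero M] {k : ℕ} {F : X → ℂ} : F ∈ MX M k ↔
    F ∈ Wt k ∧ (∀ γ ∈ Gamma M, sl F (sG γ) = F) ∧ MDiff (res F) ∧
      (∀ γ : SL(2, ℤ), IsBoundedAtImInfty (res (sl F (sG γ)))) := by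
  constructor
  · rintro ⟨f, rfl⟩
    refine ⟨lift_mem _ _, ?_, ?_, ?_⟩
    · intro γ hγ
      rw [sl_lift_SL]
      have := SlashInvariantForm.slash_action_eqn
        (Γ := ((Gamma M : Subgroup SL(2, ℤ)) : Subgroup (GL (Fin 2) ℝ))) (k := (k : ℤ)) f
        (Matrix.SpecialLinearGroup.mapGL ℝ γ) ⟨γ, hγ, rfl⟩
      exact congrArg _ this
    · rw [res_lift]; exact ModularFormClass.holo f
    · intro γ
      rw [← slash_SL_eq_res]
      have hc : IsCusp (Matrix.SpecialLinearGroup.mapGL ℝ γ • OnePoint.infty)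
          ((Gamma M : Subgroup SL(2, ℤ)) : Subgroup (GL (Fin 2) ℝ)) := by
        rw [Subgroup.IsArithmetic.isCusp_iff_isCusp_SL2Z, isCusp_SL2Z_iff']
        exact ⟨γ, rfl⟩
      have h1 := ModularFormClass.bdd_at_cusps f hc
      exact h1 _ rfl
  · rintro ⟨h0, h1, h2, h3⟩
    refine ⟨{ toFun := res F
              slash_action_eq' := ?_
              holo' := h2
              bdd_at_cusps' := ?_ }, (lift_res h0).symm⟩
    · rintro _ ⟨γ, hγ, rfl⟩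
      have := h1 γ hγ
      rw [← lift_res h0, sl_lift_SL] at this
      exact lift_inj this
    · intro c hc
      rw [Subgroup.IsArithmetic.isCusp_iff_isCusp_SL2Z] at hc
      rw [OnePoint.isBoundedAt_iff_forall_SL2Z hc]
      intro γ _
      rw [slash_SL_eq_res, lift_res h0]
      exact h3 γ

lemma MX_le_Wt {M k : ℕ} : MX M k ≤ Wt k := by
  rintro _ ⟨f, rfl⟩; exact lift_mem _ _

lemma MX_mono {M M' k : ℕ} [NeZero M] [NeZero M'] (h : M ∣ M') : MX M k ≤ MX M' k := by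
  intro F hF
  rw [mem_MX_iff] at hF ⊢
  refine ⟨hF.1, fun γ hγ => hF.2.1 γ (?_), hF.2.2⟩
  rw [Gamma_mem] at hγ ⊢
  have key : ∀ x : ℤ, ∀ y : ℤ, ((x : ZMod M') = (y : ZMod M')) → ((x : ZMod M) = (y : ZMod M)) := by
    intro x y hxy
    rw [ZMod.intCast_eq_intCast_iff_dvd_sub] at hxy ⊢
    exact (Int.natCast_dvd_natCast.2 h).trans hxy
  obtain ⟨a, b, c, d⟩ := hγ
  exact ⟨by simpa using key _ 1 (by simpa using a), by simpa using key _ 0 (by simpa using b),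
    by simpa using key _ 0 (by simpa using c), by simpa using key _ 1 (by simpa using d)⟩

lemma MX_mul {M : ℕ} [NeZero M] {k l : ℕ} {F G : X → ℂ} (hF : F ∈ MX M k) (hG : G ∈ MX M l) :
    F * G ∈ MX M (k + l) := by
  rw [mem_MX_iff] at hF hG ⊢
  refine ⟨Wt_mul hF.1 hG.1, fun γ hγ => ?_, ?_, fun γ => ?_⟩
  · rw [sl_mul, hF.2.1 γ hγ, hG.2.1 γ hγ]
  · rw [res_mul]
    exact hF.2.2.1.mul hG.2.2.1
  · rw [sl_mul, res_mul]
    exact (hF.2.2.2 γ).mul (hG.2.2.2 γ)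

lemma MX_one {M : ℕ} [NeZero M] : (1 : X → ℂ) ∈ MX M 0 := by
  rw [mem_MX_iff]
  refine ⟨Wt_one, fun _ _ => rfl, ?_, fun γ => ?_⟩
  · rw [res_one]; exact mdifferentiable_const
  · rw [sl_one, res_one]
    exact Filter.const_boundedAtFilter _ 1

end Crest.Agent.R007.Lat
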