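import Mathlib
import Crest.Agent.R007.Lat2

/-! Row 7: the group `G2 = GL₂⁺(ℤ_(2))`, stability of modular forms of odd level, the ring `MM`. -/

set_option autoImplicit false

namespace Crest.Agent.R007.Lat

open UpperHalfPlane ModularForm CongruenceSubgroup Matrix
open scoped MatrixGroups Manifold ModularForm

/-! ### integral matrices -/

lemma exists_conj (A : Matrix (Fin 2) (Fin 2) ℤ) (hA : 0 < A.det) (M : ℕ) {γ : SL(2, ℤ)}
    (hγ : γ ∈ Gamma (M * A.det.natAbs)) :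
    ∃ δ ∈ Gamma M, A * γ.1 = δ.1 * A := by
  rw [Gamma_mem] at hγ
  obtain ⟨h00, h01, h10, h11⟩ := hγ
  have cast1 : (((M * A.det.natAbs : ℕ) : ℤ)) = M * A.det := by
    push_cast
    rw [abs_of_pos hA]
  have e00 : ((M : ℤ) * A.det) ∣ γ 0 0 - 1 := by
    rw [← cast1, ← ZMod.intCast_zmod_eq_zero_iff_dvd]; push_cast; rw [h00]; ring
  have e01 : ((M : ℤ) * A.det) ∣ γ 0 1 := by
    rw [← cast1, ← ZMod.intCast_zmod_eq_zero_iff_dvd]; exact h01
  have e10 : ((M : ℤ) * A.det) ∣ γ 1 0 := by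
    rw [← cast1, ← ZMod.intCast_zmod_eq_zero_iff_dvd]; exact h10
  have e11 : ((M : ℤ) * A.det) ∣ γ 1 1 - 1 := by
    rw [← cast1, ← ZMod.intCast_zmod_eq_zero_iff_dvd]; push_cast; rw [h11]; ring
  obtain ⟨b00, hb00⟩ := e00
  obtain ⟨b01, hb01⟩ := e01
  obtain ⟨b10, hb10⟩ := e10
  obtain ⟨b11, hb11⟩ := e11
  let B : Matrix (Fin 2) (Fin 2) ℤ := !![b00, b01; b10, b11]
  have hγB : γ.1 = 1 + ((M : ℤ) * A.det) • B := by
    ext i j
    fin_cases i <;> fin_cases j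
    · simp [B]; linarith [hb00]
    · simp [B]; linarith [hb01]
    · simp [B]; linarith [hb10]
    · simp [B]; linarith [hb11]
  let Dm : Matrix (Fin 2) (Fin 2) ℤ := 1 + (M : ℤ) • (A * B * A.adjugate)
  have hD : Dm * A = A * γ.1 := by
    rw [hγB]
    simp only [Dm, add_mul, mul_add, one_mul, mul_one, smul_mul_assoc, mul_smul_comm]
    congr 1
    rw [Matrix.mul_assoc (A * B), Matrix.adjugate_mul, Matrix.mul_smul, Matrix.mul_one, smul_smul]
  have hdet : Dm.det = 1 := by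
    have := congrArg Matrix.det hD
    rw [Matrix.det_mul, Matrix.det_mul, γ.2, mul_one] at this
    exact mul_right_cancel₀ hA.ne' (by rw [this, one_mul])
  let δ : SL(2, ℤ) := ⟨Dm, hdet⟩
  refine ⟨δ, ?_, hD.symm⟩
  rw [Gamma_mem]
  have hz : ∀ x : ℤ, (((M : ℤ) * x : ℤ) : ZMod M) = 0 := by intro x; simp
  refine ⟨?_, ?_, ?_, ?_⟩
  · change ((Dm 0 0 : ℤ) : ZMod M) = 1
    have : Dm 0 0 = 1 + (M : ℤ) * (A * B * A.adjugate) 0 0 := rfl
    rw [this, Int.cast_add, hz]; simp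
  · change ((Dm 0 1 : ℤ) : ZMod M) = 0
    have : Dm 0 1 = (M : ℤ) * (A * B * A.adjugate) 0 1 := zero_add _
    rw [this, hz]
  · change ((Dm 1 0 : ℤ) : ZMod M) = 0
    have : Dm 1 0 = (M : ℤ) * (A * B * A.adjugate) 1 0 := zero_add _
    rw [this, hz]
  · change ((Dm 1 1 : ℤ) : ZMod M) = 1
    have : Dm 1 1 = 1 + (M : ℤ) * (A * B * A.adjugate) 1 1 := rfl
    rw [this, Int.cast_add, hz]; simp

lemma bddAtInfty_smul {f : ℍ → ℂ} (hf : IsBoundedAtImInfty f) (c : ℂ) :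
    IsBoundedAtImInfty (c • f) := hf.smul c

/-- stability under integral matrices of positive determinant -/
lemma MX_sl_iG {M : ℕ} [NeZero M] {k : ℕ} {F : X → ℂ} (hF : F ∈ MX M k)
    (A : Matrix (Fin 2) (Fin 2) ℤ) (hA : 0 < A.det) :
    sl F (iG A hA) ∈ MX (M * A.det.natAbs) k := by
  have : NeZero A.det.natAbs := ⟨by simpa using hA.ne'⟩
  obtain ⟨f, rfl⟩ := hF
  have hF : lift k f ∈ MX M k := ⟨f, rfl⟩
  rw [mem_MX_iff] at hF ⊢
  have hb : ∀ c : OnePoint ℝ, IsCusp c 𝒮ℒ → OnePoint.IsBoundedAt c (⇑f) (k : ℤ) := by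
    intro c hc
    rw [OnePoint.isBoundedAt_iff_forall_SL2Z hc]
    intro γ _
    rw [slash_SL_eq_res]
    exact hF.2.2.2 γ
  refine ⟨Wt_sl hF.1 _, ?_, ?_, ?_⟩
  · intro γ hγ
    obtain ⟨δ, hδ, e⟩ := exists_conj A hA M hγ
    have e2 : iG A hA * sG γ = sG δ * iG A hA := by
      rw [sG, sG, ← iG_mul A γ.1 _ _ (by simpa using hA), ← iG_mul δ.1 A _ _ (by simpa using hA)]
      exact iG_congr e _
    rw [← sl_mul_right, e2, sl_mul_right, hF.2.1 δ hδ]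
  · rw [res_sl_eq]
    exact ((ModularFormClass.holo f).slash _ _).const_smul _
  · intro γ
    rw [← sl_mul_right, res_sl_eq]
    apply bddAtInfty_smul
    have hdet : (A * γ.1).det ≠ 0 := by simpa using hA.ne'
    obtain ⟨g, hg⟩ := toGL_rat (A * γ.1) hdet
    have e3 : ((iG A hA * sG γ : GL(2, ℝ)⁺) : GL (Fin 2) ℝ) = g.map (Rat.castHom ℝ) := by
      rw [← hg, toGL_mul A γ.1 hA.ne' (by simp) hdet]
      rfl
    rw [e3]
    have h1 := bdd_slash hb g OnePoint.infty (isCusp_SL2Z_iff'.2 ⟨1, by simp⟩)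
    exact OnePoint.isBoundedAt_infty_iff.1 h1

/-- scalar matrix -/
def sc (n : ℤ) : Matrix (Fin 2) (Fin 2) ℤ := !![n, 0; 0, n]

lemma sc_det (n : ℤ) : (sc n).det = n * n := by simp [sc, Matrix.det_fin_two_of]

lemma sc_det_pos {n : ℤ} (hn : n ≠ 0) : 0 < (sc n).det := by
  rw [sc_det]; exact mul_self_pos.2 hn

lemma sc_map (n : ℤ) : (sc n).map (Int.cast : ℤ → ℝ) = (n : ℝ) • (1 : Matrix (Fin 2) (Fin 2) ℝ) := by
  ext i j; fin_cases i <;> fin_cases j <;> simp [sc, Matrix.smul_apply]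

/-- scalars -/
lemma sl_scalar {k : ℕ} {F : X → ℂ} (hF : F ∈ Wt k) (n : ℤ) (hn : 0 < (sc n).det) :
    sl F (iG (sc n) hn) = ((n : ℂ)⁻¹) ^ k • F := by
  have hn0 : (n : ℂ) ≠ 0 := by
    intro h
    have : n = 0 := by exact_mod_cast h
    subst this
    simp [sc_det] at hn
  funext x
  rw [sl_apply, Pi.smul_apply, smul_eq_mul]
  have := hF (Units.mk0 (n : ℂ) hn0) x
  rw [Units.val_inv_eq_inv_val, Units.val_mk0] at this
  rw [← this]
  congr 1
  apply X.ext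
  · rw [smul_t]
    have hh : ((iG (sc n) hn : GL(2, ℝ)⁺) : GL (Fin 2) ℝ) =
        .scalar (Fin 2) (Units.mk0 (n : ℝ) (by exact_mod_cast hn0)) := by
      apply Units.ext
      rw [iG_val, sc_map, Matrix.GeneralLinearGroup.coe_scalar, Matrix.smul_one_eq_diagonal]
      rfl
    change ((iG (sc n) hn : GL(2, ℝ)⁺) : GL (Fin 2) ℝ) • x.t = x.t
    rw [hh, UpperHalfPlane.glScalar_smul]
  · rw [smul_w]
    congr 1
    apply Units.ext
    rw [dn_val, Units.val_mk0, denom, iG_val]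
    simp [sc]

/-! ### the group `G2` -/

/-- `GL₂⁺(ℤ_(2))`: matrices `g` with `n g` integral of odd determinant for some odd `n`. -/
def G2 : Subgroup GL(2, ℝ)⁺ where
  carrier := {g | ∃ (n : ℕ) (A : Matrix (Fin 2) (Fin 2) ℤ), Odd n ∧ Odd A.det ∧
    (n : ℝ) • ((g : GL (Fin 2) ℝ) : Matrix (Fin 2) (Fin 2) ℝ) = A.map (Int.cast : ℤ → ℝ)}
  one_mem' := ⟨1, 1, odd_one, by simp, by
    ext i j; fin_cases i <;> fin_cases j <;> simp⟩
  mul_mem' := by
    rintro g h ⟨n, A, hn, hA, e⟩ ⟨m, B, hm, hB, e'⟩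
    refine ⟨n * m, A * B, hn.mul hm, by rw [Matrix.det_mul]; exact hA.mul hB, ?_⟩
    have : (A * B).map (Int.cast : ℤ → ℝ) = A.map (Int.cast : ℤ → ℝ) * B.map (Int.cast : ℤ → ℝ) := by
      have := map_mul (Int.castRingHom ℝ).mapMatrix A B
      exact this
    rw [this, ← e, ← e']
    simp only [Subgroup.coe_mul, Units.val_mul, Nat.cast_mul, smul_mul_assoc, mul_smul_comm, smul_smul]
    try rw [mul_comm]
  inv_mem' := by
    rintro g ⟨n, A, hn, hA, e⟩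
    have hdet : 0 < A.det := by
      have h1 := congrArg Matrix.det e
      have h2 : (A.map (Int.cast : ℤ → ℝ)).det = (A.det : ℝ) := by
        have := RingHom.map_det (Int.castRingHom ℝ) A
        simpa using this.symm
      rw [h2, Matrix.det_smul] at h1
      have h3 : 0 < ((g : GL (Fin 2) ℝ) : Matrix (Fin 2) (Fin 2) ℝ).det := g.2
      have h4 : (0 : ℝ) < (n : ℝ) := by exact_mod_cast hn.pos
      have : (0 : ℝ) < (A.det : ℝ) := by rw [← h1]; positivity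
      exact_mod_cast this
    refine ⟨A.det.natAbs, sc n * A.adjugate, ?_, ?_, ?_⟩
    · exact Int.natAbs_odd.2 hA
    · rw [Matrix.det_mul, sc_det, Matrix.det_adjugate]
      have : Odd (n : ℤ) := by exact_mod_cast hn
      exact (this.mul this).mul (hA.pow)
    · have h1 : (A.map (Int.cast : ℤ → ℝ)) * (A.adjugate.map (Int.cast : ℤ → ℝ)) = (A.det : ℝ) • 1 := by
        have := congrArg (Int.castRingHom ℝ).mapMatrix (Matrix.mul_adjugate A)
        rw [map_mul] at this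
        have h7 : (Int.castRingHom ℝ).mapMatrix (A.det • (1 : Matrix (Fin 2) (Fin 2) ℤ)) =
            (A.det : ℝ) • (1 : Matrix (Fin 2) (Fin 2) ℝ) := by
          ext i j
          rw [RingHom.mapMatrix_apply, Matrix.map_apply, Matrix.smul_apply, Matrix.smul_apply]
          fin_cases i <;> fin_cases j <;> simp
        rw [h7] at this
        exact this
      rw [← e, smul_mul_assoc] at h1
      have hg : ((g⁻¹ : GL(2, ℝ)⁺) : GL (Fin 2) ℝ).val * ((g : GL (Fin 2) ℝ)).val = 1 := by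
        rw [← Units.val_mul, ← Subgroup.coe_mul, inv_mul_cancel]; rfl
      have h5 := congrArg (fun Z => ((g⁻¹ : GL(2, ℝ)⁺) : GL (Fin 2) ℝ).val * Z) h1
      simp only [mul_smul_comm, ← Matrix.mul_assoc, hg, Matrix.one_mul, Matrix.mul_one] at h5
      have h6 : ((A.det.natAbs : ℕ) : ℝ) = (A.det : ℝ) := by
        rw [Nat.cast_natAbs, abs_of_pos hdet]
      have h8 : (sc n * A.adjugate).map (Int.cast : ℤ → ℝ) =
          (sc n).map (Int.cast : ℤ → ℝ) * A.adjugate.map (Int.cast : ℤ → ℝ) := by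
        have := map_mul (Int.castRingHom ℝ).mapMatrix (sc n) A.adjugate
        exact this
      rw [h6, ← h5, h8, sc_map, smul_mul_assoc, Matrix.one_mul]
      simp

lemma mem_G2 {g : GL(2, ℝ)⁺} : g ∈ G2 ↔ ∃ (n : ℕ) (A : Matrix (Fin 2) (Fin 2) ℤ), Odd n ∧ Odd A.det ∧
    (n : ℝ) • ((g : GL (Fin 2) ℝ) : Matrix (Fin 2) (Fin 2) ℝ) = A.map (Int.cast : ℤ → ℝ) := Iff.rfl

lemma iG_mem_G2 (A : Matrix (Fin 2) (Fin 2) ℤ) (h : 0 < A.det) (ho : Odd A.det) : iG A h ∈ G2 :=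
  ⟨1, A, odd_one, ho, by simp [iG_val]⟩

lemma sG_mem_G2 (γ : SL(2, ℤ)) : sG γ ∈ G2 := iG_mem_G2 _ _ (by simp)

/-- every element of `G2` is `(scalar n)⁻¹ * (integral matrix of odd determinant)` -/
lemma G2_exists {g : GL(2, ℝ)⁺} (hg : g ∈ G2) : ∃ (n : ℕ) (A : Matrix (Fin 2) (Fin 2) ℤ)
    (_ : Odd n) (_ : Odd A.det) (h : 0 < A.det)
    (h' : 0 < (sc n).det),
    iG (sc n) h' * g = iG A h ∧ g * iG (sc n) h' = iG A h := by
  obtain ⟨n, A, hn, hA, e⟩ := hg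
  have h4 : (0 : ℝ) < (n : ℝ) := by exact_mod_cast hn.pos
  have hdet : 0 < A.det := by
    have h1 := congrArg Matrix.det e
    have h2 : (A.map (Int.cast : ℤ → ℝ)).det = (A.det : ℝ) := by
      have := RingHom.map_det (Int.castRingHom ℝ) A
      simpa using this.symm
    rw [h2, Matrix.det_smul] at h1
    have h3 : 0 < ((g : GL (Fin 2) ℝ) : Matrix (Fin 2) (Fin 2) ℝ).det := g.2
    have : (0 : ℝ) < (A.det : ℝ) := by rw [← h1]; positivity
    exact_mod_cast this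
  have h' : 0 < (sc n).det := sc_det_pos (by exact_mod_cast hn.pos.ne')
  have hs : (sc n).map (Int.cast : ℤ → ℝ) = (n : ℝ) • 1 := by rw [sc_map]; simp
  refine ⟨n, A, hn, hA, hdet, h', ?_, ?_⟩
  · apply Subtype.ext
    apply Units.ext
    rw [Subgroup.coe_mul, Units.val_mul, iG_val, iG_val, ← e, hs]
    simp
  · apply Subtype.ext
    apply Units.ext
    rw [Subgroup.coe_mul, Units.val_mul, iG_val, iG_val, ← e, hs]
    simp

/-! ### all odd levels -/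

/-- weight `k`, all odd levels -/
def MO (k : ℕ) : Submodule ℂ (X → ℂ) where
  carrier := {F | ∃ M : ℕ, Odd M ∧ F ∈ MX M k}
  zero_mem' := ⟨1, odd_one, zero_mem _⟩
  add_mem' := by
    rintro F G ⟨M, hM, hF⟩ ⟨M', hM', hG⟩
    have : NeZero M := ⟨hM.pos.ne'⟩
    have : NeZero M' := ⟨hM'.pos.ne'⟩
    exact ⟨M * M', hM.mul hM', add_mem (MX_mono (Dvd.intro _ rfl) hF) (MX_mono (Dvd.intro_left _ rfl) hG)⟩
  smul_mem' := by
    rintro c F ⟨M, hM, hF⟩
    exact ⟨M, hM, Submodule.smul_mem _ _ hF⟩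

lemma mem_MO {k : ℕ} {F : X → ℂ} : F ∈ MO k ↔ ∃ M : ℕ, Odd M ∧ F ∈ MX M k := Iff.rfl

lemma MO_le_Wt {k : ℕ} : MO k ≤ Wt k := by
  rintro F ⟨M, _, hF⟩; exact MX_le_Wt hF

lemma MO_mul {k l : ℕ} {F G : X → ℂ} (hF : F ∈ MO k) (hG : G ∈ MO l) : F * G ∈ MO (k + l) := by
  obtain ⟨M, hM, hF⟩ := hF
  obtain ⟨M', hM', hG⟩ := hG
  have : NeZero M := ⟨hM.pos.ne'⟩
  have : NeZero M' := ⟨hM'.pos.ne'⟩
  exact ⟨M * M', hM.mul hM', MX_mul (MX_mono (Dvd.intro _ rfl) hF) (MX_mono (Dvd.intro_left _ rfl) hG)⟩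

lemma MO_one : (1 : X → ℂ) ∈ MO 0 := ⟨1, odd_one, MX_one⟩

/-- `MO k` is stable under `G2` -/
lemma MO_sl {k : ℕ} {F : X → ℂ} (hF : F ∈ MO k) {g : GL(2, ℝ)⁺} (hg : g ∈ G2) : sl F g ∈ MO k := by
  obtain ⟨n, A, hn, hA, h, h', _, e⟩ := G2_exists hg
  obtain ⟨M, hM, hF⟩ := hF
  have : NeZero M := ⟨hM.pos.ne'⟩
  have h1 := MX_sl_iG hF A h
  have hn0 : (((n : ℤ) : ℂ)) ≠ 0 := by exact_mod_cast hn.pos.ne'
  -- `sl (sl F g) n = n^{-k} sl F g`
  have h2 : sl (sl F g) (iG (sc n) h') = (((n : ℤ) : ℂ)⁻¹) ^ k • sl F g :=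
    sl_scalar (Wt_sl (MX_le_Wt hF) g) n h'
  rw [← sl_mul_right, e] at h2
  have h3 : sl F g = ((((n : ℤ) : ℂ)⁻¹) ^ k)⁻¹ • sl F (iG A h) := by
    rw [h2, smul_smul, inv_mul_cancel₀ (pow_ne_zero _ (inv_ne_zero hn0)), one_smul]
  refine ⟨M * A.det.natAbs, hM.mul (Int.natAbs_odd.2 hA), ?_⟩
  rw [h3]
  exact Submodule.smul_mem _ _ h1

end Crest.Agent.R007.Lat
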