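/-
Row 7 (S0007): the group G2 = GL₂⁺(ℤ_(2)) is generated by commutators, (1 1; 0 1) and the
diag(n, 1), n odd (helper377).
-/
import Mathlib
import Crest.Agent.R007.Lat3

set_option autoImplicit false

namespace Crest.Agent.R007.Lat

open Matrix UpperHalfPlane
open scoped MatrixGroups

/-- Hermite form. -/
lemma exists_hermite (A : Matrix (Fin 2) (Fin 2) ℤ) (hA : 0 < A.det) :
    ∃ (γ : SL(2, ℤ)) (a b d : ℤ), 0 < a ∧ 0 < d ∧ a * d = A.det ∧ A = γ.1 * !![a, b; 0, d] := by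
  set p := A 0 0 with hp
  set q := A 0 1 with hq
  set r := A 1 0 with hr
  set s := A 1 1 with hs
  have hdet : A.det = p * s - q * r := by rw [Matrix.det_fin_two]
  have hAe : A = !![p, q; r, s] := by
    ext i j; fin_cases i <;> fin_cases j <;> rfl
  have hg0 : (Int.gcd p r : ℤ) ≠ 0 := by
    intro h
    have h' : Int.gcd p r = 0 := by exact_mod_cast h
    rw [Int.gcd_eq_zero_iff] at h'
    rw [hdet, h'.1, h'.2] at hA
    simp at hA
  have hgpos : (0 : ℤ) < Int.gcd p r := lt_of_le_of_ne (by positivity) (Ne.symm hg0)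
  obtain ⟨g, hg⟩ : ∃ g : ℤ, g = (Int.gcd p r : ℤ) := ⟨_, rfl⟩
  rw [← hg] at hg0 hgpos
  obtain ⟨p', hp'⟩ : g ∣ p := by rw [hg]; exact Int.gcd_dvd_left ..
  obtain ⟨r', hr'⟩ : g ∣ r := by rw [hg]; exact Int.gcd_dvd_right ..
  have hbez : g = p * Int.gcdA p r + r * Int.gcdB p r := by rw [hg]; exact Int.gcd_eq_gcd_ab p r
  set x := Int.gcdA p r
  set y := Int.gcdB p r
  have h1 : p' * x + r' * y = 1 := by
    have : g * (p' * x + r' * y) = g * 1 := by
      rw [mul_one]
      conv_rhs => rw [hbez, hp', hr']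
      ring
    exact mul_left_cancel₀ hg0 this
  -- γ⁻¹ = (x y; -r' p'), γ = (p' -y; r' x)
  have hdγ : (!![p', -y; r', x] : Matrix (Fin 2) (Fin 2) ℤ).det = 1 := by
    rw [Matrix.det_fin_two_of]; linarith
  refine ⟨⟨!![p', -y; r', x], hdγ⟩, g, x * q + y * s, p' * s - r' * q, hgpos, ?_, ?_, ?_⟩
  · have : g * (p' * s - r' * q) = A.det := by
      rw [hdet]
      conv_rhs => rw [hp', hr']
      ring
    by_contra hneg
    push_neg at hneg
    have : A.det ≤ 0 := by
      rw [← this]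
      exact mul_nonpos_of_nonneg_of_nonpos hgpos.le hneg
    omega
  · rw [hdet]
    conv_rhs => rw [hp', hr']
    ring
  · conv_lhs => rw [hAe]
    have e1 : p = p' * g := by rw [hp']; ring
    have e2 : r = r' * g := by rw [hr']; ring
    have e3 : q = p' * (x * q + y * s) + -y * (p' * s - r' * q) := by
      linear_combination (-q) * h1
    have e4 : s = r' * (x * q + y * s) + x * (p' * s - r' * q) := by
      linear_combination (-s) * h1
    ext i j
    fin_cases i <;> fin_cases j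
    · simpa [Matrix.mul_apply, Fin.sum_univ_two] using e1
    · simpa [Matrix.mul_apply, Fin.sum_univ_two] using e3
    · simpa [Matrix.mul_apply, Fin.sum_univ_two] using e2
    · simpa [Matrix.mul_apply, Fin.sum_univ_two] using e4

lemma det_T : 0 < (!![1, 1; 0, 1] : Matrix (Fin 2) (Fin 2) ℤ).det := by
  simp [Matrix.det_fin_two_of]

lemma det_D {n : ℤ} (hn : 0 < n) : 0 < (!![n, 0; 0, 1] : Matrix (Fin 2) (Fin 2) ℤ).det := by
  simpa [Matrix.det_fin_two_of] using hn

lemma odd_T : Odd (!![1, 1; 0, 1] : Matrix (Fin 2) (Fin 2) ℤ).det := by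
  simp [Matrix.det_fin_two_of]

lemma odd_D {n : ℤ} (hn : Odd n) : Odd (!![n, 0; 0, 1] : Matrix (Fin 2) (Fin 2) ℤ).det := by
  simpa [Matrix.det_fin_two_of] using hn

/-- elements of `G2` as a type -/
noncomputable def gG (A : Matrix (Fin 2) (Fin 2) ℤ) (h : 0 < A.det) (ho : Odd A.det) : G2 :=
  ⟨iG A h, iG_mem_G2 A h ho⟩

lemma gG_mul (A B : Matrix (Fin 2) (Fin 2) ℤ) (h : 0 < A.det) (ho : Odd A.det) (h' : 0 < B.det)
    (ho' : Odd B.det) (h'' : 0 < (A * B).det) (ho'' : Odd (A * B).det) :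
    gG (A * B) h'' ho'' = gG A h ho * gG B h' ho' :=
  Subtype.ext (iG_mul A B h h' h'')

/-- `SL(2,ℤ) → G2` -/
noncomputable def sG2 : SL(2, ℤ) →* G2 where
  toFun γ := ⟨sG γ, sG_mem_G2 γ⟩
  map_one' := Subtype.ext sG_one
  map_mul' a b := Subtype.ext (sG_mul a b)

lemma sG2_coe (γ : SL(2, ℤ)) : (sG2 γ : GL(2, ℝ)⁺) = sG γ := rfl

theorem G2_gen (N : Subgroup G2) (hN : ∀ a b : G2, a * b * a⁻¹ * b⁻¹ ∈ N)
    (hT : gG !![1, 1; 0, 1] det_T odd_T ∈ N)
    (hD : ∀ n : ℤ, ∀ hn : 0 < n, ∀ ho : Odd n, gG !![n, 0; 0, 1] (det_D hn) (odd_D ho) ∈ N) :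
    N = ⊤ := by
  -- conjugates
  have hconj : ∀ a b : G2, b ∈ N → a * b * a⁻¹ ∈ N := by
    intro a b hb
    have := N.mul_mem (hN a b) hb
    simpa using this
  -- SL₂(ℤ)
  have hTN : sG2 ModularGroup.T ∈ N := by
    have : sG2 ModularGroup.T = gG !![1, 1; 0, 1] det_T odd_T := by
      apply Subtype.ext
      rfl
    rw [this]; exact hT
  have hSN : sG2 ModularGroup.S ∈ N := by
    have h1 : ModularGroup.S = ModularGroup.T⁻¹ *
        (ModularGroup.S * ModularGroup.T⁻¹ * ModularGroup.S⁻¹) * ModularGroup.T⁻¹ := by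
      have h0 : ModularGroup.T * ModularGroup.S * ModularGroup.T * ModularGroup.S *
          ModularGroup.T = ModularGroup.S := by
        apply Subtype.ext
        simp only [Matrix.SpecialLinearGroup.coe_mul, ModularGroup.coe_S, ModularGroup.coe_T]
        ext i j
        fin_cases i <;> fin_cases j <;> simp [Matrix.mul_apply, Fin.sum_univ_two]
      have h2 : ModularGroup.S * ModularGroup.T⁻¹ * ModularGroup.S⁻¹ =
          ModularGroup.T * ModularGroup.S * ModularGroup.T := by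
        rw [mul_inv_eq_iff_eq_mul, mul_inv_eq_iff_eq_mul]
        exact h0.symm
      rw [h2]; group
    rw [h1, map_mul, map_mul, map_mul, map_mul, map_inv, map_inv]
    exact N.mul_mem (N.mul_mem (N.inv_mem hTN) (hconj _ _ (N.inv_mem hTN))) (N.inv_mem hTN)
  have hSL : ∀ γ : SL(2, ℤ), sG2 γ ∈ N := by
    intro γ
    have h1 : γ ∈ Subgroup.closure {ModularGroup.S, ModularGroup.T} := by
      rw [SpecialLinearGroup.SL2Z_generators]; trivial
    have h2 : Subgroup.closure {ModularGroup.S, ModularGroup.T} ≤ N.comap sG2 := by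
      rw [Subgroup.closure_le]
      rintro x (rfl | rfl)
      · exact hSN
      · exact hTN
    exact h2 h1
  -- diag(1,n)
  have detD' : ∀ n : ℤ, 0 < n → 0 < (!![1, 0; 0, n] : Matrix (Fin 2) (Fin 2) ℤ).det := by
    intro n hn; simpa [Matrix.det_fin_two_of] using hn
  have oddD' : ∀ n : ℤ, Odd n → Odd (!![1, 0; 0, n] : Matrix (Fin 2) (Fin 2) ℤ).det := by
    intro n hn; simpa [Matrix.det_fin_two_of] using hn
  have hD' : ∀ n : ℤ, ∀ hn : 0 < n, ∀ ho : Odd n,
      gG !![1, 0; 0, n] (detD' n hn) (oddD' n ho) ∈ N := by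
    intro n hn ho
    have h1 : gG !![1, 0; 0, n] (detD' n hn) (oddD' n ho) =
        sG2 ModularGroup.S * gG !![n, 0; 0, 1] (det_D hn) (odd_D ho) * (sG2 ModularGroup.S)⁻¹ := by
      rw [eq_mul_inv_iff_mul_eq]
      apply Subtype.ext
      apply Subtype.ext
      apply Units.ext
      ext i j
      fin_cases i <;> fin_cases j <;>
        simp [gG, sG2, sG, iG_val, ModularGroup.S, Matrix.mul_apply, Fin.sum_univ_two]
    rw [h1]
    exact hconj _ _ (hD n hn ho)
  have hA : ∀ (A : Matrix (Fin 2) (Fin 2) ℤ) (h : 0 < A.det) (ho : Odd A.det), gG A h ho ∈ N := by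
    intro A h ho
    obtain ⟨γ, a, b, d, ha, hd, had, hAe⟩ := exists_hermite A h
    have hoa : Odd a := (Int.odd_mul.1 (had ▸ ho)).1
    have hod : Odd d := (Int.odd_mul.1 (had ▸ ho)).2
    have h1 : gG A h ho = sG2 γ * (gG !![1, 0; 0, d] (detD' d hd) (oddD' d hod) *
        (sG2 (ModularGroup.T ^ b) * gG !![a, 0; 0, 1] (det_D ha) (odd_D hoa))) := by
      have hTb : (ModularGroup.T ^ b).1 = !![1, b; 0, 1] := ModularGroup.coe_T_zpow b
      apply Subtype.ext
      apply Subtype.ext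
      apply Units.ext
      change A.map (Int.cast : ℤ → ℝ) = γ.1.map (Int.cast : ℤ → ℝ) *
        ((!![1, 0; 0, d] : Matrix (Fin 2) (Fin 2) ℤ).map (Int.cast : ℤ → ℝ) *
        ((ModularGroup.T ^ b).1.map (Int.cast : ℤ → ℝ) *
          (!![a, 0; 0, 1] : Matrix (Fin 2) (Fin 2) ℤ).map (Int.cast : ℤ → ℝ)))
      rw [hTb]
      have hmm : ∀ X Y : Matrix (Fin 2) (Fin 2) ℤ, (X * Y).map (Int.cast : ℤ → ℝ) =
          X.map (Int.cast : ℤ → ℝ) * Y.map (Int.cast : ℤ → ℝ) := by
        intro X Y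
        exact map_mul (Int.castRingHom ℝ).mapMatrix X Y
      rw [← hmm, ← hmm, ← hmm]
      congr 1
      rw [hAe]
      congr 1
      ext i j
      fin_cases i <;> fin_cases j <;> simp [Matrix.mul_apply, Fin.sum_univ_two]
    rw [h1]
    exact N.mul_mem (hSL γ) (N.mul_mem (hD' d hd hod) (N.mul_mem (hSL _) (hD a ha hoa)))
  rw [eq_top_iff]
  rintro ⟨g, hg⟩ -
  obtain ⟨n, A, hn, ho, h, h', h1, -⟩ := G2_exists hg
  have hon : Odd (sc n).det := by
    rw [sc_det]
    have : Odd (n : ℤ) := by exact_mod_cast hn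
    exact this.mul this
  have h2 : (⟨g, hg⟩ : G2) = (gG (sc n) h' hon)⁻¹ * gG A h ho := by
    rw [eq_inv_mul_iff_mul_eq]
    exact Subtype.ext h1
  rw [h2]
  exact N.mul_mem (N.inv_mem (hA _ _ _)) (hA _ _ _)

/-- The form used by `QPrin.eq_of_sep`: a set `St` containing `(1 1; 0 1)` and all `diag(n,1)`
(`n` odd) generates `G2` together with the commutators. -/
theorem G2_closure (St : Set G2)
    (hT : gG !![1, 1; 0, 1] det_T odd_T ∈ St)
    (hD : ∀ n : ℤ, ∀ hn : 0 < n, ∀ ho : Odd n, gG !![n, 0; 0, 1] (det_D hn) (odd_D ho) ∈ St) :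
    Subgroup.closure (St ∪ {g | ∃ a b : G2, a * b * a⁻¹ * b⁻¹ = g}) = ⊤ := by
  apply G2_gen
  · intro a b
    exact Subgroup.subset_closure (Or.inr ⟨a, b, rfl⟩)
  · exact Subgroup.subset_closure (Or.inl hT)
  · intro n hn ho
    exact Subgroup.subset_closure (Or.inl (hD n hn ho))

end Crest.Agent.R007.Lat
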