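import Mathlib
import Crest.Agent.R007.Lat3

/-! Row 7: q-expansions at infinity for all levels together. -/

set_option autoImplicit false

namespace Crest.Agent.R007.Lat

open UpperHalfPlane ModularForm CongruenceSubgroup Matrix
open scoped MatrixGroups Manifold ModularForm

local notation "𝕢" => Function.Periodic.qParam

/-! ### `PowerSeries → HahnSeries ℚ` -/

/-- `n ↦ n / M` -/
def divHom (M : ℕ) : ℕ →+ ℚ where
  toFun n := (n : ℚ) / M
  map_zero' := by simp
  map_add' a b := by push_cast; ring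

@[simp] lemma divHom_apply (M n : ℕ) : divHom M n = (n : ℚ) / M := rfl

lemma divHom_inj {M : ℕ} [NeZero M] : Function.Injective (divHom M) := by
  intro a b h
  have hM : (M : ℚ) ≠ 0 := by exact_mod_cast NeZero.ne M
  simp only [divHom_apply] at h
  have : (a : ℚ) = b := by field_simp at h; exact h
  exact_mod_cast this

lemma divHom_le {M : ℕ} [NeZero M] (a b : ℕ) : divHom M a ≤ divHom M b ↔ a ≤ b := by
  have hM : (0 : ℚ) < M := by exact_mod_cast Nat.pos_of_ne_zero (NeZero.ne M)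
  simp only [divHom_apply]
  rw [div_le_div_iff_of_pos_right hM]
  exact_mod_cast Iff.rfl

/-- power series in `q^{1/M}` as Hahn series with rational exponents -/
noncomputable def emb (M : ℕ) [NeZero M] (R : Type*) [CommRing R] : PowerSeries R →+* HahnSeries ℚ R :=
  (HahnSeries.embDomainRingHom (divHom M) divHom_inj divHom_le).comp
    (RingEquiv.toRingHom HahnSeries.toPowerSeries.symm)

lemma emb_coeff (M : ℕ) [NeZero M] {R : Type*} [CommRing R] (P : PowerSeries R) (n : ℕ) :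
    (emb M R P).coeff ((n : ℚ) / M) = P.coeff n := by
  have := HahnSeries.embDomain_coeff (f := ⟨⟨divHom M, divHom_inj⟩, divHom_le _ _⟩)
    (x := HahnSeries.toPowerSeries.symm P) (a := n)
  rw [HahnSeries.coeff_toPowerSeries_symm] at this
  exact this

lemma emb_coeff_of_notMem (M : ℕ) [NeZero M] {R : Type*} [CommRing R] (P : PowerSeries R) {r : ℚ}
    (hr : ∀ n : ℕ, (n : ℚ) / M ≠ r) : (emb M R P).coeff r = 0 := by
  refine HahnSeries.embDomain_of_notMem_range (f := ⟨⟨divHom M, divHom_inj⟩, divHom_le _ _⟩) ?_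
  rintro ⟨n, hn⟩
  exact hr n hn

lemma emb_injective (M : ℕ) [NeZero M] (R : Type*) [CommRing R] : Function.Injective (emb M R) := by
  intro P Q h
  ext n
  rw [← emb_coeff M P n, ← emb_coeff M Q n, h]

/-! ### `PB h` -/

/-- holomorphic, `h`-periodic, bounded at `i∞` -/
def PB (h : ℝ) : Subalgebra ℂ (ℍ → ℂ) where
  carrier := {f | Function.Periodic (f ∘ ofComplex) h ∧ MDiff f ∧ IsBoundedAtImInfty f}
  mul_mem' := by
    rintro f g ⟨h1, h2, h3⟩ ⟨h1', h2', h3'⟩
    refine ⟨?_, h2.mul h2', h3.mul h3'⟩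
    intro w
    have e1 := h1 w
    have e2 := h1' w
    simp only [Function.comp_apply, Pi.mul_apply] at *
    rw [e1, e2]
  add_mem' := by
    rintro f g ⟨h1, h2, h3⟩ ⟨h1', h2', h3'⟩
    refine ⟨?_, h2.add h2', h3.add h3'⟩
    intro w
    have e1 := h1 w
    have e2 := h1' w
    simp only [Function.comp_apply, Pi.add_apply] at *
    rw [e1, e2]
  algebraMap_mem' := by
    intro c
    refine ⟨fun w => rfl, mdifferentiable_const, ?_⟩
    exact Filter.const_boundedAtFilter _ c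

lemma mem_PB {h : ℝ} {f : ℍ → ℂ} : f ∈ PB h ↔
    Function.Periodic (f ∘ ofComplex) h ∧ MDiff f ∧ IsBoundedAtImInfty f := Iff.rfl

lemma periodic_iff {f : ℍ → ℂ} {h : ℝ} :
    Function.Periodic (f ∘ ofComplex) h ↔ ∀ τ : ℍ, f (h +ᵥ τ) = f τ := by
  constructor
  · intro hp τ
    have := hp (τ : ℂ)
    simp only [Function.comp_apply, ofComplex_apply] at this
    rw [← this]
    congr 1
    have h2 : 0 < ((τ : ℂ) + h).im := by simpa using τ.im_pos
    rw [ofComplex_apply_of_im_pos h2]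
    ext
    simp [add_comm]
  · intro hp w
    by_cases hw : 0 < w.im
    · have h2 : 0 < (w + h).im := by simpa using hw
      simp only [Function.comp_apply, ofComplex_apply_of_im_pos h2, ofComplex_apply_of_im_pos hw]
      rw [← hp ⟨w, hw⟩]
      congr 1
      ext
      simp [add_comm]
    · have h2 : (w + h).im ≤ 0 := by simpa using hw
      simp [ofComplex_apply_of_im_nonpos h2, ofComplex_apply_of_im_nonpos (not_lt.1 hw)]

lemma PB_analytic {h : ℝ} (hh : 0 < h) {f : ℍ → ℂ} (hf : f ∈ PB h) :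
    AnalyticAt ℂ (cuspFunction h f) 0 := analyticAt_cuspFunction_zero hh hf.1 hf.2.1 hf.2.2

lemma PB_hasSum {h : ℝ} (hh : 0 < h) {f : ℍ → ℂ} (hf : f ∈ PB h) (τ : ℍ) :
    HasSum (fun m : ℕ ↦ (qExpansion h f).coeff m • 𝕢 h τ ^ m) (f τ) :=
  UpperHalfPlane.hasSum_qExpansion hh hf.1 hf.2.1 hf.2.2 τ

lemma PB_unique {h : ℝ} (hh : 0 < h) {f : ℍ → ℂ} (hf : f ∈ PB h) {c : ℕ → ℂ}
    (hc : ∀ τ : ℍ, HasSum (fun m ↦ c m • 𝕢 h τ ^ m) (f τ)) (m : ℕ) : (qExpansion h f).coeff m = c m := by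
  have hfa := PB_analytic hh hf
  have h1 := (hasFPowerSeriesOnBall_cuspFunction hh hfa hc).hasFPowerSeriesAt
  have h2 : HasFPowerSeriesAt (cuspFunction h f)
      (.ofScalars ℂ fun m ↦ (qExpansion h f).coeff m) 0 := by
    simpa [qExpansion_coeff, div_eq_mul_inv, mul_comm] using hfa.hasFPowerSeriesAt
  have := congr_arg (FormalMultilinearSeries.coeff · m) (h1.eq_formalMultilinearSeries h2)
  simpa [FormalMultilinearSeries.coeff_ofScalars] using this.symm

lemma PB_mono {M M' : ℕ} [NeZero M] (h : M ∣ M') : PB M ≤ PB M' := by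
  obtain ⟨c, rfl⟩ := h
  intro f hf
  refine ⟨?_, hf.2⟩
  have := hf.1.nat_mul c
  intro w
  rw [← this w]
  congr 2
  push_cast; ring

lemma pos_of_neZero (M : ℕ) [NeZero M] : (0 : ℝ) < M := by
  exact_mod_cast Nat.pos_of_ne_zero (NeZero.ne M)

/-- re-indexing of a `q`-series -/
lemma hasSum_reindex {a : ℕ} (ha : a ≠ 0) {c : ℕ → ℂ} {x y : ℂ}
    (h : HasSum (fun m => c m • (x ^ a) ^ m) y) :
    HasSum (fun m => (if a ∣ m then c (m / a) else 0) • x ^ m) y := by
  have hinj : Function.Injective (fun n : ℕ => a * n) := fun m n h =>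
    Nat.eq_of_mul_eq_mul_left (Nat.pos_of_ne_zero ha) h
  rw [← Function.Injective.hasSum_iff hinj]
  · convert h using 2 with n
    simp only [Function.comp_apply, Nat.dvd_mul_right, if_true,
      Nat.mul_div_cancel_left _ (Nat.pos_of_ne_zero ha), pow_mul]
  · intro m hm
    have : ¬ a ∣ m := by
      rintro ⟨n, rfl⟩
      exact hm ⟨n, rfl⟩
    simp [this]

lemma qParam_mul (M c : ℕ) [NeZero M] [NeZero c] (τ : ℂ) : 𝕢 ((M * c : ℕ) : ℝ) τ ^ c = 𝕢 (M : ℝ) τ := by
  unfold Function.Periodic.qParam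
  rw [← Complex.exp_nat_mul]
  congr 1
  have h1 : (M : ℂ) ≠ 0 := by exact_mod_cast NeZero.ne M
  have h2 : (c : ℂ) ≠ 0 := by exact_mod_cast NeZero.ne c
  push_cast
  field_simp

lemma emb_eq (M c : ℕ) [NeZero M] [NeZero c] {f : ℍ → ℂ} (hf : f ∈ PB M) :
    emb (M * c) ℂ (qExpansion ((M * c : ℕ) : ℝ) f) = emb M ℂ (qExpansion M f) := by
  have hf' : f ∈ PB ((M * c : ℕ) : ℝ) := PB_mono (Dvd.intro _ rfl) hf
  have key : ∀ m, (qExpansion ((M * c : ℕ) : ℝ) f).coeff m =
      if c ∣ m then (qExpansion M f).coeff (m / c) else 0 := by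
    have h0 : ∀ τ : ℍ, HasSum (fun m => (if c ∣ m then (qExpansion M f).coeff (m / c) else 0) •
        𝕢 ((M * c : ℕ) : ℝ) τ ^ m) (f τ) := by
      intro τ
      apply hasSum_reindex (c := fun m => (qExpansion M f).coeff m) (NeZero.ne c)
      have h1 := PB_hasSum (pos_of_neZero M) hf τ
      rw [← qParam_mul M c] at h1
      exact h1
    exact fun m => PB_unique (h := ((M * c : ℕ) : ℝ)) (pos_of_neZero (M * c)) hf' h0 m
  ext r
  by_cases hr : ∃ n : ℕ, (n : ℚ) / ((M * c : ℕ) : ℚ) = r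
  · obtain ⟨n, rfl⟩ := hr
    rw [emb_coeff, key]
    split_ifs with h
    · obtain ⟨m, rfl⟩ := h
      rw [Nat.mul_div_cancel_left _ (Nat.pos_of_ne_zero (NeZero.ne c))]
      have : ((c * m : ℕ) : ℚ) / ((M * c : ℕ) : ℚ) = (m : ℚ) / M := by
        have h1 : (M : ℚ) ≠ 0 := by exact_mod_cast NeZero.ne M
        have h2 : (c : ℚ) ≠ 0 := by exact_mod_cast NeZero.ne c
        push_cast
        field_simp
      rw [this, emb_coeff]
    · rw [emb_coeff_of_notMem]
      intro m hm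
      apply h
      have h1 : (M : ℚ) ≠ 0 := by exact_mod_cast NeZero.ne M
      have h2 : (c : ℚ) ≠ 0 := by exact_mod_cast NeZero.ne c
      push_cast at hm
      field_simp at hm
      have : m * c = n := by exact_mod_cast hm
      exact ⟨m, by rw [← this, mul_comm]⟩
  · push Not at hr
    rw [emb_coeff_of_notMem _ _ hr, emb_coeff_of_notMem]
    intro n hn
    apply hr (n * c)
    rw [← hn]
    have h1 : (M : ℚ) ≠ 0 := by exact_mod_cast NeZero.ne M
    have h2 : (c : ℚ) ≠ 0 := by exact_mod_cast NeZero.ne c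
    push_cast
    field_simp

/-- the union of `PB M`, `M` odd -/
def PO : Subalgebra ℂ (ℍ → ℂ) where
  carrier := {f | ∃ M : ℕ, Odd M ∧ f ∈ PB M}
  mul_mem' := by
    rintro f g ⟨M, hM, hf⟩ ⟨M', hM', hg⟩
    have : NeZero M := ⟨hM.pos.ne'⟩
    have : NeZero M' := ⟨hM'.pos.ne'⟩
    exact ⟨M * M', hM.mul hM', mul_mem (PB_mono (Dvd.intro _ rfl) hf) (PB_mono (Dvd.intro_left _ rfl) hg)⟩
  add_mem' := by
    rintro f g ⟨M, hM, hf⟩ ⟨M', hM', hg⟩
    have : NeZero M := ⟨hM.pos.ne'⟩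
    have : NeZero M' := ⟨hM'.pos.ne'⟩
    exact ⟨M * M', hM.mul hM', add_mem (PB_mono (Dvd.intro _ rfl) hf) (PB_mono (Dvd.intro_left _ rfl) hg)⟩
  algebraMap_mem' := fun c => ⟨1, odd_one, (PB _).algebraMap_mem c⟩

lemma mem_PO {f : ℍ → ℂ} : f ∈ PO ↔ ∃ M : ℕ, Odd M ∧ f ∈ PB M := Iff.rfl

open Classical in
/-- the q-expansion (junk value `0` outside `PO`) -/
noncomputable def qf (f : ℍ → ℂ) : HahnSeries ℚ ℂ :=
  if h : ∃ M : ℕ, Odd M ∧ f ∈ PB M then
    haveI : NeZero h.choose := ⟨h.choose_spec.1.pos.ne'⟩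
    emb h.choose ℂ (qExpansion h.choose f)
  else 0

lemma qf_eq {M : ℕ} (hM : Odd M) {f : ℍ → ℂ} (hf : f ∈ PB M) :
    haveI : NeZero M := ⟨hM.pos.ne'⟩
    qf f = emb M ℂ (qExpansion M f) := by
  have i1 : NeZero M := ⟨hM.pos.ne'⟩
  have h : ∃ M : ℕ, Odd M ∧ f ∈ PB M := ⟨M, hM, hf⟩
  rw [qf, dif_pos h]
  have i2 : NeZero h.choose := ⟨h.choose_spec.1.pos.ne'⟩
  have e1 := emb_eq M h.choose hf
  have e2 := emb_eq h.choose M h.choose_spec.2
  rw [← e1, ← e2]
  have key : ∀ (a b : ℕ) (ia : NeZero a) (ib : NeZero b), a = b →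
      emb a ℂ (qExpansion (a : ℝ) f) = emb b ℂ (qExpansion (b : ℝ) f) := by
    rintro a b ia ib rfl; rfl
  exact key _ _ _ _ (mul_comm _ _)

end Crest.Agent.R007.Lat
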