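import Mathlib
import Crest.Agent.R007.Lat4

/-! Row 7: `qf` is a ring homomorphism on `PO`; modular forms; upper triangular matrices; `MM`. -/

set_option autoImplicit false

namespace Crest.Agent.R007.Lat

open UpperHalfPlane ModularForm CongruenceSubgroup Matrix
open scoped MatrixGroups Manifold ModularForm

local notation "𝕢" => Function.Periodic.qParam

lemma qf_eq' (M : ℕ) [NeZero M] (hM : Odd M) {f : ℍ → ℂ} (hf : f ∈ PB M) :
    qf f = emb M ℂ (qExpansion M f) := qf_eq hM hf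

/-- common level -/
lemma PO_common {f g : ℍ → ℂ} (hf : f ∈ PO) (hg : g ∈ PO) :
    ∃ M : ℕ, Odd M ∧ f ∈ PB M ∧ g ∈ PB M := by
  obtain ⟨M, hM, hf⟩ := hf
  obtain ⟨M', hM', hg⟩ := hg
  have : NeZero M := ⟨hM.pos.ne'⟩
  have : NeZero M' := ⟨hM'.pos.ne'⟩
  exact ⟨M * M', hM.mul hM', PB_mono (Dvd.intro _ rfl) hf, PB_mono (Dvd.intro_left _ rfl) hg⟩

lemma qf_mul {f g : ℍ → ℂ} (hf : f ∈ PO) (hg : g ∈ PO) : qf (f * g) = qf f * qf g := by
  obtain ⟨M, hM, hf, hg⟩ := PO_common hf hg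
  have : NeZero M := ⟨hM.pos.ne'⟩
  rw [qf_eq' M hM hf, qf_eq' M hM hg, qf_eq' M hM (mul_mem hf hg), ← map_mul,
    qExpansion_mul (PB_analytic (pos_of_neZero M) hf) (PB_analytic (pos_of_neZero M) hg)]

lemma qf_add {f g : ℍ → ℂ} (hf : f ∈ PO) (hg : g ∈ PO) : qf (f + g) = qf f + qf g := by
  obtain ⟨M, hM, hf, hg⟩ := PO_common hf hg
  have : NeZero M := ⟨hM.pos.ne'⟩
  rw [qf_eq' M hM hf, qf_eq' M hM hg, qf_eq' M hM (add_mem hf hg), ← map_add,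
    qExpansion_add (PB_analytic (pos_of_neZero M) hf) (PB_analytic (pos_of_neZero M) hg)]

lemma qf_smul (c : ℂ) {f : ℍ → ℂ} (hf : f ∈ PO) : qf (c • f) = c • qf f := by
  obtain ⟨M, hM, hf⟩ := hf
  have : NeZero M := ⟨hM.pos.ne'⟩
  rw [qf_eq' M hM hf, qf_eq' M hM (Subalgebra.smul_mem _ hf c),
    qExpansion_smul (PB_analytic (pos_of_neZero M) hf)]
  ext r
  by_cases hr : ∃ n : ℕ, (n : ℚ) / M = r
  · obtain ⟨n, rfl⟩ := hr
    rw [HahnSeries.coeff_smul, emb_coeff, emb_coeff, map_smul]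
  · push Not at hr
    rw [HahnSeries.coeff_smul, emb_coeff_of_notMem _ _ hr, emb_coeff_of_notMem _ _ hr, smul_zero]

lemma qf_one : qf 1 = 1 := by
  have h1 : (1 : ℍ → ℂ) ∈ PB ((1 : ℕ) : ℝ) := one_mem _
  rw [qf_eq' 1 odd_one h1, qExpansion_one, map_one]

lemma qf_zero : qf 0 = 0 := by
  have h1 : (0 : ℍ → ℂ) ∈ PB ((1 : ℕ) : ℝ) := zero_mem _
  rw [qf_eq' 1 odd_one h1, qExpansion_zero, map_zero]

lemma qf_eq_zero_iff {f : ℍ → ℂ} (hf : f ∈ PO) : qf f = 0 ↔ f = 0 := by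
  obtain ⟨M, hM, hf⟩ := hf
  have : NeZero M := ⟨hM.pos.ne'⟩
  rw [qf_eq' M hM hf, map_eq_zero_iff _ (emb_injective M ℂ)]
  exact qExpansion_eq_zero_iff (pos_of_neZero M) hf.1 hf.2.1 hf.2.2

/-- the q-expansion homomorphism -/
noncomputable def qx : PO →+* HahnSeries ℚ ℂ where
  toFun f := qf f.1
  map_one' := qf_one
  map_zero' := qf_zero
  map_mul' f g := qf_mul f.2 g.2
  map_add' f g := qf_add f.2 g.2

@[simp] lemma qx_apply (f : PO) : qx f = qf f.1 := rfl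

lemma qx_injective : Function.Injective qx := by
  rw [injective_iff_map_eq_zero]
  intro f hf
  exact Subtype.ext ((qf_eq_zero_iff f.2).1 hf)

lemma qf_sub {f g : ℍ → ℂ} (hf : f ∈ PO) (hg : g ∈ PO) : qf (f - g) = qf f - qf g := by
  have := map_sub qx ⟨f, hf⟩ ⟨g, hg⟩
  exact this

lemma qf_inj {f g : ℍ → ℂ} (hf : f ∈ PO) (hg : g ∈ PO) (h : qf f = qf g) : f = g := by
  have := @qx_injective ⟨f, hf⟩ ⟨g, hg⟩ h
  exact congrArg Subtype.val this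

/-- coefficients from a convergent expansion -/
lemma qf_coeff_of_hasSum {M : ℕ} (hM : Odd M) {f : ℍ → ℂ} (hf : f ∈ PB M) {c : ℕ → ℂ}
    (hc : ∀ τ : ℍ, HasSum (fun m ↦ c m • 𝕢 (M : ℝ) τ ^ m) (f τ)) (n : ℕ) :
    (qf f).coeff ((n : ℚ) / M) = c n := by
  have : NeZero M := ⟨hM.pos.ne'⟩
  rw [qf_eq' M hM hf, emb_coeff, PB_unique (pos_of_neZero M) hf hc]

lemma qf_coeff_of_notMem {M : ℕ} (hM : Odd M) {f : ℍ → ℂ} (hf : f ∈ PB M) {r : ℚ}
    (hr : ∀ n : ℕ, (n : ℚ) / M ≠ r) : (qf f).coeff r = 0 := by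
  have : NeZero M := ⟨hM.pos.ne'⟩
  rw [qf_eq' M hM hf, emb_coeff_of_notMem _ _ hr]

lemma qf_coeff_hasSum {M : ℕ} (hM : Odd M) {f : ℍ → ℂ} (hf : f ∈ PB M) (τ : ℍ) :
    HasSum (fun m : ℕ ↦ (qf f).coeff ((m : ℚ) / M) • 𝕢 (M : ℝ) τ ^ m) (f τ) := by
  have : NeZero M := ⟨hM.pos.ne'⟩
  rw [qf_eq' M hM hf]
  simp only [emb_coeff]
  exact PB_hasSum (pos_of_neZero M) hf τ

lemma qf_coeff_neg {f : ℍ → ℂ} (hf : f ∈ PO) {r : ℚ} (hr : r < 0) : (qf f).coeff r = 0 := by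
  obtain ⟨M, hM, hf⟩ := hf
  apply qf_coeff_of_notMem hM hf
  intro n hn
  have : (0 : ℚ) ≤ (n : ℚ) / M := by positivity
  rw [hn] at this
  exact absurd hr (not_lt.2 this)

/-! ### modular forms -/

lemma sG_smul_eq (γ : SL(2, ℤ)) (τ : ℍ) : sG γ • τ = γ • τ := by
  change ((sG γ : GL(2, ℝ)⁺) : GL (Fin 2) ℝ) • τ = _
  rw [sG_coe]
  rfl

lemma res_mem_PB {M : ℕ} [NeZero M] {k : ℕ} {F : X → ℂ} (hF : F ∈ MX M k) : res F ∈ PB M := by
  rw [mem_MX_iff] at hF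
  refine ⟨?_, hF.2.2.1, ?_⟩
  · rw [periodic_iff]
    intro τ
    have hT : (ModularGroup.T ^ (M : ℤ)).1 = !![1, (M : ℤ); 0, 1] := ModularGroup.coe_T_zpow M
    have hm : ModularGroup.T ^ (M : ℤ) ∈ Gamma M := by
      rw [Gamma_mem]
      refine ⟨?_, ?_, ?_, ?_⟩ <;> rw [hT] <;> simp
    have h1 := congrFun (hF.2.1 _ hm) ⟨τ, 1⟩
    rw [sl_apply] at h1
    rw [res_apply, res_apply, ← h1]
    congr 1
    apply X.ext
    · rw [smul_t, sG_smul_eq, UpperHalfPlane.modular_T_zpow_smul]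
      simp
    · rw [smul_w, mul_one]
      apply Units.ext
      rw [dn_val, sG, iG_coe, denom, toGL_val, hT]
      simp
  · have := hF.2.2.2 1
    rwa [sG_one, sl_one_right] at this

lemma res_mem_PO {k : ℕ} {F : X → ℂ} (hF : F ∈ MO k) : res F ∈ PO := by
  obtain ⟨M, hM, hF⟩ := hF
  have : NeZero M := ⟨hM.pos.ne'⟩
  exact ⟨M, hM, res_mem_PB hF⟩

/-- a form with vanishing expansion at infinity vanishes -/
lemma MO_eq_zero_of_qf {k : ℕ} {F : X → ℂ} (hF : F ∈ MO k) (h : qf (res F) = 0) : F = 0 := by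
  have := (qf_eq_zero_iff (res_mem_PO hF)).1 h
  rw [← lift_res (MO_le_Wt hF), this, lift_zero]

/-! ### upper triangular matrices -/

/-- integral upper triangular matrix -/
def ut (a b d : ℤ) : Matrix (Fin 2) (Fin 2) ℤ := !![a, b; 0, d]

lemma ut_det (a b d : ℤ) : (ut a b d).det = a * d := by simp [ut, Matrix.det_fin_two_of]

lemma iG_ut_smul {a b d : ℤ} (hd : 0 < d) (h : 0 < (ut a b d).det) (τ : ℍ) :
    ((iG (ut a b d) h • τ : ℍ) : ℂ) = (a * τ + b) / d := by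
  change ((((iG (ut a b d) h : GL(2, ℝ)⁺) : GL (Fin 2) ℝ) • τ : ℍ) : ℂ) = _
  rw [coe_smul_of_det_pos (det_pos _)]
  simp [num, denom, iG_val, ut]

lemma dn_ut {a b d : ℤ} (h : 0 < (ut a b d).det) (τ : ℍ) :
    (dn (iG (ut a b d) h) τ : ℂ) = d := by
  rw [dn_val]
  simp [denom, iG_val, ut]

/-- `res (F ∥ (a b; 0 d)) (τ) = d^{-k} res F ((aτ+b)/d)` -/
lemma res_sl_ut {k : ℕ} {F : X → ℂ} (hF : F ∈ Wt k) {a b d : ℤ} (h : 0 < (ut a b d).det) (τ : ℍ) :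
    res (sl F (iG (ut a b d) h)) τ = ((d : ℂ)⁻¹) ^ k * res F (iG (ut a b d) h • τ) := by
  rw [res_apply, sl_apply]
  have := hF (dn (iG (ut a b d) h) τ) ⟨iG (ut a b d) h • τ, 1⟩
  rw [Units.val_inv_eq_inv_val, dn_ut] at this
  rw [res_apply, ← this]
  rfl

lemma PB_comp_ut {M : ℕ} [NeZero M] {f : ℍ → ℂ} (hf : f ∈ PB M) {a b d : ℕ} (hd : 0 < d)
    (h : 0 < (ut a b d).det) : (fun τ => f (iG (ut a b d) h • τ)) ∈ PB ((M * d : ℕ) : ℝ) := by
  have hper := periodic_iff.1 hf.1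
  have hperN : ∀ (n : ℕ) (τ : ℍ), f (((n * M : ℕ) : ℝ) +ᵥ τ) = f τ := by
    intro n
    have h1 := hf.1.nat_mul n
    have h2 : Function.Periodic (f ∘ ofComplex) ((n * M : ℕ) : ℝ) := by
      intro w
      rw [← h1 w]
      congr 2
      push_cast; ring
    exact periodic_iff.1 h2
  refine ⟨?_, ?_, ?_⟩
  · rw [periodic_iff]
    intro τ
    rw [← hperN a (iG (ut a b d) h • τ)]
    congr 1
    apply UpperHalfPlane.ext
    rw [iG_ut_smul (by exact_mod_cast hd), coe_vadd, coe_vadd, iG_ut_smul (by exact_mod_cast hd)]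
    have hd' : (d : ℂ) ≠ 0 := by exact_mod_cast hd.ne'
    push_cast
    field_simp
    ring
  · have h1 : MDiff (f ∣[(0 : ℤ)] ((iG (ut a b d) h : GL(2, ℝ)⁺) : GL (Fin 2) ℝ)) :=
      hf.2.1.slash _ _
    have h2 : (fun τ => f (iG (ut a b d) h • τ)) =
        ((((iG (ut a b d) h : GL(2, ℝ)⁺) : GL (Fin 2) ℝ).det.val : ℂ)) •
          (f ∣[(0 : ℤ)] ((iG (ut a b d) h : GL(2, ℝ)⁺) : GL (Fin 2) ℝ)) := by
      have h3 := slash_eq_res 0 f (iG (ut a b d) h)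
      have h4 : ((((iG (ut a b d) h : GL(2, ℝ)⁺) : GL (Fin 2) ℝ).det.val : ℂ)) ≠ 0 := by
        exact_mod_cast (det_pos _).ne'
      simp only [Nat.cast_zero] at h3
      rw [h3, smul_smul]
      have h5 : ((((iG (ut a b d) h : GL(2, ℝ)⁺) : GL (Fin 2) ℝ).det.val : ℂ)) *
          ((((iG (ut a b d) h : GL(2, ℝ)⁺) : GL (Fin 2) ℝ).det.val : ℂ)) ^ ((0 : ℤ) - 1) = 1 := by
        rw [zero_sub, _root_.zpow_neg_one, mul_inv_cancel₀ h4]
      rw [h5, one_smul]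
      funext τ
      simp [lift_apply]
    rw [h2]
    exact h1.const_smul _
  · have h1 : IsBoundedAtImInfty (f ∣[(0 : ℤ)] ((iG (ut a b d) h : GL(2, ℝ)⁺) : GL (Fin 2) ℝ)) := by
      apply IsBoundedAtImInfty.slash
      · simp [iG_val, ut]
      · exact hf.2.2
    have h3 := slash_eq_res 0 f (iG (ut a b d) h)
    have h4 : ((((iG (ut a b d) h : GL(2, ℝ)⁺) : GL (Fin 2) ℝ).det.val : ℂ)) ≠ 0 := by
      exact_mod_cast (det_pos _).ne'
    have h2 : (fun τ => f (iG (ut a b d) h • τ)) =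
        ((((iG (ut a b d) h : GL(2, ℝ)⁺) : GL (Fin 2) ℝ).det.val : ℂ)) •
          (f ∣[(0 : ℤ)] ((iG (ut a b d) h : GL(2, ℝ)⁺) : GL (Fin 2) ℝ)) := by
      simp only [Nat.cast_zero] at h3
      rw [h3, smul_smul]
      have h5 : ((((iG (ut a b d) h : GL(2, ℝ)⁺) : GL (Fin 2) ℝ).det.val : ℂ)) *
          ((((iG (ut a b d) h : GL(2, ℝ)⁺) : GL (Fin 2) ℝ).det.val : ℂ)) ^ ((0 : ℤ) - 1) = 1 := by
        rw [zero_sub, _root_.zpow_neg_one, mul_inv_cancel₀ h4]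
      rw [h5, one_smul]
      funext τ
      simp [lift_apply]
    rw [h2]
    exact bddAtInfty_smul h1 _

/-- `e(x) = exp(2πi x)` -/
noncomputable def ee (x : ℚ) : ℂ := Complex.exp (2 * Real.pi * Complex.I * (x : ℂ))

lemma ee_add (x y : ℚ) : ee (x + y) = ee x * ee y := by
  simp only [ee, ← Complex.exp_add]
  push_cast; ring_nf

lemma ee_nsmul (n : ℕ) (x : ℚ) : ee (n * x) = ee x ^ n := by
  simp only [ee, ← Complex.exp_nat_mul]
  push_cast; ring_nf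

lemma qParam_ut {M : ℕ} [NeZero M] {a b d : ℕ} (ha : 0 < a) (hd : 0 < d)
    (h : 0 < (ut a b d).det) (τ : ℍ) :
    𝕢 (M : ℝ) (iG (ut a b d) h • τ : ℍ) = ee ((b : ℚ) / (d * M)) * 𝕢 ((M * d : ℕ) : ℝ) τ ^ a := by
  rw [iG_ut_smul (by exact_mod_cast hd)]
  unfold Function.Periodic.qParam ee
  rw [← Complex.exp_nat_mul, ← Complex.exp_add]
  congr 1
  have h1 : (M : ℂ) ≠ 0 := by exact_mod_cast NeZero.ne M
  have h2 : (d : ℂ) ≠ 0 := by exact_mod_cast hd.ne'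
  push_cast
  field_simp
  ring

/-- the expansion of `f((aτ+b)/d)`: the coefficient at `s a/d` is `e(s b/d)` times the one of `f` at `s` -/
lemma qf_comp_ut {f : ℍ → ℂ} (hf : f ∈ PO) {a b d : ℕ} (ha : Odd a) (hd : Odd d)
    (h : 0 < (ut a b d).det) (s : ℚ) :
    (qf (fun τ => f (iG (ut a b d) h • τ))).coeff (s * a / d) = ee (s * b / d) * (qf f).coeff s := by
  obtain ⟨M, hM, hf⟩ := hf
  have : NeZero M := ⟨hM.pos.ne'⟩
  have ha0 : (a : ℚ) ≠ 0 := by exact_mod_cast ha.pos.ne'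
  have hd0 : (d : ℚ) ≠ 0 := by exact_mod_cast hd.pos.ne'
  have hM0 : (M : ℚ) ≠ 0 := by exact_mod_cast hM.pos.ne'
  have hg := PB_comp_ut hf hd.pos h
  set c : ℕ → ℂ := fun n => ee ((n : ℚ) / M * b / d) * (qf f).coeff ((n : ℚ) / M) with hc
  have key : ∀ τ : ℍ, HasSum (fun m => (if a ∣ m then c (m / a) else 0) •
      𝕢 ((M * d : ℕ) : ℝ) τ ^ m) (f (iG (ut a b d) h • τ)) := by
    intro τ
    apply hasSum_reindex ha.pos.ne'
    have h1 := qf_coeff_hasSum hM hf (iG (ut a b d) h • τ)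
    convert h1 using 2 with n
    rw [qParam_ut ha.pos hd.pos, mul_pow, ← ee_nsmul, hc]
    simp only [smul_eq_mul]
    have : (n : ℚ) * ((b : ℚ) / (d * M)) = (n : ℚ) / M * b / d := by field_simp
    rw [this]; ring
  by_cases hs : ∃ n : ℕ, (n : ℚ) / M = s
  · obtain ⟨n, rfl⟩ := hs
    have h2 := qf_coeff_of_hasSum (hM.mul hd) hg key (a * n)
    rw [if_pos (Dvd.intro _ rfl), Nat.mul_div_cancel_left _ ha.pos] at h2
    have h3 : (n : ℚ) / M * a / d = ((a * n : ℕ) : ℚ) / ((M * d : ℕ) : ℚ) := by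
      push_cast
      field_simp
    rw [h3, h2]
  · push Not at hs
    rw [qf_coeff_of_notMem hM hf hs, mul_zero]
    by_cases hs2 : ∃ n : ℕ, (n : ℚ) / ((M * d : ℕ) : ℚ) = s * a / d
    · obtain ⟨n, hn⟩ := hs2
      rw [← hn, qf_coeff_of_hasSum (hM.mul hd) hg key n, if_neg]
      rintro ⟨m, rfl⟩
      apply hs m
      push_cast at hn
      field_simp at hn
      field_simp
      linarith
    · push Not at hs2
      exact qf_coeff_of_notMem (hM.mul hd) hg hs2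

end Crest.Agent.R007.Lat
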