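import Mathlib
import Crest.Agent.R007.Lat5

/-! Row 7: the ring `MM` of mixed weight forms of all odd levels. -/

set_option autoImplicit false

namespace Crest.Agent.R007.Lat

open UpperHalfPlane ModularForm CongruenceSubgroup Matrix
open scoped MatrixGroups Manifold ModularForm

/-- mixed weight forms of all odd levels -/
def MMs : Submodule ℂ (X → ℂ) := ⨆ k, MO k

lemma MO_le_MMs (k : ℕ) : MO k ≤ MMs := le_iSup MO k

lemma mem_MMs_iff {F : X → ℂ} : F ∈ MMs ↔
    ∃ (n : ℕ) (G : ℕ → X → ℂ), (∀ k, G k ∈ MO k) ∧ F = ∑ k ∈ Finset.range n, G k := by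
  constructor
  · intro h
    obtain ⟨f, hf⟩ := (Submodule.mem_iSup_iff_exists_finsupp MO F).1 h
    refine ⟨f.support.sup id + 1, fun k => f k, hf.1, ?_⟩
    rw [← hf.2, Finsupp.sum]
    apply Finset.sum_subset
    · intro i hi
      rw [Finset.mem_range, Nat.lt_succ_iff]
      exact Finset.le_sup (f := id) hi
    · intro i _ hi
      simpa using hi
  · rintro ⟨n, G, hG, rfl⟩
    exact sum_mem fun k _ => MO_le_MMs k (hG k)

/-- the ring of mixed weight forms of all odd levels -/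
def MM : Subalgebra ℂ (X → ℂ) where
  carrier := MMs
  add_mem' := fun h h' => add_mem h h'
  mul_mem' := by
    intro F G hF hG
    obtain ⟨n, f, hf, rfl⟩ := mem_MMs_iff.1 hF
    obtain ⟨m, g, hg, rfl⟩ := mem_MMs_iff.1 hG
    rw [Finset.sum_mul_sum]
    exact sum_mem fun i _ => sum_mem fun j _ => MO_le_MMs _ (MO_mul (hf i) (hg j))
  algebraMap_mem' := by
    intro c
    have : algebraMap ℂ (X → ℂ) c = c • (1 : X → ℂ) := Algebra.algebraMap_eq_smul_one c
    rw [this]
    exact MO_le_MMs 0 (Submodule.smul_mem _ _ MO_one)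

lemma mem_MM {F : X → ℂ} : F ∈ MM ↔ F ∈ MMs := Iff.rfl

lemma mem_MM_iff {F : X → ℂ} : F ∈ MM ↔
    ∃ (n : ℕ) (G : ℕ → X → ℂ), (∀ k, G k ∈ MO k) ∧ F = ∑ k ∈ Finset.range n, G k := mem_MMs_iff

lemma MO_le_MM {k : ℕ} {F : X → ℂ} (hF : F ∈ MO k) : F ∈ MM := MO_le_MMs k hF

lemma sl_sum {ι : Type*} (s : Finset ι) (F : ι → X → ℂ) (g : GL(2, ℝ)⁺) :
    sl (∑ i ∈ s, F i) g = ∑ i ∈ s, sl (F i) g := map_sum (slHom g) F s

lemma res_sum {ι : Type*} (s : Finset ι) (F : ι → X → ℂ) :
    res (∑ i ∈ s, F i) = ∑ i ∈ s, res (F i) := map_sum resHom F s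

lemma MM_sl {F : X → ℂ} (hF : F ∈ MM) {g : GL(2, ℝ)⁺} (hg : g ∈ G2) : sl F g ∈ MM := by
  obtain ⟨n, f, hf, rfl⟩ := mem_MM_iff.1 hF
  rw [sl_sum]
  exact sum_mem fun i _ => MO_le_MM (MO_sl (hf i) hg)

lemma res_mem_PO' {F : X → ℂ} (hF : F ∈ MM) : res F ∈ PO := by
  obtain ⟨n, f, hf, rfl⟩ := mem_MM_iff.1 hF
  rw [res_sum]
  exact sum_mem fun i _ => res_mem_PO (hf i)

/-- the weight components are well defined -/
lemma exists_comp {F : X → ℂ} (hF : F ∈ MM) : ∃ (G : ℕ → X → ℂ), (∀ k, G k ∈ MO k) ∧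
    ∃ n, (∀ k, n ≤ k → G k = 0) ∧ F = ∑ k ∈ Finset.range n, G k := by
  obtain ⟨n, f, hf, rfl⟩ := mem_MM_iff.1 hF
  refine ⟨fun k => if k < n then f k else 0, ?_, n, ?_, ?_⟩
  · intro k
    by_cases h : k < n
    · simp only [h, if_true]; exact hf k
    · simp only [h, if_false]; exact zero_mem _
  · intro k hk
    simp [not_lt.2 hk]
  · exact Finset.sum_congr rfl fun k hk => by simp [Finset.mem_range.1 hk]

open Classical in
/-- weight `k` component of a mixed weight form (junk value `0` outside `MM`) -/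
noncomputable def comp (k : ℕ) (F : X → ℂ) : X → ℂ :=
  if h : F ∈ MM then (exists_comp h).choose k else 0

lemma comp_mem {F : X → ℂ} (k : ℕ) : comp k F ∈ MO k := by
  unfold comp
  split_ifs with h
  · exact (exists_comp h).choose_spec.1 k
  · exact zero_mem _

lemma exists_comp_bound {F : X → ℂ} (hF : F ∈ MM) :
    ∃ n, (∀ k, n ≤ k → comp k F = 0) ∧ F = ∑ k ∈ Finset.range n, comp k F := by
  obtain ⟨n, h1, h2⟩ := (exists_comp hF).choose_spec.2
  have e : ∀ k, comp k F = (exists_comp hF).choose k := fun k => by rw [comp, dif_pos hF]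
  refine ⟨n, fun k hk => by rw [e, h1 k hk], ?_⟩
  simp only [e]
  exact h2

/-- uniqueness of components -/
lemma comp_eq {F : X → ℂ} {n : ℕ} {G : ℕ → X → ℂ} (hG : ∀ k, G k ∈ Wt k) (hF : F ∈ MM)
    (h : F = ∑ k ∈ Finset.range n, G k) (h0 : ∀ k, n ≤ k → G k = 0) (k : ℕ) : comp k F = G k := by
  obtain ⟨m, h1, h2⟩ := exists_comp_bound hF
  set N := max (max m n) (k + 1)
  have e1 : F = ∑ k ∈ Finset.range N, comp k F := by
    rw [h2]
    have hcong : ∀ k, comp k (∑ k ∈ Finset.range m, comp k F) = comp k F := by rw [← h2]; simp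
    simp only [hcong]
    apply Finset.sum_subset (Finset.range_subset_range.2 ((le_max_left m n).trans (le_max_left _ _)))
    intro i _ hi
    exact h1 i (by simpa using hi)
  have e2 : F = ∑ k ∈ Finset.range N, G k := by
    rw [h]
    apply Finset.sum_subset (Finset.range_subset_range.2 ((le_max_right m n).trans (le_max_left _ _)))
    intro i _ hi
    exact h0 i (by simpa using hi)
  exact Wt_unique (fun k => MO_le_Wt (comp_mem k)) hG (e1.symm.trans e2) k
    (lt_of_lt_of_le (Nat.lt_succ_self k) (le_max_right _ _))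

lemma comp_of_MO {k : ℕ} {F : X → ℂ} (hF : F ∈ MO k) (j : ℕ) :
    comp j F = if j = k then F else 0 := by
  apply comp_eq (n := k + 1) (G := fun j => if j = k then F else 0)
  · intro j
    split_ifs with h
    · subst h; exact MO_le_Wt hF
    · exact zero_mem _
  · exact MO_le_MM hF
  · simp
  · intro j hj
    rw [if_neg]; omega

lemma comp_sl {F : X → ℂ} (hF : F ∈ MM) {g : GL(2, ℝ)⁺} (hg : g ∈ G2) (k : ℕ) :
    comp k (sl F g) = sl (comp k F) g := by
  obtain ⟨n, h1, h2⟩ := exists_comp_bound hF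
  apply comp_eq (n := n) (G := fun k => sl (comp k F) g)
  · exact fun k => Wt_sl (MO_le_Wt (comp_mem k)) g
  · exact MM_sl hF hg
  · conv_lhs => rw [h2]
    rw [sl_sum]
  · intro k hk
    rw [h1 k hk]; rfl

lemma comp_add {F G : X → ℂ} (hF : F ∈ MM) (hG : G ∈ MM) (k : ℕ) :
    comp k (F + G) = comp k F + comp k G := by
  obtain ⟨n, h1, h2⟩ := exists_comp_bound hF
  obtain ⟨m, h1', h2'⟩ := exists_comp_bound hG
  apply comp_eq (n := max n m) (G := fun k => comp k F + comp k G)
  · exact fun k => add_mem (MO_le_Wt (comp_mem k)) (MO_le_Wt (comp_mem k))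
  · exact add_mem hF hG
  · rw [Finset.sum_add_distrib]
    congr 1
    · conv_lhs => rw [h2]
      apply Finset.sum_subset (Finset.range_subset_range.2 (le_max_left _ _))
      intro i _ hi
      exact h1 i (by simpa using hi)
    · conv_lhs => rw [h2']
      apply Finset.sum_subset (Finset.range_subset_range.2 (le_max_right _ _))
      intro i _ hi
      exact h1' i (by simpa using hi)
  · intro k hk
    rw [h1 k ((le_max_left _ _).trans hk), h1' k ((le_max_right _ _).trans hk), add_zero]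

end Crest.Agent.R007.Lat
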