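import Mathlib
import Crest.Agent.R007.Lat6

/-! Row 7, section C: FROZEN DEFINITIONS on top of `Lat`:
* `IntO O` : functions in `PO` all of whose `q`-coefficients are in the subring `O` of `ℂ`;
* `Two O f` : all coefficients of `f` are in `2 O`;
* `Lat.MM` (983): finite sums of elements of `MO k` (mixed weight forms of all odd levels);
* `VV O` : mixed weight forms `F` such that all expansions of `F ∥ g`, `g ∈ G2`, are in `O`;
* `Lk O k` : the same in pure weight `k`. -/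

set_option autoImplicit false

namespace Crest.Agent.R007.Mix

open UpperHalfPlane ModularForm CongruenceSubgroup Matrix
open Crest.Agent.R007.Lat
open scoped MatrixGroups Manifold ModularForm

/-- functions in `PO` with all coefficients in `O` -/
def IntO (O : Subring ℂ) : Subring (ℍ → ℂ) where
  carrier := {f | f ∈ PO ∧ ∀ r : ℚ, (qf f).coeff r ∈ O}
  mul_mem' := by
    rintro f g ⟨hf, hf'⟩ ⟨hg, hg'⟩
    refine ⟨mul_mem hf hg, fun r => ?_⟩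
    rw [qf_mul hf hg, HahnSeries.coeff_mul]
    exact Subring.sum_mem _ fun i _ => mul_mem (hf' _) (hg' _)
  one_mem' := by
    refine ⟨one_mem _, fun r => ?_⟩
    rw [qf_one, HahnSeries.coeff_one]
    split_ifs
    · exact one_mem _
    · exact zero_mem _
  add_mem' := by
    rintro f g ⟨hf, hf'⟩ ⟨hg, hg'⟩
    refine ⟨add_mem hf hg, fun r => ?_⟩
    rw [qf_add hf hg, HahnSeries.coeff_add]
    exact add_mem (hf' _) (hg' _)
  zero_mem' := by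
    refine ⟨zero_mem _, fun r => ?_⟩
    rw [qf_zero, HahnSeries.coeff_zero]
    exact zero_mem _
  neg_mem' := by
    rintro f ⟨hf, hf'⟩
    refine ⟨neg_mem hf, fun r => ?_⟩
    have : -f = (-1 : ℂ) • f := by simp
    rw [this, qf_smul _ hf, HahnSeries.coeff_smul]
    simpa using hf' r

lemma mem_IntO {O : Subring ℂ} {f : ℍ → ℂ} : f ∈ IntO O ↔ f ∈ PO ∧ ∀ r : ℚ, (qf f).coeff r ∈ O :=
  Iff.rfl

/-- all coefficients are in `2 O` -/
def Two (O : Subring ℂ) (f : ℍ → ℂ) : Prop := ∀ r : ℚ, ∃ y ∈ O, (qf f).coeff r = 2 * y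

lemma IntO_smul {O : Subring ℂ} {c : ℂ} (hc : c ∈ O) {f : ℍ → ℂ} (hf : f ∈ IntO O) :
    c • f ∈ IntO O := by
  refine ⟨Subalgebra.smul_mem _ hf.1 c, fun r => ?_⟩
  rw [qf_smul _ hf.1, HahnSeries.coeff_smul, smul_eq_mul]
  exact mul_mem hc (hf.2 r)

lemma two_of_mem {O : Subring ℂ} {f : ℍ → ℂ} (hf : f ∈ IntO O) : Two O (2 * f) := by
  intro r
  refine ⟨_, hf.2 r, ?_⟩
  have : (2 * f : ℍ → ℂ) = (2 : ℂ) • f := by
    funext τ; simp
  rw [this, qf_smul _ hf.1, HahnSeries.coeff_smul, smul_eq_mul]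

lemma half_mem {O : Subring ℂ} {f : ℍ → ℂ} (hf : f ∈ PO) (h : Two O f) :
    ((2 : ℂ)⁻¹) • f ∈ IntO O := by
  refine ⟨Subalgebra.smul_mem _ hf _, fun r => ?_⟩
  obtain ⟨y, hy, e⟩ := h r
  rw [qf_smul _ hf, HahnSeries.coeff_smul, smul_eq_mul, e]
  rw [← mul_assoc, inv_mul_cancel₀ two_ne_zero, one_mul]
  exact hy

lemma Two.add {O : Subring ℂ} {f g : ℍ → ℂ} (hf : f ∈ PO) (hg : g ∈ PO) (h : Two O f) (h' : Two O g) :
    Two O (f + g) := by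
  intro r
  obtain ⟨y, hy, e⟩ := h r
  obtain ⟨z, hz, e'⟩ := h' r
  exact ⟨y + z, add_mem hy hz, by rw [qf_add hf hg, HahnSeries.coeff_add, e, e', mul_add]⟩

lemma Two.sub {O : Subring ℂ} {f g : ℍ → ℂ} (hf : f ∈ PO) (hg : g ∈ PO) (h : Two O f) (h' : Two O g) :
    Two O (f - g) := by
  intro r
  obtain ⟨y, hy, e⟩ := h r
  obtain ⟨z, hz, e'⟩ := h' r
  exact ⟨y - z, sub_mem hy hz, by rw [qf_sub hf hg, HahnSeries.coeff_sub, e, e', mul_sub]⟩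

lemma Two.mul {O : Subring ℂ} {f g : ℍ → ℂ} (hf : f ∈ IntO O) (hg : g ∈ PO) (h' : Two O g) :
    Two O (f * g) := by
  intro r
  choose y hy e using h'
  refine ⟨((2 : ℂ)⁻¹) * (qf (f * g)).coeff r, ?_, ?_⟩
  · rw [qf_mul hf.1 hg, HahnSeries.coeff_mul, Finset.mul_sum]
    refine Subring.sum_mem _ fun i _ => ?_
    rw [e i.2]
    have : (2 : ℂ)⁻¹ * ((qf f).coeff i.1 * (2 * y i.2)) = (qf f).coeff i.1 * y i.2 := by
      field_simp
    rw [this]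
    exact mul_mem (hf.2 _) (hy _)
  · rw [← mul_assoc, mul_inv_cancel₀ two_ne_zero, one_mul]

/-! ### mixed weight -/

lemma MM_induction {p : (X → ℂ) → Prop} (h0 : p 0) (hadd : ∀ F G, F ∈ MM → G ∈ MM → p F → p G → p (F + G))
    (hmo : ∀ k F, F ∈ MO k → p F) {F : X → ℂ} (hF : F ∈ MM) : p F := by
  obtain ⟨n, f, hf, rfl⟩ := mem_MM_iff.1 hF
  induction n with
  | zero => simpa using h0
  | succ n ih =>
    rw [Finset.sum_range_succ]
    exact hadd _ _ (sum_mem fun k _ => MO_le_MM (hf k)) (MO_le_MM (hf n))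
      (ih (sum_mem fun k _ => MO_le_MM (hf k))) (hmo _ _ (hf n))

lemma MM_res {F : X → ℂ} (hF : F ∈ MM) : res F ∈ PO := res_mem_PO' hF

lemma MM_smul {F : X → ℂ} (hF : F ∈ MM) (c : ℂ) : c • F ∈ MM := Subalgebra.smul_mem _ hF c

lemma MM_res_sl {F : X → ℂ} (hF : F ∈ MM) {g : GL(2, ℝ)⁺} (hg : g ∈ G2) : res (sl F g) ∈ PO :=
  MM_res (MM_sl hF hg)

/-! ### `V` and `L` -/

/-- mixed weight forms with all expansions of `F ∥ g`, `g ∈ G2`, in `O` -/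
def VV (O : Subring ℂ) : Subring (X → ℂ) where
  carrier := {F | F ∈ MM ∧ ∀ g ∈ G2, res (sl F g) ∈ IntO O}
  mul_mem' := by
    rintro F G ⟨hF, hF'⟩ ⟨hG, hG'⟩
    refine ⟨mul_mem hF hG, fun g hg => ?_⟩
    rw [sl_mul, res_mul]
    exact mul_mem (hF' g hg) (hG' g hg)
  one_mem' := ⟨one_mem _, fun g _ => by rw [sl_one, res_one]; exact one_mem _⟩
  add_mem' := by
    rintro F G ⟨hF, hF'⟩ ⟨hG, hG'⟩
    refine ⟨add_mem hF hG, fun g hg => ?_⟩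
    rw [sl_add, res_add]
    exact add_mem (hF' g hg) (hG' g hg)
  zero_mem' := ⟨zero_mem _, fun g _ => by
    rw [sl_zero]; exact zero_mem _⟩
  neg_mem' := by
    rintro F ⟨hF, hF'⟩
    refine ⟨neg_mem hF, fun g hg => ?_⟩
    have : res (sl (-F) g) = - res (sl F g) := rfl
    rw [this]
    exact neg_mem (hF' g hg)

lemma mem_VV {O : Subring ℂ} {F : X → ℂ} : F ∈ VV O ↔ F ∈ MM ∧ ∀ g ∈ G2, res (sl F g) ∈ IntO O :=
  Iff.rfl

/-- pure weight `k`, all odd levels, all expansions in `O` -/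
def Lk (O : Subring ℂ) (k : ℕ) : AddSubgroup (X → ℂ) where
  carrier := {F | F ∈ MO k ∧ ∀ g ∈ G2, res (sl F g) ∈ IntO O}
  add_mem' := by
    rintro F G ⟨hF, hF'⟩ ⟨hG, hG'⟩
    refine ⟨add_mem hF hG, fun g hg => ?_⟩
    rw [sl_add, res_add]
    exact add_mem (hF' g hg) (hG' g hg)
  zero_mem' := ⟨zero_mem _, fun g _ => by
    rw [sl_zero]; exact zero_mem _⟩
  neg_mem' := by
    rintro F ⟨hF, hF'⟩
    refine ⟨neg_mem hF, fun g hg => ?_⟩
    have : res (sl (-F) g) = - res (sl F g) := rfl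
    rw [this]
    exact neg_mem (hF' g hg)

lemma mem_Lk {O : Subring ℂ} {k : ℕ} {F : X → ℂ} :
    F ∈ Lk O k ↔ F ∈ MO k ∧ ∀ g ∈ G2, res (sl F g) ∈ IntO O := Iff.rfl

variable {O : Subring ℂ}

lemma Lk_le_VV {k : ℕ} {F : X → ℂ} (hF : F ∈ Lk O k) : F ∈ VV O := ⟨MO_le_MM hF.1, hF.2⟩

lemma Lk_mul {k l : ℕ} {F G : X → ℂ} (hF : F ∈ Lk O k) (hG : G ∈ Lk O l) : F * G ∈ Lk O (k + l) :=
  ⟨MO_mul hF.1 hG.1, ((VV O).mul_mem (Lk_le_VV hF) (Lk_le_VV hG)).2⟩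

lemma Lk_one : (1 : X → ℂ) ∈ Lk O 0 := ⟨MO_one, (one_mem (VV O)).2⟩

lemma Lk_smul {k : ℕ} {F : X → ℂ} (hF : F ∈ Lk O k) {c : ℂ} (hc : c ∈ O) : c • F ∈ Lk O k := by
  refine ⟨Submodule.smul_mem _ _ hF.1, fun g hg => ?_⟩
  rw [sl_smul, res_smul]
  exact IntO_smul hc (hF.2 g hg)

lemma VV_smul {F : X → ℂ} (hF : F ∈ VV O) {c : ℂ} (hc : c ∈ O) : c • F ∈ VV O := by
  refine ⟨MM_smul hF.1 c, fun g hg => ?_⟩
  rw [sl_smul, res_smul]
  exact IntO_smul hc (hF.2 g hg)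

lemma VV_sl {F : X → ℂ} (hF : F ∈ VV O) {g : GL(2, ℝ)⁺} (hg : g ∈ G2) : sl F g ∈ VV O := by
  refine ⟨MM_sl hF.1 hg, fun h hh => ?_⟩
  rw [← sl_mul_right]
  exact hF.2 _ (mul_mem hg hh)

lemma Lk_sl {k : ℕ} {F : X → ℂ} (hF : F ∈ Lk O k) {g : GL(2, ℝ)⁺} (hg : g ∈ G2) : sl F g ∈ Lk O k := by
  refine ⟨MO_sl hF.1 hg, fun h hh => ?_⟩
  rw [← sl_mul_right]
  exact hF.2 _ (mul_mem hg hh)

lemma VV_res {F : X → ℂ} (hF : F ∈ VV O) : res F ∈ IntO O := by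
  have := hF.2 1 (one_mem _)
  rwa [sl_one_right] at this

lemma two_mul_eq_smul (F : X → ℂ) : 2 * F = (2 : ℂ) • F := by
  funext x; simp

lemma half_two (F : X → ℂ) : F = 2 * (((2 : ℂ)⁻¹) • F) := by
  rw [two_mul_eq_smul, smul_smul, mul_inv_cancel₀ two_ne_zero, one_smul]

lemma two_cancel {F G : X → ℂ} (h : 2 * F = 2 * G) : F = G := by
  rw [two_mul_eq_smul, two_mul_eq_smul] at h
  exact smul_right_injective _ (two_ne_zero (α := ℂ)) h

/-- `2 V` is recognised by the expansions of all `F ∥ g` -/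
lemma VV_half {F : X → ℂ} (hF : F ∈ MM) (h : ∀ g ∈ G2, Two O (res (sl F g))) :
    ∃ G ∈ VV O, F = 2 * G := by
  refine ⟨((2 : ℂ)⁻¹) • F, ⟨MM_smul hF _, fun g hg => ?_⟩, half_two F⟩
  rw [sl_smul, res_smul]
  exact half_mem (MM_res_sl hF hg) (h g hg)

lemma Lk_half {k : ℕ} {F : X → ℂ} (hF : F ∈ MO k) (h : ∀ g ∈ G2, Two O (res (sl F g))) :
    ∃ G ∈ Lk O k, F = 2 * G := by
  refine ⟨((2 : ℂ)⁻¹) • F, ⟨Submodule.smul_mem _ _ hF, fun g hg => ?_⟩, half_two F⟩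
  rw [sl_smul, res_smul]
  exact half_mem (MM_res_sl (MO_le_MM hF) hg) (h g hg)

lemma two_res_of_VV {G : X → ℂ} (hG : G ∈ VV O) : Two O (res (2 * G)) :=
  two_of_mem (VV_res hG)

lemma two_res_sl_of_VV {G : X → ℂ} (hG : G ∈ VV O) {g : GL(2, ℝ)⁺} (hg : g ∈ G2) :
    Two O (res (sl (2 * G) g)) := by
  have : sl (2 * G) g = 2 * sl G g := rfl
  rw [this]
  exact two_res_of_VV (VV_sl hG hg)

/-- `L_k ∩ 2 V = 2 L_k` -/
lemma Lk_of_two {k : ℕ} {F G : X → ℂ} (hF : F ∈ MO k) (hG : G ∈ VV O) (e : F = 2 * G) : G ∈ Lk O k := by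
  obtain ⟨G', hG', e'⟩ := Lk_half (O := O) hF (fun g hg => by rw [e]; exact two_res_sl_of_VV hG hg)
  have : G = G' := two_cancel (e.symm.trans e')
  rwa [this]

end Crest.Agent.R007.Mix
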