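import Mathlib
import Crest.Agent.R007.Mix1
import Crest.Agent.R007.G2Gen

/-! Row 7, section D: integrality at the `SL₂(ℤ)`-cusps implies integrality for all of `G2`;
`2` is prime on expansions. -/

set_option autoImplicit false

namespace Crest.Agent.R007.Dsec

open UpperHalfPlane ModularForm CongruenceSubgroup Matrix
open Crest.Agent.R007.Lat Crest.Agent.R007.Mix
open scoped MatrixGroups Manifold ModularForm

/-- Hermite form with non-negative upper right entry -/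
lemma exists_hermite' (A : Matrix (Fin 2) (Fin 2) ℤ) (hA : 0 < A.det) :
    ∃ (γ : SL(2, ℤ)) (a b d : ℕ), 0 < a ∧ 0 < d ∧ ((a * d : ℕ) : ℤ) = A.det ∧ A = γ.1 * ut a b d := by
  obtain ⟨γ, a, b, d, ha, hd, had, e⟩ := exists_hermite A hA
  refine ⟨γ * ModularGroup.T ^ (b / d), a.toNat, (b % d).toNat, d.toNat, by omega, by omega, ?_, ?_⟩
  · push_cast
    rw [Int.toNat_of_nonneg ha.le, Int.toNat_of_nonneg hd.le, had]
  · have h1 : (γ * ModularGroup.T ^ (b / d)).1 = γ.1 * !![1, b / d; 0, 1] := by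
      rw [← ModularGroup.coe_T_zpow]; rfl
    rw [h1, e, Matrix.mul_assoc]
    congr 1
    have e1 : ((a.toNat : ℕ) : ℤ) = a := Int.toNat_of_nonneg ha.le
    have e2 : ((d.toNat : ℕ) : ℤ) = d := Int.toNat_of_nonneg hd.le
    have e3 : (((b % d).toNat : ℕ) : ℤ) = b % d := Int.toNat_of_nonneg (Int.emod_nonneg _ hd.ne')
    rw [e1, e2, e3, ut]
    ext i j
    fin_cases i <;> fin_cases j
    · simp [Matrix.mul_apply, Fin.sum_univ_two]
    · simp only [Matrix.mul_apply, Fin.sum_univ_two]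
      simp
      have := Int.mul_ediv_add_emod b d
      linarith
    · simp [Matrix.mul_apply, Fin.sum_univ_two]
    · simp [Matrix.mul_apply, Fin.sum_univ_two]

section
variable {O : Subring ℂ} (hodd : ∀ n : ℕ, Odd n → (n : ℂ)⁻¹ ∈ O)
  (hroot : ∀ x : ℚ, Odd x.den → ee x ∈ O)

include hroot in
/-- coefficients are in `I` after an upper triangular substitution -/
lemma coeff_comp_ut_mem {I : AddSubgroup ℂ} (hI : ∀ c ∈ O, ∀ x ∈ I, c * x ∈ I) {f : ℍ → ℂ}
    (hf : f ∈ PO) (h : ∀ r, (qf f).coeff r ∈ I) {a b d : ℕ} (ha : Odd a) (hd : Odd d)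
    (hdet : 0 < (ut a b d).det) (r : ℚ) :
    (qf (fun τ => f (iG (ut a b d) hdet • τ))).coeff r ∈ I := by
  have ha0 : (a : ℚ) ≠ 0 := by exact_mod_cast ha.pos.ne'
  have hd0 : (d : ℚ) ≠ 0 := by exact_mod_cast hd.pos.ne'
  have e : r = (r * d / a) * a / d := by field_simp
  rw [e, qf_comp_ut hf ha hd hdet]
  by_cases h0 : (qf f).coeff (r * d / a) = 0
  · rw [h0, mul_zero]; exact I.zero_mem
  · apply hI _ _ _ (h _)
    apply hroot
    obtain ⟨M, hM, hf⟩ := hf
    have hex : ∃ n : ℕ, (n : ℚ) / M = r * d / a := by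
      by_contra hcon
      push Not at hcon
      exact h0 (qf_coeff_of_notMem hM hf hcon)
    obtain ⟨n, hn⟩ := hex
    rw [← hn]
    have hM0 : (M : ℚ) ≠ 0 := by exact_mod_cast hM.pos.ne'
    have e2 : (n : ℚ) / M * b / d = ((n * b : ℕ) : ℤ) / ((M * d : ℕ) : ℤ) := by
      push_cast; field_simp
    rw [e2]
    have hdvd := Rat.den_dvd ((n * b : ℕ) : ℤ) ((M * d : ℕ) : ℤ)
    have hodd2 : Odd (M * d) := hM.mul hd
    have : ((((n * b : ℕ) : ℤ) : ℚ) / (((M * d : ℕ) : ℤ) : ℚ)).den ∣ M * d := by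
      rw [← Rat.divInt_eq_div]
      exact_mod_cast hdvd
    exact Odd.of_dvd_nat hodd2 this

include hodd hroot in
/-- integrality at all `SL₂(ℤ)`-translates implies it for all `G2`-translates -/
lemma mem_of_SL {I : AddSubgroup ℂ} (hI : ∀ c ∈ O, ∀ x ∈ I, c * x ∈ I) {k : ℕ} {F : X → ℂ}
    (hF : F ∈ MO k) (h : ∀ (γ : SL(2, ℤ)) (r : ℚ), (qf (res (sl F (sG γ)))).coeff r ∈ I)
    {g : GL(2, ℝ)⁺} (hg : g ∈ G2) (r : ℚ) : (qf (res (sl F g))).coeff r ∈ I := by
  obtain ⟨n, A, hn, hA, hdet, h', _, e⟩ := G2_exists hg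
  have hn0 : (((n : ℤ) : ℂ)) ≠ 0 := by exact_mod_cast hn.pos.ne'
  have h2 : sl (sl F g) (iG (sc n) h') = (((n : ℤ) : ℂ)⁻¹) ^ k • sl F g :=
    sl_scalar (Wt_sl (MO_le_Wt hF) g) n h'
  rw [← sl_mul_right, e] at h2
  have h3 : sl F g = (n : ℂ) ^ k • sl F (iG A hdet) := by
    rw [h2, smul_smul]
    have : (n : ℂ) ^ k * (((n : ℤ) : ℂ)⁻¹) ^ k = 1 := by
      rw [← mul_pow]
      have : (n : ℂ) * (((n : ℤ) : ℂ)⁻¹) = 1 := by
        rw [Int.cast_natCast]
        exact mul_inv_cancel₀ (by exact_mod_cast hn.pos.ne')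
      rw [this, one_pow]
    rw [this, one_smul]
  obtain ⟨γ, a, b, d, ha, hd, had, eA⟩ := exists_hermite' A hdet
  have hodd' : Odd (a * d) := by
    have : Odd (((a * d : ℕ) : ℤ)) := by rw [had]; exact hA
    exact_mod_cast this
  have hao : Odd a := (Nat.odd_mul.1 hodd').1
  have hdo : Odd d := (Nat.odd_mul.1 hodd').2
  have hut : 0 < (ut a b d).det := by
    rw [ut_det]; positivity
  have h4 : iG A hdet = sG γ * iG (ut a b d) hut := by
    rw [sG, ← iG_mul γ.1 (ut a b d) _ _ (by rw [← eA]; exact hdet)]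
    exact iG_congr eA _
  have hG : sl F (sG γ) ∈ MO k := MO_sl hF (sG_mem_G2 γ)
  have h5 : res (sl F (iG A hdet)) =
      (((d : ℤ) : ℂ)⁻¹) ^ k • (fun τ => res (sl F (sG γ)) (iG (ut a b d) hut • τ)) := by
    rw [h4, sl_mul_right]
    funext τ
    rw [res_sl_ut (MO_le_Wt hG) hut τ]
    rfl
  have hPO : (fun τ => res (sl F (sG γ)) (iG (ut a b d) hut • τ)) ∈ PO := by
    obtain ⟨M, hM, hm⟩ := res_mem_PO hG
    have : NeZero M := ⟨hM.pos.ne'⟩
    exact ⟨M * d, hM.mul hdo, PB_comp_ut hm hd hut⟩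
  rw [h3, res_smul, h5, smul_smul, qf_smul _ hPO, HahnSeries.coeff_smul, smul_eq_mul]
  apply hI
  · refine mul_mem (pow_mem (natCast_mem O n) _) (pow_mem ?_ _)
    rw [Int.cast_natCast]
    exact hodd d hdo
  · exact coeff_comp_ut_mem hroot hI (res_mem_PO hG) (h γ) hao hdo hut r

include hodd hroot in
lemma Lk_of_SL {k : ℕ} {F : X → ℂ} (hF : F ∈ MO k)
    (h : ∀ (γ : SL(2, ℤ)) (r : ℚ), (qf (res (sl F (sG γ)))).coeff r ∈ O) : F ∈ Lk O k := by
  refine ⟨hF, fun g hg => ⟨res_mem_PO (MO_sl hF hg), fun r => ?_⟩⟩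
  exact mem_of_SL hodd hroot (I := O.toAddSubgroup) (fun c hc x hx => O.mul_mem hc hx) hF h hg r

/-- `2 O` -/
def twO (O : Subring ℂ) : AddSubgroup ℂ := O.toAddSubgroup.map (AddMonoidHom.mulLeft (2 : ℂ))

lemma mem_twO {x : ℂ} : x ∈ twO O ↔ ∃ y ∈ O, x = 2 * y := by
  simp only [twO, AddSubgroup.mem_map, Subring.mem_toAddSubgroup, AddMonoidHom.coe_mulLeft]
  constructor
  · rintro ⟨y, hy, e⟩; exact ⟨y, hy, e.symm⟩
  · rintro ⟨y, hy, e⟩; exact ⟨y, hy, e.symm⟩

lemma twO_mul {c x : ℂ} (hc : c ∈ O) (hx : x ∈ twO O) : c * x ∈ twO O := by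
  obtain ⟨y, hy, rfl⟩ := mem_twO.1 hx
  exact mem_twO.2 ⟨c * y, mul_mem hc hy, by ring⟩

lemma twO_le {x : ℂ} (hx : x ∈ twO O) : x ∈ O := by
  obtain ⟨y, hy, rfl⟩ := mem_twO.1 hx
  exact mul_mem (by exact_mod_cast natCast_mem O 2) hy

lemma Two_iff {f : ℍ → ℂ} : Two O f ↔ ∀ r, (qf f).coeff r ∈ twO O := by
  simp only [Two, mem_twO]

include hodd hroot in
lemma Two_of_SL {k : ℕ} {F : X → ℂ} (hF : F ∈ MO k)
    (h : ∀ (γ : SL(2, ℤ)), Two O (res (sl F (sG γ)))) {g : GL(2, ℝ)⁺} (hg : g ∈ G2) :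
    Two O (res (sl F g)) := by
  rw [Two_iff]
  intro r
  exact mem_of_SL hodd hroot (I := twO O) (fun c hc x hx => twO_mul hc hx) hF
    (fun γ => Two_iff.1 (h γ)) hg r

end

/-! ### `2` is prime -/

section prime
variable {O : Subring ℂ} (hprime : ∀ a ∈ O, ∀ b ∈ O, a * b ∈ twO O → a ∈ twO O ∨ b ∈ twO O)

/-- the order mod 2 -/
def NZ (O : Subring ℂ) (c : HahnSeries ℚ ℂ) (r : ℚ) : Prop :=
  c.coeff r ∉ twO O ∧ ∀ s < r, c.coeff s ∈ twO O

lemma exists_NZ {c : HahnSeries ℚ ℂ} (h : ∃ r, c.coeff r ∉ twO O) : ∃ r, NZ O c r := by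
  have hs : {r | c.coeff r ∉ twO O} ⊆ c.support := by
    intro r hr
    rw [HahnSeries.mem_support]
    intro h0
    apply hr
    rw [h0]
    exact zero_mem _
  have hwf : Set.IsWF {r | c.coeff r ∉ twO O} := (c.isWF_support).mono hs
  refine ⟨hwf.min h, hwf.min_mem h, fun s hs => ?_⟩
  by_contra hcon
  exact hwf.not_lt_min h hcon hs

include hprime in
lemma NZ_mul {c c' : HahnSeries ℚ ℂ} (hc : ∀ r, c.coeff r ∈ O) (hc' : ∀ r, c'.coeff r ∈ O)
    {r s : ℚ} (h : NZ O c r) (h' : NZ O c' s) : NZ O (c * c') (r + s) := by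
  constructor
  · rw [HahnSeries.coeff_mul]
    intro hcon
    have hmem : (r, s) ∈ Finset.antidiagonal c.isPWO_support c'.isPWO_support (r + s) := by
      rw [Finset.mem_antidiagonal]
      refine ⟨?_, ?_, rfl⟩
      · rw [HahnSeries.mem_support]; intro h0; exact h.1 (by rw [h0]; exact zero_mem _)
      · rw [HahnSeries.mem_support]; intro h0; exact h'.1 (by rw [h0]; exact zero_mem _)
    rw [← Finset.add_sum_erase _ _ hmem] at hcon
    have hrest : ∑ x ∈ (Finset.antidiagonal c.isPWO_support c'.isPWO_support (r + s)).erase (r, s),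
        c.coeff x.1 * c'.coeff x.2 ∈ twO O := by
      apply sum_mem
      rintro ⟨i, j⟩ hij
      rw [Finset.mem_erase, Finset.mem_antidiagonal] at hij
      obtain ⟨hne, _, _, hsum⟩ := hij
      simp only at hsum
      rcases lt_trichotomy i r with hi | hi | hi
      · rw [mul_comm]; exact twO_mul (hc' _) (h.2 i hi)
      · exfalso; apply hne; subst hi; rw [add_left_cancel hsum]
      · exact twO_mul (hc _) (h'.2 j (by linarith))
    have := sub_mem hcon hrest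
    rw [add_sub_cancel_right] at this
    rcases hprime _ (hc _) _ (hc' _) this with h1 | h1
    · exact h.1 h1
    · exact h'.1 h1
  · intro t ht
    rw [HahnSeries.coeff_mul]
    apply sum_mem
    rintro ⟨i, j⟩ hij
    rw [Finset.mem_antidiagonal] at hij
    obtain ⟨_, _, hsum⟩ := hij
    simp only at hsum
    rcases lt_or_ge i r with hi | hi
    · rw [mul_comm]; exact twO_mul (hc' _) (h.2 i hi)
    · exact twO_mul (hc _) (h'.2 j (by linarith))

include hprime in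
lemma Two_prime {f g : ℍ → ℂ} (hf : f ∈ IntO O) (hg : g ∈ IntO O) (h : Two O (f * g)) :
    Two O f ∨ Two O g := by
  by_contra hcon
  rw [not_or, Two_iff, Two_iff] at hcon
  push Not at hcon
  obtain ⟨r, hr⟩ := exists_NZ hcon.1
  obtain ⟨s, hs⟩ := exists_NZ hcon.2
  have := NZ_mul hprime hf.2 hg.2 hr hs
  rw [← qf_mul hf.1 hg.1] at this
  exact this.1 (Two_iff.1 h _)

end prime

end Crest.Agent.R007.Dsec
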