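import Mathlib
import Crest.Agent.R007.DInt
import Crest.Agent.R007.DGrp

/-! Row 7, section D: level irreducibility. -/

set_option autoImplicit false

namespace Crest.Agent.R007.Dsec

open UpperHalfPlane ModularForm CongruenceSubgroup Matrix
open Crest.Agent.R007.Lat Crest.Agent.R007.Mix
open scoped MatrixGroups Manifold ModularForm

instance instGammaNormal (M : ℕ) : (Gamma M).Normal := Gamma_normal M

/-- level `M`, weight `k`, integral -/
def LM (O : Subring ℂ) (M k : ℕ) (F : X → ℂ) : Prop := F ∈ MX M k ∧ F ∈ Lk O k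

section
variable {O : Subring ℂ} {M : ℕ} [NeZero M]

lemma MX_sl_SL {k : ℕ} {F : X → ℂ} (hF : F ∈ MX M k) (γ : SL(2, ℤ)) : sl F (sG γ) ∈ MX M k := by
  have := MX_sl_iG hF γ.1 (by simp)
  have h1 : M * γ.1.det.natAbs = M := by simp
  rw [h1] at this
  exact this

lemma LM.slSL {k : ℕ} {F : X → ℂ} (h : LM O M k F) (γ : SL(2, ℤ)) : LM O M k (sl F (sG γ)) :=
  ⟨MX_sl_SL h.1 γ, Lk_sl h.2 (sG_mem_G2 γ)⟩

lemma LM.mul {k l : ℕ} {F G : X → ℂ} (h : LM O M k F) (h' : LM O M l G) : LM O M (k + l) (F * G) :=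
  ⟨MX_mul h.1 h'.1, Lk_mul h.2 h'.2⟩

lemma LM.one : LM O M 0 1 := ⟨MX_one, Lk_one⟩

lemma LM.pow {k : ℕ} {F : X → ℂ} (h : LM O M k F) (n : ℕ) : LM O M (n * k) (F ^ n) := by
  induction n with
  | zero => simpa using LM.one
  | succ n ih =>
    rw [pow_succ, Nat.succ_mul]
    exact ih.mul h

lemma LM.int {k : ℕ} {F : X → ℂ} (h : LM O M k F) : res F ∈ IntO O := VV_res (Lk_le_VV h.2)

lemma LM.inv {k : ℕ} {F : X → ℂ} (h : LM O M k F) {γ : SL(2, ℤ)} (hγ : γ ∈ Gamma M) :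
    sl F (sG γ) = F := (mem_MX_iff.1 h.1).2.1 γ hγ

lemma LM.prod {ι : Type*} {k : ℕ} (s : Finset ι) {f : ι → X → ℂ} (h : ∀ i ∈ s, LM O M k (f i)) :
    LM O M (s.card * k) (∏ i ∈ s, f i) := by
  classical
  induction s using Finset.induction_on with
  | empty => simpa using LM.one
  | insert a s ha ih =>
    rw [Finset.prod_insert ha, Finset.card_insert_of_notMem ha, Nat.succ_mul, add_comm]
    exact (h a (Finset.mem_insert_self _ _)).mul (ih fun i hi => h i (Finset.mem_insert_of_mem hi))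

variable (O M) in
/-- the stabiliser of the `q`-expansion prime in level `M` -/
def St : Subgroup SL(2, ℤ) where
  carrier := {γ | ∀ (k : ℕ) (F : X → ℂ), LM O M k F → (Two O (res F) ↔ Two O (res (sl F (sG γ))))}
  one_mem' := by
    intro k F _
    rw [sG_one, sl_one_right]
  mul_mem' := by
    intro a b ha hb k F hF
    rw [ha k F hF, hb k _ (hF.slSL a), sG_mul, sl_mul_right]
  inv_mem' := by
    intro a ha k F hF
    have := ha k _ (hF.slSL a⁻¹)
    rw [this, ← sl_mul_right, ← sG_mul, inv_mul_cancel, sG_one, sl_one_right]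

lemma mem_St {γ : SL(2, ℤ)} : γ ∈ St O M ↔
    ∀ (k : ℕ) (F : X → ℂ), LM O M k F → (Two O (res F) ↔ Two O (res (sl F (sG γ)))) := Iff.rfl

lemma Gamma_le_St : Gamma M ≤ St O M := by
  intro γ hγ k F hF
  rw [hF.inv hγ]

lemma mem_St_of_imp {γ : SL(2, ℤ)} (h : ∀ (k : ℕ) (F : X → ℂ), LM O M k F → Two O (res F) →
    Two O (res (sl F (sG γ)))) : γ ∈ St O M := by
  intro k F hF
  refine ⟨h k F hF, fun h2 => ?_⟩
  obtain ⟨n, hn, _, hmem⟩ := Subgroup.exists_pow_mem_of_index_ne_zero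
    (Subgroup.FiniteIndex.index_ne_zero (H := Gamma M)) γ
  have key : ∀ (j : ℕ) (G : X → ℂ), LM O M k G → Two O (res G) → Two O (res (sl G (sG (γ ^ j)))) := by
    intro j
    induction j with
    | zero => intro G hG h0; rw [pow_zero, sG_one, sl_one_right]; exact h0
    | succ j ih =>
      intro G hG h0
      rw [pow_succ, sG_mul, sl_mul_right]
      exact h k _ (hG.slSL _) (ih G hG h0)
  obtain ⟨m, rfl⟩ := Nat.exists_eq_succ_of_ne_zero hn.ne'
  have := key m _ (hF.slSL γ) h2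
  rw [← sl_mul_right, ← sG_mul, ← pow_succ', hF.inv hmem] at this
  exact this

/-- separation from one element outside of the stabiliser -/
lemma exists_sep {γ : SL(2, ℤ)} (hγ : γ ∉ St O M) : ∃ (k : ℕ) (F : X → ℂ), LM O M k F ∧
    ¬ Two O (res F) ∧ Two O (res (sl F (sG γ))) := by
  have h1 : γ⁻¹ ∉ St O M := fun h => hγ (by simpa using (St O M).inv_mem h)
  have h2 : ¬ ∀ (k : ℕ) (F : X → ℂ), LM O M k F → Two O (res F) → Two O (res (sl F (sG γ⁻¹))) :=
    fun h => h1 (mem_St_of_imp h)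
  push Not at h2
  obtain ⟨k, F, hF, h3, h4⟩ := h2
  refine ⟨k, sl F (sG γ⁻¹), hF.slSL _, h4, ?_⟩
  rw [← sl_mul_right, ← sG_mul, inv_mul_cancel, sG_one, sl_one_right]
  exact h3

lemma sl_congr_mod {k : ℕ} {F : X → ℂ} (hF : LM O M k F) {γ γ' : SL(2, ℤ)}
    (h : (γ : SL(2, ℤ) ⧸ Gamma M) = (γ' : SL(2, ℤ) ⧸ Gamma M)) : sl F (sG γ) = sl F (sG γ') := by
  rw [QuotientGroup.eq] at h
  have h2 : γ' = (γ * (γ⁻¹ * γ') * γ⁻¹) * γ := by group
  have h3 : γ * (γ⁻¹ * γ') * γ⁻¹ ∈ Gamma M := Subgroup.Normal.conj_mem inferInstance _ h γ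
  rw [h2, sG_mul, sl_mul_right, hF.inv h3]

lemma out_mem_St {γ : SL(2, ℤ)} : ((γ : SL(2, ℤ) ⧸ Gamma M).out ∈ St O M) ↔ γ ∈ St O M := by
  obtain ⟨δ, hδ⟩ := QuotientGroup.mk_out_eq_mul (Gamma M) γ
  rw [hδ]
  exact Subgroup.mul_mem_cancel_right _ (Gamma_le_St δ.2)

end

section
variable {O : Subring ℂ} (hprime : ∀ a ∈ O, ∀ b ∈ O, a * b ∈ twO O → a ∈ twO O ∨ b ∈ twO O)
  (hone : (1 : ℂ) ∉ twO O)

include hone in
lemma not_Two_one : ¬ Two O (res 1) := by
  intro h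
  rw [Two_iff] at h
  have := h 0
  rw [res_one, qf_one, HahnSeries.coeff_one, if_pos rfl] at this
  exact hone this

include hprime hone in
lemma not_Two_prod {ι : Type*} (s : Finset ι) {f : ι → X → ℂ} (h : ∀ i ∈ s, res (f i) ∈ IntO O)
    (h' : ∀ i ∈ s, ¬ Two O (res (f i))) :
    res (∏ i ∈ s, f i) ∈ IntO O ∧ ¬ Two O (res (∏ i ∈ s, f i)) := by
  classical
  induction s using Finset.induction_on with
  | empty =>
    rw [Finset.prod_empty]
    exact ⟨by rw [res_one]; exact one_mem _, not_Two_one hone⟩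
  | insert a s ha ih =>
    obtain ⟨h1, h2⟩ := ih (fun i hi => h i (Finset.mem_insert_of_mem hi))
      (fun i hi => h' i (Finset.mem_insert_of_mem hi))
    rw [Finset.prod_insert ha, res_mul]
    refine ⟨mul_mem (h a (Finset.mem_insert_self _ _)) h1, fun hc => ?_⟩
    rcases Two_prime hprime (h a (Finset.mem_insert_self _ _)) h1 hc with h3 | h3
    · exact h' a (Finset.mem_insert_self _ _) h3
    · exact h2 h3

variable {M : ℕ} [NeZero M]

include hprime hone in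
lemma exists_sep_finset (T : Finset SL(2, ℤ)) (hT : ∀ γ ∈ T, γ ∉ St O M) :
    ∃ (k : ℕ) (F : X → ℂ), LM O M k F ∧ ¬ Two O (res F) ∧ ∀ γ ∈ T, Two O (res (sl F (sG γ))) := by
  classical
  induction T using Finset.induction_on with
  | empty => exact ⟨0, 1, LM.one, not_Two_one hone, by simp⟩
  | insert a T ha ih =>
    obtain ⟨k, F, h1, h2, h3⟩ := ih fun γ hγ => hT γ (Finset.mem_insert_of_mem hγ)
    obtain ⟨l, G, h4, h5, h6⟩ := exists_sep (hT a (Finset.mem_insert_self _ _))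
    refine ⟨k + l, F * G, h1.mul h4, ?_, ?_⟩
    · rw [res_mul]
      intro hc
      rcases Two_prime hprime h1.int h4.int hc with h | h
      · exact h2 h
      · exact h5 h
    · intro γ hγ
      rw [sl_mul, res_mul]
      rcases Finset.mem_insert.1 hγ with rfl | hγ
      · exact Two.mul (h1.slSL γ).int (h4.slSL γ).int.1 h6
      · rw [mul_comm]
        exact Two.mul (h4.slSL γ).int (h1.slSL γ).int.1 (h3 γ hγ)

include hprime hone in
/-- separating element, no invariance yet -/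
lemma exists_s0 : ∃ (k : ℕ) (F : X → ℂ), LM O M k F ∧ ¬ Two O (res F) ∧
    ∀ γ : SL(2, ℤ), γ ∉ St O M → Two O (res (sl F (sG γ))) := by
  classical
  have : Fintype (SL(2, ℤ) ⧸ Gamma M) := Fintype.ofFinite _
  let T : Finset SL(2, ℤ) := (Finset.univ.image
    (fun c : SL(2, ℤ) ⧸ Gamma M => c.out)).filter (fun γ => γ ∉ St O M)
  obtain ⟨k, F, h1, h2, h3⟩ := exists_sep_finset hprime hone T (fun γ hγ => (Finset.mem_filter.1 hγ).2)
  refine ⟨k, F, h1, h2, fun γ hγ => ?_⟩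
  have h4 : (γ : SL(2, ℤ) ⧸ Gamma M).out ∈ T := by
    rw [Finset.mem_filter]
    refine ⟨Finset.mem_image_of_mem _ (Finset.mem_univ _), ?_⟩
    rwa [out_mem_St]
  have h5 := h3 _ h4
  rwa [sl_congr_mod h1 (γ := (γ : SL(2, ℤ) ⧸ Gamma M).out) (γ' := γ) (QuotientGroup.out_eq' _)] at h5

include hprime hone in
/-- separating invariant element -/
lemma exists_s : ∃ (k : ℕ) (F : X → ℂ), LM O M k F ∧ ¬ Two O (res F) ∧
    (∀ γ : SL(2, ℤ), γ ∉ St O M → Two O (res (sl F (sG γ)))) ∧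
    (∀ γ ∈ St O M, sl F (sG γ) = F) := by
  classical
  have : Fintype (SL(2, ℤ) ⧸ Gamma M) := Fintype.ofFinite _
  obtain ⟨k, F, h1, h2, h3⟩ := exists_s0 (M := M) hprime hone
  let φ : SL(2, ℤ) ⧸ Gamma M → (X → ℂ) := fun c => sl F (sG c.out)
  have hφ : ∀ γ : SL(2, ℤ), φ γ = sl F (sG γ) := fun γ => sl_congr_mod h1 (QuotientGroup.out_eq' _)
  have hφsl : ∀ (c : SL(2, ℤ) ⧸ Gamma M) (h : SL(2, ℤ)), sl (φ c) (sG h) = φ (c * (h : SL(2, ℤ) ⧸ Gamma M)) := by
    intro c h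
    obtain ⟨γ, rfl⟩ := QuotientGroup.mk_surjective c
    rw [hφ, ← sl_mul_right, ← sG_mul, ← QuotientGroup.mk_mul, hφ]
  let T : Finset (SL(2, ℤ) ⧸ Gamma M) := Finset.univ.filter (fun c => c.out ∈ St O M)
  have hT : ∀ γ : SL(2, ℤ), (γ : SL(2, ℤ) ⧸ Gamma M) ∈ T ↔ γ ∈ St O M := by
    intro γ
    rw [Finset.mem_filter]
    simp only [Finset.mem_univ, true_and]
    exact out_mem_St
  have hLM : ∀ c, LM O M k (φ c) := fun c => h1.slSL _
  refine ⟨T.card * k, ∏ c ∈ T, φ c, LM.prod T fun c _ => hLM c, ?_, ?_, ?_⟩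
  · refine (not_Two_prod hprime hone T (fun c _ => (hLM c).int) ?_).2
    intro c hc hcon
    obtain ⟨γ, rfl⟩ := QuotientGroup.mk_surjective c
    rw [hφ] at hcon
    exact h2 (((hT γ).1 hc k F h1).2 hcon)
  · intro γ hγ
    have h1T : (1 : SL(2, ℤ) ⧸ Gamma M) ∈ T := (hT 1).2 (one_mem _)
    rw [← Finset.mul_prod_erase T φ h1T, sl_mul, res_mul, mul_comm]
    apply Two.mul
    · have : LM O M ((T.erase 1).card * k) (∏ x ∈ T.erase 1, φ x) := LM.prod _ fun c _ => hLM c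
      exact (this.slSL γ).int
    · exact ((hLM 1).slSL γ).int.1
    · have : φ 1 = F := by
        have := hφ 1
        rw [sG_one, sl_one_right] at this
        exact this
      rw [this]
      exact h3 γ hγ
  · intro h hh
    have e1 : sl (∏ c ∈ T, φ c) (sG h) = ∏ c ∈ T, sl (φ c) (sG h) := map_prod (slHom (sG h)) φ T
    rw [e1]
    simp only [hφsl]
    apply Finset.prod_equiv (Equiv.mulRight (h : SL(2, ℤ) ⧸ Gamma M))
    · intro c
      obtain ⟨γ, rfl⟩ := QuotientGroup.mk_surjective c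
      change (γ : SL(2, ℤ) ⧸ Gamma M) ∈ T ↔ ((γ * h : SL(2, ℤ)) : SL(2, ℤ) ⧸ Gamma M) ∈ T
      rw [hT, hT]
      exact (Subgroup.mul_mem_cancel_right _ hh).symm
    · intro c _
      rfl

lemma MX_one_of_inv {k : ℕ} {F : X → ℂ} (hF : F ∈ MX M k) (h : ∀ γ : SL(2, ℤ), sl F (sG γ) = F) :
    F ∈ MX 1 k := by
  rw [mem_MX_iff] at hF ⊢
  exact ⟨hF.1, fun γ _ => h γ, hF.2.2⟩

/-- trace from `St` to `SL₂(ℤ)` -/
lemma exists_trace {k : ℕ} {F : X → ℂ} (hF : LM O M k F)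
    (h1 : ∀ γ : SL(2, ℤ), γ ∉ St O M → Two O (res (sl F (sG γ))))
    (h2 : ∀ γ ∈ St O M, sl F (sG γ) = F) :
    ∃ A : X → ℂ, A ∈ MX 1 k ∧ res A ∈ IntO O ∧ Two O (res (A - F)) := by
  classical
  have : (St O M).FiniteIndex := Subgroup.finiteIndex_of_le Gamma_le_St
  have : Fintype (SL(2, ℤ) ⧸ St O M) := Fintype.ofFinite _
  let ψ : SL(2, ℤ) ⧸ St O M → (X → ℂ) := fun c => sl F (sG (c.out)⁻¹)
  have hψ : ∀ γ : SL(2, ℤ), ψ γ = sl F (sG γ⁻¹) := by
    intro γ
    obtain ⟨δ, hδ⟩ := QuotientGroup.mk_out_eq_mul (St O M) γ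
    change sl F (sG ((γ : SL(2, ℤ) ⧸ St O M).out)⁻¹) = _
    rw [hδ, _root_.mul_inv_rev, sG_mul, sl_mul_right, h2 _ ((St O M).inv_mem δ.2)]
  have hψsl : ∀ (c : SL(2, ℤ) ⧸ St O M) (g : SL(2, ℤ)), sl (ψ c) (sG g) = ψ (g⁻¹ • c) := by
    intro c g
    obtain ⟨γ, rfl⟩ := QuotientGroup.mk_surjective c
    rw [hψ, ← sl_mul_right, ← sG_mul]
    have : (g⁻¹ • (γ : SL(2, ℤ) ⧸ St O M)) = ((g⁻¹ * γ : SL(2, ℤ)) : SL(2, ℤ) ⧸ St O M) := rfl
    rw [this, hψ, _root_.mul_inv_rev, inv_inv]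
  have hLM : ∀ c, LM O M k (ψ c) := fun c => hF.slSL _
  have hsum : LM O M k (∑ c, ψ c) := ⟨sum_mem fun c _ => (hLM c).1, sum_mem fun c _ => (hLM c).2⟩
  refine ⟨∑ c, ψ c, MX_one_of_inv hsum.1 ?_, hsum.int, ?_⟩
  · intro g
    have e1 : sl (∑ c, ψ c) (sG g) = ∑ c, sl (ψ c) (sG g) := map_sum (slHom (sG g)) ψ Finset.univ
    rw [e1]
    simp only [hψsl]
    exact Equiv.sum_comp (MulAction.toPerm g⁻¹) ψ
  · have e0 : ψ ((1 : SL(2, ℤ)) : SL(2, ℤ) ⧸ St O M) = F := by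
      rw [hψ, inv_one, sG_one, sl_one_right]
    have e2 : ∑ c, ψ c - F = ∑ c ∈ Finset.univ.erase ((1 : SL(2, ℤ)) : SL(2, ℤ) ⧸ St O M), ψ c := by
      rw [← Finset.add_sum_erase _ ψ (Finset.mem_univ ((1 : SL(2, ℤ)) : SL(2, ℤ) ⧸ St O M)), e0]
      ring
    rw [e2, Lat.res_sum]
    have : ∀ (s : Finset (SL(2, ℤ) ⧸ St O M)), ((1 : SL(2, ℤ)) : SL(2, ℤ) ⧸ St O M) ∉ s →
        (∑ c ∈ s, res (ψ c)) ∈ PO ∧ Two O (∑ c ∈ s, res (ψ c)) := by
      intro s
      induction s using Finset.induction_on with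
      | empty =>
        intro _
        rw [Finset.sum_empty]
        refine ⟨zero_mem _, fun r => ⟨0, zero_mem _, ?_⟩⟩
        rw [qf_zero]; simp
      | insert a s ha ih =>
        intro hs
        rw [Finset.mem_insert, not_or] at hs
        obtain ⟨i1, i2⟩ := ih hs.2
        rw [Finset.sum_insert ha]
        refine ⟨add_mem (hLM a).int.1 i1, Two.add (hLM a).int.1 i1 ?_ i2⟩
        obtain ⟨γ, rfl⟩ := QuotientGroup.mk_surjective a
        rw [hψ]
        apply h1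
        intro hcon
        apply hs.1
        rw [QuotientGroup.eq]
        simpa using (St O M).inv_mem hcon
    exact (this _ (Finset.notMem_erase _ _)).2

/-- vanishing orders add -/
lemma coeff_mul_zero {c c' : HahnSeries ℚ ℂ} {a b : ℚ} (h : ∀ r < a, c.coeff r = 0)
    (h' : ∀ r < b, c'.coeff r = 0) : ∀ r < a + b, (c * c').coeff r = 0 := by
  intro r hr
  rw [HahnSeries.coeff_mul]
  apply Finset.sum_eq_zero
  rintro ⟨i, j⟩ hij
  rw [Finset.mem_antidiagonal] at hij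
  obtain ⟨_, _, hsum⟩ := hij
  simp only at hsum
  rcases lt_or_ge i a with hi | hi
  · simp [h i hi]
  · simp [h' j (by linarith)]

lemma coeff_pow_zero {c : HahnSeries ℚ ℂ} {a : ℚ} (h : ∀ r < a, c.coeff r = 0) (n : ℕ) :
    ∀ r < n * a, (c ^ n).coeff r = 0 := by
  induction n with
  | zero =>
    intro r hr
    rw [pow_zero, HahnSeries.coeff_one, if_neg]
    intro h0
    rw [h0] at hr
    simp at hr
  | succ n ih =>
    intro r hr
    rw [pow_succ]
    apply coeff_mul_zero ih h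
    push_cast at hr
    linarith

include hprime hone in
/-- the order argument -/
theorem exists_not_dvd
    (hord : ∀ (k : ℕ) (A : X → ℂ), A ∈ MX 1 k → res A ∈ IntO O → ¬ Two O (res A) →
      ∃ n : ℕ, 12 * n ≤ k ∧ (qf (res A)).coeff (n : ℚ) ∉ twO O)
    {l : ℕ} (hl : 2 ≤ l) {x : X → ℂ} (hx : LM O M 12 x)
    (hxinv : ∀ γ : SL(2, ℤ), ((l : ℤ) ∣ γ 1 0) → sl x (sG γ) = x)
    (hx0 : ∀ r < (l : ℚ), (qf (res x)).coeff r = 0) (hx2 : ¬ Two O (res x)) :
    ∃ γ ∈ St O M, ¬ ((l : ℤ) ∣ γ 1 0) := by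
  by_contra hcon
  push Not at hcon
  obtain ⟨w, s, h1, h2, h3, h4⟩ := exists_s (M := M) hprime hone
  set n := w + 1 with hn
  have hxn := hx.pow n
  have hF : LM O M (w + n * 12) (s * x ^ n) := h1.mul hxn
  have hpow : res (x ^ n) = res x ^ n := map_pow resHom x n
  have hxn2 : ¬ Two O (res (x ^ n)) := by
    have := (not_Two_prod hprime hone (Finset.range n) (f := fun _ => x) (fun _ _ => hx.int)
      (fun _ _ => hx2)).2
    rwa [Finset.prod_const, Finset.card_range] at this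
  have hF2 : ¬ Two O (res (s * x ^ n)) := by
    rw [res_mul]
    intro hc
    rcases Two_prime hprime h1.int hxn.int hc with h | h
    · exact h2 h
    · exact hxn2 h
  have hinvx : ∀ γ ∈ St O M, sl (x ^ n) (sG γ) = x ^ n := by
    intro γ hγ
    have : sl (x ^ n) (sG γ) = (sl x (sG γ)) ^ n := map_pow (slHom (sG γ)) x n
    rw [this, hxinv γ (hcon γ hγ)]
  obtain ⟨A, hA1, hA2, hA3⟩ := exists_trace hF
    (fun γ hγ => by
      rw [sl_mul, res_mul, mul_comm]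
      exact Two.mul (hxn.slSL γ).int (h1.slSL γ).int.1 (h3 γ hγ))
    (fun γ hγ => by rw [sl_mul, h4 γ hγ, hinvx γ hγ])
  have hAF : ¬ Two O (res A) := by
    intro hc
    apply hF2
    have e : res (s * x ^ n) = res A - res (A - s * x ^ n) := by
      rw [res_sub]; ring
    rw [e]
    exact Two.sub hA2.1 (by rw [res_sub]; exact sub_mem hA2.1 hF.int.1) hc hA3
  obtain ⟨m, hm1, hm2⟩ := hord _ A hA1 hA2 hAF
  have hm3 : (qf (res (s * x ^ n))).coeff (m : ℚ) ≠ 0 := by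
    intro h0
    apply hm2
    have e : res A = res (A - s * x ^ n) + res (s * x ^ n) := by rw [res_sub]; ring
    rw [e, qf_add (by rw [res_sub]; exact sub_mem hA2.1 hF.int.1) hF.int.1, HahnSeries.coeff_add, h0,
      add_zero]
    exact Two_iff.1 hA3 _
  have hm4 : ((n : ℚ) * l) ≤ m := by
    by_contra hlt
    push Not at hlt
    apply hm3
    rw [res_mul, qf_mul h1.int.1 hxn.int.1, hpow]
    have e : qf (res x ^ n) = (qf (res x)) ^ n := by
      have := map_pow qx ⟨res x, hx.int.1⟩ n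
      exact this
    rw [e]
    have := coeff_mul_zero (c := qf (res s)) (c' := (qf (res x)) ^ n) (a := 0) (b := n * l)
      (fun r hr => qf_coeff_neg h1.int.1 hr) (coeff_pow_zero hx0 n) (m : ℚ) (by linarith)
    exact this
  have hm5 : n * l ≤ m := by exact_mod_cast hm4
  have : n * 2 ≤ n * l := Nat.mul_le_mul_left _ hl
  omega

end

end Crest.Agent.R007.Dsec
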