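import Crest.Agent.R007.RatRing

/-!
Row 7 (S0007), section A (c'), (c''): level one forms over a subring `O` of `ℂ`:
a level one form with coefficients in `O` is an `O`-combination of `E₄^a E₆^b Δ^c`, `b ≤ 1`.
-/

set_option autoImplicit false

noncomputable section

namespace Crest.Agent.R007.Rat

open UpperHalfPlane ModularForm CongruenceSubgroup Matrix.SpecialLinearGroup
open scoped MatrixGroups Manifold

/-- `E₄` as a function -/
def e4 : ℍ → ℂ := (ModularForm.E (k := 4) (by norm_num) : ℍ → ℂ)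
/-- `E₆` as a function -/
def e6 : ℍ → ℂ := (ModularForm.E (k := 6) (by norm_num) : ℍ → ℂ)
/-- `Δ` as a function -/
def dl : ℍ → ℂ := ModularForm.discriminant

variable {k : ℤ} {f g : ℍ → ℂ} {O S : Subring ℂ}

theorem isF_of_SL (f : ModularForm 𝒮ℒ k) : IsF 1 k f where
  holo := ModularFormClass.holo f
  slash γ _ := SlashInvariantForm.slash_action_eqn f _ ⟨γ, rfl⟩
  bdd γ := ModularFormClass.bdd_at_infty_slash f γ

theorem isF_of_cuspSL (f : CuspForm 𝒮ℒ k) : IsF 1 k f where
  holo := CuspFormClass.holo f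
  slash γ _ := SlashInvariantForm.slash_action_eqn f _ ⟨γ, rfl⟩
  bdd γ := ModularFormClass.bdd_at_infty_slash f γ

theorem IsF.slash_one_level (hf : IsF 1 k f) (γ : SL(2, ℤ)) : f ∣[k] γ = f :=
  hf.slash γ (by rw [Gamma_one_top]; trivial)

/-- bundle a level one form -/
def IsF.toSL (h : IsF 1 k f) : ModularForm 𝒮ℒ k where
  toFun := f
  slash_action_eq' := by
    rintro _ ⟨γ, rfl⟩
    exact h.slash_one_level γ
  holo' := h.holo
  bdd_at_cusps' := by
    intro c hc
    rw [Subgroup.IsArithmetic.isCusp_iff_isCusp_SL2Z] at hc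
    rw [OnePoint.isBoundedAt_iff_forall_SL2Z hc]
    intro γ _
    exact h.bdd γ

@[simp] theorem IsF.coe_toSL (h : IsF 1 k f) : (h.toSL : ℍ → ℂ) = f := rfl

theorem isF_e4 : IsF 1 4 e4 := isF_of_SL _
theorem isF_e6 : IsF 1 6 e6 := isF_of_SL _
theorem isF_dl : IsF 1 12 dl := isF_of_cuspSL CuspForm.discriminant

theorem qe_one_eq (f : ℍ → ℂ) : qe 1 f = qExpansion 1 f := by
  simp [qe]

/-- `A = ∑ σ₃(n) q^n` -/
def psA : PowerSeries ℂ := PowerSeries.mk fun n => ((ArithmeticFunction.sigma 3 n : ℕ) : ℂ)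
/-- `B = ∑ σ₅(n) q^n` -/
def psB : PowerSeries ℂ := PowerSeries.mk fun n => ((ArithmeticFunction.sigma 5 n : ℕ) : ℂ)
/-- `(5A+7B)/12` -/
def psC : PowerSeries ℂ :=
  PowerSeries.mk fun n => (((5 * ArithmeticFunction.sigma 3 n + 7 * ArithmeticFunction.sigma 5 n) / 12 : ℕ) : ℂ)

theorem qe_e4 : qe 1 e4 = 1 + (240 : ℂ) • psA := by
  ext n
  rw [qe_one_eq, e4, EisensteinSeries.E_qExpansion_coeff (by norm_num) ⟨2, rfl⟩]
  rw [map_add, PowerSeries.coeff_smul, psA, PowerSeries.coeff_mk, PowerSeries.coeff_one]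
  have hb : bernoulli 4 = -1 / 30 := by decide +kernel
  split_ifs with h
  · simp [h]
  · rw [hb]
    push_cast
    norm_num

theorem qe_e6 : qe 1 e6 = 1 - (504 : ℂ) • psB := by
  ext n
  rw [qe_one_eq, e6, EisensteinSeries.E_qExpansion_coeff (by norm_num) ⟨3, rfl⟩]
  rw [map_sub, PowerSeries.coeff_smul, psB, PowerSeries.coeff_mk, PowerSeries.coeff_one]
  have hb : bernoulli 6 = 1 / 42 := by decide +kernel
  split_ifs with h
  · simp [h]
  · rw [hb]
    push_cast
    norm_num

theorem dvd_sigma (n : ℕ) :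
    12 ∣ 5 * ArithmeticFunction.sigma 3 n + 7 * ArithmeticFunction.sigma 5 n := by
  rw [ArithmeticFunction.sigma_apply, ArithmeticFunction.sigma_apply, Finset.mul_sum,
    Finset.mul_sum, ← Finset.sum_add_distrib]
  refine Finset.dvd_sum fun d _ => ?_
  rw [← ZMod.natCast_eq_zero_iff]
  push_cast
  have : ∀ x : ZMod 12, 5 * x ^ 3 + 7 * x ^ 5 = 0 := by decide
  exact this _

theorem psC_eq : (12 : ℂ) • psC = (5 : ℂ) • psA + (7 : ℂ) • psB := by
  ext n
  simp only [psC, psA, psB, PowerSeries.coeff_smul, map_add, PowerSeries.coeff_mk, smul_eq_mul]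
  obtain ⟨m, hm⟩ := dvd_sigma n
  rw [hm, Nat.mul_div_cancel_left _ (by norm_num)]
  have : ((5 * ArithmeticFunction.sigma 3 n + 7 * ArithmeticFunction.sigma 5 n : ℕ) : ℂ) =
    ((12 * m : ℕ) : ℂ) := by rw [hm]
  push_cast at this
  rw [← this]

theorem coeffIn_natCast (u : ℕ → ℕ) : CoeffIn S (PowerSeries.mk fun n => (u n : ℂ)) := by
  intro n
  rw [PowerSeries.coeff_mk]
  exact natCast_mem S _

theorem dl_eq : dl = (1 / 1728 : ℂ) • (e4 ^ 3 + (-1 : ℂ) • e6 ^ 2) := by
  funext z
  have := ModularForm.discriminant_eq_E₄_cube_sub_E₆_sq z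
  rw [dl, this]
  simp only [Pi.smul_apply, Pi.add_apply, Pi.pow_apply, smul_eq_mul, e4, e6]
  ring

theorem qe_dl : qe 1 dl = psC + 100 * psA ^ 2 + 8000 * psA ^ 3 - 147 * psB ^ 2 := by
  have h4 : IsF 1 12 (e4 ^ 3) := (isF_e4.pow 3).cast (by norm_num)
  have h6 : IsF 1 12 (e6 ^ 2) := (isF_e6.pow 2).cast (by norm_num)
  rw [dl_eq, qe_smul (h4.add (h6.smul _)), qe_add h4 (h6.smul _), qe_smul h6, qe_pow isF_e4,
    qe_pow isF_e6, qe_e4, qe_e6]
  have hC := psC_eq
  have e1 : (1728 : ℂ) • (psC + 100 * psA ^ 2 + 8000 * psA ^ 3 - 147 * psB ^ 2) =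
      (1 + (240 : ℂ) • psA) ^ 3 + (-1 : ℂ) • (1 - (504 : ℂ) • psB) ^ 2 := by
    have hc : ∀ (c : ℂ) (p : PowerSeries ℂ), c • p = PowerSeries.C c * p := by
      intro c p
      exact PowerSeries.smul_eq_C_mul p c
    simp only [hc] at hC ⊢
    have e12 : (PowerSeries.C (12 : ℂ)) = 12 := map_ofNat _ _
    have e5 : (PowerSeries.C (5 : ℂ)) = 5 := map_ofNat _ _
    have e7 : (PowerSeries.C (7 : ℂ)) = 7 := map_ofNat _ _
    have e240 : (PowerSeries.C (240 : ℂ)) = 240 := map_ofNat _ _
    have e504 : (PowerSeries.C (504 : ℂ)) = 504 := map_ofNat _ _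
    have e1728 : (PowerSeries.C (1728 : ℂ)) = 1728 := map_ofNat _ _
    have em1 : (PowerSeries.C (-1 : ℂ)) = -1 := by rw [map_neg, map_one]
    rw [e12, e5, e7] at hC
    rw [e240, e504, e1728, em1]
    linear_combination (144 : PowerSeries ℂ) * hC
  rw [← e1, smul_smul]
  norm_num

theorem coeffIn_dl : CoeffIn S (qe 1 dl) := by
  have hA : CoeffIn S psA := coeffIn_natCast _
  have hB : CoeffIn S psB := coeffIn_natCast _
  have hC : CoeffIn S psC := coeffIn_natCast _
  have hn : ∀ (m : ℕ) (p : PowerSeries ℂ), CoeffIn S p → CoeffIn S ((m : PowerSeries ℂ) * p) := by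
    intro m p hp
    have : (m : PowerSeries ℂ) * p = (m : ℂ) • p := by
      rw [PowerSeries.smul_eq_C_mul, map_natCast]
    rw [this]
    exact hp.smul (natCast_mem S m)
  rw [qe_dl]
  refine ((hC.add ?_).add ?_).sub ?_
  · rw [pow_two]; exact_mod_cast hn 100 _ (hA.mul hA)
  · rw [pow_succ, pow_two]; exact_mod_cast hn 8000 _ ((hA.mul hA).mul hA)
  · rw [pow_two]; exact_mod_cast hn 147 _ (hB.mul hB)

theorem coeffIn_e4 : CoeffIn S (qe 1 e4) := by
  rw [qe_e4]
  exact CoeffIn.one.add ((coeffIn_natCast _).smul (by exact_mod_cast natCast_mem S 240))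

theorem coeffIn_e6 : CoeffIn S (qe 1 e6) := by
  rw [qe_e6]
  exact CoeffIn.one.sub ((coeffIn_natCast _).smul (by exact_mod_cast natCast_mem S 504))

theorem isR_of_one (hf : IsF 1 k f) (hc : CoeffIn S (qe 1 f)) : IsR S 1 k f :=
  ⟨hf, fun g => by rw [hf.slash_one_level]; exact hc⟩

theorem isR_e4 : IsR S 1 4 e4 := isR_of_one isF_e4 coeffIn_e4
theorem isR_e6 : IsR S 1 6 e6 := isR_of_one isF_e6 coeffIn_e6
theorem isR_dl : IsR S 1 12 dl := isR_of_one isF_dl coeffIn_dl

/-- the monomial `E₄^a E₆^b Δ^c` -/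
def mon (a b c : ℕ) : ℍ → ℂ := e4 ^ a * e6 ^ b * dl ^ c

theorem isR_mon (a b c : ℕ) : IsR S 1 (4 * a + 6 * b + 12 * c) (mon a b c) :=
  (((isR_e4.pow a).mul (isR_e6.pow b)).mul (isR_dl.pow c)).cast (by ring)

/-- monomials of weight `k` with `b ≤ 1` -/
def Mon (k : ℤ) : Set (ℍ → ℂ) :=
  {f | ∃ a b c : ℕ, b ≤ 1 ∧ (4 * a + 6 * b + 12 * c : ℤ) = k ∧ f = mon a b c}

theorem isR_of_mem_Mon (hf : f ∈ Mon k) : IsR S 1 k f := by
  obtain ⟨a, b, c, _, h, rfl⟩ := hf
  exact (isR_mon a b c).cast h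

theorem coeff_zero_e4 : (qe 1 e4).coeff 0 = 1 := by
  rw [qe_e4]; simp [psA]

theorem coeff_zero_e6 : (qe 1 e6).coeff 0 = 1 := by
  rw [qe_e6]; simp [psB]

theorem coeff_zero_dl : (qe 1 dl).coeff 0 = 0 := by
  rw [qe_dl]; simp [psA, psB, psC]

theorem coeff_one_dl : (qe 1 dl).coeff 1 = 1 := by
  rw [qe_one_eq]
  exact ModularForm.discriminant_qExpansion_coeff_one

theorem coeff_zero_mon (a b : ℕ) : (qe 1 (mon a b 0)).coeff 0 = 1 := by
  have h1 : IsF 1 (a * 4) (e4 ^ a) := isF_e4.pow a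
  have h2 : IsF 1 (b * 6) (e6 ^ b) := isF_e6.pow b
  have e : mon a b 0 = e4 ^ a * e6 ^ b := by simp [mon]
  have h4 := coeff_zero_e4
  have h6 := coeff_zero_e6
  rw [PowerSeries.coeff_zero_eq_constantCoeff_apply] at h4 h6 ⊢
  rw [e, qe_mul h1 h2, qe_pow isF_e4, qe_pow isF_e6, map_mul, map_pow, map_pow, h4, h6]
  simp

/-- division of power series: if `p = d * q`, `d = X + ...` over `O`, `p` over `O`, then `q` over
`O`. -/
theorem coeffIn_of_mul_X {d p q : PowerSeries ℂ} (hd : CoeffIn O d) (hp : CoeffIn O p)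
    (h0 : d.coeff 0 = 0) (h1 : d.coeff 1 = 1) (h : p = d * q) : CoeffIn O q := by
  intro n
  induction n using Nat.strong_induction_on with
  | _ n ih =>
    have h2 : p.coeff (n + 1) = ∑ x ∈ Finset.range (n + 2), d.coeff x * q.coeff (n + 1 - x) := by
      rw [h, PowerSeries.coeff_mul, Finset.Nat.sum_antidiagonal_eq_sum_range_succ_mk]
    rw [Finset.sum_range_succ', Finset.sum_range_succ'] at h2
    simp only [h0, zero_mul, add_zero, zero_add, h1, one_mul] at h2
    have h3 : q.coeff (n + 1 - 1) = p.coeff (n + 1) -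
        ∑ x ∈ Finset.range n, d.coeff (x + 1 + 1) * q.coeff (n + 1 - (x + 1 + 1)) := by
      rw [h2]; ring
    rw [Nat.add_sub_cancel] at h3
    rw [h3]
    refine O.sub_mem (hp _) (O.sum_mem fun x hx => O.mul_mem (hd _) (ih _ ?_))
    have := Finset.mem_range.mp hx
    omega

/-- (c'') a level one form with coefficients in `O` is an `O`-combination of the monomials
`E₄^a E₆^b Δ^c`, `b ≤ 1`. -/
theorem levelOne_span (O : Subring ℂ) : ∀ (m : ℕ) (k : ℤ), k < m →
    ∀ f, IsF 1 k f → CoeffIn O (qe 1 f) → f ∈ Submodule.span O (Mon k) := by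
  intro m
  induction m using Nat.strong_induction_on with
  | _ m ih =>
    intro k hkm f hf hO
    rcases lt_or_ge k 0 with hneg | hnn
    · have : f = 0 := ModularFormClass.levelOne_neg_weight_eq_zero hneg hf.toSL
      rw [this]; exact Submodule.zero_mem _
    rcases Int.even_or_odd k with hev | hodd
    swap
    · have := ModularForm.levelOne_odd_weight_eq_zero hodd hf.toSL
      have h2 : (hf.toSL : ℍ → ℂ) = 0 := by rw [this]; rfl
      have h3 : f = 0 := h2
      rw [h3]; exact Submodule.zero_mem _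
    lift k to ℕ using hnn
    have hevk : Even k := by exact_mod_cast hev
    rcases Nat.lt_or_ge k 3 with hk3 | hk3
    · interval_cases k
      · -- weight 0
        have hf' : IsF 1 0 f := by simpa using hf
        obtain ⟨c, hc⟩ := ModularFormClass.levelOne_weight_zero_const hf'.toSL
        have hfc : f = c • (1 : ℍ → ℂ) := by
          have : f = Function.const _ c := hc
          rw [this]; funext z; simp
        have hcO : c ∈ O := by
          have := hO 0
          rw [hfc, qe_smul IsF.one, qe_one] at this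
          simpa using this
        have : f = (⟨c, hcO⟩ : O) • mon 0 0 0 := by
          rw [hfc]; funext z; simp [mon, Subring.smul_def]
        rw [this]
        refine Submodule.smul_mem _ _ (Submodule.subset_span ⟨0, 0, 0, by norm_num, by norm_num, rfl⟩)
      · exact absurd hevk (by decide)
      · have hf' : IsF 1 2 f := by simpa using hf
        have := rank_zero_iff_forall_zero.mp ModularForm.levelOne_weight_two_rank_zero hf'.toSL
        have h2 : (hf'.toSL : ℍ → ℂ) = 0 := by rw [this]; rfl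
        have h3 : f = 0 := h2
        rw [h3]; exact Submodule.zero_mem _
    -- weight ≥ 4, even
    obtain ⟨a, b, hb, hab⟩ : ∃ a b : ℕ, b ≤ 1 ∧ 4 * a + 6 * b = k := by
      obtain ⟨r, hr⟩ := hevk
      rcases Nat.even_or_odd r with ⟨t, ht⟩ | ⟨t, ht⟩
      · exact ⟨t, 0, by norm_num, by omega⟩
      · exact ⟨t - 1, 1, le_refl _, by omega⟩
    set c₀ : ℂ := (qe 1 f).coeff 0 with hc₀
    have hc₀O : c₀ ∈ O := hO 0
    have hmon : IsR O 1 k (mon a b 0) := (isR_mon a b 0).cast (by push_cast; omega)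
    have hmonq : CoeffIn O (qe 1 (mon a b 0)) := by
      have := hmon.coeff 1
      simpa using this
    have hG : IsF 1 k (f + (-c₀) • mon a b 0) := hf.add (hmon.isF.smul _)
    have hGq : qe 1 (f + (-c₀) • mon a b 0) = qe 1 f + (-c₀) • qe 1 (mon a b 0) := by
      rw [qe_add hf (hmon.isF.smul _), qe_smul hmon.isF]
    have hG0 : (qExpansion 1 (hG.toSL : ℍ → ℂ)).coeff 0 = 0 := by
      rw [IsF.coe_toSL, ← qe_one_eq, hGq, map_add, PowerSeries.coeff_smul, coeff_zero_mon, ← hc₀]
      simp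
    let g := CuspForm.discriminantEquiv (ModularForm.toCuspForm hG.toSL hG0)
    have hg : IsF 1 ((k : ℤ) - 12) g := isF_of_SL g
    have h5 : f + (-c₀) • mon a b 0 = dl * (g : ℍ → ℂ) := by
      have := ModularForm.discriminant_mul_discriminantEquiv (ModularForm.toCuspForm hG.toSL hG0)
      rw [dl, this]
      funext z
      simp
    have hgq : CoeffIn O (qe 1 (g : ℍ → ℂ)) := by
      refine coeffIn_of_mul_X (d := qe 1 dl) (p := qe 1 (f + (-c₀) • mon a b 0)) coeffIn_dl ?_
        coeff_zero_dl coeff_one_dl ?_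
      · rw [hGq]
        exact hO.add (hmonq.smul (O.neg_mem hc₀O))
      · rw [h5, qe_mul isF_dl hg]
    have hgspan := ih (k + 1 - 12) (by omega) ((k : ℤ) - 12) (by omega) g hg hgq
    have h6' : ∀ x ∈ Submodule.span O (Mon ((k : ℤ) - 12)), dl * x ∈ Submodule.span O (Mon k) := by
      intro x hx
      induction hx using Submodule.span_induction with
      | mem x hx =>
        obtain ⟨a', b', c', hb', hw, rfl⟩ := hx
        refine Submodule.subset_span ⟨a', b', c' + 1, hb', by push_cast; omega, ?_⟩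
        simp only [mon]; ring
      | zero => rw [mul_zero]; exact Submodule.zero_mem _
      | add x y _ _ hx hy => rw [mul_add]; exact Submodule.add_mem _ hx hy
      | smul r x _ hx => rw [mul_smul_comm]; exact Submodule.smul_mem _ _ hx
    have h6 := h6' _ hgspan
    have h7 : f = (⟨c₀, hc₀O⟩ : O) • mon a b 0 + dl * (g : ℍ → ℂ) := by
      rw [← h5, Subring.smul_def]
      simp
    rw [h7]
    exact Submodule.add_mem _ (Submodule.smul_mem _ _
      (Submodule.subset_span ⟨a, b, 0, hb, by push_cast; omega, rfl⟩)) h6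

/-- (c'') -/
theorem levelOne_mem_span (O : Subring ℂ) (hf : IsF 1 k f) (hO : CoeffIn O (qe 1 f)) :
    f ∈ Submodule.span O (Mon k) :=
  levelOne_span O ((k + 1).toNat) k (by omega) f hf hO

/-- (c') every level one form is a `ℂ`-combination of forms with coefficients in `S` (any
subring `S`, for example `⊥`). -/
theorem levelOneSpan (S : Subring ℂ) (M : ℕ) [NeZero M] (k : ℤ) (f : ℍ → ℂ) (hf : IsF 1 k f) :
    f ∈ Sp S M k := by
  have h1 := levelOne_mem_span ⊤ hf (fun n => Subring.mem_top _)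
  clear hf
  induction h1 using Submodule.span_induction with
  | mem x hx =>
    exact Submodule.subset_span ((isR_of_mem_Mon (S := S) hx).mono_level (one_dvd M))
  | zero => exact Submodule.zero_mem _
  | add x y _ _ hx hy => exact Submodule.add_mem _ hx hy
  | smul r x _ hx =>
    have : r • x = (r : ℂ) • x := rfl
    rw [this]
    exact Submodule.smul_mem _ _ hx

end Crest.Agent.R007.Rat
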