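import Mathlib
import Crest.Agent.R007.DMain
import Crest.Agent.R007.RatL1

/-! Row 7, section D: order bound in level one mod 2, the form `Δ(lτ)`, the theorem. -/

set_option autoImplicit false

namespace Crest.Agent.R007.Dsec

open UpperHalfPlane ModularForm CongruenceSubgroup Matrix
open Crest.Agent.R007.Lat Crest.Agent.R007.Mix Crest.Agent.R007.Rat
open scoped MatrixGroups Manifold ModularForm

lemma twO_smul {O : Subring ℂ} {c x : ℂ} (hc : c ∈ twO O) (hx : x ∈ O) : c * x ∈ twO O := by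
  rw [mul_comm]; exact twO_mul hx hc

/-- the order bound for level one forms mod 2 -/
theorem ordF (O : Subring ℂ) : ∀ (m : ℕ) (k : ℤ), k < m →
    ∀ f, IsF 1 k f → CoeffIn O (qe 1 f) → (∀ n : ℕ, 12 * (n : ℤ) ≤ k → (qe 1 f).coeff n ∈ twO O) →
      ∀ n, (qe 1 f).coeff n ∈ twO O := by
  intro m
  induction m using Nat.strong_induction_on with
  | _ m ih =>
    intro k hkm f hf hO h2
    have hzero : f = 0 → ∀ n, (qe 1 f).coeff n ∈ twO O := by
      rintro rfl n
      rw [qe_zero]; simp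
    rcases lt_or_ge k 0 with hneg | hnn
    · exact hzero (ModularFormClass.levelOne_neg_weight_eq_zero hneg hf.toSL)
    rcases Int.even_or_odd k with hev | hodd
    swap
    · have := ModularForm.levelOne_odd_weight_eq_zero hodd hf.toSL
      have h2 : (hf.toSL : ℍ → ℂ) = 0 := by rw [this]; rfl
      exact hzero h2
    lift k to ℕ using hnn
    have hevk : Even k := by exact_mod_cast hev
    have h20 : (qe 1 f).coeff 0 ∈ twO O := h2 0 (by simp)
    rcases Nat.lt_or_ge k 3 with hk3 | hk3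
    · interval_cases k
      · -- weight 0
        have hf' : IsF 1 0 f := by simpa using hf
        obtain ⟨c, hc⟩ := ModularFormClass.levelOne_weight_zero_const hf'.toSL
        have hfc : f = c • (1 : ℍ → ℂ) := by
          have : f = Function.const _ c := hc
          rw [this]; funext z; simp
        have hcO : c ∈ twO O := by
          have := h20
          rw [hfc, qe_smul IsF.one, qe_one] at this
          simpa using this
        intro n
        rw [hfc, qe_smul IsF.one, qe_one, PowerSeries.coeff_smul, PowerSeries.coeff_one, smul_eq_mul]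
        split_ifs
        · rw [mul_one]; exact hcO
        · rw [mul_zero]; exact zero_mem _
      · exact absurd hevk (by decide)
      · have hf' : IsF 1 2 f := by simpa using hf
        have := rank_zero_iff_forall_zero.mp ModularForm.levelOne_weight_two_rank_zero hf'.toSL
        have h2 : (hf'.toSL : ℍ → ℂ) = 0 := by rw [this]; rfl
        exact hzero h2
    -- weight ≥ 4, even
    obtain ⟨a, b, hb, hab⟩ : ∃ a b : ℕ, b ≤ 1 ∧ 4 * a + 6 * b = k := by
      obtain ⟨r, hr⟩ := hevk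
      rcases Nat.even_or_odd r with ⟨t, ht⟩ | ⟨t, ht⟩
      · exact ⟨t, 0, by norm_num, by omega⟩
      · exact ⟨t - 1, 1, le_refl _, by omega⟩
    set c₀ : ℂ := (qe 1 f).coeff 0 with hc₀
    have hc₀O : c₀ ∈ O := hO 0
    have hmon : IsR O 1 k (mon a b 0) := (isR_mon a b 0).cast (by push_cast; omega)
    have hmonq : CoeffIn O (qe 1 (mon a b 0)) := by
      have := hmon.coeff 1
      simpa using this
    have hG : IsF 1 k (f + (-c₀) • mon a b 0) := hf.add (hmon.isF.smul _)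
    have hGq : qe 1 (f + (-c₀) • mon a b 0) = qe 1 f + (-c₀) • qe 1 (mon a b 0) := by
      rw [qe_add hf (hmon.isF.smul _), qe_smul hmon.isF]
    have hG0 : (qExpansion 1 (hG.toSL : ℍ → ℂ)).coeff 0 = 0 := by
      rw [IsF.coe_toSL, ← qe_one_eq, hGq, map_add, PowerSeries.coeff_smul, coeff_zero_mon, ← hc₀]
      simp
    let g := CuspForm.discriminantEquiv (ModularForm.toCuspForm hG.toSL hG0)
    have hg : IsF 1 ((k : ℤ) - 12) g := isF_of_SL g
    have h5 : f + (-c₀) • mon a b 0 = dl * (g : ℍ → ℂ) := by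
      have := ModularForm.discriminant_mul_discriminantEquiv (ModularForm.toCuspForm hG.toSL hG0)
      rw [dl, this]
      funext z
      simp
    have hgq : CoeffIn O (qe 1 (g : ℍ → ℂ)) := by
      refine coeffIn_of_mul_X (d := qe 1 dl) (p := qe 1 (f + (-c₀) • mon a b 0)) coeffIn_dl ?_
        coeff_zero_dl coeff_one_dl ?_
      · rw [hGq]
        exact hO.add (hmonq.smul (O.neg_mem hc₀O))
      · rw [h5, qe_mul isF_dl hg]
    have hp : qe 1 (f + (-c₀) • mon a b 0) = qe 1 dl * qe 1 (g : ℍ → ℂ) := by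
      rw [h5, qe_mul isF_dl hg]
    have hdl : CoeffIn O (qe 1 dl) := coeffIn_dl
    have hpc : ∀ n : ℕ, 12 * (n : ℤ) ≤ k → (qe 1 (f + (-c₀) • mon a b 0)).coeff n ∈ twO O := by
      intro n hn
      rw [hGq, map_add, PowerSeries.coeff_smul, smul_eq_mul]
      exact add_mem (h2 n hn) (twO_smul (neg_mem h20) (hmonq n))
    have hg2 : ∀ n : ℕ, 12 * (n : ℤ) ≤ (k : ℤ) - 12 → (qe 1 (g : ℍ → ℂ)).coeff n ∈ twO O := by
      intro n
      induction n using Nat.strong_induction_on with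
      | _ n ihn =>
        intro hn
        have h2' : (qe 1 (f + (-c₀) • mon a b 0)).coeff (n + 1) =
            ∑ x ∈ Finset.range (n + 2), (qe 1 dl).coeff x * (qe 1 (g : ℍ → ℂ)).coeff (n + 1 - x) := by
          rw [hp, PowerSeries.coeff_mul, Finset.Nat.sum_antidiagonal_eq_sum_range_succ_mk]
        rw [Finset.sum_range_succ', Finset.sum_range_succ'] at h2'
        simp only [coeff_zero_dl, zero_mul, add_zero, zero_add, coeff_one_dl, one_mul] at h2'
        have h3 : (qe 1 (g : ℍ → ℂ)).coeff (n + 1 - 1) = (qe 1 (f + (-c₀) • mon a b 0)).coeff (n + 1) -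
            ∑ x ∈ Finset.range n, (qe 1 dl).coeff (x + 1 + 1) *
              (qe 1 (g : ℍ → ℂ)).coeff (n + 1 - (x + 1 + 1)) := by
          rw [h2']; ring
        rw [Nat.add_sub_cancel] at h3
        rw [h3]
        refine sub_mem (hpc _ (by push_cast; omega)) (sum_mem fun x hx => twO_mul (hdl _) (ihn _ ?_ ?_))
        · have := Finset.mem_range.mp hx
          omega
        · have := Finset.mem_range.mp hx
          omega
    have hgall := ih (k + 1 - 12) (by omega) ((k : ℤ) - 12) (by omega) g hg hgq hg2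
    intro n
    have h7 : qe 1 f = c₀ • qe 1 (mon a b 0) + qe 1 dl * qe 1 (g : ℍ → ℂ) := by
      rw [← hp, hGq]
      module
    rw [h7, map_add, PowerSeries.coeff_smul, smul_eq_mul, PowerSeries.coeff_mul]
    exact add_mem (twO_smul h20 (hmonq n)) (sum_mem fun x _ => twO_mul (hdl _) (hgall _))

lemma isF_res {M : ℕ} [NeZero M] {k : ℕ} {F : X → ℂ} (hF : F ∈ MX M k) : IsF M k (res F) := by
  obtain ⟨f, rfl⟩ := hF
  rw [res_lift]
  exact IsF.of_modularForm f

lemma coeff_qf_one {f : ℍ → ℂ} (hf : f ∈ PB ((1 : ℕ) : ℝ)) (n : ℕ) :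
    (qf f).coeff (n : ℚ) = (qe 1 f).coeff n := by
  have h := qf_eq' 1 odd_one hf
  rw [h]
  have := emb_coeff 1 (qExpansion ((1 : ℕ) : ℝ) f) n
  have e : ((n : ℚ) / ((1 : ℕ) : ℚ)) = n := by simp
  rw [e] at this
  exact this

lemma coeff_qf_one_zero {f : ℍ → ℂ} (hf : f ∈ PB ((1 : ℕ) : ℝ)) {r : ℚ} (hr : ∀ n : ℕ, (n : ℚ) ≠ r) :
    (qf f).coeff r = 0 := by
  apply qf_coeff_of_notMem odd_one hf
  intro n
  rw [Nat.cast_one, div_one]
  exact hr n

/-- `hord` of `exists_not_dvd` -/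
theorem ord_bound (O : Subring ℂ) (k : ℕ) (A : X → ℂ) (hA : A ∈ MX 1 k) (hO : res A ∈ IntO O)
    (hne : ¬ Two O (res A)) : ∃ n : ℕ, 12 * n ≤ k ∧ (qf (res A)).coeff (n : ℚ) ∉ twO O := by
  by_contra hcon
  push Not at hcon
  apply hne
  have hPB := res_mem_PB hA
  have h1 := ordF O (k + 1) k (by push_cast; omega) (res A) (isF_res hA)
    (fun n => by rw [← coeff_qf_one hPB]; exact hO.2 _)
    (fun n hn => by rw [← coeff_qf_one hPB]; exact hcon n (by exact_mod_cast hn))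
  rw [Two_iff]
  intro r
  by_cases hr : ∃ n : ℕ, (n : ℚ) = r
  · obtain ⟨n, rfl⟩ := hr
    rw [coeff_qf_one hPB]
    exact h1 n
  · push Not at hr
    rw [coeff_qf_one_zero hPB hr]
    exact zero_mem _

/-! ### `Δ(lτ)` -/

/-- `Δ` on `X` -/
noncomputable def DX : X → ℂ := lift 12 dl

lemma DX_mem : DX ∈ MX 1 12 := by
  have h : IsF 1 ((12 : ℕ) : ℤ) dl := isF_dl
  exact ⟨h.toModularForm, rfl⟩

lemma DX_MO : DX ∈ MO 12 := ⟨1, odd_one, DX_mem⟩

lemma DX_inv (γ : SL(2, ℤ)) : sl DX (sG γ) = DX := by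
  apply (mem_MX_iff.1 DX_mem).2.1
  rw [Gamma_one_top]; trivial

lemma res_DX : res DX = dl := res_lift _ _

lemma dl_PB : dl ∈ PB ((1 : ℕ) : ℝ) := by
  rw [← res_DX]; exact res_mem_PB DX_mem

section
variable {O : Subring ℂ} (hodd : ∀ n : ℕ, Odd n → (n : ℂ)⁻¹ ∈ O)
  (hroot : ∀ x : ℚ, Odd x.den → ee x ∈ O)

include hodd hroot in
lemma DX_Lk : DX ∈ Lk O 12 := by
  apply Lk_of_SL hodd hroot DX_MO
  intro γ r
  rw [DX_inv, res_DX]
  by_cases hr : ∃ n : ℕ, (n : ℚ) = r
  · obtain ⟨n, rfl⟩ := hr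
    rw [coeff_qf_one dl_PB]
    exact coeffIn_dl n
  · push Not at hr
    rw [coeff_qf_one_zero dl_PB hr]
    exact zero_mem _

lemma det_l {l : ℕ} (hl : 0 < l) : 0 < (ut l 0 1).det := by
  rw [ut_det]; positivity

/-- `Δ(lτ)` -/
noncomputable def xD (l : ℕ) (hl : 0 < l) : X → ℂ := sl DX (iG (ut l 0 1) (det_l hl))

include hodd hroot in
lemma xD_LM {l : ℕ} (hl : 0 < l) (hlo : Odd l) {M : ℕ} [NeZero M] (h : l ∣ M) :
    LM O M 12 (xD l hl) := by
  have : NeZero l := ⟨hl.ne'⟩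
  refine ⟨?_, ?_⟩
  · have h1 := MX_sl_iG DX_mem (ut l 0 1) (det_l hl)
    have h2 : 1 * (ut (l : ℤ) 0 1).det.natAbs = l := by rw [ut_det]; simp
    rw [h2] at h1
    exact MX_mono h h1
  · apply Lk_sl (DX_Lk hodd hroot)
    apply iG_mem_G2
    rw [ut_det, mul_one]
    exact_mod_cast hlo

lemma xD_inv {l : ℕ} (hl : 0 < l) {γ : SL(2, ℤ)} (h : (l : ℤ) ∣ γ 1 0) :
    sl (xD l hl) (sG γ) = xD l hl := by
  obtain ⟨c, hc⟩ := h
  have hl0 : (l : ℤ) ≠ 0 := by exact_mod_cast hl.ne'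
  have hdet := γ.det_coe
  rw [Matrix.det_fin_two] at hdet
  let δ : SL(2, ℤ) := ⟨!![γ 0 0, l * γ 0 1; c, γ 1 1], by
    rw [Matrix.det_fin_two_of]
    rw [hc] at hdet
    linarith⟩
  have e : ut l 0 1 * γ.1 = δ.1 * ut l 0 1 := by
    have hγ : γ.1 = !![γ 0 0, γ 0 1; γ 1 0, γ 1 1] := by
      ext i j; fin_cases i <;> fin_cases j <;> rfl
    rw [hγ]
    change ut l 0 1 * _ = !![γ 0 0, l * γ 0 1; c, γ 1 1] * ut l 0 1
    rw [ut]
    ext i j
    fin_cases i <;> fin_cases j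
    · simp [Matrix.mul_apply, Fin.sum_univ_two, mul_comm]
    · simp [Matrix.mul_apply, Fin.sum_univ_two]
    · simp [Matrix.mul_apply, Fin.sum_univ_two, hc, mul_comm]
    · simp [Matrix.mul_apply, Fin.sum_univ_two]
  have e2 : iG (ut l 0 1) (det_l hl) * sG γ = sG δ * iG (ut l 0 1) (det_l hl) := by
    rw [sG, sG, ← iG_mul (ut l 0 1) γ.1 _ _ (by simpa using det_l hl),
      ← iG_mul δ.1 (ut l 0 1) _ _ (by simpa using det_l hl)]
    exact iG_congr e _
  rw [xD, ← sl_mul_right, e2, sl_mul_right, DX_inv]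

lemma xD_coeff {l : ℕ} (hl : 0 < l) (hlo : Odd l) (s : ℚ) :
    (qf (res (xD l hl))).coeff (s * l) = (qf dl).coeff s := by
  have h1 : res (xD l hl) = fun τ => dl (iG (ut l 0 1) (det_l hl) • τ) := by
    funext τ
    rw [xD, res_sl_ut (MO_le_Wt DX_MO), res_DX]
    simp
  have hPO : dl ∈ PO := ⟨1, odd_one, dl_PB⟩
  have hdet : 0 < (ut (l : ℤ) ((0 : ℕ) : ℤ) ((1 : ℕ) : ℤ)).det := by exact_mod_cast det_l hl
  have h2 := qf_comp_ut (a := l) (b := 0) (d := 1) hPO hlo odd_one hdet s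
  have h3 : ee (s * ((0 : ℕ) : ℚ) / ((1 : ℕ) : ℚ)) = 1 := by simp [ee]
  have key : iG (ut l 0 1) (det_l hl) = iG (ut (l : ℤ) ((0 : ℕ) : ℤ) ((1 : ℕ) : ℤ)) hdet :=
    iG_congr (by simp) _
  rw [h3, one_mul] at h2
  have e : s * l = s * l / ((1 : ℕ) : ℚ) := by simp
  rw [h1, key, e]
  exact h2

lemma xD_zero {l : ℕ} (hl : 0 < l) (hlo : Odd l) {r : ℚ} (hr : r < l) :
    (qf (res (xD l hl))).coeff r = 0 := by
  have hl0 : (0 : ℚ) < l := by exact_mod_cast hl
  have e : r = (r / l) * l := by field_simp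
  rw [e, xD_coeff hl hlo]
  by_cases h : ∃ n : ℕ, (n : ℚ) = r / l
  · obtain ⟨n, hn⟩ := h
    have : n = 0 := by
      have h1 : r / l < 1 := by rw [div_lt_one hl0]; exact hr
      rw [← hn] at h1
      have : n < 1 := by exact_mod_cast h1
      omega
    subst this
    rw [← hn, coeff_qf_one dl_PB, coeff_zero_dl]
  · push Not at h
    exact coeff_qf_one_zero dl_PB h

lemma xD_two {l : ℕ} (hl : 0 < l) (hlo : Odd l) (hone : (1 : ℂ) ∉ twO O) :
    ¬ Two O (res (xD l hl)) := by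
  intro h
  rw [Two_iff] at h
  have h1 := h (1 * l)
  rw [xD_coeff hl hlo] at h1
  have h2 := coeff_qf_one dl_PB 1
  rw [Nat.cast_one] at h2
  rw [h2, coeff_one_dl] at h1
  exact hone h1

variable (hprime : ∀ a ∈ O, ∀ b ∈ O, a * b ∈ twO O → a ∈ twO O ∨ b ∈ twO O)
  (hone : (1 : ℂ) ∉ twO O)

omit hodd hroot in
lemma T_mem_St {M : ℕ} [NeZero M] (hroot : ∀ x : ℚ, Odd x.den → ee x ∈ O) :
    ModularGroup.T ∈ St O M := by
  apply mem_St_of_imp
  intro k F hF h
  have hdet : 0 < (ut ((1 : ℕ) : ℤ) ((1 : ℕ) : ℤ) ((1 : ℕ) : ℤ)).det := by rw [ut_det]; norm_num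
  have e : sG ModularGroup.T = iG (ut ((1 : ℕ) : ℤ) ((1 : ℕ) : ℤ) ((1 : ℕ) : ℤ)) hdet := by
    rw [sG]
    exact iG_congr (by rw [ModularGroup.coe_T]; simp [ut]) _
  have h2 : res (sl F (sG ModularGroup.T)) =
      fun τ => res F (iG (ut ((1 : ℕ) : ℤ) ((1 : ℕ) : ℤ) ((1 : ℕ) : ℤ)) hdet • τ) := by
    funext τ
    rw [e, res_sl_ut (MX_le_Wt hF.1)]
    simp
  rw [Two_iff] at h ⊢
  intro r
  rw [h2]
  exact coeff_comp_ut_mem hroot (I := twO O) (fun c hc x hx => twO_mul hc hx) hF.int.1 h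
    odd_one odd_one hdet r

include hodd hroot hprime hone in
theorem St_eq_top {M : ℕ} (hM : Odd M) : haveI : NeZero M := ⟨hM.pos.ne'⟩; St O M = ⊤ := by
  have : NeZero M := ⟨hM.pos.ne'⟩
  apply DGrp.eq_top M hM.pos (St O M) Gamma_le_St (T_mem_St hroot)
  intro l hl hlM
  have hlo : Odd l := Odd.of_dvd_nat hM hlM
  exact exists_not_dvd hprime hone (ord_bound O) hl.two_le (xD_LM hodd hroot hl.pos hlo hlM)
    (fun γ h => xD_inv hl.pos h) (fun r hr => xD_zero hl.pos hlo hr) (xD_two hl.pos hlo hone)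

include hodd hroot hprime hone in
/-- **Section D**: the `q`-expansion principle mod 2 in pure weight. -/
theorem D_two {k : ℕ} {F : X → ℂ} (hF : F ∈ Lk O k) (h : Two O (res F)) {g : GL(2, ℝ)⁺} (hg : g ∈ G2) :
    Two O (res (sl F g)) := by
  obtain ⟨M, hM, hFM⟩ := hF.1
  have : NeZero M := ⟨hM.pos.ne'⟩
  apply Two_of_SL hodd hroot hF.1 _ hg
  intro γ
  have htop : St O M = ⊤ := St_eq_top hodd hroot hprime hone hM
  have hγ : γ ∈ St O M := by rw [htop]; trivial
  exact (hγ k F ⟨hFM, hF⟩).1 h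

include hodd hroot hprime hone in
theorem D_half {k : ℕ} {F : X → ℂ} (hF : F ∈ Lk O k) (h : Two O (res F)) :
    ∃ G ∈ Lk O k, F = 2 * G :=
  Lk_half hF.1 fun _ hg => D_two hodd hroot hprime hone hF h hg

end

end Crest.Agent.R007.Dsec
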