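import Mathlib
import Crest.Agent.R007.DLev
import Crest.Agent.R007.CoefO

/-! Row 7, section D: the theorem for the coefficient ring `OO`. -/

set_option autoImplicit false

namespace Crest.Agent.R007.Dsec

open UpperHalfPlane ModularForm CongruenceSubgroup Matrix
open Crest.Agent.R007.Lat Crest.Agent.R007.Mix
open scoped MatrixGroups Manifold ModularForm

lemma OO_odd (n : ℕ) (hn : Odd n) : (n : ℂ)⁻¹ ∈ Coef.OO := Coef.inv_nat_mem hn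

lemma OO_root (x : ℚ) (hx : Odd x.den) : ee x ∈ Coef.OO := by
  apply Coef.root_mem hx
  rw [← ee_nsmul]
  have h : ((x.den : ℕ) : ℚ) * x = x.num := by
    rw [mul_comm]; exact Rat.mul_den_eq_num x
  rw [h]
  have : (2 * (Real.pi : ℂ) * Complex.I * (((x.num : ℤ) : ℚ) : ℂ)) = (x.num : ℂ) * (2 * Real.pi * Complex.I) := by
    push_cast; ring
  rw [ee, this]
  exact Complex.exp_int_mul_two_pi_mul_I _

lemma OO_prime : ∀ a ∈ Coef.OO, ∀ b ∈ Coef.OO, a * b ∈ twO Coef.OO →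
    a ∈ twO Coef.OO ∨ b ∈ twO Coef.OO := by
  intro a ha b hb h
  obtain ⟨y, hy, e⟩ := mem_twO.1 h
  have h1 : (2 : Coef.OO) ∣ (⟨a, ha⟩ : Coef.OO) * ⟨b, hb⟩ := by
    refine ⟨⟨y, hy⟩, ?_⟩
    apply Subtype.ext
    exact e
  rcases Coef.prime_two.dvd_or_dvd h1 with ⟨z, hz⟩ | ⟨z, hz⟩
  · exact Or.inl (mem_twO.2 ⟨z, z.2, congrArg Subtype.val hz⟩)
  · exact Or.inr (mem_twO.2 ⟨z, z.2, congrArg Subtype.val hz⟩)

lemma OO_one : (1 : ℂ) ∉ twO Coef.OO := by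
  intro h
  obtain ⟨y, hy, e⟩ := mem_twO.1 h
  apply Coef.two_not_isUnit
  exact IsUnit.of_mul_eq_one ⟨y, hy⟩ (Subtype.ext e.symm)

/-- **Section D** for `OO`. -/
theorem D_OO {k : ℕ} {F : X → ℂ} (hF : F ∈ Lk Coef.OO k) (h : Two Coef.OO (res F))
    {g : GL(2, ℝ)⁺} (hg : g ∈ G2) : Two Coef.OO (res (sl F g)) :=
  D_two OO_odd OO_root OO_prime OO_one hF h hg

theorem D_OO_half {k : ℕ} {F : X → ℂ} (hF : F ∈ Lk Coef.OO k) (h : Two Coef.OO (res F)) :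
    ∃ G ∈ Lk Coef.OO k, F = 2 * G :=
  D_half OO_odd OO_root OO_prime OO_one hF h

/-- `Link.QP Coef.OO` -/
theorem qp : ∀ (k : ℕ) (F : X → ℂ), F ∈ Lk Coef.OO k →
    (∀ r : ℚ, ∃ a ∈ Coef.OO, (qf (res F)).coeff r = 2 * a) →
      ∃ G ∈ Lk Coef.OO k, F = (2 : ℂ) • G := by
  intro k F hF h
  obtain ⟨G, hG, e⟩ := D_OO_half hF h
  exact ⟨G, hG, e.trans (two_mul_eq_smul G)⟩

end Crest.Agent.R007.Dsec
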