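import Mathlib
import Crest.Prelude.Def_HeckeTwo

/-! Row 7, operator layer: integer matrices, coset combinatorics for `T_ℓ`. (helper668) -/

set_option autoImplicit false

namespace Crest.Agent.R007.Op

open Matrix UpperHalfPlane ModularForm CongruenceSubgroup
open scoped MatrixGroups ModularForm
open Crest.NumberTheoryR.HeckeTwoAdic

/-- Integer 2×2 matrices. -/
abbrev IM := Matrix (Fin 2) (Fin 2) ℤ

/-- The matrix is in the set `Δ` of level `N` and determinant `n`. -/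
def Del (N : ℕ) (n : ℤ) (M : IM) : Prop :=
  M.det = n ∧ ((M 0 0 : ℤ) : ZMod N) = 1 ∧ ((M 1 0 : ℤ) : ZMod N) = 0

/-- `v` is in the right kernel of `M` modulo `ℓ`. -/
def Ker (ℓ : ℕ) (M : IM) (v w : ℤ) : Prop :=
  (ℓ : ℤ) ∣ M 0 0 * v + M 0 1 * w ∧ (ℓ : ℤ) ∣ M 1 0 * v + M 1 1 * w

lemma exists_left {ℓ : ℕ} (hℓ : ℓ.Prime) {M M' : IM} (hM : M.det = ℓ) (hM' : M'.det = ℓ)
    {v w : ℤ} (hv : ¬ ((ℓ : ℤ) ∣ v ∧ (ℓ : ℤ) ∣ w)) (h : Ker ℓ M v w) (h' : Ker ℓ M' v w) :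
    ∃ Y : SL(2, ℤ), M' = Y.1 * M := by
  have hp : Prime (ℓ : ℤ) := Nat.prime_iff_prime_int.mp hℓ
  have key : ∀ a b c d : ℤ, (ℓ : ℤ) ∣ a * v + b * w → (ℓ : ℤ) ∣ c * v + d * w →
      (ℓ : ℤ) ∣ a * d - b * c := by
    intro a b c d h1 h2
    have e1 : (ℓ : ℤ) ∣ v * (a * d - b * c) := by
      have : v * (a * d - b * c) = d * (a * v + b * w) - b * (c * v + d * w) := by ring
      rw [this]; exact dvd_sub (h1.mul_left _) (h2.mul_left _)
    have e2 : (ℓ : ℤ) ∣ w * (a * d - b * c) := by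
      have : w * (a * d - b * c) = a * (c * v + d * w) - c * (a * v + b * w) := by ring
      rw [this]; exact dvd_sub (h2.mul_left _) (h1.mul_left _)
    rcases hp.dvd_or_dvd e1 with h3 | h3
    · rcases hp.dvd_or_dvd e2 with h4 | h4
      · exact absurd ⟨h3, h4⟩ hv
      · exact h4
    · exact h3
  rw [Matrix.det_fin_two] at hM hM'
  obtain ⟨y00, h00⟩ := key _ _ _ _ h'.1 h.2
  obtain ⟨y01, h01⟩ := key _ _ _ _ h'.1 h.1
  obtain ⟨y10, h10⟩ := key _ _ _ _ h'.2 h.2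
  obtain ⟨y11, h11⟩ := key _ _ _ _ h'.2 h.1
  have hl0 : (ℓ : ℤ) ≠ 0 := hp.ne_zero
  -- Y = M' adj(M) / ℓ ; adj M = (D, -B; -C, A)
  -- Y00 = (A' D - B' C)/ℓ ; Y01 = (-A' B + B' A)/ℓ ; Y10 = (C' D - D' C)/ℓ ; Y11 = (-C' B + D' A)/ℓ
  have hdet : (!![y00, -y01; y10, -y11] : IM).det = 1 := by
    rw [Matrix.det_fin_two_of]
    have h2 : (ℓ : ℤ) * ℓ * (y00 * -y11 - -y01 * y10) = (ℓ : ℤ) * ℓ * 1 := by
      linear_combination ((ℓ : ℤ) * y11) * h00 + (M' 0 0 * M 1 1 - M' 0 1 * M 1 0) * h11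
        - ((ℓ : ℤ) * y10) * h01 - (M' 0 0 * M 0 1 - M' 0 1 * M 0 0) * h10
        + (ℓ : ℤ) * hM + (M 0 0 * M 1 1 - M 0 1 * M 1 0) * hM'
    exact mul_left_cancel₀ (mul_ne_zero hl0 hl0) h2
  refine ⟨⟨!![y00, -y01; y10, -y11], hdet⟩, ?_⟩
  have e00 : M' 0 0 = y00 * M 0 0 + -y01 * M 1 0 := by
    apply mul_left_cancel₀ hl0
    linear_combination (M 0 0) * h00 - (M 1 0) * h01 - (M' 0 0) * hM
  have e01 : M' 0 1 = y00 * M 0 1 + -y01 * M 1 1 := by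
    apply mul_left_cancel₀ hl0
    linear_combination (M 0 1) * h00 - (M 1 1) * h01 - (M' 0 1) * hM
  have e10 : M' 1 0 = y10 * M 0 0 + -y11 * M 1 0 := by
    apply mul_left_cancel₀ hl0
    linear_combination (M 0 0) * h10 - (M 1 0) * h11 - (M' 1 0) * hM
  have e11 : M' 1 1 = y10 * M 0 1 + -y11 * M 1 1 := by
    apply mul_left_cancel₀ hl0
    linear_combination (M 0 1) * h10 - (M 1 1) * h11 - (M' 1 1) * hM
  ext i j
  fin_cases i <;> fin_cases j <;> simp [Matrix.mul_apply, Fin.sum_univ_two, e00, e01, e10, e11]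

lemma left_mem_Gamma1 {N : ℕ} {n : ℤ} (hn : IsUnit ((n : ℤ) : ZMod N)) {M M' : IM}
    (hM : Del N n M) (hM' : Del N n M') {Y : SL(2, ℤ)} (hY : M' = Y.1 * M) :
    Y ∈ Gamma1 N := by
  obtain ⟨hd, ha, hc⟩ := hM
  obtain ⟨hd', ha', hc'⟩ := hM'
  rw [Matrix.det_fin_two] at hd hd'
  have hD : ((M 1 1 : ℤ) : ZMod N) = n := by
    have := congrArg (fun z : ℤ => (z : ZMod N)) hd
    push_cast at this
    rw [ha, hc] at this
    simpa using this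
  have hD' : ((M' 1 1 : ℤ) : ZMod N) = n := by
    have := congrArg (fun z : ℤ => (z : ZMod N)) hd'
    push_cast at this
    rw [ha', hc'] at this
    simpa using this
  have e : ∀ i j, M' i j = Y.1 i 0 * M 0 j + Y.1 i 1 * M 1 j := by
    intro i j
    rw [hY, Matrix.mul_apply, Fin.sum_univ_two]
  have e00 := congrArg (fun z : ℤ => (z : ZMod N)) (e 0 0)
  have e10 := congrArg (fun z : ℤ => (z : ZMod N)) (e 1 0)
  have e11 := congrArg (fun z : ℤ => (z : ZMod N)) (e 1 1)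
  push_cast at e00 e10 e11
  rw [ha', ha, hc] at e00
  rw [hc', ha, hc] at e10
  rw [hD', hD] at e11
  have f00 : ((Y.1 0 0 : ℤ) : ZMod N) = 1 := by simpa using e00.symm
  have f10 : ((Y.1 1 0 : ℤ) : ZMod N) = 0 := by simpa using e10.symm
  rw [f10] at e11
  have f11 : ((Y.1 1 1 : ℤ) : ZMod N) = 1 := by
    apply hn.mul_right_cancel
    rw [one_mul]
    simpa using e11.symm
  rw [Gamma1_mem]
  exact ⟨f00, f11, f10⟩

lemma mul_mem_Del {N : ℕ} {n : ℤ} {M : IM} (hM : Del N n M) {Y : SL(2, ℤ)} (hY : Y ∈ Gamma1 N) :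
    Del N n (Y.1 * M) := by
  obtain ⟨hd, ha, hc⟩ := hM
  rw [Gamma1_mem] at hY
  obtain ⟨y00, y11, y10⟩ := hY
  refine ⟨by rw [Matrix.det_mul, Y.2, one_mul, hd], ?_, ?_⟩
  · rw [Matrix.mul_apply, Fin.sum_univ_two]
    push_cast
    have : ((Y.1 0 0 : ℤ) : ZMod N) = 1 := y00
    rw [this, ha, hc]; simp
  · rw [Matrix.mul_apply, Fin.sum_univ_two]
    push_cast
    have : ((Y.1 1 0 : ℤ) : ZMod N) = 0 := y10
    rw [this, ha, hc]; simp

/-- Conjugation of `Δ` by `Γ₀(N)`: `γ⁻¹ M γ`. -/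
lemma conj_mem_Del {N : ℕ} {n : ℤ} {M : IM} (hM : Del N n M) {Y : SL(2, ℤ)} (hY : Y ∈ Gamma0 N) :
    Del N n ((Y⁻¹).1 * M * Y.1) := by
  obtain ⟨hd, ha, hc⟩ := hM
  rw [Gamma0_mem] at hY
  have y10 : ((Y.1 1 0 : ℤ) : ZMod N) = 0 := hY
  have hdet := Y.2
  rw [Matrix.det_fin_two] at hdet
  have hdet' := congrArg (fun z : ℤ => (z : ZMod N)) hdet
  push_cast at hdet'
  rw [y10] at hdet'
  have hinv : (Y⁻¹).1 = !![Y.1 1 1, -Y.1 0 1; -Y.1 1 0, Y.1 0 0] := by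
    rw [Matrix.SpecialLinearGroup.SL2_inv_expl]; rfl
  refine ⟨by rw [Matrix.det_mul, Matrix.det_mul, Y.2, (Y⁻¹).2, one_mul, mul_one, hd], ?_, ?_⟩
  · rw [hinv]
    simp only [Matrix.mul_apply, Fin.sum_univ_two, Matrix.of_apply, Matrix.cons_val', Matrix.cons_val_zero,
      Matrix.cons_val_one, Matrix.cons_val_fin_one]
    push_cast
    rw [ha, hc, y10]
    linear_combination hdet'
  · rw [hinv]
    simp only [Matrix.mul_apply, Fin.sum_univ_two, Matrix.of_apply, Matrix.cons_val', Matrix.cons_val_zero,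
      Matrix.cons_val_one, Matrix.cons_val_fin_one]
    push_cast
    rw [ha, hc, y10]
    ring

/-- Data of an element `g ∈ Γ₀(N)` with lower right entry `≡ ℓ`. -/
def IsDiam (N : ℕ) (d : ℕ) (g : SL(2, ℤ)) : Prop := g ∈ Gamma0 N ∧ ((g 1 1 : ℤ) : ZMod N) = d

lemma exists_isDiam {N d : ℕ} (h : Nat.Coprime d N) : ∃ g : SL(2, ℤ), IsDiam N d g := by
  have hc : IsCoprime (d : ℤ) (N : ℤ) := Nat.isCoprime_iff_coprime.mpr h
  obtain ⟨a, b, hab⟩ := hc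
  refine ⟨⟨!![a, -b; (N : ℤ), (d : ℤ)], ?_⟩, ?_, ?_⟩
  · rw [Matrix.det_fin_two_of]; linear_combination hab
  · rw [Gamma0_mem]
    change (((N : ℕ) : ℤ) : ZMod N) = 0
    simp
  · change (((d : ℕ) : ℤ) : ZMod N) = d
    simp

/-- The coset representatives of `Γ₁(N) \ Δ_ℓ`. -/
def Rep (ℓ : ℕ) (g : SL(2, ℤ)) : Option (Fin ℓ) → IM
  | none => g.1 * !![(ℓ : ℤ), 0; 0, 1]
  | some j => !![1, (j : ℤ); 0, (ℓ : ℤ)]

lemma Rep_mem {N ℓ : ℕ} {g : SL(2, ℤ)} (hg : IsDiam N ℓ g) (i : Option (Fin ℓ)) :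
    Del N ℓ (Rep ℓ g i) := by
  obtain ⟨h0, h1⟩ := hg
  rw [Gamma0_mem] at h0
  have g10 : ((g.1 1 0 : ℤ) : ZMod N) = 0 := h0
  have g11 : ((g.1 1 1 : ℤ) : ZMod N) = ℓ := h1
  cases i with
  | none =>
    refine ⟨?_, ?_, ?_⟩
    · simp only [Rep]
      rw [Matrix.det_mul, g.2, Matrix.det_fin_two_of]; ring
    · simp only [Rep, Matrix.mul_apply, Fin.sum_univ_two, Matrix.of_apply, Matrix.cons_val',
        Matrix.cons_val_zero, Matrix.cons_val_one, Matrix.cons_val_fin_one]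
      have hdet := g.2
      rw [Matrix.det_fin_two] at hdet
      have hdet' := congrArg (fun z : ℤ => (z : ZMod N)) hdet
      push_cast at hdet' ⊢
      rw [g10, g11] at hdet'
      linear_combination hdet'
    · simp only [Rep, Matrix.mul_apply, Fin.sum_univ_two, Matrix.of_apply, Matrix.cons_val',
        Matrix.cons_val_zero, Matrix.cons_val_one, Matrix.cons_val_fin_one]
      push_cast
      rw [g10]; ring
  | some j =>
    refine ⟨?_, ?_, ?_⟩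
    · simp [Rep, Matrix.det_fin_two_of]
    · simp [Rep]
    · simp [Rep]

/-- The kernel vector attached to an index. -/
def kv (ℓ : ℕ) : Option (Fin ℓ) → ℤ × ℤ
  | none => (1, 0)
  | some j => ((j : ℤ), -1)

lemma kv_not {ℓ : ℕ} (hℓ : ℓ.Prime) (i : Option (Fin ℓ)) :
    ¬ ((ℓ : ℤ) ∣ (kv ℓ i).1 ∧ (ℓ : ℤ) ∣ (kv ℓ i).2) := by
  have hp : Prime (ℓ : ℤ) := Nat.prime_iff_prime_int.mp hℓ
  rintro ⟨h1, h2⟩
  cases i with
  | none => exact hp.not_isUnit (isUnit_of_dvd_one h1)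
  | some j =>
    have : (ℓ : ℤ) ∣ -1 := h2
    exact hp.not_isUnit (isUnit_of_dvd_one (by simpa using this))

lemma Ker_Rep {ℓ : ℕ} (g : SL(2, ℤ)) (i : Option (Fin ℓ)) :
    Ker ℓ (Rep ℓ g i) (kv ℓ i).1 (kv ℓ i).2 := by
  cases i with
  | none =>
    simp only [Ker, Rep, kv, Matrix.mul_apply, Fin.sum_univ_two, Matrix.of_apply, Matrix.cons_val',
        Matrix.cons_val_zero, Matrix.cons_val_one, Matrix.cons_val_fin_one]
    constructor
    · exact ⟨g.1 0 0, by ring⟩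
    · exact ⟨g.1 1 0, by ring⟩
  | some j =>
    simp only [Ker, Rep, kv, Matrix.of_apply, Matrix.cons_val',
        Matrix.cons_val_zero, Matrix.cons_val_one, Matrix.cons_val_fin_one]
    constructor
    · exact ⟨0, by ring⟩
    · exact ⟨-1, by ring⟩

/-- Every matrix of determinant `ℓ` has one of our kernel vectors. -/
lemma exists_kv {ℓ : ℕ} (hℓ : ℓ.Prime) {M : IM} (hM : M.det = ℓ) :
    ∃ i : Option (Fin ℓ), Ker ℓ M (kv ℓ i).1 (kv ℓ i).2 := by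
  have hp : Prime (ℓ : ℤ) := Nat.prime_iff_prime_int.mp hℓ
  have hpos : 0 < ℓ := hℓ.pos
  have : Fact ℓ.Prime := ⟨hℓ⟩
  rw [Matrix.det_fin_two] at hM
  by_cases hAC : (ℓ : ℤ) ∣ M 0 0 ∧ (ℓ : ℤ) ∣ M 1 0
  · refine ⟨none, ?_, ?_⟩
    · simpa [kv] using hAC.1
    · simpa [kv] using hAC.2
  · -- find j in ZMod ℓ
    have hdetz : ((M 0 0 : ℤ) : ZMod ℓ) * (M 1 1 : ℤ) = (M 0 1 : ℤ) * (M 1 0 : ℤ) := by
      have := congrArg (fun z : ℤ => (z : ZMod ℓ)) hM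
      push_cast at this
      simp only [CharP.cast_eq_zero] at this
      linear_combination this
    have hex : ∃ j : ZMod ℓ, ((M 0 0 : ℤ) : ZMod ℓ) * j = (M 0 1 : ℤ) ∧
        ((M 1 0 : ℤ) : ZMod ℓ) * j = (M 1 1 : ℤ) := by
      by_cases hA : (ℓ : ℤ) ∣ M 0 0
      · have hC : ¬ (ℓ : ℤ) ∣ M 1 0 := fun h => hAC ⟨hA, h⟩
        have hC' : ((M 1 0 : ℤ) : ZMod ℓ) ≠ 0 := by
          rwa [Ne, ZMod.intCast_zmod_eq_zero_iff_dvd]
        refine ⟨(M 1 1 : ℤ) / (M 1 0 : ℤ), ?_, ?_⟩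
        · field_simp
          linear_combination hdetz
        · field_simp
      · have hA' : ((M 0 0 : ℤ) : ZMod ℓ) ≠ 0 := by
          rwa [Ne, ZMod.intCast_zmod_eq_zero_iff_dvd]
        refine ⟨(M 0 1 : ℤ) / (M 0 0 : ℤ), ?_, ?_⟩
        · field_simp
        · field_simp
          linear_combination -hdetz
    obtain ⟨j, hj1, hj2⟩ := hex
    refine ⟨some ⟨j.val, ZMod.val_lt j⟩, ?_, ?_⟩
    · simp only [kv]
      rw [← ZMod.intCast_zmod_eq_zero_iff_dvd]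
      push_cast
      rw [ZMod.natCast_zmod_val, hj1]; ring
    · simp only [kv]
      rw [← ZMod.intCast_zmod_eq_zero_iff_dvd]
      push_cast
      rw [ZMod.natCast_zmod_val, hj2]; ring

lemma exists_rep {N ℓ : ℕ} (hℓ : ℓ.Prime) (hN : ¬ ℓ ∣ N) {g : SL(2, ℤ)} (hg : IsDiam N ℓ g)
    {M : IM} (hM : Del N ℓ M) :
    ∃ i : Option (Fin ℓ), ∃ Y ∈ Gamma1 N, M = Y.1 * Rep ℓ g i := by
  obtain ⟨i, hi⟩ := exists_kv hℓ hM.1
  obtain ⟨Y, hY⟩ := exists_left hℓ (Rep_mem hg i).1 hM.1 (kv_not hℓ i) (Ker_Rep g i) hi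
  refine ⟨i, Y, left_mem_Gamma1 (n := ℓ) ?_ (Rep_mem hg i) hM hY, hY⟩
  have : Nat.Coprime ℓ N := (Nat.Prime.coprime_iff_not_dvd hℓ).mpr hN
  simpa using (ZMod.isUnit_iff_coprime ℓ N).mpr this

lemma Ker_mul_left {ℓ : ℕ} {M : IM} {v w : ℤ} (h : Ker ℓ M v w) (Y : IM) : Ker ℓ (Y * M) v w := by
  obtain ⟨h1, h2⟩ := h
  constructor
  · have : (Y * M) 0 0 * v + (Y * M) 0 1 * w =
        Y 0 0 * (M 0 0 * v + M 0 1 * w) + Y 0 1 * (M 1 0 * v + M 1 1 * w) := by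
      simp only [Matrix.mul_apply, Fin.sum_univ_two]; ring
    rw [this]; exact dvd_add (h1.mul_left _) (h2.mul_left _)
  · have : (Y * M) 1 0 * v + (Y * M) 1 1 * w =
        Y 1 0 * (M 0 0 * v + M 0 1 * w) + Y 1 1 * (M 1 0 * v + M 1 1 * w) := by
      simp only [Matrix.mul_apply, Fin.sum_univ_two]; ring
    rw [this]; exact dvd_add (h1.mul_left _) (h2.mul_left _)

lemma Ker_of_mul_left {ℓ : ℕ} {M : IM} {v w : ℤ} {Y : SL(2, ℤ)} (h : Ker ℓ (Y.1 * M) v w) :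
    Ker ℓ M v w := by
  have := Ker_mul_left h (Y⁻¹).1
  rw [← Matrix.mul_assoc] at this
  have e : (Y⁻¹).1 * Y.1 = 1 := by
    rw [← Matrix.SpecialLinearGroup.coe_mul]
    simp
  rwa [e, one_mul] at this

lemma rep_unique {ℓ : ℕ} (hℓ : ℓ.Prime) {g : SL(2, ℤ)} {i j : Option (Fin ℓ)} {Y : SL(2, ℤ)}
    (h : Rep ℓ g i = Y.1 * Rep ℓ g j) : i = j := by
  have hp : Prime (ℓ : ℤ) := Nat.prime_iff_prime_int.mp hℓ
  have h1 : Ker ℓ (Rep ℓ g i) (kv ℓ j).1 (kv ℓ j).2 := by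
    rw [h]; exact Ker_mul_left (Ker_Rep g j) _
  cases i with
  | none =>
    cases j with
    | none => rfl
    | some j =>
      exfalso
      have h2 := Ker_of_mul_left (M := !![(ℓ : ℤ), 0; 0, 1]) (Y := g) h1
      have h3 := h2.2
      simp [kv] at h3
      exact hp.not_isUnit (isUnit_of_dvd_one h3)
  | some i =>
    have h2 := h1.1
    cases j with
    | none =>
      exfalso
      simp [Rep, kv] at h2
      exact hp.not_isUnit (isUnit_of_dvd_one h2)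
    | some j =>
      simp [Rep, kv] at h2
      have h3 : (ℓ : ℤ) ∣ (j : ℤ) - i := by simpa [sub_eq_add_neg] using h2
      have h4 : ((j : ℕ) : ℤ) - ((i : ℕ) : ℤ) = 0 := by
        have hi := i.2
        have hj := j.2
        apply Int.eq_zero_of_abs_lt_dvd h3
        rw [abs_lt]; constructor <;> omega
      congr 1
      ext
      omega

/-- The permutation of coset representatives induced by conjugation with `γ ∈ Γ₀(N)`. -/
lemma exists_perm {N ℓ : ℕ} (hℓ : ℓ.Prime) (hN : ¬ ℓ ∣ N) {g : SL(2, ℤ)} (hg : IsDiam N ℓ g)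
    {γ : SL(2, ℤ)} (hγ : γ ∈ Gamma0 N) :
    ∃ σ : Equiv.Perm (Option (Fin ℓ)), ∀ i, ∃ Y ∈ Gamma1 N,
      (γ⁻¹).1 * Rep ℓ g i * γ.1 = Y.1 * Rep ℓ g (σ i) := by
  have h1 : ∀ i : Option (Fin ℓ), ∃ i' : Option (Fin ℓ), ∃ Y ∈ Gamma1 N,
      (γ⁻¹).1 * Rep ℓ g i * γ.1 = Y.1 * Rep ℓ g i' :=
    fun i => exists_rep hℓ hN hg (conj_mem_Del (Rep_mem hg i) hγ)
  choose σ Y hY hσ using h1
  have hγγ : γ.1 * (γ⁻¹).1 = 1 := by
    rw [← Matrix.SpecialLinearGroup.coe_mul]; simp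
  have hinj : Function.Injective σ := by
    intro i j hij
    have e1 := hσ i
    have e2 := hσ j
    rw [hij] at e1
    have e3 : Rep ℓ g (σ j) = ((Y j)⁻¹).1 * ((γ⁻¹).1 * Rep ℓ g j * γ.1) := by
      rw [e2, ← Matrix.mul_assoc, ← Matrix.SpecialLinearGroup.coe_mul]
      simp
    rw [e3] at e1
    have e4 : Rep ℓ g i = (γ * Y i * (Y j)⁻¹ * γ⁻¹ : SL(2, ℤ)).1 * Rep ℓ g j := by
      have : γ.1 * ((γ⁻¹).1 * Rep ℓ g i * γ.1) * (γ⁻¹).1 =
          γ.1 * ((Y i).1 * (((Y j)⁻¹).1 * ((γ⁻¹).1 * Rep ℓ g j * γ.1))) * (γ⁻¹).1 := by rw [e1]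
      have l1 : γ.1 * ((γ⁻¹).1 * Rep ℓ g i * γ.1) * (γ⁻¹).1 = Rep ℓ g i := by
        calc _ = (γ.1 * (γ⁻¹).1) * Rep ℓ g i * (γ.1 * (γ⁻¹).1) := by simp only [Matrix.mul_assoc]
          _ = _ := by rw [hγγ]; simp
      rw [l1] at this
      rw [this]
      simp only [Matrix.SpecialLinearGroup.coe_mul]
      calc _ = γ.1 * (Y i).1 * ((Y j)⁻¹).1 * (γ⁻¹).1 * Rep ℓ g j * (γ.1 * (γ⁻¹).1) := by
            simp only [Matrix.mul_assoc]
        _ = _ := by rw [hγγ, mul_one]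
    exact rep_unique hℓ e4
  exact ⟨Equiv.ofBijective σ (Finite.injective_iff_bijective.mp hinj),
    fun i => ⟨Y i, hY i, hσ i⟩⟩

end Crest.Agent.R007.Op
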