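import Mathlib
import Crest.Prelude.Def_HeckeTwo
import Crest.Agent.R007.OpMat

/-! Row 7, operator layer: existence of the Hecke and diamond operators. (helper668) -/

set_option autoImplicit false

namespace Crest.Agent.R007.Op

open Matrix UpperHalfPlane ModularForm CongruenceSubgroup Matrix.SpecialLinearGroup
open scoped MatrixGroups ModularForm Manifold Pointwise
open Crest.NumberTheoryR.HeckeTwoAdic

/-- An integer matrix of nonzero determinant as a real invertible matrix. -/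
noncomputable def gl (M : IM) (h : M.det ≠ 0) : GL (Fin 2) ℝ :=
  Matrix.GeneralLinearGroup.mkOfDetNeZero (M.map (Int.cast : ℤ → ℝ)) (by
    have e : (M.map (Int.cast : ℤ → ℝ)).det = ((M.det : ℤ) : ℝ) := by
      simp [Matrix.det_fin_two]
    rw [e]; exact_mod_cast h)

/-- The rational version. -/
noncomputable def glQ (M : IM) (h : M.det ≠ 0) : GL (Fin 2) ℚ :=
  Matrix.GeneralLinearGroup.mkOfDetNeZero (M.map (Int.cast : ℤ → ℚ)) (by
    have e : (M.map (Int.cast : ℤ → ℚ)).det = ((M.det : ℤ) : ℚ) := by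
      simp [Matrix.det_fin_two]
    rw [e]; exact_mod_cast h)

@[simp] lemma gl_apply (M : IM) (h : M.det ≠ 0) (i j : Fin 2) : (gl M h) i j = (M i j : ℝ) := rfl

@[simp] lemma glQ_apply (M : IM) (h : M.det ≠ 0) (i j : Fin 2) : (glQ M h) i j = (M i j : ℚ) := rfl

lemma glQ_map (M : IM) (h : M.det ≠ 0) : (glQ M h).map (Rat.castHom ℝ) = gl M h := by
  ext i j
  simp [glQ, gl, Matrix.GeneralLinearGroup.mkOfDetNeZero, Matrix.GeneralLinearGroup.map_apply]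

lemma gl_mul (M M' : IM) (h : M.det ≠ 0) (h' : M'.det ≠ 0) (h'' : (M * M').det ≠ 0) :
    gl (M * M') h'' = gl M h * gl M' h' := by
  ext i j
  simp [Matrix.mul_apply, Fin.sum_univ_two]

lemma gl_SL (Y : SL(2, ℤ)) (h : Y.1.det ≠ 0) : gl Y.1 h = mapGL ℝ Y := by
  ext i j
  simp [mapGL]

lemma gl_det (M : IM) (h : M.det ≠ 0) : (gl M h).det.val = (M.det : ℝ) := by
  simp [Matrix.det_fin_two]

/-- Slash by an integer matrix (zero if the determinant is zero). -/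
noncomputable def isl (k : ℤ) (M : IM) (f : ℍ → ℂ) : ℍ → ℂ :=
  if h : M.det ≠ 0 then f ∣[k] gl M h else 0

lemma isl_of (k : ℤ) (M : IM) (h : M.det ≠ 0) (f : ℍ → ℂ) : isl k M f = f ∣[k] gl M h := dif_pos h

lemma isl_mul (k : ℤ) (M M' : IM) (h : M.det ≠ 0) (h' : M'.det ≠ 0) (f : ℍ → ℂ) :
    isl k (M * M') f = isl k M' (isl k M f) := by
  have h'' : (M * M').det ≠ 0 := by rw [Matrix.det_mul]; exact mul_ne_zero h h'
  rw [isl_of _ _ h'', isl_of _ _ h', isl_of _ _ h, gl_mul _ _ h h' h'', SlashAction.slash_mul]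

lemma SL_det_ne (Y : SL(2, ℤ)) : Y.1.det ≠ 0 := by rw [Y.2]; exact one_ne_zero

lemma isl_SL (k : ℤ) (Y : SL(2, ℤ)) (f : ℍ → ℂ) : isl k Y.1 f = f ∣[k] Y := by
  rw [isl_of _ _ (SL_det_ne Y), gl_SL, SL_slash]
  rfl

lemma isl_add (k : ℤ) (M : IM) (f g : ℍ → ℂ) : isl k M (f + g) = isl k M f + isl k M g := by
  by_cases h : M.det ≠ 0
  · simp only [isl_of _ _ h, SlashAction.add_slash]
  · simp [isl, h]

lemma isl_zero (k : ℤ) (M : IM) : isl k M 0 = 0 := by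
  by_cases h : M.det ≠ 0
  · simp only [isl_of _ _ h, SlashAction.zero_slash]
  · simp [isl, h]

lemma isl_sum {ι : Type*} (k : ℤ) (M : IM) (s : Finset ι) (f : ι → ℍ → ℂ) :
    isl k M (∑ i ∈ s, f i) = ∑ i ∈ s, isl k M (f i) := by
  by_cases h : M.det ≠ 0
  · simp only [isl_of _ _ h, SlashAction.sum_slash]
  · simp [isl, h]

lemma isl_smul (k : ℤ) (M : IM) (hM : 0 < M.det) (c : ℂ) (f : ℍ → ℂ) :
    isl k M (c • f) = c • isl k M f := by
  have h : M.det ≠ 0 := hM.ne'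
  rw [isl_of _ _ h, isl_of _ _ h, smul_slash]
  congr 1
  have : 0 < (gl M h).det.val := by rw [gl_det]; exact_mod_cast hM
  simp only [σ, this, ↓reduceIte]
  rfl

lemma isl_mdiff (k : ℤ) (M : IM) {f : ℍ → ℂ} (hf : MDiff f) : MDiff (isl k M f) := by
  by_cases h : M.det ≠ 0
  · rw [isl_of _ _ h]; exact hf.slash k _
  · simp only [isl, h, dif_neg, not_false_iff]
    exact fun _ => mdifferentiableAt_const

lemma upperMat_eq (ℓ j : ℕ) (hℓ : ℓ ≠ 0) (h : (!![1, (j : ℤ); 0, (ℓ : ℤ)] : IM).det ≠ 0) :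
    upperMat ℓ j hℓ = gl !![1, (j : ℤ); 0, (ℓ : ℤ)] h := by
  ext i j
  fin_cases i <;> fin_cases j <;>
    simp [upperMat, mat2, Matrix.GeneralLinearGroup.mkOfDetNeZero]

lemma lowerMat_eq (ℓ : ℕ) (hℓ : ℓ ≠ 0) (h : (!![(ℓ : ℤ), 0; 0, 1] : IM).det ≠ 0) :
    lowerMat ℓ hℓ = gl !![(ℓ : ℤ), 0; 0, 1] h := by
  ext i j
  fin_cases i <;> fin_cases j <;>
    simp [lowerMat, mat2, Matrix.GeneralLinearGroup.mkOfDetNeZero]

/-- Γ₁(N)-invariance of a function. -/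
def Inv1 (N : ℕ) (k : ℤ) (f : ℍ → ℂ) : Prop := ∀ Y ∈ Gamma1 N, f ∣[k] Y = f

lemma inv1_mf {N : ℕ} {k : ℕ} (f : MF N k) : Inv1 N k f := by
  intro Y hY
  rw [SL_slash]
  exact f.slash_action_eq' _ ⟨Y, hY, rfl⟩

lemma conj_Gamma1 {N : ℕ} {g Y : SL(2, ℤ)} (hg : g ∈ Gamma0 N) (hY : Y ∈ Gamma1 N) :
    g * Y * g⁻¹ ∈ Gamma1 N := by
  rw [Gamma0_mem] at hg
  rw [Gamma1_mem] at hY ⊢
  obtain ⟨a1, a2, a3⟩ := hY
  have g10 : ((g.1 1 0 : ℤ) : ZMod N) = 0 := hg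
  have y00 : ((Y.1 0 0 : ℤ) : ZMod N) = 1 := a1
  have y11 : ((Y.1 1 1 : ℤ) : ZMod N) = 1 := a2
  have y10 : ((Y.1 1 0 : ℤ) : ZMod N) = 0 := a3
  have hdet := g.2
  rw [Matrix.det_fin_two] at hdet
  have hdet' := congrArg (fun z : ℤ => (z : ZMod N)) hdet
  push_cast at hdet'
  rw [g10] at hdet'
  have hinv : (g⁻¹).1 = !![g.1 1 1, -g.1 0 1; -g.1 1 0, g.1 0 0] := by
    rw [Matrix.SpecialLinearGroup.SL2_inv_expl]; rfl
  have e : (g * Y * g⁻¹).1 = g.1 * Y.1 * !![g.1 1 1, -g.1 0 1; -g.1 1 0, g.1 0 0] := by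
    rw [← hinv]; simp
  refine ⟨?_, ?_, ?_⟩
  · change (((g * Y * g⁻¹).1 0 0 : ℤ) : ZMod N) = 1
    rw [e]
    simp only [Matrix.mul_apply, Fin.sum_univ_two, Matrix.of_apply, Matrix.cons_val', Matrix.cons_val_zero,
      Matrix.cons_val_one, Matrix.cons_val_fin_one]
    push_cast
    rw [g10, y00, y11, y10]
    linear_combination hdet'
  · change (((g * Y * g⁻¹).1 1 1 : ℤ) : ZMod N) = 1
    rw [e]
    simp only [Matrix.mul_apply, Fin.sum_univ_two, Matrix.of_apply, Matrix.cons_val', Matrix.cons_val_zero,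
      Matrix.cons_val_one, Matrix.cons_val_fin_one]
    push_cast
    rw [g10, y00, y11, y10]
    linear_combination hdet'
  · change (((g * Y * g⁻¹).1 1 0 : ℤ) : ZMod N) = 0
    rw [e]
    simp only [Matrix.mul_apply, Fin.sum_univ_two, Matrix.of_apply, Matrix.cons_val', Matrix.cons_val_zero,
      Matrix.cons_val_one, Matrix.cons_val_fin_one]
    push_cast
    rw [g10, y00, y11, y10]
    ring

lemma inv1_diam {N : ℕ} {k : ℤ} {f : ℍ → ℂ} (hf : Inv1 N k f) {g : SL(2, ℤ)} (hg : g ∈ Gamma0 N) :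
    Inv1 N k (f ∣[k] g) := by
  intro Y hY
  rw [← SlashAction.slash_mul]
  have : g * Y = (g * Y * g⁻¹) * g := by group
  rw [this, SlashAction.slash_mul, hf _ (conj_Gamma1 hg hY)]

/-- The diamond slash depends only on the lower right entry. -/
lemma diam_indep {N : ℕ} {k : ℤ} {f : ℍ → ℂ} (hf : Inv1 N k f) {d : ℕ} {g g' : SL(2, ℤ)}
    (hg : IsDiam N d g) (hg' : IsDiam N d g') : f ∣[k] g = f ∣[k] g' := by
  obtain ⟨h0, h1⟩ := hg
  obtain ⟨h0', h1'⟩ := hg'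
  have hmem : g' * g⁻¹ ∈ Gamma1 N := by
    rw [Gamma0_mem] at h0 h0'
    have g10 : ((g.1 1 0 : ℤ) : ZMod N) = 0 := h0
    have g10' : ((g'.1 1 0 : ℤ) : ZMod N) = 0 := h0'
    have g11 : ((g.1 1 1 : ℤ) : ZMod N) = d := h1
    have g11' : ((g'.1 1 1 : ℤ) : ZMod N) = d := h1'
    have hdet := g.2
    rw [Matrix.det_fin_two] at hdet
    have hdet1 := congrArg (fun z : ℤ => (z : ZMod N)) hdet
    push_cast at hdet1
    have hdet2 := g'.2
    rw [Matrix.det_fin_two] at hdet2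
    have hdet3 := congrArg (fun z : ℤ => (z : ZMod N)) hdet2
    push_cast at hdet3
    rw [g10, g11] at hdet1
    rw [g10', g11'] at hdet3
    have hinv : (g⁻¹).1 = !![g.1 1 1, -g.1 0 1; -g.1 1 0, g.1 0 0] := by
      rw [Matrix.SpecialLinearGroup.SL2_inv_expl]; rfl
    have e : (g' * g⁻¹).1 = g'.1 * !![g.1 1 1, -g.1 0 1; -g.1 1 0, g.1 0 0] := by
      rw [← hinv]; simp
    rw [Gamma1_mem]
    refine ⟨?_, ?_, ?_⟩
    · change (((g' * g⁻¹).1 0 0 : ℤ) : ZMod N) = 1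
      rw [e]
      simp only [Matrix.mul_apply, Fin.sum_univ_two, Matrix.of_apply, Matrix.cons_val', Matrix.cons_val_zero,
        Matrix.cons_val_one, Matrix.cons_val_fin_one]
      push_cast
      rw [g10, g11]
      linear_combination hdet3
    · change (((g' * g⁻¹).1 1 1 : ℤ) : ZMod N) = 1
      rw [e]
      simp only [Matrix.mul_apply, Fin.sum_univ_two, Matrix.of_apply, Matrix.cons_val', Matrix.cons_val_zero,
        Matrix.cons_val_one, Matrix.cons_val_fin_one]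
      push_cast
      rw [g10', g11']
      linear_combination hdet1
    · change (((g' * g⁻¹).1 1 0 : ℤ) : ZMod N) = 0
      rw [e]
      simp only [Matrix.mul_apply, Fin.sum_univ_two, Matrix.of_apply, Matrix.cons_val', Matrix.cons_val_zero,
        Matrix.cons_val_one, Matrix.cons_val_fin_one]
      push_cast
      rw [g10', g10]
      ring
  have : g' = (g' * g⁻¹) * g := by group
  rw [this, SlashAction.slash_mul, hf _ hmem]

/-- `T_ℓ` on functions. -/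
noncomputable def Tfun (k : ℤ) (ℓ : ℕ) (g : SL(2, ℤ)) (f : ℍ → ℂ) : ℍ → ℂ :=
  ∑ i : Option (Fin ℓ), isl k (Rep ℓ g i) f

lemma Rep_det {N ℓ : ℕ} {g : SL(2, ℤ)} (hg : IsDiam N ℓ g) (hℓ : ℓ ≠ 0) (i : Option (Fin ℓ)) :
    (Rep ℓ g i).det ≠ 0 := by
  rw [(Rep_mem hg i).1]; exact_mod_cast hℓ

lemma Rep_det_pos {N ℓ : ℕ} {g : SL(2, ℤ)} (hg : IsDiam N ℓ g) (hℓ : ℓ ≠ 0) (i : Option (Fin ℓ)) :
    0 < (Rep ℓ g i).det := by
  rw [(Rep_mem hg i).1]; exact_mod_cast Nat.pos_of_ne_zero hℓ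

lemma isl_inv1 {N : ℕ} {k : ℤ} {f : ℍ → ℂ} (hf : Inv1 N k f) {Y : SL(2, ℤ)} (hY : Y ∈ Gamma1 N)
    {M : IM} (hM : M.det ≠ 0) : isl k (Y.1 * M) f = isl k M f := by
  rw [isl_mul _ _ _ (SL_det_ne Y) hM, isl_SL, hf Y hY]

lemma Tfun_slash {N ℓ : ℕ} {k : ℤ} (hℓ : ℓ.Prime) (hN : ¬ ℓ ∣ N) {g : SL(2, ℤ)}
    (hg : IsDiam N ℓ g) {f : ℍ → ℂ} (hf : Inv1 N k f) {γ : SL(2, ℤ)} (hγ : γ ∈ Gamma0 N) :
    (Tfun k ℓ g f) ∣[k] γ = Tfun k ℓ g (f ∣[k] γ) := by
  obtain ⟨τ, hτ⟩ := exists_perm hℓ hN hg hγ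
  have h0 : ∀ i, (Rep ℓ g i).det ≠ 0 := Rep_det hg hℓ.ne_zero
  unfold Tfun
  rw [SlashAction.sum_slash]
  have e1 : ∀ i, (isl k (Rep ℓ g i) f) ∣[k] γ = isl k (Rep ℓ g (τ i)) (f ∣[k] γ) := by
    intro i
    obtain ⟨Y, hY, hYi⟩ := hτ i
    have h1 : ((γ⁻¹).1 * Rep ℓ g i * γ.1).det ≠ 0 := by
      rw [Matrix.det_mul, Matrix.det_mul, γ.2, (γ⁻¹).2]; simpa using h0 i
    calc (isl k (Rep ℓ g i) f) ∣[k] γ = isl k (Rep ℓ g i * γ.1) f := by
          rw [isl_mul _ _ _ (h0 i) (SL_det_ne γ), isl_SL]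
      _ = isl k (γ.1 * ((γ⁻¹).1 * Rep ℓ g i * γ.1)) f := by
          congr 1
          rw [← Matrix.mul_assoc, ← Matrix.mul_assoc, ← Matrix.SpecialLinearGroup.coe_mul]
          simp
      _ = isl k ((γ⁻¹).1 * Rep ℓ g i * γ.1) (f ∣[k] γ) := by
          rw [isl_mul _ _ _ (SL_det_ne γ) h1, isl_SL]
      _ = isl k (Rep ℓ g (τ i)) (f ∣[k] γ) := by
          rw [hYi, isl_inv1 (inv1_diam hf hγ) hY (h0 _)]
  rw [Finset.sum_congr rfl (fun i _ => e1 i)]
  exact Equiv.sum_comp τ (fun i => isl k (Rep ℓ g i) (f ∣[k] γ))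

lemma Tfun_inv1 {N ℓ : ℕ} {k : ℤ} (hℓ : ℓ.Prime) (hN : ¬ ℓ ∣ N) {g : SL(2, ℤ)}
    (hg : IsDiam N ℓ g) {f : ℍ → ℂ} (hf : Inv1 N k f) : Inv1 N k (Tfun k ℓ g f) := by
  intro Y hY
  rw [Tfun_slash hℓ hN hg hf (Gamma1_in_Gamma0 N hY), hf Y hY]

/-- `T_ℓ` through the matrices of the definition. -/
lemma Tfun_eq {N ℓ : ℕ} {k : ℤ} (hℓ : ℓ ≠ 0) {g : SL(2, ℤ)}
    (hg : IsDiam N ℓ g) (f : ℍ → ℂ) :
    Tfun k ℓ g f = (∑ j ∈ Finset.range ℓ, f ∣[k] upperMat ℓ j hℓ) +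
      (f ∣[k] g) ∣[k] lowerMat ℓ hℓ := by
  have h0 := Rep_det hg hℓ
  unfold Tfun
  rw [Fintype.sum_option, add_comm]
  congr 1
  · rw [Finset.sum_range]
    refine Finset.sum_congr rfl fun j _ => ?_
    rw [isl_of _ _ (h0 (some j)), upperMat_eq ℓ j hℓ (h0 (some j))]
    rfl
  · have h1 : (!![(ℓ : ℤ), 0; 0, 1] : IM).det ≠ 0 := by
      rw [Matrix.det_fin_two_of]; simpa using hℓ
    have e : Rep ℓ g none = g.1 * !![(ℓ : ℤ), 0; 0, 1] := rfl
    rw [e, isl_mul _ _ _ (SL_det_ne g) h1, isl_SL, isl_of _ _ h1, lowerMat_eq ℓ hℓ h1]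

/-- Boundedness at cusps of integer slashes of modular forms. -/
lemma bdd_isl {N : ℕ} [NeZero N] {k : ℕ} (f : MF N k) (M : IM) (hM : M.det ≠ 0)
    {c : OnePoint ℝ} (hc : IsCusp c ((Gamma1 N : Subgroup SL(2, ℤ)) : Subgroup (GL (Fin 2) ℝ))) :
    c.IsBoundedAt (isl k M f) k := by
  rw [isl_of _ _ hM]
  have key := (ModularForm.translate f (gl M hM)).bdd_at_cusps' (c := c)
  apply key
  have harith : (ConjAct.toConjAct (gl M hM)⁻¹ •
      ((Gamma1 N : Subgroup SL(2, ℤ)) : Subgroup (GL (Fin 2) ℝ))).IsArithmetic := by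
    have := Subgroup.IsArithmetic.conj ((Gamma1 N : Subgroup SL(2, ℤ)) : Subgroup (GL (Fin 2) ℝ))
      (glQ M hM)⁻¹
    rw [map_inv, glQ_map] at this
    exact this
  rw [Subgroup.IsArithmetic.isCusp_iff_isCusp_SL2Z] at hc ⊢
  exact hc

/-- The diamond operator as a linear map. -/
noncomputable def Dop (N : ℕ) [NeZero N] (k : ℕ) (g : SL(2, ℤ)) (hg : g ∈ Gamma0 N) :
    MF N k →ₗ[ℂ] MF N k where
  toFun f :=
    { toFun := (⇑f) ∣[(k : ℤ)] g
      slash_action_eq' := by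
        rintro _ ⟨Y, hY, rfl⟩
        exact inv1_diam (inv1_mf f) hg Y hY
      holo' := by
        have := isl_mdiff (k : ℤ) g.1 (ModularFormClass.holo f)
        rw [isl_SL] at this
        exact this
      bdd_at_cusps' := by
        intro c hc
        have := bdd_isl f g.1 (SL_det_ne g) hc
        rw [isl_SL] at this
        exact this }
  map_add' f f' := by
    ext z
    change ((⇑(f + f')) ∣[(k : ℤ)] g) z = ((⇑f) ∣[(k : ℤ)] g) z + ((⇑f') ∣[(k : ℤ)] g) z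
    rw [FunLike.coe_add, SlashAction.add_slash]; rfl
  map_smul' c f := by
    ext z
    change ((⇑(c • f)) ∣[(k : ℤ)] g) z = c • (((⇑f) ∣[(k : ℤ)] g) z)
    rw [FunLike.coe_smul, SL_smul_slash]; rfl

@[simp] lemma Dop_coe (N : ℕ) [NeZero N] (k : ℕ) (g : SL(2, ℤ)) (hg : g ∈ Gamma0 N) (f : MF N k) :
    ⇑(Dop N k g hg f) = (⇑f) ∣[(k : ℤ)] g := rfl

/-- The Hecke operator as a linear map. -/
noncomputable def Top (N : ℕ) [NeZero N] (k : ℕ) (ℓ : ℕ) (hℓ : ℓ.Prime) (hN : ¬ ℓ ∣ N)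
    (g : SL(2, ℤ)) (hg : IsDiam N ℓ g) : MF N k →ₗ[ℂ] MF N k where
  toFun f :=
    { toFun := Tfun k ℓ g f
      slash_action_eq' := by
        rintro _ ⟨Y, hY, rfl⟩
        exact Tfun_inv1 hℓ hN hg (inv1_mf f) Y hY
      holo' := by
        change MDiff (Tfun k ℓ g f)
        unfold Tfun
        have : ∀ s : Finset (Option (Fin ℓ)), MDiff (∑ i ∈ s, isl k (Rep ℓ g i) (⇑f)) := by
          intro s
          classical
          induction s using Finset.induction_on with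
          | empty => simp only [Finset.sum_empty]; exact fun _ => mdifferentiableAt_const
          | insert a s ha ih =>
            rw [Finset.sum_insert ha]
            exact (isl_mdiff (k : ℤ) _ (ModularFormClass.holo f)).add ih
        exact this _
      bdd_at_cusps' := by
        intro c hc
        change c.IsBoundedAt (Tfun k ℓ g f) k
        unfold Tfun
        have : ∀ s : Finset (Option (Fin ℓ)), c.IsBoundedAt (∑ i ∈ s, isl k (Rep ℓ g i) (⇑f)) k := by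
          intro s
          classical
          induction s using Finset.induction_on with
          | empty =>
            simp only [Finset.sum_empty]
            exact (0 : MF N k).bdd_at_cusps' hc
          | insert a s ha ih =>
            rw [Finset.sum_insert ha]
            exact (bdd_isl f _ (Rep_det hg hℓ.ne_zero a) hc).add ih
        exact this _ }
  map_add' f f' := by
    ext z
    change Tfun k ℓ g (⇑(f + f')) z = Tfun k ℓ g f z + Tfun k ℓ g f' z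
    simp only [Tfun, FunLike.coe_add, isl_add, Finset.sum_add_distrib, Pi.add_apply]
  map_smul' c f := by
    ext z
    change Tfun k ℓ g (⇑(c • f)) z = c • (Tfun k ℓ g f z)
    have e : Tfun k ℓ g (⇑(c • f)) = c • Tfun k ℓ g f := by
      unfold Tfun
      rw [Finset.smul_sum]
      refine Finset.sum_congr rfl fun i _ => ?_
      rw [FunLike.coe_smul, isl_smul _ _ (Rep_det_pos hg hℓ.ne_zero i)]
    rw [e]; rfl

@[simp] lemma Top_coe (N : ℕ) [NeZero N] (k : ℕ) (ℓ : ℕ) (hℓ : ℓ.Prime) (hN : ¬ ℓ ∣ N)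
    (g : SL(2, ℤ)) (hg : IsDiam N ℓ g) (f : MF N k) : ⇑(Top N k ℓ hℓ hN g hg f) = Tfun k ℓ g f := rfl

open Classical in
/-- The chosen element of `Γ₀(N)` with lower right entry `≡ d`, if it exists. -/
noncomputable def chi (N d : ℕ) : SL(2, ℤ) :=
  if h : ∃ g, IsDiam N d g then h.choose else 1

lemma chi_spec {N d : ℕ} (h : ∃ g, IsDiam N d g) : IsDiam N d (chi N d) := by
  unfold chi; rw [dif_pos h]; exact h.choose_spec

lemma chi_mem (N d : ℕ) : chi N d ∈ Gamma0 N := by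
  unfold chi
  split_ifs with h
  · exact h.choose_spec.1
  · exact one_mem _

/-- The diamond family. -/
noncomputable def DD (N : ℕ) [NeZero N] (d : ℕ) (i : ℕ) : MF N i →ₗ[ℂ] MF N i :=
  Dop N i (chi N d) (chi_mem N d)

open Classical in
/-- The Hecke family. -/
noncomputable def TT (N : ℕ) [NeZero N] (ℓ : ℕ) (i : ℕ) : MF N i →ₗ[ℂ] MF N i :=
  if h : ℓ.Prime ∧ ¬ ℓ ∣ N then
    Top N i ℓ h.1 h.2 (chi N ℓ) (chi_spec (exists_isDiam ((Nat.Prime.coprime_iff_not_dvd h.1).mpr h.2)))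
  else 0

lemma isDiamondFamily (N : ℕ) [NeZero N] : IsDiamondFamily N (DD N) := by
  intro d i γ hγ hd f
  exact diam_indep (inv1_mf f) (chi_spec ⟨γ, hγ, hd⟩) ⟨hγ, hd⟩

lemma isHeckeFamily (N : ℕ) [NeZero N] : IsHeckeFamily N (TT N) (DD N) := by
  intro ℓ hℓ hN i f
  have hN' : ¬ ℓ ∣ N := fun h => hN (h.mul_left 2)
  have e : TT N ℓ i = Top N i ℓ hℓ hN' (chi N ℓ)
      (chi_spec (exists_isDiam ((Nat.Prime.coprime_iff_not_dvd hℓ).mpr hN'))) := by
    unfold TT; rw [dif_pos ⟨hℓ, hN'⟩]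
  rw [e, Top_coe, Tfun_eq hℓ.ne_zero (chi_spec (exists_isDiam ((Nat.Prime.coprime_iff_not_dvd hℓ).mpr hN')))]
  rfl

end Crest.Agent.R007.Op
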