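import Mathlib
import Crest.Prelude.Def_HeckeTwo
import Crest.Agent.R007.OpForm

/-! Row 7, operator layer: q-expansions of `T_ℓ f`. (helper668) -/

set_option autoImplicit false

namespace Crest.Agent.R007.Op

open Matrix UpperHalfPlane ModularForm CongruenceSubgroup Matrix.SpecialLinearGroup
open scoped MatrixGroups ModularForm Manifold Pointwise
open Crest.NumberTheoryR.HeckeTwoAdic

local notation "𝕢" => Function.Periodic.qParam

/-- Slash by an upper triangular integer matrix with positive diagonal. -/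
lemma isl_upper (k : ℤ) (a b d : ℤ) (ha : 0 < a) (hd : 0 < d) (F : ℍ → ℂ) (τ : ℍ) :
    ∃ τ' : ℍ, (τ' : ℂ) = (a * τ + b) / d ∧
      isl k !![a, b; 0, d] F τ = ((a : ℂ) * d) ^ (k - 1) * (d : ℂ) ^ (-k) * F τ' := by
  have hdet : (!![a, b; 0, d] : IM).det ≠ 0 := by
    rw [Matrix.det_fin_two_of]; simp [ha.ne', hd.ne']
  have hpos : (0 : ℝ) < (gl !![a, b; 0, d] hdet).det.val := by
    rw [gl_det, Matrix.det_fin_two_of]
    have : 0 < a * d - b * 0 := by simpa using mul_pos ha hd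
    exact_mod_cast this
  have hdetv : (gl !![a, b; 0, d] hdet).det.val = (a : ℝ) * d := by
    rw [gl_det, Matrix.det_fin_two_of]; push_cast; ring
  refine ⟨gl !![a, b; 0, d] hdet • τ, ?_, ?_⟩
  · rw [coe_smul_of_det_pos hpos]
    simp [num, denom]
  · rw [isl_of _ _ hdet, slash_apply]
    have hσ : σ (gl !![a, b; 0, d] hdet) = ContinuousAlgEquiv.refl ℝ ℂ := by
      rw [σ, if_pos hpos]
    rw [hσ, hdetv]
    have habs : |(a : ℝ) * d| = a * d := abs_of_pos (by exact_mod_cast mul_pos ha hd)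
    rw [habs]
    have hden : denom (gl !![a, b; 0, d] hdet) τ = d := by simp [denom]
    rw [hden]
    simp only [ContinuousAlgEquiv.refl_apply]
    push_cast
    ring

/-- Root of unity filter for `q`-expansions. -/
lemma hasSum_upper (k : ℤ) {a : ℕ → ℂ} {F : ℍ → ℂ}
    (hF : ∀ τ : ℍ, HasSum (fun n => a n * 𝕢 1 τ ^ n) (F τ)) {ℓ : ℕ} (hℓ : ℓ ≠ 0) (τ : ℍ) :
    HasSum (fun m => a (ℓ * m) * 𝕢 1 τ ^ m)
      ((∑ j ∈ Finset.range ℓ, F ∣[k] upperMat ℓ j hℓ) τ) := by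
  have hℓpos : (0 : ℤ) < ℓ := by exact_mod_cast Nat.pos_of_ne_zero hℓ
  have hℓC : (ℓ : ℂ) ≠ 0 := by exact_mod_cast hℓ
  -- each summand
  have h1 : ∀ j : ℕ, HasSum (fun n : ℕ => (ℓ : ℂ)⁻¹ * (a n *
      (Complex.exp (2 * Real.pi * Complex.I * (τ : ℂ) / ℓ) ^ n *
        Complex.exp (2 * Real.pi * Complex.I * j / ℓ) ^ n)))
      ((F ∣[k] upperMat ℓ j hℓ) τ) := by
    intro j
    have hdet : (!![1, (j : ℤ); 0, (ℓ : ℤ)] : IM).det ≠ 0 := by
      rw [Matrix.det_fin_two_of]; simpa using hℓ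
    obtain ⟨τ', hτ', hsl⟩ := isl_upper k 1 j ℓ one_pos hℓpos F τ
    rw [isl_of _ _ hdet, ← upperMat_eq ℓ j hℓ hdet] at hsl
    rw [hsl]
    have hc : (((1 : ℤ) : ℂ) * ((ℓ : ℤ) : ℂ)) ^ (k - 1) * ((ℓ : ℤ) : ℂ) ^ (-k) = (ℓ : ℂ)⁻¹ := by
      push_cast
      rw [one_mul, ← zpow_add₀ hℓC, show k - 1 + -k = -1 by ring, _root_.zpow_neg_one]
    rw [hc]
    refine (HasSum.mul_left _ (hF τ')).congr_fun ?_ |> fun h => h
    intro n
    congr 2
    rw [← mul_pow, ← Complex.exp_add]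
    congr 1
    rw [Function.Periodic.qParam, hτ']
    congr 1
    push_cast
    field_simp
  have h2 : HasSum (fun n : ℕ => ∑ j ∈ Finset.range ℓ, (ℓ : ℂ)⁻¹ * (a n *
      (Complex.exp (2 * Real.pi * Complex.I * (τ : ℂ) / ℓ) ^ n *
        Complex.exp (2 * Real.pi * Complex.I * j / ℓ) ^ n)))
      ((∑ j ∈ Finset.range ℓ, F ∣[k] upperMat ℓ j hℓ) τ) := by
    rw [Finset.sum_apply]
    exact hasSum_sum fun j _ => h1 j
  have h3 : ∀ n : ℕ, (∑ j ∈ Finset.range ℓ, (ℓ : ℂ)⁻¹ * (a n *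
      (Complex.exp (2 * Real.pi * Complex.I * (τ : ℂ) / ℓ) ^ n *
        Complex.exp (2 * Real.pi * Complex.I * j / ℓ) ^ n))) =
      if ℓ ∣ n then a n * Complex.exp (2 * Real.pi * Complex.I * (τ : ℂ) / ℓ) ^ n else 0 := by
    intro n
    have e1 : ∀ j : ℕ, Complex.exp (2 * Real.pi * Complex.I * j / ℓ) ^ n =
        (Complex.exp (2 * Real.pi * Complex.I / ℓ) ^ n) ^ j := by
      intro j
      rw [← Complex.exp_nat_mul, ← Complex.exp_nat_mul, ← Complex.exp_nat_mul]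
      congr 1; ring
    have hprim : IsPrimitiveRoot (Complex.exp (2 * Real.pi * Complex.I / ℓ)) ℓ :=
      Complex.isPrimitiveRoot_exp ℓ hℓ
    split_ifs with h
    · obtain ⟨m, rfl⟩ := h
      have e2 : (Complex.exp (2 * Real.pi * Complex.I / ℓ)) ^ (ℓ * m) = 1 := by
        rw [pow_mul, hprim.pow_eq_one, one_pow]
      rw [Finset.sum_congr rfl fun j _ => by rw [e1 j, e2, one_pow, mul_one]]
      rw [Finset.sum_const, Finset.card_range, nsmul_eq_mul, ← mul_assoc, mul_inv_cancel₀ hℓC, one_mul]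
    · have hne : Complex.exp (2 * Real.pi * Complex.I / ℓ) ^ n ≠ 1 := by
        intro hh
        exact h ((hprim.pow_eq_one_iff_dvd n).mp hh)
      rw [Finset.sum_congr rfl fun j _ => by rw [e1 j]]
      rw [← Finset.mul_sum, ← Finset.mul_sum, ← Finset.mul_sum, geom_sum_eq hne]
      have : ((Complex.exp (2 * Real.pi * Complex.I / ℓ)) ^ n) ^ ℓ = 1 := by
        rw [← pow_mul, Nat.mul_comm n ℓ, pow_mul, hprim.pow_eq_one, one_pow]
      rw [this]; simp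
  rw [funext h3] at h2
  have hinj : Function.Injective (fun m : ℕ => ℓ * m) := fun x y hxy =>
    Nat.eq_of_mul_eq_mul_left (Nat.pos_of_ne_zero hℓ) hxy
  have h4 := (hinj.hasSum_iff (f := fun n : ℕ => if ℓ ∣ n then
      a n * Complex.exp (2 * Real.pi * Complex.I * (τ : ℂ) / ℓ) ^ n else 0) (by
    intro n hn
    rw [if_neg]
    rintro ⟨m, rfl⟩
    exact hn ⟨m, rfl⟩)).mpr h2
  refine h4.congr_fun ?_ |> fun h => h
  intro m
  simp only [Function.comp, dvd_mul_right, if_true]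
  congr 1
  rw [pow_mul, ← Complex.exp_nat_mul]
  congr 1
  rw [Function.Periodic.qParam]
  congr 1
  push_cast
  field_simp

lemma hasSum_lower (k : ℤ) {b : ℕ → ℂ} {G : ℍ → ℂ}
    (hG : ∀ τ : ℍ, HasSum (fun n => b n * 𝕢 1 τ ^ n) (G τ)) {ℓ : ℕ} (hℓ : ℓ ≠ 0) (τ : ℍ) :
    HasSum (fun m => (if ℓ ∣ m then (ℓ : ℂ) ^ (k - 1) * b (m / ℓ) else 0) * 𝕢 1 τ ^ m)
      ((G ∣[k] lowerMat ℓ hℓ) τ) := by
  have hℓpos : (0 : ℤ) < ℓ := by exact_mod_cast Nat.pos_of_ne_zero hℓ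
  have hℓC : (ℓ : ℂ) ≠ 0 := by exact_mod_cast hℓ
  have hdet : (!![(ℓ : ℤ), 0; 0, 1] : IM).det ≠ 0 := by
    rw [Matrix.det_fin_two_of]; simpa using hℓ
  obtain ⟨τ', hτ', hsl⟩ := isl_upper k ℓ 0 1 hℓpos one_pos G τ
  rw [isl_of _ _ hdet, ← lowerMat_eq ℓ hℓ hdet] at hsl
  rw [hsl]
  have h1 := HasSum.mul_left ((((ℓ : ℤ) : ℂ) * ((1 : ℤ) : ℂ)) ^ (k - 1) * ((1 : ℤ) : ℂ) ^ (-k)) (hG τ')
  have hinj : Function.Injective (fun m : ℕ => ℓ * m) := fun x y hxy =>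
    Nat.eq_of_mul_eq_mul_left (Nat.pos_of_ne_zero hℓ) hxy
  refine (hinj.hasSum_iff (f := fun m : ℕ => (if ℓ ∣ m then (ℓ : ℂ) ^ (k - 1) * b (m / ℓ) else 0) *
      𝕢 1 τ ^ m) (by
    intro n hn
    rw [if_neg, zero_mul]
    rintro ⟨m, rfl⟩
    exact hn ⟨m, rfl⟩)).mp ?_
  refine h1.congr_fun ?_ |> fun h => h
  intro m
  simp only [Function.comp, dvd_mul_right, if_true]
  rw [Nat.mul_div_cancel_left _ (Nat.pos_of_ne_zero hℓ)]
  have e : 𝕢 1 (τ : ℂ) ^ (ℓ * m) = 𝕢 1 (τ' : ℂ) ^ m := by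
    rw [pow_mul]
    congr 1
    rw [Function.Periodic.qParam, Function.Periodic.qParam, ← Complex.exp_nat_mul, hτ']
    congr 1
    push_cast
    ring
  rw [e]
  push_cast
  simp
  ring

lemma one_mem_periods (N : ℕ) :
    (1 : ℝ) ∈ ((Gamma1 N : Subgroup SL(2, ℤ)) : Subgroup (GL (Fin 2) ℝ)).strictPeriods := by
  rw [strictPeriods_Gamma1]
  exact AddSubgroup.mem_zmultiples 1

/-- The `q`-expansion of a modular form of level `Γ₁(N)`. -/
noncomputable def an {N k : ℕ} (f : MF N k) (n : ℕ) : ℂ := (qExpansion 1 (⇑f)).coeff n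

lemma hasSum_an {N : ℕ} [NeZero N] {k : ℕ} (f : MF N k) (τ : ℍ) :
    HasSum (fun n => an f n * 𝕢 1 τ ^ n) (f τ) :=
  ModularForm.hasSum_qExpansion f one_pos (one_mem_periods N) τ

lemma an_unique {N : ℕ} [NeZero N] {k : ℕ} (f : MF N k) {c : ℕ → ℂ}
    (hc : ∀ τ : ℍ, HasSum (fun n => c n * 𝕢 1 τ ^ n) (f τ)) (n : ℕ) : an f n = c n :=
  (ModularFormClass.qExpansion_coeff_unique (F := MF N k) one_pos (one_mem_periods N)
    (f := f) (c := c) (by simpa using hc) n).symm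

/-- **The `q`-expansion formula for Hecke operators**, for arbitrary families. -/
theorem an_hecke {N : ℕ} [NeZero N] {T D : ℕ → (i : ℕ) → (MF N i →ₗ[ℂ] MF N i)}
    (hT : IsHeckeFamily N T D) {ℓ : ℕ} (hℓ : ℓ.Prime) (hN : ¬ ℓ ∣ 2 * N) {k : ℕ} (f : MF N k)
    (n : ℕ) : an (T ℓ k f) n = an f (ℓ * n) +
      (if ℓ ∣ n then (ℓ : ℂ) ^ ((k : ℤ) - 1) * an (D ℓ k f) (n / ℓ) else 0) := by
  apply an_unique
  intro τ
  rw [hT ℓ hℓ hN k f, Pi.add_apply]
  have h1 := hasSum_upper (k : ℤ) (hasSum_an f) hℓ.ne_zero τ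
  have h2 := hasSum_lower (k : ℤ) (hasSum_an (D ℓ k f)) hℓ.ne_zero τ
  refine (h1.add h2).congr_fun ?_ |> fun h => h
  intro m
  ring

lemma an_add {N : ℕ} [NeZero N] {k : ℕ} (f g : MF N k) (n : ℕ) : an (f + g) n = an f n + an g n := by
  apply an_unique
  intro τ
  refine ((hasSum_an f τ).add (hasSum_an g τ)).congr_fun ?_ |> fun h => h
  intro m; ring

lemma an_smul {N : ℕ} [NeZero N] {k : ℕ} (c : ℂ) (f : MF N k) (n : ℕ) : an (c • f) n = c * an f n := by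
  apply an_unique
  intro τ
  refine ((hasSum_an f τ).mul_left c).congr_fun ?_ |> fun h => h
  intro m; ring

lemma eq_zero_of_an {N : ℕ} [NeZero N] {k : ℕ} (f : MF N k) (h : ∀ n, an f n = 0) : f = 0 := by
  ext τ
  have := hasSum_an f τ
  simp only [h, zero_mul] at this
  exact this.unique hasSum_zero

/-- The `n`-th coefficient as a linear functional. -/
noncomputable def anL (N : ℕ) [NeZero N] (k n : ℕ) : MF N k →ₗ[ℂ] ℂ where
  toFun f := an f n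
  map_add' f g := an_add f g n
  map_smul' c f := an_smul c f n

end Crest.Agent.R007.Op
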