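import Mathlib
import Crest.Prelude.Def_HeckeTwo
import Crest.Agent.R007.OpQ

/-! Row 7, operator layer: `U_p` for `p ∣ N`, `T_2`, commutation, all through q-expansions. (helper668) -/

set_option autoImplicit false

namespace Crest.Agent.R007.Op

open Matrix UpperHalfPlane ModularForm CongruenceSubgroup Matrix.SpecialLinearGroup
open scoped MatrixGroups ModularForm Manifold Pointwise
open Crest.NumberTheoryR.HeckeTwoAdic

local notation "𝕢" => Function.Periodic.qParam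

/-! ### `q`-expansion of `Top` for every prime not dividing `N` -/

theorem an_Top {N : ℕ} [NeZero N] {k ℓ : ℕ} (hℓ : ℓ.Prime) (hN : ¬ ℓ ∣ N) {g : SL(2, ℤ)}
    (hg : IsDiam N ℓ g) (f : MF N k) (n : ℕ) :
    an (Top N k ℓ hℓ hN g hg f) n = an f (ℓ * n) +
      (if ℓ ∣ n then (ℓ : ℂ) ^ ((k : ℤ) - 1) * an (Dop N k g hg.1 f) (n / ℓ) else 0) := by
  apply an_unique
  intro τ
  rw [Top_coe, Tfun_eq hℓ.ne_zero hg, Pi.add_apply]
  have h1 := hasSum_upper (k : ℤ) (hasSum_an f) hℓ.ne_zero τ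
  have h2 := hasSum_lower (k : ℤ) (hasSum_an (Dop N k g hg.1 f)) hℓ.ne_zero τ
  refine (h1.add h2).congr_fun ?_ |> fun h => h
  intro m
  ring

/-- Two forms with the same `q`-expansion are equal. -/
lemma ext_an {N : ℕ} [NeZero N] {k : ℕ} {f g : MF N k} (h : ∀ n, an f n = an g n) : f = g := by
  have : f - g = 0 := by
    apply eq_zero_of_an
    intro n
    have e : f - g = f + (-1 : ℂ) • g := by
      ext z; simp [sub_eq_add_neg]
    rw [e, an_add, an_smul, h n]; ring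
  exact sub_eq_zero.mp this

/-! ### `U_p` -/

/-- the matrix `(1 j; 0 p)` -/
def Um (p : ℕ) (j : Fin p) : IM := !![1, (j : ℤ); 0, (p : ℤ)]

lemma Um_det {p : ℕ} (j : Fin p) : (Um p j).det = p := by simp [Um, Matrix.det_fin_two_of]

lemma Um_det_ne {p : ℕ} (j : Fin p) : (Um p j).det ≠ 0 := by
  rw [Um_det]
  have := j.2
  have : p ≠ 0 := by omega
  exact_mod_cast this

lemma Um_mem {N p : ℕ} (j : Fin p) : Del N p (Um p j) := ⟨Um_det j, by simp [Um], by simp [Um]⟩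

lemma exists_Um {N p : ℕ} (hp : p.Prime) (hN : p ∣ N) {M : IM} (hM : Del N p M) :
    ∃ j : Fin p, ∃ Y ∈ Gamma1 N, M = Y.1 * Um p j := by
  have hpp : Prime (p : ℤ) := Nat.prime_iff_prime_int.mp hp
  obtain ⟨i, hi⟩ := exists_kv hp hM.1
  have hM00 : ¬ (p : ℤ) ∣ M 0 0 := by
    intro hd
    have h1 : ((M 0 0 - 1 : ℤ) : ZMod N) = 0 := by
      push_cast; rw [hM.2.1]; ring
    have h2 : (N : ℤ) ∣ M 0 0 - 1 := (ZMod.intCast_zmod_eq_zero_iff_dvd _ _).mp h1
    have h3 : (p : ℤ) ∣ M 0 0 - 1 := (Int.natCast_dvd_natCast.mpr hN).trans h2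
    have h4 : (p : ℤ) ∣ 1 := by
      have := dvd_sub hd h3
      simpa using this
    exact hpp.not_isUnit (isUnit_of_dvd_one h4)
  cases i with
  | none => exact absurd (by simpa [kv] using hi.1) hM00
  | some j =>
    have hK : Ker p (Um p j) (kv p (some j)).1 (kv p (some j)).2 := Ker_Rep 1 (some j)
    obtain ⟨Y, hY⟩ := exists_left hp (Um_det j) hM.1 (kv_not hp (some j)) hK hi
    refine ⟨j, Y, ?_, hY⟩
    have e00 : M 0 0 = Y.1 0 0 := by
      rw [hY, Matrix.mul_apply, Fin.sum_univ_two]; simp [Um]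
    have e10 : M 1 0 = Y.1 1 0 := by
      rw [hY, Matrix.mul_apply, Fin.sum_univ_two]; simp [Um]
    have f00 : ((Y.1 0 0 : ℤ) : ZMod N) = 1 := by rw [← e00]; exact hM.2.1
    have f10 : ((Y.1 1 0 : ℤ) : ZMod N) = 0 := by rw [← e10]; exact hM.2.2
    have hdet := Y.2
    rw [Matrix.det_fin_two] at hdet
    have hdet' := congrArg (fun z : ℤ => (z : ZMod N)) hdet
    push_cast at hdet'
    rw [f00, f10] at hdet'
    rw [Gamma1_mem]
    refine ⟨f00, ?_, f10⟩
    change ((Y.1 1 1 : ℤ) : ZMod N) = 1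
    linear_combination hdet'

lemma Um_unique {p : ℕ} {i j : Fin p} {Y : SL(2, ℤ)} (h : Um p i = Y.1 * Um p j) : i = j := by
  have e00 : (1 : ℤ) = Y.1 0 0 := by
    have := congrArg (fun M : IM => M 0 0) h
    simpa [Um, Matrix.mul_apply, Fin.sum_univ_two] using this
  have e10 : (0 : ℤ) = Y.1 1 0 := by
    have := congrArg (fun M : IM => M 1 0) h
    simpa [Um, Matrix.mul_apply, Fin.sum_univ_two] using this
  have e01 : (i : ℤ) = Y.1 0 0 * j + Y.1 0 1 * p := by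
    have := congrArg (fun M : IM => M 0 1) h
    simpa [Um, Matrix.mul_apply, Fin.sum_univ_two] using this
  rw [← e00, one_mul] at e01
  have h3 : (p : ℤ) ∣ (i : ℤ) - j := ⟨Y.1 0 1, by rw [e01]; ring⟩
  have h4 : ((i : ℕ) : ℤ) - ((j : ℕ) : ℤ) = 0 := by
    have hi := i.2
    have hj := j.2
    apply Int.eq_zero_of_abs_lt_dvd h3
    rw [abs_lt]; constructor <;> omega
  ext
  omega

lemma exists_perm_U {N p : ℕ} (hp : p.Prime) (hN : p ∣ N) {γ : SL(2, ℤ)} (hγ : γ ∈ Gamma0 N) :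
    ∃ σ : Equiv.Perm (Fin p), ∀ i, ∃ Y ∈ Gamma1 N,
      (γ⁻¹).1 * Um p i * γ.1 = Y.1 * Um p (σ i) := by
  have h1 : ∀ i : Fin p, ∃ i' : Fin p, ∃ Y ∈ Gamma1 N,
      (γ⁻¹).1 * Um p i * γ.1 = Y.1 * Um p i' :=
    fun i => exists_Um hp hN (conj_mem_Del (Um_mem i) hγ)
  choose σ Y hY hσ using h1
  have hγγ : γ.1 * (γ⁻¹).1 = 1 := by
    rw [← Matrix.SpecialLinearGroup.coe_mul]; simp
  have hinj : Function.Injective σ := by
    intro i j hij
    have e1 := hσ i
    have e2 := hσ j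
    rw [hij] at e1
    have e3 : Um p (σ j) = ((Y j)⁻¹).1 * ((γ⁻¹).1 * Um p j * γ.1) := by
      rw [e2, ← Matrix.mul_assoc, ← Matrix.SpecialLinearGroup.coe_mul]
      simp
    rw [e3] at e1
    have e4 : Um p i = (γ * Y i * (Y j)⁻¹ * γ⁻¹ : SL(2, ℤ)).1 * Um p j := by
      have : γ.1 * ((γ⁻¹).1 * Um p i * γ.1) * (γ⁻¹).1 =
          γ.1 * ((Y i).1 * (((Y j)⁻¹).1 * ((γ⁻¹).1 * Um p j * γ.1))) * (γ⁻¹).1 := by rw [e1]
      have l1 : γ.1 * ((γ⁻¹).1 * Um p i * γ.1) * (γ⁻¹).1 = Um p i := by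
        calc _ = (γ.1 * (γ⁻¹).1) * Um p i * (γ.1 * (γ⁻¹).1) := by simp only [Matrix.mul_assoc]
          _ = _ := by rw [hγγ]; simp
      rw [l1] at this
      rw [this]
      simp only [Matrix.SpecialLinearGroup.coe_mul]
      calc _ = γ.1 * (Y i).1 * ((Y j)⁻¹).1 * (γ⁻¹).1 * Um p j * (γ.1 * (γ⁻¹).1) := by
            simp only [Matrix.mul_assoc]
        _ = _ := by rw [hγγ, mul_one]
    exact Um_unique e4
  exact ⟨Equiv.ofBijective σ (Finite.injective_iff_bijective.mp hinj),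
    fun i => ⟨Y i, hY i, hσ i⟩⟩

/-- `U_p` on functions. -/
noncomputable def Ufun (k : ℤ) (p : ℕ) (f : ℍ → ℂ) : ℍ → ℂ := ∑ j : Fin p, isl k (Um p j) f

lemma Ufun_slash {N p : ℕ} {k : ℤ} (hp : p.Prime) (hN : p ∣ N) {f : ℍ → ℂ} (hf : Inv1 N k f)
    {γ : SL(2, ℤ)} (hγ : γ ∈ Gamma0 N) : (Ufun k p f) ∣[k] γ = Ufun k p (f ∣[k] γ) := by
  obtain ⟨τ, hτ⟩ := exists_perm_U hp hN hγ
  unfold Ufun
  rw [SlashAction.sum_slash]
  have e1 : ∀ i, (isl k (Um p i) f) ∣[k] γ = isl k (Um p (τ i)) (f ∣[k] γ) := by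
    intro i
    obtain ⟨Y, hY, hYi⟩ := hτ i
    have h1 : ((γ⁻¹).1 * Um p i * γ.1).det ≠ 0 := by
      rw [Matrix.det_mul, Matrix.det_mul, γ.2, (γ⁻¹).2]; simpa using Um_det_ne i
    calc (isl k (Um p i) f) ∣[k] γ = isl k (Um p i * γ.1) f := by
          rw [isl_mul _ _ _ (Um_det_ne i) (SL_det_ne γ), isl_SL]
      _ = isl k (γ.1 * ((γ⁻¹).1 * Um p i * γ.1)) f := by
          congr 1
          rw [← Matrix.mul_assoc, ← Matrix.mul_assoc, ← Matrix.SpecialLinearGroup.coe_mul]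
          simp
      _ = isl k ((γ⁻¹).1 * Um p i * γ.1) (f ∣[k] γ) := by
          rw [isl_mul _ _ _ (SL_det_ne γ) h1, isl_SL]
      _ = isl k (Um p (τ i)) (f ∣[k] γ) := by
          rw [hYi, isl_inv1 (inv1_diam hf hγ) hY (Um_det_ne _)]
  rw [Finset.sum_congr rfl (fun i _ => e1 i)]
  exact Equiv.sum_comp τ (fun i => isl k (Um p i) (f ∣[k] γ))

lemma Ufun_eq (k : ℤ) {p : ℕ} (hp : p ≠ 0) (f : ℍ → ℂ) :
    Ufun k p f = ∑ j ∈ Finset.range p, f ∣[k] upperMat p j hp := by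
  unfold Ufun
  rw [Finset.sum_range]
  refine Finset.sum_congr rfl fun j _ => ?_
  rw [isl_of _ _ (Um_det_ne j), upperMat_eq p j hp (Um_det_ne j)]
  rfl

/-- `U_p`, `p ∣ N`, as a linear map. -/
noncomputable def Up (N : ℕ) [NeZero N] (k p : ℕ) (hp : p.Prime) (hN : p ∣ N) :
    MF N k →ₗ[ℂ] MF N k where
  toFun f :=
    { toFun := Ufun k p f
      slash_action_eq' := by
        rintro _ ⟨Y, hY, rfl⟩
        have h := Ufun_slash hp hN (inv1_mf f) (Gamma1_in_Gamma0 N hY)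
        rw [inv1_mf f Y hY] at h
        exact h
      holo' := by
        change MDiff (Ufun k p f)
        unfold Ufun
        have : ∀ s : Finset (Fin p), MDiff (∑ i ∈ s, isl k (Um p i) (⇑f)) := by
          intro s
          classical
          induction s using Finset.induction_on with
          | empty => simp only [Finset.sum_empty]; exact fun _ => mdifferentiableAt_const
          | insert a s ha ih =>
            rw [Finset.sum_insert ha]
            exact (isl_mdiff (k : ℤ) _ (ModularFormClass.holo f)).add ih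
        exact this _
      bdd_at_cusps' := by
        intro c hc
        change c.IsBoundedAt (Ufun k p f) k
        unfold Ufun
        have : ∀ s : Finset (Fin p), c.IsBoundedAt (∑ i ∈ s, isl k (Um p i) (⇑f)) k := by
          intro s
          classical
          induction s using Finset.induction_on with
          | empty =>
            simp only [Finset.sum_empty]
            exact (0 : MF N k).bdd_at_cusps' hc
          | insert a s ha ih =>
            rw [Finset.sum_insert ha]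
            exact (bdd_isl f _ (Um_det_ne a) hc).add ih
        exact this _ }
  map_add' f f' := by
    ext z
    change Ufun k p (⇑(f + f')) z = Ufun k p f z + Ufun k p f' z
    simp only [Ufun, FunLike.coe_add, isl_add, Finset.sum_add_distrib, Pi.add_apply]
  map_smul' c f := by
    ext z
    change Ufun k p (⇑(c • f)) z = c • (Ufun k p f z)
    have e : Ufun k p (⇑(c • f)) = c • Ufun k p f := by
      unfold Ufun
      rw [Finset.smul_sum]
      refine Finset.sum_congr rfl fun i _ => ?_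
      rw [FunLike.coe_smul, isl_smul]
      rw [Um_det]
      exact_mod_cast hp.pos
    rw [e]; rfl

@[simp] lemma Up_coe (N : ℕ) [NeZero N] (k p : ℕ) (hp : p.Prime) (hN : p ∣ N) (f : MF N k) :
    ⇑(Up N k p hp hN f) = Ufun k p f := rfl

theorem an_Up {N : ℕ} [NeZero N] {k p : ℕ} (hp : p.Prime) (hN : p ∣ N) (f : MF N k) (n : ℕ) :
    an (Up N k p hp hN f) n = an f (p * n) := by
  apply an_unique
  intro τ
  rw [Up_coe, Ufun_eq _ hp.ne_zero]
  exact hasSum_upper (k : ℤ) (hasSum_an f) hp.ne_zero τ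

/-- Diamonds commute with `U_p`. -/
lemma Up_Dop {N : ℕ} [NeZero N] {k p : ℕ} (hp : p.Prime) (hN : p ∣ N) {g : SL(2, ℤ)}
    (hg : g ∈ Gamma0 N) (f : MF N k) :
    Dop N k g hg (Up N k p hp hN f) = Up N k p hp hN (Dop N k g hg f) := by
  apply DFunLike.coe_injective
  rw [Dop_coe, Up_coe, Up_coe, Dop_coe]
  exact Ufun_slash hp hN (inv1_mf f) hg

/-- Diamonds commute with `Top`. -/
lemma Top_Dop {N : ℕ} [NeZero N] {k ℓ : ℕ} (hℓ : ℓ.Prime) (hN : ¬ ℓ ∣ N) {g : SL(2, ℤ)}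
    (hg : IsDiam N ℓ g) {γ : SL(2, ℤ)} (hγ : γ ∈ Gamma0 N) (f : MF N k) :
    Dop N k γ hγ (Top N k ℓ hℓ hN g hg f) = Top N k ℓ hℓ hN g hg (Dop N k γ hγ f) := by
  apply DFunLike.coe_injective
  rw [Dop_coe, Top_coe, Top_coe, Dop_coe]
  exact Tfun_slash hℓ hN hg (inv1_mf f) hγ

/-- Diamonds commute. -/
lemma Dop_comm {N : ℕ} [NeZero N] {k : ℕ} {g γ : SL(2, ℤ)} (hg : g ∈ Gamma0 N)
    (hγ : γ ∈ Gamma0 N) (f : MF N k) :
    Dop N k γ hγ (Dop N k g hg f) = Dop N k g hg (Dop N k γ hγ f) := by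
  apply DFunLike.coe_injective
  rw [Dop_coe, Dop_coe, Dop_coe, Dop_coe, ← SlashAction.slash_mul, ← SlashAction.slash_mul]
  have hmem : (g * γ) * (γ * g)⁻¹ ∈ Gamma1 N := by
    rw [Gamma0_mem] at hg hγ
    have g10 : ((g.1 1 0 : ℤ) : ZMod N) = 0 := hg
    have y10 : ((γ.1 1 0 : ℤ) : ZMod N) = 0 := hγ
    have hd1 := congrArg (fun z : ℤ => (z : ZMod N)) ((Matrix.det_fin_two g.1).symm.trans g.2)
    have hd2 := congrArg (fun z : ℤ => (z : ZMod N)) ((Matrix.det_fin_two γ.1).symm.trans γ.2)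
    push_cast at hd1 hd2
    rw [g10] at hd1
    rw [y10] at hd2
    have hinv : ((γ * g)⁻¹).1 = !![(γ * g).1 1 1, -(γ * g).1 0 1; -(γ * g).1 1 0, (γ * g).1 0 0] := by
      rw [Matrix.SpecialLinearGroup.SL2_inv_expl]; rfl
    have e : ((g * γ) * (γ * g)⁻¹).1 = (g.1 * γ.1) *
        !![(γ.1 * g.1) 1 1, -(γ.1 * g.1) 0 1; -(γ.1 * g.1) 1 0, (γ.1 * g.1) 0 0] := by
      rw [Matrix.SpecialLinearGroup.coe_mul, hinv]
      simp
    rw [Gamma1_mem]
    refine ⟨?_, ?_, ?_⟩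
    · have : ((((g * γ) * (γ * g)⁻¹).1 0 0 : ℤ) : ZMod N) = 1 := by
        rw [e]
        simp only [Matrix.mul_apply, Fin.sum_univ_two, Matrix.of_apply, Matrix.cons_val',
          Matrix.cons_val_zero, Matrix.cons_val_one, Matrix.cons_val_fin_one]
        push_cast
        rw [g10, y10]
        linear_combination (((γ.1 0 0 : ℤ) : ZMod N) * ((γ.1 1 1 : ℤ) : ZMod N)) * hd1 + hd2
      exact this
    · have : ((((g * γ) * (γ * g)⁻¹).1 1 1 : ℤ) : ZMod N) = 1 := by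
        rw [e]
        simp only [Matrix.mul_apply, Fin.sum_univ_two, Matrix.of_apply, Matrix.cons_val',
          Matrix.cons_val_zero, Matrix.cons_val_one, Matrix.cons_val_fin_one]
        push_cast
        rw [g10, y10]
        linear_combination (((γ.1 0 0 : ℤ) : ZMod N) * ((γ.1 1 1 : ℤ) : ZMod N)) * hd1 + hd2
      exact this
    · have : ((((g * γ) * (γ * g)⁻¹).1 1 0 : ℤ) : ZMod N) = 0 := by
        rw [e]
        simp only [Matrix.mul_apply, Fin.sum_univ_two, Matrix.of_apply, Matrix.cons_val',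
          Matrix.cons_val_zero, Matrix.cons_val_one, Matrix.cons_val_fin_one]
        push_cast
        rw [g10, y10]
        ring
      exact this
  have h1 : g * γ = ((g * γ) * (γ * g)⁻¹) * (γ * g) := by group
  rw [h1, SlashAction.slash_mul, inv1_mf f _ hmem]

section families

variable {N : ℕ} [NeZero N] {T D : ℕ → (i : ℕ) → (MF N i →ₗ[ℂ] MF N i)}

/-- Any diamond family is given by `Dop` on the used indices. -/
lemma D_eq_Dop (hD : IsDiamondFamily N D) {d k : ℕ} {g : SL(2, ℤ)} (hg : IsDiam N d g) :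
    D d k = Dop N k g hg.1 := by
  ext f z
  exact congrFun (hD d k g hg.1 hg.2 f) z

/-- Any Hecke family is given by `Top` on the used indices. -/
lemma T_eq_Top (hD : IsDiamondFamily N D) (hT : IsHeckeFamily N T D) {ℓ k : ℕ} (hℓ : ℓ.Prime)
    (h2 : ¬ ℓ ∣ 2 * N) (hN : ¬ ℓ ∣ N) {g : SL(2, ℤ)} (hg : IsDiam N ℓ g) :
    T ℓ k = Top N k ℓ hℓ hN g hg := by
  ext f z
  have h := hT ℓ hℓ h2 k f
  have e : ⇑(T ℓ k f) = ⇑(Top N k ℓ hℓ hN g hg f) := by
    rw [h, Top_coe, Tfun_eq hℓ.ne_zero hg, hD ℓ k g hg.1 hg.2 f]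
  exact congrFun e z

end families

/-- `Top`s commute. -/
lemma Top_Top {N : ℕ} [NeZero N] {k ℓ m : ℕ} (hℓ : ℓ.Prime) (hN : ¬ ℓ ∣ N) {g : SL(2, ℤ)}
    (hg : IsDiam N ℓ g) (hm : m.Prime) (hN' : ¬ m ∣ N) {g' : SL(2, ℤ)}
    (hg' : IsDiam N m g') (f : MF N k) :
    Top N k ℓ hℓ hN g hg (Top N k m hm hN' g' hg' f) =
      Top N k m hm hN' g' hg' (Top N k ℓ hℓ hN g hg f) := by
  by_cases hlm : ℓ = m
  · subst hlm
    have e : Top N k ℓ hℓ hN g hg = Top N k ℓ hm hN' g' hg' := by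
      ext f z
      have : ⇑(Top N k ℓ hℓ hN g hg f) = ⇑(Top N k ℓ hm hN' g' hg' f) := by
        rw [Top_coe, Top_coe, Tfun_eq hℓ.ne_zero hg, Tfun_eq hℓ.ne_zero hg',
          diam_indep (inv1_mf f) hg hg']
      exact congrFun this z
    rw [e]
  · apply ext_an
    intro n
    have hcop : Nat.Coprime ℓ m := (Nat.coprime_primes hℓ hm).mpr hlm
    rw [an_Top hℓ hN hg, an_Top hm hN' hg', an_Top hm hN' hg', an_Top hℓ hN hg,
      Top_Dop hm hN' hg', Top_Dop hℓ hN hg, an_Top hm hN' hg', an_Top hℓ hN hg,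
      Dop_comm hg.1 hg'.1]
    have e1 : (m ∣ ℓ * n) ↔ m ∣ n := hcop.symm.dvd_mul_left
    have e2 : (ℓ ∣ m * n) ↔ ℓ ∣ n := hcop.dvd_mul_left
    rw [show m * (ℓ * n) = ℓ * (m * n) by ring]
    simp only [e1, e2]
    by_cases h1 : m ∣ n
    · by_cases h2 : ℓ ∣ n
      · obtain ⟨r, rfl⟩ := hcop.symm.mul_dvd_of_dvd_of_dvd h1 h2
        have hm0 := hm.pos
        have hl0 := hℓ.pos
        have d1 : m ∣ m * ℓ * r := ⟨ℓ * r, by ring⟩
        have d2 : ℓ ∣ m * ℓ * r := ⟨m * r, by ring⟩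
        have q1 : m * ℓ * r / ℓ = m * r := by
          rw [show m * ℓ * r = ℓ * (m * r) by ring, Nat.mul_div_cancel_left _ hl0]
        have q2 : m * ℓ * r / m = ℓ * r := by
          rw [show m * ℓ * r = m * (ℓ * r) by ring, Nat.mul_div_cancel_left _ hm0]
        have q3 : m * (m * ℓ * r) / ℓ = m * (m * r) := by
          rw [show m * (m * ℓ * r) = ℓ * (m * (m * r)) by ring, Nat.mul_div_cancel_left _ hl0]
        have q4 : ℓ * (m * ℓ * r) / m = ℓ * (ℓ * r) := by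
          rw [show ℓ * (m * ℓ * r) = m * (ℓ * (ℓ * r)) by ring, Nat.mul_div_cancel_left _ hm0]
        have q5 : m * r / m = r := Nat.mul_div_cancel_left _ hm0
        have q6 : ℓ * r / ℓ = r := Nat.mul_div_cancel_left _ hl0
        simp only [d1, d2, if_true, q1, q2, q3, q4, dvd_mul_right, q5, q6]
        ring
      · obtain ⟨r, rfl⟩ := h1
        have hm0 := hm.pos
        have h3 : ¬ ℓ ∣ r := fun h => h2 (h.mul_left m)
        have q4 : ℓ * (m * r) / m = ℓ * r := by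
          rw [show ℓ * (m * r) = m * (ℓ * r) by ring, Nat.mul_div_cancel_left _ hm0]
        have q5 : m * r / m = r := Nat.mul_div_cancel_left _ hm0
        simp only [dvd_mul_right, if_true, h2, if_false, q4, q5, h3]
        ring
    · by_cases h2 : ℓ ∣ n
      · obtain ⟨r, rfl⟩ := h2
        have hl0 := hℓ.pos
        have h3 : ¬ m ∣ r := fun h => h1 (h.mul_left ℓ)
        have q4 : m * (ℓ * r) / ℓ = m * r := by
          rw [show m * (ℓ * r) = ℓ * (m * r) by ring, Nat.mul_div_cancel_left _ hl0]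
        have q5 : ℓ * r / ℓ = r := Nat.mul_div_cancel_left _ hl0
        simp only [dvd_mul_right, if_true, h1, if_false, q4, q5, h3]
        ring
      · simp only [h1, h2, if_false]

/-- `U_p` commutes with `Top`. -/
lemma Up_Top {N : ℕ} [NeZero N] {k ℓ p : ℕ} (hℓ : ℓ.Prime) (hN : ¬ ℓ ∣ N) {g : SL(2, ℤ)}
    (hg : IsDiam N ℓ g) (hp : p.Prime) (hpN : p ∣ N) (f : MF N k) :
    Top N k ℓ hℓ hN g hg (Up N k p hp hpN f) = Up N k p hp hpN (Top N k ℓ hℓ hN g hg f) := by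
  apply ext_an
  intro n
  have hlp : ℓ ≠ p := fun h => hN (h ▸ hpN)
  have hcop : Nat.Coprime ℓ p := (Nat.coprime_primes hℓ hp).mpr hlp
  rw [an_Top, an_Up, an_Up, an_Top, Up_Dop, an_Up]
  have e2 : (ℓ ∣ p * n) ↔ ℓ ∣ n := hcop.dvd_mul_left
  simp only [e2]
  rw [show p * (ℓ * n) = ℓ * (p * n) by ring]
  by_cases h : ℓ ∣ n
  · obtain ⟨r, rfl⟩ := h
    have hl0 := hℓ.pos
    rw [Nat.mul_div_cancel_left _ hl0, show p * (ℓ * r) = ℓ * (p * r) by ring,
      Nat.mul_div_cancel_left _ hl0]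
  · simp only [h, if_false]

/-- `U_p` and `U_q` commute. -/
lemma Up_Up {N : ℕ} [NeZero N] {k p q : ℕ} (hp : p.Prime) (hpN : p ∣ N) (hq : q.Prime)
    (hqN : q ∣ N) (f : MF N k) :
    Up N k p hp hpN (Up N k q hq hqN f) = Up N k q hq hqN (Up N k p hp hpN f) := by
  apply ext_an
  intro n
  rw [an_Up, an_Up, an_Up, an_Up, show q * (p * n) = p * (q * n) by ring]

end Crest.Agent.R007.Op
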