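import Mathlib
import Crest.Prelude.Def_HeckeTwo
import Crest.Agent.R007.OpU

/-! Row 7, node FROB, part 1: q-series calculus and `E₄`. (helper668) -/

set_option autoImplicit false

namespace Crest.Agent.R007.Op

open Matrix UpperHalfPlane ModularForm CongruenceSubgroup Matrix.SpecialLinearGroup
open scoped MatrixGroups ModularForm Manifold Pointwise
open Crest.NumberTheoryR.HeckeTwoAdic

local notation "𝕢" => Function.Periodic.qParam

/-- `P` is given on the upper half plane by the power series `s` in `q`. -/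
def HasQ (P : ℍ → ℂ) (s : PowerSeries ℂ) : Prop :=
  ∀ τ : ℍ, HasSum (fun n => s.coeff n * 𝕢 1 τ ^ n) (P τ)

namespace HasQ

variable {P Q : ℍ → ℂ} {s t : PowerSeries ℂ}

lemma add (hP : HasQ P s) (hQ : HasQ Q t) : HasQ (P + Q) (s + t) := by
  intro τ
  refine ((hP τ).add (hQ τ)).congr_fun ?_ |> fun h => h
  intro n; rw [map_add]; ring

lemma smul (c : ℂ) (hP : HasQ P s) : HasQ (c • P) (c • s) := by
  intro τ
  refine ((hP τ).mul_left c).congr_fun ?_ |> fun h => h
  intro n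
  rw [map_smul, smul_eq_mul]; ring

lemma neg (hP : HasQ P s) : HasQ (-P) (-s) := by
  have := hP.smul (-1)
  simpa using this

lemma sub (hP : HasQ P s) (hQ : HasQ Q t) : HasQ (P - Q) (s - t) := by
  rw [sub_eq_add_neg, sub_eq_add_neg]; exact hP.add hQ.neg

lemma one : HasQ 1 1 := by
  intro τ
  have := hasSum_single (f := fun n => (PowerSeries.coeff n (1 : PowerSeries ℂ)) * 𝕢 1 (τ : ℂ) ^ n) 0
    (by intro n hn; rw [PowerSeries.coeff_one, if_neg hn, zero_mul])
  simpa using this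

lemma mul (hP : HasQ P s) (hQ : HasQ Q t) : HasQ (P * Q) (s * t) := by
  intro τ
  have h1 := (hP τ).summable.norm
  have h2 := (hQ τ).summable.norm
  have h3 := summable_norm_sum_mul_antidiagonal_of_summable_norm h1 h2
  have h4 := tsum_mul_tsum_eq_tsum_sum_antidiagonal_of_summable_norm h1 h2
  rw [(hP τ).tsum_eq, (hQ τ).tsum_eq] at h4
  rw [Pi.mul_apply, h4]
  refine (h3.of_norm.hasSum).congr_fun ?_ |> fun h => h
  intro n
  rw [PowerSeries.coeff_mul, Finset.sum_mul]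
  refine Finset.sum_congr rfl fun x hx => ?_
  rw [← Finset.HasAntidiagonal.mem_antidiagonal.mp hx, pow_add]; ring

lemma pow (hP : HasQ P s) (n : ℕ) : HasQ (P ^ n) (s ^ n) := by
  induction n with
  | zero => simpa using one
  | succ n ih => rw [pow_succ, pow_succ]; exact ih.mul hP

end HasQ

/-- `s(q) ↦ s(q^p)`. -/
noncomputable def V (p : ℕ) (s : PowerSeries ℂ) : PowerSeries ℂ :=
  PowerSeries.mk fun n => if p ∣ n then s.coeff (n / p) else 0

@[simp] lemma coeff_V (p n : ℕ) (s : PowerSeries ℂ) :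
    (V p s).coeff n = if p ∣ n then s.coeff (n / p) else 0 := by simp [V]

/-- `Σ a_n q^n ↦ Σ a_{pn} q^n`. -/
noncomputable def U (p : ℕ) (s : PowerSeries ℂ) : PowerSeries ℂ :=
  PowerSeries.mk fun n => s.coeff (p * n)

@[simp] lemma coeff_U (p n : ℕ) (s : PowerSeries ℂ) : (U p s).coeff n = s.coeff (p * n) := by simp [U]

lemma HasQ.V {P P' : ℍ → ℂ} {s : PowerSeries ℂ} (hP : HasQ P s) {p : ℕ} (hp : p ≠ 0)
    (h : ∀ τ τ' : ℍ, (τ' : ℂ) = p * τ → P' τ = P τ') : HasQ P' (V p s) := by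
  intro τ
  let τ' : ℍ := ⟨(p : ℂ) * τ, by
    have h1 : (0 : ℝ) < p := by exact_mod_cast Nat.pos_of_ne_zero hp
    have : ((p : ℂ) * (τ : ℂ)).im = p * τ.im := by simp
    rw [this]; exact mul_pos h1 τ.im_pos⟩
  have hτ' : (τ' : ℂ) = p * τ := rfl
  rw [h τ τ' hτ']
  have hinj : Function.Injective (fun m : ℕ => p * m) := fun x y hxy =>
    Nat.eq_of_mul_eq_mul_left (Nat.pos_of_ne_zero hp) hxy
  refine (hinj.hasSum_iff (f := fun m : ℕ => (PowerSeries.coeff m (Op.V p s)) *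
      𝕢 1 (τ : ℂ) ^ m) (by
    intro n hn
    rw [coeff_V, if_neg, zero_mul]
    rintro ⟨m, rfl⟩
    exact hn ⟨m, rfl⟩)).mp ?_
  refine (hP τ').congr_fun ?_ |> fun h => h
  intro m
  simp only [Function.comp, coeff_V, dvd_mul_right, if_true]
  rw [Nat.mul_div_cancel_left _ (Nat.pos_of_ne_zero hp)]
  have e : 𝕢 1 (τ : ℂ) ^ (p * m) = 𝕢 1 (τ' : ℂ) ^ m := by
    rw [pow_mul]
    congr 1
    rw [Function.Periodic.qParam, Function.Periodic.qParam, ← Complex.exp_nat_mul, hτ']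
    congr 1
    push_cast
    ring
  rw [e]

lemma V_one' (p : ℕ) (hp : p ≠ 0) : V p 1 = 1 := by
  ext n
  rw [coeff_V, PowerSeries.coeff_one, PowerSeries.coeff_one]
  by_cases h : n = 0
  · subst h; simp
  · by_cases hd : p ∣ n
    · obtain ⟨m, rfl⟩ := hd
      have : m ≠ 0 := by rintro rfl; simp at h
      rw [if_pos (dvd_mul_right _ _), Nat.mul_div_cancel_left _ (Nat.pos_of_ne_zero hp), if_neg this,
        if_neg h]
    · rw [if_neg hd, if_neg h]

/-- The power series is in `S⟦q⟧`. -/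
def InS (S : Subring ℂ) (s : PowerSeries ℂ) : Prop := ∀ n, s.coeff n ∈ S

namespace InS

variable {S : Subring ℂ} {s t : PowerSeries ℂ}

lemma add (hs : InS S s) (ht : InS S t) : InS S (s + t) := fun n => by
  rw [map_add]; exact S.add_mem (hs n) (ht n)

lemma neg (hs : InS S s) : InS S (-s) := fun n => by
  rw [map_neg]; exact S.neg_mem (hs n)

lemma sub (hs : InS S s) (ht : InS S t) : InS S (s - t) := fun n => by
  rw [map_sub]; exact S.sub_mem (hs n) (ht n)

lemma mul (hs : InS S s) (ht : InS S t) : InS S (s * t) := fun n => by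
  rw [PowerSeries.coeff_mul]
  exact S.sum_mem fun x _ => S.mul_mem (hs _) (ht _)

lemma one : InS S 1 := fun n => by
  rw [PowerSeries.coeff_one]; split_ifs
  · exact S.one_mem
  · exact S.zero_mem

lemma zero : InS S 0 := fun n => by rw [map_zero]; exact S.zero_mem

lemma pow (hs : InS S s) (n : ℕ) : InS S (s ^ n) := by
  induction n with
  | zero => simpa using one
  | succ n ih => rw [pow_succ]; exact ih.mul hs

lemma smul {c : ℂ} (hc : c ∈ S) (hs : InS S s) : InS S (c • s) := fun n => by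
  rw [map_smul]; exact S.mul_mem hc (hs n)

lemma V (hs : InS S s) (p : ℕ) : InS S (Op.V p s) := fun n => by
  rw [coeff_V]; split_ifs
  · exact hs _
  · exact S.zero_mem

lemma U (hs : InS S s) (p : ℕ) : InS S (Op.U p s) := fun n => by
  rw [coeff_U]; exact hs _

lemma of_int {s : PowerSeries ℂ} (h : ∀ n, ∃ z : ℤ, s.coeff n = z) : InS S s := fun n => by
  obtain ⟨z, hz⟩ := h n
  rw [hz]; exact intCast_mem S z

end InS

/-- Congruence modulo `2^j S⟦q⟧`. -/
def Cg (S : Subring ℂ) (j : ℕ) (s t : PowerSeries ℂ) : Prop :=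
  ∃ e, InS S e ∧ s = t + (2 : ℂ) ^ j • e

namespace Cg

variable {S : Subring ℂ} {s t u s' t' : PowerSeries ℂ} {j i : ℕ}

lemma two_mem (S : Subring ℂ) : (2 : ℂ) ∈ S := by
  have := intCast_mem S 2
  simpa using this

lemma refl (s : PowerSeries ℂ) : Cg S j s s := ⟨0, InS.zero, by simp⟩

lemma trans (h : Cg S j s t) (h' : Cg S j t u) : Cg S j s u := by
  obtain ⟨e, he, rfl⟩ := h
  obtain ⟨e', he', rfl⟩ := h'
  exact ⟨e + e', he.add he', by rw [smul_add]; ring⟩

lemma mono (hij : i ≤ j) (h : Cg S j s t) : Cg S i s t := by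
  obtain ⟨e, he, rfl⟩ := h
  refine ⟨(2 : ℂ) ^ (j - i) • e, he.smul (S.pow_mem (two_mem S) _), ?_⟩
  rw [smul_smul, ← pow_add]
  congr 3; omega

lemma add (h : Cg S j s t) (h' : Cg S j s' t') : Cg S j (s + s') (t + t') := by
  obtain ⟨e, he, rfl⟩ := h
  obtain ⟨e', he', rfl⟩ := h'
  exact ⟨e + e', he.add he', by rw [smul_add]; ring⟩

lemma sub (h : Cg S j s t) (h' : Cg S j s' t') : Cg S j (s - s') (t - t') := by
  obtain ⟨e, he, rfl⟩ := h
  obtain ⟨e', he', rfl⟩ := h'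
  exact ⟨e - e', he.sub he', by rw [smul_sub]; ring⟩

lemma mul_left (hs : InS S u) (h : Cg S j s t) : Cg S j (u * s) (u * t) := by
  obtain ⟨e, he, rfl⟩ := h
  exact ⟨u * e, hs.mul he, by rw [mul_add, mul_smul_comm]⟩

lemma mul_right (hs : InS S u) (h : Cg S j s t) : Cg S j (s * u) (t * u) := by
  rw [mul_comm s, mul_comm t]; exact h.mul_left hs

lemma smul {c : ℂ} (hc : c ∈ S) (h : Cg S j s t) : Cg S j (c • s) (c • t) := by
  obtain ⟨e, he, rfl⟩ := h
  exact ⟨c • e, he.smul hc, by rw [smul_add, smul_comm]⟩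

lemma inS (h : Cg S j s t) (ht : InS S t) : InS S s := by
  obtain ⟨e, he, rfl⟩ := h
  exact ht.add (he.smul (S.pow_mem (two_mem S) _))

lemma V (h : Cg S j s t) (p : ℕ) : Cg S j (Op.V p s) (Op.V p t) := by
  obtain ⟨e, he, rfl⟩ := h
  refine ⟨Op.V p e, he.V p, ?_⟩
  ext n
  simp only [coeff_V, map_add, map_smul]
  split_ifs <;> simp

/-- powers: `(1 + 2^j v)^{2^m} ≡ 1 mod 2^{j+m}` for `j ≥ 1`. -/
lemma pow_two_pow (hj : 1 ≤ j) (h : Cg S j s 1) (m : ℕ) : Cg S (j + m) (s ^ (2 ^ m)) 1 := by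
  induction m with
  | zero => simpa using h
  | succ m ih =>
    obtain ⟨e, he, h1⟩ := ih
    refine ⟨e + (2 : ℂ) ^ (j + m - 1) • (e * e),
      he.add ((he.mul he).smul (S.pow_mem (two_mem S) _)), ?_⟩
    rw [pow_succ, pow_mul, h1, sq]
    have e1 : (2 : ℂ) ^ (j + (m + 1)) = 2 * 2 ^ (j + m) := by rw [← pow_succ']; congr 1
    have e2 : (2 : ℂ) ^ (j + m) = 2 * 2 ^ (j + m - 1) := by rw [← pow_succ']; congr 1; omega
    rw [e1, smul_add, smul_smul]
    have e3 : (2 : ℂ) * 2 ^ (j + m) * 2 ^ (j + m - 1) = 2 ^ (j + m) * 2 ^ (j + m) := by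
      rw [mul_comm (2 : ℂ), mul_assoc, ← e2]
    rw [e3]
    have e4 : ((2 : ℂ) ^ (j + m) • e) * ((2 : ℂ) ^ (j + m) • e) =
        ((2 : ℂ) ^ (j + m) * (2 : ℂ) ^ (j + m)) • (e * e) := by
      rw [smul_mul_smul_comm]
    rw [← e4]
    have e5 : ((2 : ℂ) * 2 ^ (j + m)) • e = (2 : ℂ) ^ (j + m) • e + (2 : ℂ) ^ (j + m) • e := by
      rw [two_mul, add_smul]
    rw [e5]
    ring

end Cg

/-! ### `E₄` -/

/-- the Eisenstein series of weight four as a function -/
noncomputable def e4 : ℍ → ℂ := ⇑(ModularForm.E₄)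

/-- its q-series -/
noncomputable def e4s : PowerSeries ℂ := qExpansion 1 e4

lemma bernoulli_four' : bernoulli 4 = -1 / 30 := by
  rw [bernoulli_eq_bernoulli'_of_ne_one (by norm_num)]
  exact bernoulli'_four

lemma coeff_e4s (n : ℕ) : e4s.coeff n =
    if n = 0 then 1 else 240 * (ArithmeticFunction.sigma 3 n : ℂ) := by
  have h := EisensteinSeries.E_qExpansion_coeff (k := 4) (by norm_num) ⟨2, rfl⟩ n
  have e : e4s.coeff n = (qExpansion 1 (ModularForm.E (k := 4) (by norm_num))).coeff n := rfl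
  rw [e, h]
  split_ifs
  · rfl
  · rw [bernoulli_four']
    push_cast
    ring

lemma hasQ_e4 : HasQ e4 e4s := by
  intro τ
  have := ModularForm.hasSum_qExpansion (f := ModularForm.E₄) (h := 1) one_pos
    (by simp) τ
  exact this

lemma e4_slash (Y : SL(2, ℤ)) : e4 ∣[(4 : ℤ)] Y = e4 := by
  rw [SL_slash]
  exact SlashInvariantForm.slash_action_eqn (Γ := 𝒮ℒ) (k := (4 : ℤ)) ModularForm.E₄
      (Matrix.SpecialLinearGroup.mapGL ℝ Y) ⟨Y, rfl⟩

/-- `E₄` as a form of level `Γ₁(N)`. -/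
noncomputable def e4N (N : ℕ) [NeZero N] : MF N 4 where
  toFun := e4
  slash_action_eq' := by
    rintro _ ⟨Y, hY, rfl⟩
    exact e4_slash Y
  holo' := ModularFormClass.holo ModularForm.E₄
  bdd_at_cusps' := by
    intro c hc
    apply ModularFormClass.bdd_at_cusps ModularForm.E₄
    rw [Subgroup.IsArithmetic.isCusp_iff_isCusp_SL2Z] at hc ⊢
    exact hc

@[simp] lemma e4N_coe (N : ℕ) [NeZero N] : ⇑(e4N N) = e4 := rfl

lemma e4_mdiff : MDiff e4 := ModularFormClass.holo ModularForm.E₄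

end Crest.Agent.R007.Op
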