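import Mathlib
import Crest.Prelude.Def_HeckeTwo
import Crest.Agent.R007.Frob1

/-! Row 7, node FROB, part 2: the Frobenius operator `Fr`. (helper668) -/

set_option autoImplicit false

namespace Crest.Agent.R007.Op

open Matrix UpperHalfPlane ModularForm CongruenceSubgroup Matrix.SpecialLinearGroup
open scoped MatrixGroups ModularForm Manifold Pointwise
open Crest.NumberTheoryR.HeckeTwoAdic

local notation "𝕢" => Function.Periodic.qParam

lemma sub_slash' (k : ℤ) (γ : SL(2, ℤ)) (f g : ℍ → ℂ) : (f - g) ∣[k] γ = f ∣[k] γ - g ∣[k] γ := by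
  rw [sub_eq_add_neg, SlashAction.add_slash, SlashAction.neg_slash, sub_eq_add_neg]

lemma pow_slash_SL (f : ℍ → ℂ) (n : ℕ) (k : ℤ) (γ : SL(2, ℤ)) :
    (f ^ n) ∣[(n : ℤ) * k] γ = (f ∣[k] γ) ^ n := by
  induction n with
  | zero => simpa using is_invariant_one γ
  | succ n ih =>
    rw [pow_succ, pow_succ, ← ih, ← mul_slash_SL2]
    congr 1; push_cast; ring

/-- `E₄ - 2 E₄|M`. -/
noncomputable def Bx (M : IM) : ℍ → ℂ := e4 - (2 : ℂ) • isl 4 M e4

lemma isl_e4_left (Y : SL(2, ℤ)) {M : IM} (h : M.det ≠ 0) : isl 4 (Y.1 * M) e4 = isl 4 M e4 := by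
  rw [isl_mul _ _ _ (SL_det_ne Y) h, isl_SL, e4_slash]

lemma Bx_left (Y : SL(2, ℤ)) {M : IM} (h : M.det ≠ 0) : Bx (Y.1 * M) = Bx M := by
  unfold Bx; rw [isl_e4_left Y h]

lemma Bx_slash (M : IM) (h : M.det ≠ 0) (γ : SL(2, ℤ)) : (Bx M) ∣[(4 : ℤ)] γ = Bx (M * γ.1) := by
  unfold Bx
  rw [sub_slash', SL_smul_slash, e4_slash, isl_mul _ _ _ h (SL_det_ne γ), isl_SL]

lemma Bx_mdiff (M : IM) : MDiff (Bx M) := by
  unfold Bx
  exact e4_mdiff.sub ((isl_mdiff 4 M e4_mdiff).const_smul (2 : ℂ))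

lemma bdd_mul {c : OnePoint ℝ} {F G : ℍ → ℂ} {k l : ℤ} (hF : c.IsBoundedAt F k)
    (hG : c.IsBoundedAt G l) : c.IsBoundedAt (F * G) (k + l) := by
  intro g hg
  rw [mul_slash]
  exact ((hF g hg).mul (hG g hg)).smul _

lemma bdd_one (c : OnePoint ℝ) : c.IsBoundedAt (1 : ℍ → ℂ) 0 := by
  intro g hg
  simp only [slash_def]
  simpa using! atImInfty.const_boundedAtFilter _

lemma bdd_pow {c : OnePoint ℝ} {F : ℍ → ℂ} {k : ℤ} (hF : c.IsBoundedAt F k) (n : ℕ) :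
    c.IsBoundedAt (F ^ n) ((n : ℤ) * k) := by
  induction n with
  | zero => simpa using bdd_one c
  | succ n ih =>
    rw [pow_succ, show (((n + 1 : ℕ) : ℤ)) * k = (n : ℤ) * k + k by push_cast; ring]
    exact bdd_mul ih hF

lemma bdd_sub {c : OnePoint ℝ} {F G : ℍ → ℂ} {k : ℤ} (hF : c.IsBoundedAt F k)
    (hG : c.IsBoundedAt G k) : c.IsBoundedAt (F - G) k := by
  intro g hg
  rw [sub_eq_add_neg, SlashAction.add_slash, SlashAction.neg_slash]
  have h1 := hF g hg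
  have h2 := (hG g hg).neg
  exact h1.add h2

lemma bdd_smul {c : OnePoint ℝ} {F : ℍ → ℂ} {k : ℤ} (a : ℂ) (hF : c.IsBoundedAt F k) :
    c.IsBoundedAt (a • F) k := by
  intro g hg
  rw [smul_slash]
  exact (hF g hg).const_smul_left _

lemma Bx_bdd {N : ℕ} [NeZero N] (M : IM) (hM : M.det ≠ 0) {c : OnePoint ℝ}
    (hc : IsCusp c ((Gamma1 N : Subgroup SL(2, ℤ)) : Subgroup (GL (Fin 2) ℝ))) :
    c.IsBoundedAt (Bx M) 4 := by
  unfold Bx
  refine bdd_sub ((e4N N).bdd_at_cusps' hc) (bdd_smul _ ?_)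
  have := bdd_isl (e4N N) M hM hc
  exact this

/-- the twisted `T₂` -/
noncomputable def Hfun (k : ℤ) (r : ℕ) (g : SL(2, ℤ)) (f : ℍ → ℂ) : ℍ → ℂ :=
  ∑ i : Option (Fin 2), isl k (Rep 2 g i) f * (Bx (Rep 2 g i)) ^ r

lemma Hfun_slash {N : ℕ} {k : ℤ} {r : ℕ} (hN : ¬ 2 ∣ N) {g : SL(2, ℤ)}
    (hg : IsDiam N 2 g) {f : ℍ → ℂ} (hf : Inv1 N k f) {γ : SL(2, ℤ)} (hγ : γ ∈ Gamma0 N) :
    (Hfun k r g f) ∣[k + (r : ℤ) * 4] γ = Hfun k r g (f ∣[k] γ) := by
  have hg' : IsDiam N (2 : ℕ) g := hg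
  obtain ⟨τ, hτ⟩ := exists_perm Nat.prime_two hN hg' hγ
  have h0 : ∀ i, (Rep 2 g i).det ≠ 0 := Rep_det hg' two_ne_zero
  unfold Hfun
  rw [SlashAction.sum_slash]
  have e1 : ∀ i, (isl k (Rep 2 g i) f * (Bx (Rep 2 g i)) ^ r) ∣[k + (r : ℤ) * 4] γ =
      isl k (Rep 2 g (τ i)) (f ∣[k] γ) * (Bx (Rep 2 g (τ i))) ^ r := by
    intro i
    obtain ⟨Y, hY, hYi⟩ := hτ i
    have h1 : ((γ⁻¹).1 * Rep 2 g i * γ.1).det ≠ 0 := by
      rw [Matrix.det_mul, Matrix.det_mul, γ.2, (γ⁻¹).2]; simpa using h0 i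
    have hmul : Rep 2 g i * γ.1 = γ.1 * ((γ⁻¹).1 * Rep 2 g i * γ.1) := by
      rw [← Matrix.mul_assoc, ← Matrix.mul_assoc, ← Matrix.SpecialLinearGroup.coe_mul]
      simp
    rw [mul_slash_SL2, pow_slash_SL, Bx_slash _ (h0 i)]
    congr 1
    · calc (isl k (Rep 2 g i) f) ∣[k] γ = isl k (Rep 2 g i * γ.1) f := by
            rw [isl_mul _ _ _ (h0 i) (SL_det_ne γ), isl_SL]
        _ = isl k (γ.1 * ((γ⁻¹).1 * Rep 2 g i * γ.1)) f := by rw [hmul]
        _ = isl k ((γ⁻¹).1 * Rep 2 g i * γ.1) (f ∣[k] γ) := by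
            rw [isl_mul _ _ _ (SL_det_ne γ) h1, isl_SL]
        _ = isl k (Rep 2 g (τ i)) (f ∣[k] γ) := by
            rw [hYi, isl_inv1 (inv1_diam hf hγ) hY (h0 _)]
    · congr 1
      rw [hmul, Bx_left γ h1, hYi, Bx_left Y (h0 _)]
  rw [Finset.sum_congr rfl (fun i _ => e1 i)]
  exact Equiv.sum_comp τ (fun i => isl k (Rep 2 g i) (f ∣[k] γ) * (Bx (Rep 2 g i)) ^ r)

lemma Hfun_add (k : ℤ) (r : ℕ) (g : SL(2, ℤ)) (f f' : ℍ → ℂ) :
    Hfun k r g (f + f') = Hfun k r g f + Hfun k r g f' := by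
  unfold Hfun
  rw [← Finset.sum_add_distrib]
  refine Finset.sum_congr rfl fun i _ => ?_
  rw [isl_add, add_mul]

lemma Hfun_smul {N : ℕ} (k : ℤ) (r : ℕ) {g : SL(2, ℤ)} (hg : IsDiam N 2 g) (c : ℂ) (f : ℍ → ℂ) :
    Hfun k r g (c • f) = c • Hfun k r g f := by
  unfold Hfun
  rw [Finset.smul_sum]
  refine Finset.sum_congr rfl fun i _ => ?_
  rw [isl_smul _ _ (Rep_det_pos (ℓ := 2) hg two_ne_zero i), smul_mul_assoc]

lemma mdiff_pow {F : ℍ → ℂ} (hF : MDiff F) (n : ℕ) : MDiff (F ^ n) := by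
  induction n with
  | zero => rw [pow_zero]; exact fun _ => mdifferentiableAt_const
  | succ n ih => rw [pow_succ]; exact ih.mul hF

/-- the twisted `T₂` as a linear map `M_k → M_{k+4r}` -/
noncomputable def Hop (N : ℕ) [NeZero N] (hN : ¬ 2 ∣ N) (k r : ℕ) (g : SL(2, ℤ))
    (hg : IsDiam N 2 g) : MF N k →ₗ[ℂ] MF N (k + 4 * r) where
  toFun f :=
    { toFun := Hfun k r g f
      slash_action_eq' := by
        rintro _ ⟨Y, hY, rfl⟩
        have h := Hfun_slash (r := r) hN hg (inv1_mf f) (Gamma1_in_Gamma0 N hY)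
        rw [inv1_mf f Y hY] at h
        have e : (((k + 4 * r : ℕ)) : ℤ) = (k : ℤ) + (r : ℤ) * 4 := by push_cast; ring
        rw [e]
        exact h
      holo' := by
        change MDiff (Hfun k r g f)
        unfold Hfun
        have : ∀ s : Finset (Option (Fin 2)),
            MDiff (∑ i ∈ s, isl k (Rep 2 g i) (⇑f) * (Bx (Rep 2 g i)) ^ r) := by
          intro s
          classical
          induction s using Finset.induction_on with
          | empty => simp only [Finset.sum_empty]; exact fun _ => mdifferentiableAt_const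
          | insert a s ha ih =>
            rw [Finset.sum_insert ha]
            exact ((isl_mdiff (k : ℤ) _ (ModularFormClass.holo f)).mul
              (mdiff_pow (Bx_mdiff _) r)).add ih
        exact this _
      bdd_at_cusps' := by
        intro c hc
        change c.IsBoundedAt (Hfun k r g f) _
        have e : (((k + 4 * r : ℕ)) : ℤ) = (k : ℤ) + (r : ℤ) * 4 := by push_cast; ring
        rw [e]
        unfold Hfun
        have : ∀ s : Finset (Option (Fin 2)),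
            c.IsBoundedAt (∑ i ∈ s, isl k (Rep 2 g i) (⇑f) * (Bx (Rep 2 g i)) ^ r)
              ((k : ℤ) + (r : ℤ) * 4) := by
          intro s
          classical
          induction s using Finset.induction_on with
          | empty =>
            simp only [Finset.sum_empty]
            have := (0 : MF N (k + 4 * r)).bdd_at_cusps' hc
            rw [← e]
            exact this
          | insert a s ha ih =>
            rw [Finset.sum_insert ha]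
            exact (bdd_mul (bdd_isl f _ (Rep_det (ℓ := 2) hg two_ne_zero a) hc)
              (bdd_pow (Bx_bdd (N := N) _ (Rep_det (ℓ := 2) hg two_ne_zero a) hc) r)).add ih
        exact this _ }
  map_add' f f' := by
    ext z
    change Hfun k r g (⇑(f + f')) z = Hfun k r g f z + Hfun k r g f' z
    rw [FunLike.coe_add, Hfun_add]; rfl
  map_smul' c f := by
    ext z
    change Hfun k r g (⇑(c • f)) z = c • (Hfun k r g f z)
    rw [FunLike.coe_smul, Hfun_smul (N := N) _ _ hg]; rfl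

@[simp] lemma Hop_coe (N : ℕ) [NeZero N] (hN : ¬ 2 ∣ N) (k r : ℕ) (g : SL(2, ℤ))
    (hg : IsDiam N 2 g) (f : MF N k) : ⇑(Hop N hN k r g hg f) = Hfun k r g f := rfl

/-! ### the q-series of `Hop` -/

lemma HasQ.isl_delta {P : ℍ → ℂ} {s : PowerSeries ℂ} (hP : HasQ P s) (k : ℤ) :
    HasQ (isl k !![2, 0; 0, 1] P) ((2 : ℂ) ^ (k - 1) • Op.V 2 s) := by
  have h1 : HasQ (fun τ => ((2 : ℂ) ^ (k - 1))⁻¹ * isl k !![2, 0; 0, 1] P τ) (Op.V 2 s) := by
    refine hP.V two_ne_zero (fun τ τ' hτ' => ?_)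
    obtain ⟨τ'', h2, h3⟩ := isl_upper k 2 0 1 two_pos one_pos P τ
    have : τ'' = τ' := by
      apply UpperHalfPlane.ext
      rw [h2, hτ']; push_cast; ring
    rw [h3, this]
    push_cast
    have hne : ((2 : ℂ) ^ (k - 1)) ≠ 0 := zpow_ne_zero _ two_ne_zero
    simp only [mul_one, _root_.one_zpow]
    rw [← mul_assoc, inv_mul_cancel₀ hne, one_mul]
  have h2 := h1.smul ((2 : ℂ) ^ (k - 1))
  have e : (2 : ℂ) ^ (k - 1) • (fun τ => ((2 : ℂ) ^ (k - 1))⁻¹ * isl k !![2, 0; 0, 1] P τ) =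
      isl k !![2, 0; 0, 1] P := by
    funext τ
    have hne : ((2 : ℂ) ^ (k - 1)) ≠ 0 := zpow_ne_zero _ two_ne_zero
    rw [Pi.smul_apply, smul_eq_mul, ← mul_assoc, mul_inv_cancel₀ hne, one_mul]
  rwa [e] at h2

/-- the series `E₄(q) - 16 E₄(q²)` -/
noncomputable def aInf : PowerSeries ℂ := e4s - (16 : ℂ) • V 2 e4s

/-- the series `E₄(q²) - E₄(q)` -/
noncomputable def aZero : PowerSeries ℂ := V 2 e4s - e4s

lemma hasQ_Bx_inf : HasQ (Bx !![2, 0; 0, 1]) aInf := by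
  unfold Bx aInf
  have h := (hasQ_e4.isl_delta 4).smul 2
  have e : (2 : ℂ) • (2 : ℂ) ^ ((4 : ℤ) - 1) • V 2 e4s = (16 : ℂ) • V 2 e4s := by
    rw [smul_smul]; norm_num
  rw [e] at h
  exact hasQ_e4.sub h

/-- `E₄(2τ)` -/
noncomputable def e42 : ℍ → ℂ := (8 : ℂ)⁻¹ • isl 4 !![2, 0; 0, 1] e4

lemma hasQ_e42 : HasQ e42 (V 2 e4s) := by
  have h := (hasQ_e4.isl_delta 4).smul (8 : ℂ)⁻¹
  have e : (8 : ℂ)⁻¹ • (2 : ℂ) ^ ((4 : ℤ) - 1) • V 2 e4s = V 2 e4s := by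
    rw [smul_smul]; norm_num
  rwa [e] at h

lemma HasQ.congr_q {P : ℍ → ℂ} {s : PowerSeries ℂ} (hP : HasQ P s) {τ τ' : ℍ}
    (h : 𝕢 1 (τ : ℂ) = 𝕢 1 (τ' : ℂ)) : P τ = P τ' := by
  have h1 := hP τ
  rw [h] at h1
  exact h1.unique (hP τ')

lemma e42_apply (τ τ' : ℍ) (h : 𝕢 1 (τ' : ℂ) = 𝕢 1 (2 * (τ : ℂ))) : e42 τ = e4 τ' := by
  obtain ⟨τ'', h2, h3⟩ := isl_upper 4 2 0 1 two_pos one_pos e4 τ
  have h4 : e42 τ = e4 τ'' := by
    rw [e42, Pi.smul_apply, h3, smul_eq_mul]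
    push_cast
    norm_num
    ring
  rw [h4]
  apply hasQ_e4.congr_q
  rw [h, h2]
  congr 1
  push_cast; ring

/-- the upper summands of `Hfun` -/
lemma upper_term (k : ℤ) (r : ℕ) (f : ℍ → ℂ) (j : ℕ) (τ : ℍ) :
    (isl k !![1, (j : ℤ); 0, 2] f * (Bx !![1, (j : ℤ); 0, 2]) ^ r) τ =
      ((f * (e42 - e4) ^ r) ∣[k] upperMat 2 j two_ne_zero) τ := by
  have hdet : (!![1, (j : ℤ); 0, 2] : IM).det ≠ 0 := by
    rw [Matrix.det_fin_two_of]; norm_num
  obtain ⟨τ1, h1, h1'⟩ := isl_upper k 1 j 2 one_pos two_pos f τ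
  obtain ⟨τ2, h2, h2'⟩ := isl_upper k 1 j 2 one_pos two_pos (f * (e42 - e4) ^ r) τ
  obtain ⟨τ3, h3, h3'⟩ := isl_upper 4 1 j 2 one_pos two_pos e4 τ
  have e21 : τ2 = τ1 := UpperHalfPlane.ext (by rw [h2, h1])
  have e31 : τ3 = τ1 := UpperHalfPlane.ext (by rw [h3, h1])
  have hup : upperMat 2 j two_ne_zero = gl !![1, (j : ℤ); 0, 2] hdet := by
    have := upperMat_eq 2 j two_ne_zero (by rw [Matrix.det_fin_two_of]; norm_num)
    exact this
  rw [hup, ← isl_of k _ hdet, h2', e21, Pi.mul_apply, h1', Pi.mul_apply, Pi.pow_apply, Pi.pow_apply]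
  have hB : Bx !![1, (j : ℤ); 0, 2] τ = (e42 - e4) τ1 := by
    rw [Bx, Pi.sub_apply, Pi.smul_apply, h3', e31, Pi.sub_apply, smul_eq_mul]
    have : e42 τ1 = e4 τ := by
      apply e42_apply
      rw [h1]
      push_cast
      have : (2 : ℂ) * ((1 * (τ : ℂ) + j) / 2) = τ + j := by ring
      rw [this, Function.Periodic.qParam, Function.Periodic.qParam]
      have e : 2 * (Real.pi : ℂ) * Complex.I * ((τ : ℂ) + j) / (1 : ℝ) =
          2 * Real.pi * Complex.I * τ / (1 : ℝ) + j * (2 * Real.pi * Complex.I) := by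
        push_cast; ring
      rw [e, Complex.exp_add, Complex.exp_nat_mul_two_pi_mul_I, mul_one]
    rw [this]
    norm_num
    ring
  rw [hB]
  ring

/-- the q-series of a form -/
noncomputable def qs {N k : ℕ} (f : MF N k) : PowerSeries ℂ := PowerSeries.mk (an f)

@[simp] lemma coeff_qs {N k : ℕ} (f : MF N k) (n : ℕ) : (qs f).coeff n = an f n := by simp [qs]

lemma hasQ_mf {N : ℕ} [NeZero N] {k : ℕ} (f : MF N k) : HasQ f (qs f) := by
  intro τ
  simpa using hasSum_an f τ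

lemma HasQ.an_eq {N : ℕ} [NeZero N] {k : ℕ} {f : MF N k} {s : PowerSeries ℂ} (h : HasQ f s)
    (n : ℕ) : an f n = s.coeff n := an_unique f h n

lemma HasQ.qs_eq {N : ℕ} [NeZero N] {k : ℕ} {f : MF N k} {s : PowerSeries ℂ} (h : HasQ f s) :
    qs f = s := by
  ext n; rw [coeff_qs, h.an_eq]

theorem hasQ_Hop (N : ℕ) [NeZero N] (hN : ¬ 2 ∣ N) (k r : ℕ) (g : SL(2, ℤ))
    (hg : IsDiam N 2 g) (f : MF N k) :
    HasQ (Hop N hN k r g hg f)
      ((2 : ℂ) ^ ((k : ℤ) - 1) • (V 2 (qs (Dop N k g hg.1 f)) * aInf ^ r) +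
        U 2 (qs f * aZero ^ r)) := by
  rw [Hop_coe]
  have hdet : (!![2, 0; 0, 1] : IM).det ≠ 0 := by rw [Matrix.det_fin_two_of]; norm_num
  have hlow : HasQ (isl k (Rep 2 g none) f * (Bx (Rep 2 g none)) ^ r)
      ((2 : ℂ) ^ ((k : ℤ) - 1) • (V 2 (qs (Dop N k g hg.1 f)) * aInf ^ r)) := by
    have e1 : Rep 2 g none = g.1 * !![2, 0; 0, 1] := rfl
    rw [e1, Bx_left g hdet, isl_mul _ _ _ (SL_det_ne g) hdet, isl_SL, ← smul_mul_assoc]
    have h2 : HasQ ((⇑f) ∣[(k : ℤ)] g) (qs (Dop N k g hg.1 f)) := hasQ_mf (Dop N k g hg.1 f)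
    exact (h2.isl_delta k).mul (hasQ_Bx_inf.pow r)
  have hup : HasQ (∑ j : Fin 2, isl k (Rep 2 g (some j)) f * (Bx (Rep 2 g (some j))) ^ r)
      (U 2 (qs f * aZero ^ r)) := by
    have hP : HasQ (⇑f * (e42 - e4) ^ r) (qs f * aZero ^ r) :=
      (hasQ_mf f).mul ((hasQ_e42.sub hasQ_e4).pow r)
    intro τ
    have h1 := hasSum_upper (k : ℤ) (F := ⇑f * (e42 - e4) ^ r)
      (a := fun n => (qs f * aZero ^ r).coeff n) hP (ℓ := 2) two_ne_zero τ
    have e : (∑ j : Fin 2, isl k (Rep 2 g (some j)) f * (Bx (Rep 2 g (some j))) ^ r) τ =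
        (∑ j ∈ Finset.range 2, (⇑f * (e42 - e4) ^ r) ∣[(k : ℤ)] upperMat 2 j two_ne_zero) τ := by
      rw [Finset.sum_apply, Finset.sum_apply, Finset.sum_range]
      refine Finset.sum_congr rfl fun j _ => ?_
      rw [← upper_term]
      rfl
    rw [e]
    refine h1.congr_fun ?_ |> fun h => h
    intro n
    rw [coeff_U]
  have e : Hfun k r g f = isl k (Rep 2 g none) f * (Bx (Rep 2 g none)) ^ r +
      ∑ j : Fin 2, isl k (Rep 2 g (some j)) f * (Bx (Rep 2 g (some j))) ^ r := by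
    unfold Hfun; rw [Fintype.sum_option]
  rw [e]
  exact hlow.add hup

end Crest.Agent.R007.Op
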