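import Mathlib
import Crest.Prelude.Def_HeckeTwo
import Crest.Agent.R007.Frob2

/-! Row 7, node FROB/DEP, part 3: `Fr`, congruences, 2-depletion. (helper668) -/

set_option autoImplicit false

namespace Crest.Agent.R007.Op

open Matrix UpperHalfPlane ModularForm CongruenceSubgroup Matrix.SpecialLinearGroup
open scoped MatrixGroups ModularForm Manifold Pointwise
open Crest.NumberTheoryR.HeckeTwoAdic

local notation "𝕢" => Function.Periodic.qParam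

/-! ### arithmetic of `E₄` -/

/-- `Σ_{n ≥ 1} σ₃(n) q^n` -/
noncomputable def sg : PowerSeries ℂ :=
  PowerSeries.mk fun n => if n = 0 then 0 else (ArithmeticFunction.sigma 3 n : ℂ)

lemma inS_sg (S : Subring ℂ) : InS S sg := by
  intro n
  rw [sg, PowerSeries.coeff_mk]
  split_ifs
  · exact S.zero_mem
  · exact natCast_mem S _

lemma e4s_eq : e4s = 1 + (240 : ℂ) • sg := by
  ext n
  rw [coeff_e4s, map_add, map_smul, PowerSeries.coeff_one, sg, PowerSeries.coeff_mk]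
  split_ifs <;> simp

lemma num_mem (S : Subring ℂ) (n : ℕ) : (n : ℂ) ∈ S := natCast_mem S n

lemma inS_e4s (S : Subring ℂ) : InS S e4s := by
  rw [e4s_eq]
  exact InS.one.add ((inS_sg S).smul (by exact_mod_cast num_mem S 240))

lemma V_add (p : ℕ) (s t : PowerSeries ℂ) : V p (s + t) = V p s + V p t := by
  ext n; simp only [coeff_V, map_add]; split_ifs <;> simp

lemma V_smul (p : ℕ) (c : ℂ) (s : PowerSeries ℂ) : V p (c • s) = c • V p s := by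
  ext n; simp only [coeff_V, map_smul, smul_eq_mul]; split_ifs <;> simp

lemma V_sub (p : ℕ) (s t : PowerSeries ℂ) : V p (s - t) = V p s - V p t := by
  ext n; simp only [coeff_V, map_sub]; split_ifs <;> simp

lemma U_smul (p : ℕ) (c : ℂ) (s : PowerSeries ℂ) : U p (c • s) = c • U p s := by
  ext n; simp only [coeff_U, map_smul]

lemma cg_e4s (S : Subring ℂ) : Cg S 4 e4s 1 := by
  refine ⟨(15 : ℂ) • sg, (inS_sg S).smul (by exact_mod_cast num_mem S 15), ?_⟩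
  rw [e4s_eq, smul_smul]; norm_num

lemma cg_aInf (S : Subring ℂ) : Cg S 4 aInf 1 := by
  refine ⟨(15 : ℂ) • sg - V 2 e4s, ((inS_sg S).smul (by exact_mod_cast num_mem S 15)).sub
    ((inS_e4s S).V 2), ?_⟩
  have h : e4s = 1 + (240 : ℂ) • sg := e4s_eq
  have h2 : (2 : ℂ) ^ 4 • ((15 : ℂ) • sg - V 2 e4s) = (240 : ℂ) • sg - (16 : ℂ) • V 2 e4s := by
    rw [smul_sub, smul_smul]; norm_num
  rw [h2, aInf]
  calc e4s - (16 : ℂ) • V 2 e4s = (1 + (240 : ℂ) • sg) - (16 : ℂ) • V 2 e4s := by rw [← h]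
    _ = _ := by ring

/-- `E₄(q²) - E₄(q) = 16 b` -/
noncomputable def bZero : PowerSeries ℂ := (15 : ℂ) • (V 2 sg - sg)

lemma inS_bZero (S : Subring ℂ) : InS S bZero :=
  (((inS_sg S).V 2).sub (inS_sg S)).smul (by exact_mod_cast num_mem S 15)

lemma aZero_eq : aZero = (16 : ℂ) • bZero := by
  rw [aZero, bZero, e4s_eq, V_add, V_smul, V_one' 2 two_ne_zero, smul_smul, smul_sub]
  norm_num

lemma aZero_pow (r : ℕ) : aZero ^ r = (2 : ℂ) ^ (4 * r) • bZero ^ r := by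
  rw [aZero_eq, smul_pow]
  congr 1
  rw [pow_mul]; norm_num

/-! ### multiplication by a power of `E₄` -/

/-- `f ↦ f E₄^r`. -/
noncomputable def mulE (N : ℕ) [NeZero N] (k r : ℕ) : MF N k →ₗ[ℂ] MF N (k + 4 * r) where
  toFun f :=
    { toFun := ⇑f * e4 ^ r
      slash_action_eq' := by
        rintro _ ⟨Y, hY, rfl⟩
        have e : (((k + 4 * r : ℕ)) : ℤ) = (k : ℤ) + (r : ℤ) * 4 := by push_cast; ring
        rw [e]
        change (⇑f * e4 ^ r) ∣[(k : ℤ) + (r : ℤ) * 4] Y = _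
        rw [mul_slash_SL2, pow_slash_SL, e4_slash, inv1_mf f Y hY]
      holo' := (ModularFormClass.holo f).mul (mdiff_pow e4_mdiff r)
      bdd_at_cusps' := by
        intro c hc
        have e : (((k + 4 * r : ℕ)) : ℤ) = (k : ℤ) + (r : ℤ) * 4 := by push_cast; ring
        rw [e]
        exact bdd_mul (f.bdd_at_cusps' hc) (bdd_pow ((e4N N).bdd_at_cusps' hc) r) }
  map_add' f f' := by
    ext z
    change (⇑(f + f') * e4 ^ r) z = (⇑f * e4 ^ r) z + (⇑f' * e4 ^ r) z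
    rw [FunLike.coe_add, add_mul]; rfl
  map_smul' c f := by
    ext z
    change (⇑(c • f) * e4 ^ r) z = c • ((⇑f * e4 ^ r) z)
    rw [FunLike.coe_smul, smul_mul_assoc]; rfl

@[simp] lemma mulE_coe (N : ℕ) [NeZero N] (k r : ℕ) (f : MF N k) : ⇑(mulE N k r f) = ⇑f * e4 ^ r := rfl

lemma qs_mulE {N : ℕ} [NeZero N] (k r : ℕ) (f : MF N k) : qs (mulE N k r f) = qs f * e4s ^ r :=
  HasQ.qs_eq ((hasQ_mf f).mul (hasQ_e4.pow r))

lemma mulE_Dop {N : ℕ} [NeZero N] (k r : ℕ) {γ : SL(2, ℤ)} (hγ : γ ∈ Gamma0 N) (f : MF N k) :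
    Dop N (k + 4 * r) γ hγ (mulE N k r f) = mulE N k r (Dop N k γ hγ f) := by
  apply DFunLike.coe_injective
  rw [Dop_coe, mulE_coe, mulE_coe, Dop_coe]
  have e : (((k + 4 * r : ℕ)) : ℤ) = (k : ℤ) + (r : ℤ) * 4 := by push_cast; ring
  rw [e, mul_slash_SL2, pow_slash_SL, e4_slash]

/-! ### the operator `Fr` -/

lemma Gamma0_inv {N : ℕ} {g : SL(2, ℤ)} (hg : g ∈ Gamma0 N) : g⁻¹ ∈ Gamma0 N := inv_mem hg

lemma Dop_inv_cancel {N : ℕ} [NeZero N] {k : ℕ} {g : SL(2, ℤ)} (hg : g ∈ Gamma0 N) (f : MF N k) :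
    Dop N k g hg (Dop N k g⁻¹ (Gamma0_inv hg) f) = f := by
  apply DFunLike.coe_injective
  rw [Dop_coe, Dop_coe, ← SlashAction.slash_mul, inv_mul_cancel, SlashAction.slash_one]

/-- The Frobenius operator `Fr f ≡ f(q²)`. -/
noncomputable def Fr (N : ℕ) [NeZero N] (hN : ¬ 2 ∣ N) (k r : ℕ) (g : SL(2, ℤ))
    (hg : IsDiam N 2 g) : MF N k →ₗ[ℂ] MF N (k + 4 * r) :=
  (2 : ℂ) ^ (1 - (k : ℤ)) • (Hop N hN k r g hg ∘ₗ Dop N k g⁻¹ (Gamma0_inv hg.1))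

lemma qs_smul {N : ℕ} [NeZero N] {k : ℕ} (c : ℂ) (f : MF N k) : qs (c • f) = c • qs f := by
  ext n; rw [coeff_qs, an_smul, map_smul, coeff_qs, smul_eq_mul]

lemma qs_add {N : ℕ} [NeZero N] {k : ℕ} (f f' : MF N k) : qs (f + f') = qs f + qs f' := by
  ext n; rw [coeff_qs, an_add, map_add, coeff_qs, coeff_qs]

lemma qs_sub {N : ℕ} [NeZero N] {k : ℕ} (f f' : MF N k) : qs (f - f') = qs f - qs f' := by
  have : f - f' = f + (-1 : ℂ) • f' := by ext z; simp [sub_eq_add_neg]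
  rw [this, qs_add, qs_smul]; simp [sub_eq_add_neg]

section

variable {N : ℕ} [NeZero N] (hN : ¬ 2 ∣ N) {g : SL(2, ℤ)} (hg : IsDiam N 2 g)

theorem qs_Fr (k r : ℕ) (f : MF N k) :
    qs (Fr N hN k r g hg f) = V 2 (qs f) * aInf ^ r +
      (2 : ℂ) ^ (1 - (k : ℤ)) • U 2 (qs (Dop N k g⁻¹ (Gamma0_inv hg.1) f) * aZero ^ r) := by
  have h := (hasQ_Hop N hN k r g hg (Dop N k g⁻¹ (Gamma0_inv hg.1) f)).qs_eq
  rw [Fr, LinearMap.smul_apply, LinearMap.comp_apply, qs_smul, h, Dop_inv_cancel, smul_add, smul_smul,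
    ← zpow_add₀ (two_ne_zero : (2 : ℂ) ≠ 0)]
  rw [show 1 - (k : ℤ) + ((k : ℤ) - 1) = 0 by ring, _root_.zpow_zero, one_smul]

lemma Fr_Dop (k r : ℕ) {γ : SL(2, ℤ)} (hγ : γ ∈ Gamma0 N) (f : MF N k) :
    Dop N (k + 4 * r) γ hγ (Fr N hN k r g hg f) = Fr N hN k r g hg (Dop N k γ hγ f) := by
  have key : ∀ f : MF N k, Dop N (k + 4 * r) γ hγ (Hop N hN k r g hg f) =
      Hop N hN k r g hg (Dop N k γ hγ f) := by
    intro f
    apply DFunLike.coe_injective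
    rw [Dop_coe, Hop_coe, Hop_coe, Dop_coe]
    have e : (((k + 4 * r : ℕ)) : ℤ) = (k : ℤ) + (r : ℤ) * 4 := by push_cast; ring
    rw [e]
    exact Hfun_slash hN hg (inv1_mf f) hγ
  rw [Fr, LinearMap.smul_apply, LinearMap.comp_apply, map_smul, key, LinearMap.smul_apply,
    LinearMap.comp_apply, Dop_comm (Gamma0_inv hg.1) hγ]

/-- all diamond translates have `q`-series in `S`. -/
def AllS (S : Subring ℂ) {k : ℕ} (f : MF N k) : Prop :=
  ∀ (γ : SL(2, ℤ)) (hγ : γ ∈ Gamma0 N), InS S (qs (Dop N k γ hγ f))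

lemma Dop_one {k : ℕ} (f : MF N k) : Dop N k 1 (one_mem _) f = f := by
  apply DFunLike.coe_injective
  rw [Dop_coe, SlashAction.slash_one]

lemma Dop_mul {k : ℕ} {γ γ' : SL(2, ℤ)} (hγ : γ ∈ Gamma0 N) (hγ' : γ' ∈ Gamma0 N) (f : MF N k) :
    Dop N k γ' hγ' (Dop N k γ hγ f) = Dop N k (γ * γ') (mul_mem hγ hγ') f := by
  apply DFunLike.coe_injective
  rw [Dop_coe, Dop_coe, Dop_coe, SlashAction.slash_mul]

namespace AllS

variable {S : Subring ℂ} {k : ℕ} {f f' : MF N k}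

lemma inS (h : AllS S f) : InS S (qs f) := by
  have := h 1 (one_mem _)
  rwa [Dop_one] at this

lemma dop (h : AllS S f) {γ : SL(2, ℤ)} (hγ : γ ∈ Gamma0 N) : AllS S (Dop N k γ hγ f) := by
  intro γ' hγ'
  rw [Dop_mul]
  exact h _ _

lemma add (h : AllS S f) (h' : AllS S f') : AllS S (f + f') := by
  intro γ hγ
  rw [map_add, qs_add]; exact (h γ hγ).add (h' γ hγ)

lemma smul {c : ℂ} (hc : c ∈ S) (h : AllS S f) : AllS S (c • f) := by
  intro γ hγ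
  rw [map_smul, qs_smul]; exact (h γ hγ).smul hc

end AllS

lemma qs_Top {k ℓ : ℕ} (hk : k ≠ 0) (hℓ : ℓ.Prime) (hN : ¬ ℓ ∣ N) {g : SL(2, ℤ)} (hg : IsDiam N ℓ g)
    (f : MF N k) : qs (Top N k ℓ hℓ hN g hg f) =
      U ℓ (qs f) + (ℓ : ℂ) ^ (k - 1) • V ℓ (qs (Dop N k g hg.1 f)) := by
  ext n
  rw [coeff_qs, an_Top, map_add, coeff_U, coeff_qs, map_smul, coeff_V, coeff_qs, smul_eq_mul]
  have e : (ℓ : ℂ) ^ ((k : ℤ) - 1) = (ℓ : ℂ) ^ (k - 1) := by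
    rw [← zpow_natCast]; congr 1; omega
  rw [e]
  split_ifs <;> simp

lemma AllS.top {S : Subring ℂ} {k ℓ : ℕ} (hk : k ≠ 0) {f : MF N k} (h : AllS S f) (hℓ : ℓ.Prime)
    (hN : ¬ ℓ ∣ N) {g : SL(2, ℤ)} (hg : IsDiam N ℓ g) : AllS S (Top N k ℓ hℓ hN g hg f) := by
  intro γ hγ
  rw [Top_Dop, qs_Top hk]
  refine ((h γ hγ).U ℓ).add (InS.smul (S.pow_mem (num_mem S ℓ) _) (InS.V ?_ ℓ))
  rw [Dop_mul]; exact h _ _

/-- the error term of `Fr` -/
lemma Fr_err {k m : ℕ} {S : Subring ℂ} (hm : k + m ≤ 4 * 2 ^ m) {s : PowerSeries ℂ} (hs : InS S s)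
    (r : ℕ) (hr : 2 ^ m ≤ r) :
    ∃ e, InS S e ∧ (2 : ℂ) ^ (1 - (k : ℤ)) • U 2 (s * aZero ^ r) = (2 : ℂ) ^ (m + 1) • e := by
  refine ⟨(2 : ℂ) ^ (4 * r - k - m) • U 2 (s * bZero ^ r),
    ((hs.mul ((inS_bZero S).pow r)).U 2).smul (S.pow_mem (Cg.two_mem S) _), ?_⟩
  rw [aZero_pow, mul_smul_comm, U_smul, smul_smul, smul_smul]
  congr 1
  rw [← zpow_natCast, ← zpow_natCast, ← zpow_natCast, ← zpow_add₀ (two_ne_zero : (2 : ℂ) ≠ 0),
    ← zpow_add₀ (two_ne_zero : (2 : ℂ) ≠ 0)]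
  congr 1
  have h1 : k + m ≤ 4 * r := hm.trans (Nat.mul_le_mul_left 4 hr)
  push_cast [Nat.cast_sub (show k ≤ 4 * r by omega), Nat.cast_sub (show m ≤ 4 * r - k by omega)]
  ring

/-- **FROB**: `Fr f ≡ f(q²) mod 2^{m+1}`. -/
theorem Fr_congr {k m j : ℕ} {S : Subring ℂ} (hj : m ≤ j) (hm : k + m ≤ 4 * 2 ^ m) {f : MF N k}
    (h : AllS S f) : Cg S (m + 1) (qs (Fr N hN k (2 ^ j) g hg f)) (V 2 (qs f)) := by
  rw [qs_Fr]
  obtain ⟨e, he, h1⟩ := Fr_err (S := S) hm (h g⁻¹ (Gamma0_inv hg.1)) (2 ^ j)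
    (Nat.pow_le_pow_right two_pos hj)
  rw [h1]
  have h2 : Cg S (m + 1) (V 2 (qs f) * aInf ^ (2 ^ j)) (V 2 (qs f) * 1) :=
    (((cg_aInf S).pow_two_pow (by norm_num) j).mono (by omega)).mul_left (h.inS.V 2)
  rw [mul_one] at h2
  obtain ⟨e', he', h3⟩ := h2
  exact ⟨e' + e, he'.add he, by rw [h3, smul_add]; ring⟩

/-- variant with a separate exponent for the second application -/
theorem Fr_congr' {k m r : ℕ} {S : Subring ℂ} (j : ℕ) (hr : r = 2 ^ j) (hj : m ≤ j)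
    (hm : k + m ≤ 4 * r) {f : MF N k}
    (h : AllS S f) : Cg S (m + 1) (qs (Fr N hN k r g hg f)) (V 2 (qs f)) := by
  subst hr
  rw [qs_Fr]
  have h1 : ∃ e, InS S e ∧ (2 : ℂ) ^ (1 - (k : ℤ)) • U 2 (qs (Dop N k g⁻¹ (Gamma0_inv hg.1) f) *
      aZero ^ (2 ^ j)) = (2 : ℂ) ^ (m + 1) • e := by
    refine ⟨(2 : ℂ) ^ (4 * 2 ^ j - k - m) • U 2 (qs (Dop N k g⁻¹ (Gamma0_inv hg.1) f) * bZero ^ (2 ^ j)),
      (((h g⁻¹ (Gamma0_inv hg.1)).mul ((inS_bZero S).pow _)).U 2).smul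
        (S.pow_mem (Cg.two_mem S) _), ?_⟩
    rw [aZero_pow, mul_smul_comm, U_smul, smul_smul, smul_smul]
    congr 1
    rw [← zpow_natCast, ← zpow_natCast, ← zpow_natCast, ← zpow_add₀ (two_ne_zero : (2 : ℂ) ≠ 0),
      ← zpow_add₀ (two_ne_zero : (2 : ℂ) ≠ 0)]
    congr 1
    push_cast [Nat.cast_sub (show k ≤ 4 * 2 ^ j by omega), Nat.cast_sub (show m ≤ 4 * 2 ^ j - k by omega)]
    ring
  obtain ⟨e, he, h1⟩ := h1
  rw [h1]
  have h2 : Cg S (m + 1) (V 2 (qs f) * aInf ^ (2 ^ j)) (V 2 (qs f) * 1) :=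
    (((cg_aInf S).pow_two_pow (by norm_num) j).mono (by omega)).mul_left (h.inS.V 2)
  rw [mul_one] at h2
  obtain ⟨e', he', h3⟩ := h2
  exact ⟨e' + e, he'.add he, by rw [h3, smul_add]; ring⟩

/-- integrality of `Fr f` -/
lemma AllS.Fr {S : Subring ℂ} {k m r : ℕ} (j : ℕ) (hr : r = 2 ^ j) (hj : m ≤ j)
    (hm : k + m ≤ 4 * r) {f : MF N k} (h : AllS S f) : AllS S (Op.Fr N hN k r g hg f) := by
  intro γ hγ
  rw [Fr_Dop]
  exact (Fr_congr' hN hg j hr hj hm (h.dop hγ)).inS ((h.dop hγ).inS.V 2)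

/-- rationality of `Fr f`: if `1/2 ∈ S`. -/
lemma AllS.Fr_half {S : Subring ℂ} (hS : (2 : ℂ)⁻¹ ∈ S) {k r : ℕ} {f : MF N k} (h : AllS S f) :
    AllS S (Op.Fr N hN k r g hg f) := by
  intro γ hγ
  rw [Fr_Dop, qs_Fr]
  have h' := h.dop hγ
  have haInf : InS S aInf := (inS_e4s S).sub (((inS_e4s S).V 2).smul (by exact_mod_cast num_mem S 16))
  have haZero : InS S aZero := ((inS_e4s S).V 2).sub (inS_e4s S)
  refine ((h'.inS.V 2).mul (haInf.pow r)).add (InS.smul ?_ (((h' _ _).mul (haZero.pow r)).U 2))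
  have : (2 : ℂ) ^ (1 - (k : ℤ)) = 2 * (2 : ℂ)⁻¹ ^ k := by
    rw [zpow_sub₀ two_ne_zero, _root_.zpow_one, zpow_natCast, inv_pow]; rfl
  rw [this]
  exact S.mul_mem (Cg.two_mem S) (S.pow_mem hS _)

lemma AllS.mulE {S : Subring ℂ} {k r : ℕ} {f : MF N k} (h : AllS S f) :
    AllS S (Op.mulE N k r f) := by
  intro γ hγ
  rw [mulE_Dop, qs_mulE]
  exact (h γ hγ).mul ((inS_e4s S).pow r)

/-- **The 2-depletion operator** `M_k(Γ₁(N)) → M_{k+12r}(Γ₁(N))`. -/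
noncomputable def Dep2 (N : ℕ) [NeZero N] (hN : ¬ 2 ∣ N) (k r : ℕ) (g : SL(2, ℤ))
    (hg : IsDiam N 2 g) : MF N k →ₗ[ℂ] MF N (k + 4 * r + 4 * (2 * r)) :=
  (mulE N (k + 4 * r) (2 * r)) ∘ₗ (mulE N k r)
    - (mulE N (k + 4 * r) (2 * r)) ∘ₗ (Fr N hN k r g hg) ∘ₗ (Top N k 2 Nat.prime_two hN g hg)
    + (2 : ℂ) ^ (k - 1) • ((Fr N hN (k + 4 * r) (2 * r) g hg) ∘ₗ (Fr N hN k r g hg) ∘ₗ
        (Dop N k g hg.1))

lemma Dep2_Dop (k r : ℕ) {γ : SL(2, ℤ)} (hγ : γ ∈ Gamma0 N) (f : MF N k) :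
    Dop N _ γ hγ (Dep2 N hN k r g hg f) = Dep2 N hN k r g hg (Dop N k γ hγ f) := by
  simp only [Dep2, LinearMap.add_apply, LinearMap.sub_apply, LinearMap.smul_apply,
    LinearMap.comp_apply, map_add, map_sub, map_smul]
  rw [mulE_Dop, mulE_Dop, mulE_Dop, Fr_Dop, Fr_Dop, Fr_Dop, Top_Dop, Dop_comm hg.1 hγ]

/-- the odd part of a series -/
noncomputable def odd (s : PowerSeries ℂ) : PowerSeries ℂ :=
  PowerSeries.mk fun n => if 2 ∣ n then 0 else s.coeff n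

lemma odd_eq (s : PowerSeries ℂ) : odd s = s - V 2 (U 2 s) := by
  ext n
  rw [odd, PowerSeries.coeff_mk, map_sub, coeff_V, coeff_U]
  split_ifs with h
  · rw [Nat.mul_div_cancel' h, sub_self]
  · rw [sub_zero]

/-- **DEP2**: `Dep2 f ≡ odd part of f mod 2^{m+1}`. -/
theorem Dep2_congr {k m : ℕ} {S : Subring ℂ} (hk : k ≠ 0) (hm : k + m ≤ 4 * 2 ^ m) {f : MF N k}
    (h : AllS S f) :
    Cg S (m + 1) (qs (Dep2 N hN k (2 ^ m) g hg f)) (odd (qs f)) := by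
  set r := 2 ^ m with hr
  have h2r : 2 * r = 2 ^ (m + 1) := by rw [hr, pow_succ]; ring
  have hT : AllS S (Top N k 2 Nat.prime_two hN g hg f) := h.top hk Nat.prime_two hN hg
  have hD : AllS S (Dop N k g hg.1 f) := h.dop hg.1
  have hFD : AllS S (Op.Fr N hN k r g hg (Dop N k g hg.1 f)) := hD.Fr hN hg m hr le_rfl hm
  -- first term
  have c1 : Cg S (m + 1) (qs (mulE N (k + 4 * r) (2 * r) (mulE N k r f))) (qs f) := by
    rw [qs_mulE, qs_mulE, mul_assoc]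
    have : Cg S (m + 1) (e4s ^ r * e4s ^ (2 * r)) 1 := by
      have a1 : Cg S (m + 1) (e4s ^ r) 1 := ((cg_e4s S).pow_two_pow (by norm_num) m).mono (by omega)
      have a2 : Cg S (m + 1) (e4s ^ (2 * r)) 1 := by
        rw [h2r]; exact ((cg_e4s S).pow_two_pow (by norm_num) (m + 1)).mono (by omega)
      have a3 := a2.mul_left ((inS_e4s S).pow r)
      rw [mul_one] at a3
      exact a3.trans a1
    have := this.mul_left h.inS
    rwa [mul_one] at this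
  have c2 : Cg S (m + 1) (qs (mulE N (k + 4 * r) (2 * r) (Op.Fr N hN k r g hg
      (Top N k 2 Nat.prime_two hN g hg f)))) (V 2 (qs (Top N k 2 Nat.prime_two hN g hg f))) := by
    rw [qs_mulE]
    have a1 := Fr_congr' hN hg m hr le_rfl hm hT
    have a2 : Cg S (m + 1) (e4s ^ (2 * r)) 1 := by
      rw [h2r]; exact ((cg_e4s S).pow_two_pow (by norm_num) (m + 1)).mono (by omega)
    have a3 := a2.mul_left (a1.inS (hT.inS.V 2))
    rw [mul_one] at a3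
    exact a3.trans a1
  have c3 : Cg S (m + 1) (qs (Op.Fr N hN (k + 4 * r) (2 * r) g hg (Op.Fr N hN k r g hg
      (Dop N k g hg.1 f)))) (V 2 (V 2 (qs (Dop N k g hg.1 f)))) := by
    have a1 := Fr_congr' hN hg (k := k + 4 * r) (m := m) (m + 1) h2r (by omega) (by omega) hFD
    have a2 := (Fr_congr' hN hg m hr le_rfl hm hD).V 2
    exact a1.trans a2
  have e : qs (Dep2 N hN k r g hg f) =
      qs (mulE N (k + 4 * r) (2 * r) (mulE N k r f)) -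
      qs (mulE N (k + 4 * r) (2 * r) (Op.Fr N hN k r g hg (Top N k 2 Nat.prime_two hN g hg f))) +
      (2 : ℂ) ^ (k - 1) • qs (Op.Fr N hN (k + 4 * r) (2 * r) g hg (Op.Fr N hN k r g hg
        (Dop N k g hg.1 f))) := by
    simp only [Dep2, LinearMap.add_apply, LinearMap.sub_apply, LinearMap.smul_apply,
      LinearMap.comp_apply, qs_add, qs_sub, qs_smul]
  rw [e]
  have hodd : odd (qs f) = qs f - V 2 (qs (Top N k 2 Nat.prime_two hN g hg f)) +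
      (2 : ℂ) ^ (k - 1) • V 2 (V 2 (qs (Dop N k g hg.1 f))) := by
    rw [odd_eq, qs_Top hk, V_add, V_smul]
    push_cast
    ring
  rw [hodd]
  exact (c1.sub c2).add (c3.smul (S.pow_mem (Cg.two_mem S) _))

/-- rationality of `Dep2 f` -/
lemma AllS.dep2 {S : Subring ℂ} (hS : (2 : ℂ)⁻¹ ∈ S) {k r : ℕ} (hk : k ≠ 0) {f : MF N k}
    (h : AllS S f) : AllS S (Dep2 N hN k r g hg f) := by
  have hT : AllS S (Top N k 2 Nat.prime_two hN g hg f) := h.top hk Nat.prime_two hN hg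
  have hD : AllS S (Dop N k g hg.1 f) := h.dop hg.1
  have h1 : AllS S (Op.mulE N (k + 4 * r) (2 * r) (Op.mulE N k r f)) := h.mulE.mulE
  have h2 : AllS S (Op.mulE N (k + 4 * r) (2 * r) (Op.Fr N hN k r g hg
    (Top N k 2 Nat.prime_two hN g hg f))) := (hT.Fr_half hN hg hS).mulE
  have h3 : AllS S (Op.Fr N hN (k + 4 * r) (2 * r) g hg (Op.Fr N hN k r g hg
        (Dop N k g hg.1 f))) := (hD.Fr_half hN hg hS).Fr_half hN hg hS
  have e : Dep2 N hN k r g hg f = Op.mulE N (k + 4 * r) (2 * r) (Op.mulE N k r f) +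
      (-1 : ℂ) • Op.mulE N (k + 4 * r) (2 * r) (Op.Fr N hN k r g hg
        (Top N k 2 Nat.prime_two hN g hg f)) +
      (2 : ℂ) ^ (k - 1) • Op.Fr N hN (k + 4 * r) (2 * r) g hg (Op.Fr N hN k r g hg
        (Dop N k g hg.1 f)) := by
    rw [neg_one_smul, ← sub_eq_add_neg]
    simp only [Dep2, LinearMap.add_apply, LinearMap.sub_apply, LinearMap.smul_apply,
      LinearMap.comp_apply]
  rw [e]
  have hm1 : (-1 : ℂ) ∈ S := S.neg_mem S.one_mem
  exact (h1.add (h2.smul hm1)).add (h3.smul (S.pow_mem (Cg.two_mem S) _))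

end

end Crest.Agent.R007.Op
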