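import Mathlib
import Crest.Prelude.Def_HeckeTwo
import Crest.Agent.R007.Frob3

/-! Row 7, node DEP: the depletion operator at `2` and at the primes of `N`. (helper668) -/

set_option autoImplicit false

namespace Crest.Agent.R007.Op

open Matrix UpperHalfPlane ModularForm CongruenceSubgroup Matrix.SpecialLinearGroup
open scoped MatrixGroups ModularForm Manifold Pointwise
open Crest.NumberTheoryR.HeckeTwoAdic

local notation "𝕢" => Function.Periodic.qParam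

/-! ### level raising -/

lemma cast_of_dvd {N M : ℕ} (h : N ∣ M) {a b : ℤ} (hab : (a : ZMod M) = (b : ZMod M)) :
    (a : ZMod N) = (b : ZMod N) := by
  rw [← sub_eq_zero, ← Int.cast_sub, ZMod.intCast_zmod_eq_zero_iff_dvd] at hab ⊢
  exact (Int.natCast_dvd_natCast.mpr h).trans hab

lemma Gamma1_mono {N M : ℕ} (h : N ∣ M) {γ : SL(2, ℤ)} (hγ : γ ∈ Gamma1 M) : γ ∈ Gamma1 N := by
  rw [Gamma1_mem] at hγ ⊢
  obtain ⟨h1, h2, h3⟩ := hγ
  refine ⟨?_, ?_, ?_⟩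
  · have := cast_of_dvd h (a := γ.1 0 0) (b := 1) (by simpa using h1)
    simpa using this
  · have := cast_of_dvd h (a := γ.1 1 1) (b := 1) (by simpa using h2)
    simpa using this
  · have := cast_of_dvd h (a := γ.1 1 0) (b := 0) (by simpa using h3)
    simpa using this

lemma Gamma0_mono {N M : ℕ} (h : N ∣ M) {γ : SL(2, ℤ)} (hγ : γ ∈ Gamma0 M) : γ ∈ Gamma0 N := by
  rw [Gamma0_mem] at hγ ⊢
  have := cast_of_dvd h (a := γ.1 1 0) (b := 0) (by simpa using hγ)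
  simpa using this

/-- inclusion of levels -/
noncomputable def lvl {N M : ℕ} [NeZero N] [NeZero M] (h : N ∣ M) (k : ℕ) : MF N k →ₗ[ℂ] MF M k where
  toFun f :=
    { toFun := ⇑f
      slash_action_eq' := by
        rintro _ ⟨Y, hY, rfl⟩
        exact inv1_mf f Y (Gamma1_mono h hY)
      holo' := ModularFormClass.holo f
      bdd_at_cusps' := by
        intro c hc
        apply ModularFormClass.bdd_at_cusps f
        rw [Subgroup.IsArithmetic.isCusp_iff_isCusp_SL2Z] at hc ⊢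
        exact hc }
  map_add' f f' := rfl
  map_smul' c f := rfl

@[simp] lemma lvl_coe {N M : ℕ} [NeZero N] [NeZero M] (h : N ∣ M) (k : ℕ) (f : MF N k) :
    ⇑(lvl h k f) = ⇑f := rfl

@[simp] lemma an_lvl {N M : ℕ} [NeZero N] [NeZero M] (h : N ∣ M) (k : ℕ) (f : MF N k) (n : ℕ) :
    an (lvl h k f) n = an f n := rfl

/-! ### `V_p` -/

lemma conj_delta {N p : ℕ} (hp : p ≠ 0) {γ : SL(2, ℤ)} (hγ : γ ∈ Gamma0 (N * p)) :
    ∃ γ' : SL(2, ℤ), γ' ∈ Gamma0 N ∧ γ'.1 1 1 = γ.1 1 1 ∧ γ'.1 0 0 = γ.1 0 0 ∧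
      (!![(p : ℤ), 0; 0, 1] : IM) * γ.1 = γ'.1 * !![(p : ℤ), 0; 0, 1] := by
  have h10 : ((N * p : ℕ) : ℤ) ∣ γ.1 1 0 := by
    rw [Gamma0_mem] at hγ
    exact (ZMod.intCast_zmod_eq_zero_iff_dvd _ _).mp hγ
  obtain ⟨c, hc⟩ := h10
  push_cast at hc
  have hdet := γ.2
  rw [Matrix.det_fin_two] at hdet
  refine ⟨⟨!![γ.1 0 0, p * γ.1 0 1; N * c, γ.1 1 1], ?_⟩, ?_, rfl, rfl, ?_⟩
  · rw [Matrix.det_fin_two_of]
    rw [hc] at hdet
    linear_combination hdet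
  · rw [Gamma0_mem]
    change (((N : ℤ) * c : ℤ) : ZMod N) = 0
    push_cast; simp
  · ext i j
    fin_cases i <;> fin_cases j <;>
      simp [Matrix.mul_apply, Fin.sum_univ_two, hc] <;> ring

lemma delta_det {p : ℕ} (hp : p ≠ 0) : (!![(p : ℤ), 0; 0, 1] : IM).det ≠ 0 := by
  rw [Matrix.det_fin_two_of]; simpa using hp

/-- equality of slashes of elements with equal lower right entry -/
lemma slash_eq_of_lr {N : ℕ} {k : ℤ} {f : ℍ → ℂ} (hf : Inv1 N k f) {g g' : SL(2, ℤ)}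
    (hg : g ∈ Gamma0 N) (hg' : g' ∈ Gamma0 N) (h : g.1 1 1 = g'.1 1 1) : f ∣[k] g = f ∣[k] g' := by
  have hmem : g' * g⁻¹ ∈ Gamma1 N := by
    rw [Gamma0_mem] at hg hg'
    have g10 : ((g.1 1 0 : ℤ) : ZMod N) = 0 := hg
    have g10' : ((g'.1 1 0 : ℤ) : ZMod N) = 0 := hg'
    have hdet1 := congrArg (fun z : ℤ => (z : ZMod N)) ((Matrix.det_fin_two g.1).symm.trans g.2)
    have hdet3 := congrArg (fun z : ℤ => (z : ZMod N)) ((Matrix.det_fin_two g'.1).symm.trans g'.2)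
    push_cast at hdet1 hdet3
    rw [g10] at hdet1
    rw [g10', ← h] at hdet3
    have hinv : (g⁻¹).1 = !![g.1 1 1, -g.1 0 1; -g.1 1 0, g.1 0 0] := by
      rw [Matrix.SpecialLinearGroup.SL2_inv_expl]; rfl
    have e : (g' * g⁻¹).1 = g'.1 * !![g.1 1 1, -g.1 0 1; -g.1 1 0, g.1 0 0] := by
      rw [← hinv]; simp
    rw [Gamma1_mem]
    refine ⟨?_, ?_, ?_⟩
    · have : (((g' * g⁻¹).1 0 0 : ℤ) : ZMod N) = 1 := by
        rw [e]
        simp only [Matrix.mul_apply, Fin.sum_univ_two, Matrix.of_apply, Matrix.cons_val',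
          Matrix.cons_val_zero, Matrix.cons_val_one, Matrix.cons_val_fin_one]
        push_cast
        rw [g10]
        linear_combination hdet3
      exact this
    · have : (((g' * g⁻¹).1 1 1 : ℤ) : ZMod N) = 1 := by
        rw [e]
        simp only [Matrix.mul_apply, Fin.sum_univ_two, Matrix.of_apply, Matrix.cons_val',
          Matrix.cons_val_zero, Matrix.cons_val_one, Matrix.cons_val_fin_one]
        push_cast
        rw [g10', ← h]
        linear_combination hdet1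
      exact this
    · have : (((g' * g⁻¹).1 1 0 : ℤ) : ZMod N) = 0 := by
        rw [e]
        simp only [Matrix.mul_apply, Fin.sum_univ_two, Matrix.of_apply, Matrix.cons_val',
          Matrix.cons_val_zero, Matrix.cons_val_one, Matrix.cons_val_fin_one]
        push_cast
        rw [g10', g10]
        ring
      exact this
  have : g' = (g' * g⁻¹) * g := by group
  rw [this, SlashAction.slash_mul, hf _ hmem]

lemma delta_slash {N p : ℕ} {k : ℤ} (hp : p ≠ 0) {f : ℍ → ℂ} (hf : Inv1 N k f) {γ : SL(2, ℤ)}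
    (hγ : γ ∈ Gamma0 (N * p)) :
    (isl k !![(p : ℤ), 0; 0, 1] f) ∣[k] γ = isl k !![(p : ℤ), 0; 0, 1] (f ∣[k] γ) := by
  obtain ⟨γ', h0, h1, h2, h3⟩ := conj_delta hp hγ
  have hN : γ ∈ Gamma0 N := Gamma0_mono (dvd_mul_right N p) hγ
  calc (isl k !![(p : ℤ), 0; 0, 1] f) ∣[k] γ = isl k (!![(p : ℤ), 0; 0, 1] * γ.1) f := by
        rw [isl_mul _ _ _ (delta_det hp) (SL_det_ne γ), isl_SL]
    _ = isl k (γ'.1 * !![(p : ℤ), 0; 0, 1]) f := by rw [h3]
    _ = isl k !![(p : ℤ), 0; 0, 1] (f ∣[k] γ') := by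
        rw [isl_mul _ _ _ (SL_det_ne γ') (delta_det hp), isl_SL]
    _ = isl k !![(p : ℤ), 0; 0, 1] (f ∣[k] γ) := by rw [slash_eq_of_lr hf h0 hN h1]

/-- `V_p` up to the scalar `p^{k-1}`. -/
noncomputable def Vop (N : ℕ) [NeZero N] (k p : ℕ) [NeZero (N * p)] (hp : p ≠ 0) :
    MF N k →ₗ[ℂ] MF (N * p) k where
  toFun f :=
    { toFun := isl k !![(p : ℤ), 0; 0, 1] f
      slash_action_eq' := by
        rintro _ ⟨Y, hY, rfl⟩
        have h := delta_slash (k := (k : ℤ)) hp (inv1_mf f) (Gamma1_in_Gamma0 _ hY)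
        rw [inv1_mf f Y (Gamma1_mono (dvd_mul_right N p) hY)] at h
        exact h
      holo' := isl_mdiff _ _ (ModularFormClass.holo f)
      bdd_at_cusps' := by
        intro c hc
        refine bdd_isl f _ (delta_det hp) ?_
        rw [Subgroup.IsArithmetic.isCusp_iff_isCusp_SL2Z] at hc ⊢
        exact hc }
  map_add' f f' := by
    ext z
    change isl k _ (⇑(f + f')) z = isl k _ f z + isl k _ f' z
    rw [FunLike.coe_add, isl_add]; rfl
  map_smul' c f := by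
    ext z
    change isl k _ (⇑(c • f)) z = c • (isl k _ f z)
    rw [FunLike.coe_smul, isl_smul]
    · rfl
    · rw [Matrix.det_fin_two_of]
      have : (0 : ℤ) < p := by exact_mod_cast Nat.pos_of_ne_zero hp
      simpa using this

@[simp] lemma Vop_coe (N : ℕ) [NeZero N] (k p : ℕ) [NeZero (N * p)] (hp : p ≠ 0) (f : MF N k) :
    ⇑(Vop N k p hp f) = isl k !![(p : ℤ), 0; 0, 1] f := rfl

lemma an_Vop (N : ℕ) [NeZero N] (k p : ℕ) [NeZero (N * p)] (hp : p ≠ 0) (f : MF N k) (n : ℕ) :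
    an (Vop N k p hp f) n = if p ∣ n then (p : ℂ) ^ ((k : ℤ) - 1) * an f (n / p) else 0 := by
  apply an_unique
  intro τ
  rw [Vop_coe, isl_of _ _ (delta_det hp), ← lowerMat_eq p hp (delta_det hp)]
  exact hasSum_lower (k : ℤ) (hasSum_an f) hp τ

/-- depletion at `p ∣ N` -/
noncomputable def depP (N : ℕ) [NeZero N] (k p : ℕ) [NeZero (N * p)] (hp : p.Prime) (hN : p ∣ N) :
    MF N k →ₗ[ℂ] MF (N * p) k :=
  lvl (dvd_mul_right N p) k -
    (p : ℂ) ^ (1 - (k : ℤ)) • ((Vop N k p hp.ne_zero) ∘ₗ (Up N k p hp hN))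

lemma an_sub {N : ℕ} [NeZero N] {k : ℕ} (f g : MF N k) (n : ℕ) : an (f - g) n = an f n - an g n := by
  have := congrArg (PowerSeries.coeff n) (qs_sub f g)
  simpa using this

lemma an_depP (N : ℕ) [NeZero N] (k p : ℕ) [NeZero (N * p)] (hp : p.Prime) (hN : p ∣ N)
    (f : MF N k) (n : ℕ) : an (depP N k p hp hN f) n = if p ∣ n then 0 else an f n := by
  rw [depP, LinearMap.sub_apply, LinearMap.smul_apply, LinearMap.comp_apply, an_sub, an_smul,
    an_lvl, an_Vop]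
  split_ifs with h
  · obtain ⟨m, rfl⟩ := h
    rw [Nat.mul_div_cancel_left _ hp.pos, an_Up, ← mul_assoc,
      ← zpow_add₀ (by exact_mod_cast hp.ne_zero : (p : ℂ) ≠ 0)]
    rw [show 1 - (k : ℤ) + ((k : ℤ) - 1) = 0 by ring, _root_.zpow_zero, one_mul, sub_self]
  · rw [mul_zero, sub_zero]

lemma depP_Dop (N : ℕ) [NeZero N] (k p : ℕ) [NeZero (N * p)] (hp : p.Prime) (hN : p ∣ N)
    {γ : SL(2, ℤ)} (hγ : γ ∈ Gamma0 (N * p)) (hγ' : γ ∈ Gamma0 N) (f : MF N k) :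
    Dop (N * p) k γ hγ (depP N k p hp hN f) = depP N k p hp hN (Dop N k γ hγ' f) := by
  have h1 : Dop (N * p) k γ hγ (lvl (dvd_mul_right N p) k f) =
      lvl (dvd_mul_right N p) k (Dop N k γ hγ' f) := by
    apply DFunLike.coe_injective; rfl
  have h2 : ∀ G : MF N k, Dop (N * p) k γ hγ (Vop N k p hp.ne_zero G) =
      Vop N k p hp.ne_zero (Dop N k γ hγ' G) := by
    intro G
    apply DFunLike.coe_injective
    rw [Dop_coe, Vop_coe, Vop_coe, Dop_coe]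
    exact delta_slash hp.ne_zero (inv1_mf G) hγ
  simp only [depP, LinearMap.sub_apply, LinearMap.smul_apply, LinearMap.comp_apply, map_sub, map_smul]
  rw [h1, h2, Up_Dop]

/-! ### all primes of `N` -/

/-- transport along an equality of levels -/
noncomputable def castL {A B : ℕ} (h : A = B) (k : ℕ) : MF A k →ₗ[ℂ] MF B k := by
  subst h; exact LinearMap.id

lemma castL_coe {A B : ℕ} (h : A = B) (k : ℕ) (f : MF A k) : ⇑(castL h k f) = ⇑f := by
  subst h; rfl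

lemma an_castL {A B : ℕ} (h : A = B) (k : ℕ) (f : MF A k) (n : ℕ) : an (castL h k f) n = an f n := by
  subst h; rfl

lemma exists_depS (N : ℕ) [NeZero N] (k : ℕ) (s : Finset ℕ) :
    ∀ (_ : ∀ p ∈ s, p.Prime ∧ p ∣ N) [NeZero (N * ∏ p ∈ s, p)],
    ∃ Q : MF N k →ₗ[ℂ] MF (N * ∏ p ∈ s, p) k,
      (∀ f n, an (Q f) n = if ∃ p ∈ s, p ∣ n then 0 else an f n) ∧
      (∀ (γ : SL(2, ℤ)) (hγ : γ ∈ Gamma0 (N * ∏ p ∈ s, p)) (hγ' : γ ∈ Gamma0 N) (f : MF N k),
        Dop (N * ∏ p ∈ s, p) k γ hγ (Q f) = Q (Dop N k γ hγ' f)) := by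
  classical
  induction s using Finset.induction_on with
  | empty =>
    intro _ inst2
    refine ⟨lvl (dvd_mul_right _ _) k, ?_, ?_⟩
    · intro f n
      rw [an_lvl, if_neg (by simp)]
    · intro γ hγ hγ' f
      apply DFunLike.coe_injective; rfl
  | insert p s hps ih =>
    intro hs inst2
    have hp : p.Prime := (hs p (Finset.mem_insert_self p s)).1
    have hpN : p ∣ N := (hs p (Finset.mem_insert_self p s)).2
    have hs' : ∀ q ∈ s, q.Prime ∧ q ∣ N := fun q hq => hs q (Finset.mem_insert_of_mem hq)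
    have i1 : NeZero (N * ∏ q ∈ s, q) :=
      ⟨mul_ne_zero (NeZero.ne N) (Finset.prod_ne_zero_iff.mpr fun q hq => (hs' q hq).1.ne_zero)⟩
    obtain ⟨Q, hQ1, hQ2⟩ := ih hs'
    have hlev : (N * ∏ q ∈ s, q) * p = N * ∏ q ∈ insert p s, q := by
      rw [Finset.prod_insert hps]; ring
    have i2 : NeZero ((N * ∏ q ∈ s, q) * p) := ⟨mul_ne_zero i1.1 hp.ne_zero⟩
    have hpd : p ∣ N * ∏ q ∈ s, q := hpN.mul_right _
    refine ⟨castL hlev k ∘ₗ depP (N * ∏ q ∈ s, q) k p hp hpd ∘ₗ Q, ?_, ?_⟩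
    · intro f n
      rw [LinearMap.comp_apply, LinearMap.comp_apply, an_castL, an_depP, hQ1]
      by_cases h1 : p ∣ n
      · rw [if_pos h1, if_pos ⟨p, Finset.mem_insert_self p s, h1⟩]
      · rw [if_neg h1]
        by_cases h2 : ∃ q ∈ s, q ∣ n
        · obtain ⟨q, hq, hqn⟩ := h2
          rw [if_pos ⟨q, hq, hqn⟩, if_pos ⟨q, Finset.mem_insert_of_mem hq, hqn⟩]
        · rw [if_neg h2, if_neg]
          rintro ⟨q, hq, hqn⟩
          rcases Finset.mem_insert.mp hq with rfl | hq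
          · exact h1 hqn
          · exact h2 ⟨q, hq, hqn⟩
    · intro γ hγ hγ' f
      have hγ2 : γ ∈ Gamma0 ((N * ∏ q ∈ s, q) * p) := by rw [hlev]; exact hγ
      have hγ3 : γ ∈ Gamma0 (N * ∏ q ∈ s, q) := Gamma0_mono (dvd_mul_right _ _) hγ2
      apply DFunLike.coe_injective
      have e1 : ∀ G, ⇑((castL hlev k ∘ₗ depP (N * ∏ q ∈ s, q) k p hp hpd ∘ₗ Q) G) =
          ⇑(depP (N * ∏ q ∈ s, q) k p hp hpd (Q G)) := fun G => castL_coe hlev k _
      rw [Dop_coe, e1, e1, ← Dop_coe (N := (N * ∏ q ∈ s, q) * p) (g := γ) (hg := hγ2),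
        depP_Dop _ _ _ _ _ hγ2 hγ3, hQ2 γ hγ3 hγ']

/-- `N · rad N` -/
def Nrad (N : ℕ) : ℕ := N * ∏ p ∈ N.primeFactors, p

instance Nrad.neZero (N : ℕ) [NeZero N] : NeZero (Nrad N) :=
  ⟨mul_ne_zero (NeZero.ne N) (Finset.prod_ne_zero_iff.mpr fun q hq =>
    (Nat.prime_of_mem_primeFactors hq).ne_zero)⟩

lemma dvd_Nrad (N : ℕ) : N ∣ Nrad N := dvd_mul_right _ _

lemma Nrad_odd {N : ℕ} (hN : ¬ 2 ∣ N) : ¬ 2 ∣ Nrad N := by
  intro h
  rw [Nrad, Nat.prime_two.dvd_mul] at h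
  rcases h with h | h
  · exact hN h
  · rw [Prime.dvd_finsetProd_iff Nat.prime_two.prime] at h
    obtain ⟨q, hq, h2⟩ := h
    have hqp := Nat.prime_of_mem_primeFactors hq
    rw [Nat.prime_dvd_prime_iff_eq Nat.prime_two hqp] at h2
    subst h2
    exact hN (Nat.dvd_of_mem_primeFactors hq)

lemma exists_DepN (N : ℕ) [NeZero N] (k : ℕ) :
    ∃ Q : MF N k →ₗ[ℂ] MF (Nrad N) k,
      (∀ f n, an (Q f) n = if n.Coprime N then an f n else 0) ∧
      (∀ (γ : SL(2, ℤ)) (hγ : γ ∈ Gamma0 (Nrad N)) (hγ' : γ ∈ Gamma0 N) (f : MF N k),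
        Dop (Nrad N) k γ hγ (Q f) = Q (Dop N k γ hγ' f)) := by
  have hs : ∀ p ∈ N.primeFactors, p.Prime ∧ p ∣ N := fun p hp =>
    ⟨Nat.prime_of_mem_primeFactors hp, Nat.dvd_of_mem_primeFactors hp⟩
  have i : NeZero (N * ∏ p ∈ N.primeFactors, p) := Nrad.neZero N
  obtain ⟨Q, h1, h2⟩ := exists_depS N k N.primeFactors hs
  refine ⟨Q, fun f n => (h1 f n).trans ?_, h2⟩
  by_cases hc : n.Coprime N
  · rw [if_pos hc, if_neg]
    rintro ⟨p, hp, hpn⟩
    have := Nat.Coprime.eq_one_of_dvd (Nat.Coprime.coprime_dvd_left hpn hc) (hs p hp).2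
    exact (hs p hp).1.one_lt.ne' this
  · rw [if_neg hc, if_pos]
    obtain ⟨p, hp, h3, h4⟩ := Nat.Prime.not_coprime_iff_dvd.mp hc
    exact ⟨p, Nat.mem_primeFactors.mpr ⟨hp, h4, NeZero.ne N⟩, h3⟩

/-- **Depletion at the primes of `N`.** -/
noncomputable def DepN (N : ℕ) [NeZero N] (k : ℕ) : MF N k →ₗ[ℂ] MF (Nrad N) k :=
  (exists_DepN N k).choose

lemma an_DepN (N : ℕ) [NeZero N] (k : ℕ) (f : MF N k) (n : ℕ) :
    an (DepN N k f) n = if n.Coprime N then an f n else 0 := (exists_DepN N k).choose_spec.1 f n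

lemma DepN_Dop (N : ℕ) [NeZero N] (k : ℕ) {γ : SL(2, ℤ)} (hγ : γ ∈ Gamma0 (Nrad N))
    (hγ' : γ ∈ Gamma0 N) (f : MF N k) :
    Dop (Nrad N) k γ hγ (DepN N k f) = DepN N k (Dop N k γ hγ' f) :=
  (exists_DepN N k).choose_spec.2 γ hγ hγ' f

lemma AllS.depN {N : ℕ} [NeZero N] {S : Subring ℂ} {k : ℕ} {f : MF N k} (h : AllS S f) :
    AllS S (DepN N k f) := by
  intro γ hγ
  rw [DepN_Dop N k hγ (Gamma0_mono (dvd_Nrad N) hγ)]
  intro n
  rw [coeff_qs, an_DepN]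
  split_ifs
  · have := h γ (Gamma0_mono (dvd_Nrad N) hγ) n
    rwa [coeff_qs] at this
  · exact S.zero_mem

/-! ### the complete depletion operator -/

/-- **The depletion operator** `M_k(Γ₁(N)) → M_{k+12r}(Γ₁(N rad N))`. -/
noncomputable def Pdep (N : ℕ) [NeZero N] (hN : ¬ 2 ∣ N) (k r : ℕ) (g : SL(2, ℤ))
    (hg : IsDiam N 2 g) : MF N k →ₗ[ℂ] MF (Nrad N) (k + 4 * r + 4 * (2 * r)) :=
  DepN N (k + 4 * r + 4 * (2 * r)) ∘ₗ Dep2 N hN k r g hg

section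

variable {N : ℕ} [NeZero N] (hN : ¬ 2 ∣ N) {g : SL(2, ℤ)} (hg : IsDiam N 2 g)

lemma Pdep_Dop (k r : ℕ) {γ : SL(2, ℤ)} (hγ : γ ∈ Gamma0 (Nrad N)) (hγ' : γ ∈ Gamma0 N)
    (f : MF N k) :
    Dop (Nrad N) _ γ hγ (Pdep N hN k r g hg f) = Pdep N hN k r g hg (Dop N k γ hγ' f) := by
  rw [Pdep, LinearMap.comp_apply, DepN_Dop _ _ hγ hγ', Dep2_Dop, LinearMap.comp_apply]

/-- **DEP**: `a_n(P f) ≡ [gcd(n,2N)=1] a_n(f) mod 2^{m+1} S`. -/
theorem Pdep_congr {k m : ℕ} {S : Subring ℂ} (hk : k ≠ 0) (hm : k + m ≤ 4 * 2 ^ m) {f : MF N k}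
    (h : AllS S f) (n : ℕ) :
    ∃ c ∈ S, an (Pdep N hN k (2 ^ m) g hg f) n =
      (if n.Coprime (2 * N) then an f n else 0) + 2 ^ (m + 1) * c := by
  obtain ⟨e, he, h1⟩ := Dep2_congr hN hg hk hm h
  rw [Pdep, LinearMap.comp_apply, an_DepN]
  have h2 := congrArg (PowerSeries.coeff n) h1
  rw [coeff_qs, map_add, map_smul, odd, PowerSeries.coeff_mk, coeff_qs, smul_eq_mul] at h2
  by_cases hc : n.Coprime N
  · rw [if_pos hc]
    refine ⟨e.coeff n, he n, ?_⟩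
    rw [h2]
    congr 1
    by_cases h2n : 2 ∣ n
    · rw [if_pos h2n, if_neg]
      intro h3
      have := Nat.Coprime.eq_one_of_dvd (Nat.Coprime.coprime_dvd_left h2n h3) (dvd_mul_right 2 N)
      omega
    · rw [if_neg h2n, if_pos]
      have h4 : n.Coprime 2 := ((Nat.Prime.coprime_iff_not_dvd Nat.prime_two).mpr h2n).symm
      exact Nat.Coprime.mul_right h4 hc
  · rw [if_neg hc]
    refine ⟨0, S.zero_mem, ?_⟩
    rw [if_neg]
    · simp
    · intro h3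
      exact hc (Nat.Coprime.coprime_dvd_right (dvd_mul_left N 2) h3)

/-- rationality of `P f` -/
lemma AllS.pdep {S : Subring ℂ} (hS : (2 : ℂ)⁻¹ ∈ S) {k r : ℕ} (hk : k ≠ 0) {f : MF N k}
    (h : AllS S f) : AllS S (Pdep N hN k r g hg f) := by
  rw [Pdep, LinearMap.comp_apply]
  exact (h.dep2 hN hg hS hk).depN

/-- **(I3)** in the form used by EMB: for every `m` and every bound `K` on the weights there are
`w` divisible by `2^(m+1)` and linear operators `P i : M_i(Γ₁(N)) → M_{i+w}(Γ₁(N rad N))`,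
`1 ≤ i ≤ K`. -/
theorem exists_dep (N : ℕ) [NeZero N] (hN : ¬ 2 ∣ N) (m K : ℕ) :
    ∃ w : ℕ, 2 ^ (m + 1) ∣ w ∧ ∃ P : (i : ℕ) → MF N i →ₗ[ℂ] MF (Nrad N) (i + w),
      (∀ (i : ℕ) (γ : SL(2, ℤ)) (hγ : γ ∈ Gamma0 (Nrad N)) (hγ' : γ ∈ Gamma0 N) (f : MF N i),
        Dop (Nrad N) (i + w) γ hγ (P i f) = P i (Dop N i γ hγ' f)) ∧
      (∀ (S : Subring ℂ) (i : ℕ), 1 ≤ i → i ≤ K → ∀ f : MF N i, AllS S f → ∀ n, ∃ c ∈ S,
        an (P i f) n = (if n.Coprime (2 * N) then an f n else 0) + 2 ^ (m + 1) * c) ∧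
      (∀ (S : Subring ℂ), (2 : ℂ)⁻¹ ∈ S → ∀ (i : ℕ), 1 ≤ i → ∀ f : MF N i, AllS S f →
        AllS S (P i f)) := by
  obtain ⟨g, hg⟩ := exists_isDiam (N := N) (d := 2)
    ((Nat.Prime.coprime_iff_not_dvd Nat.prime_two).mpr hN)
  -- choose a large exponent
  have hlin : ∀ j : ℕ, j ≤ 2 ^ j := fun j => (Nat.lt_two_pow_self).le
  let M := m + K
  let r := 2 ^ M
  have hM : ∀ i, i ≤ K → i + M ≤ 4 * 2 ^ M := by
    intro i hi
    have := hlin M
    have h2 : K ≤ M := by omega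
    omega
  have hcast : ∀ i : ℕ, i + 4 * r + 4 * (2 * r) = i + 12 * r := fun i => by ring
  -- transport of weights
  let cw : (i : ℕ) → MF (Nrad N) (i + 4 * r + 4 * (2 * r)) →ₗ[ℂ] MF (Nrad N) (i + 12 * r) :=
    fun i =>
    { toFun := fun f => ModularForm.mcast (by rw [hcast i]) f
      map_add' := fun f f' => by ext z; rfl
      map_smul' := fun c f => by ext z; rfl }
  have hcw : ∀ i (f : MF (Nrad N) (i + 4 * r + 4 * (2 * r))), ⇑(cw i f) = ⇑f := fun i f => rfl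
  have hcwan : ∀ i (f : MF (Nrad N) (i + 4 * r + 4 * (2 * r))) n, an (cw i f) n = an f n :=
    fun i f n => rfl
  have hcwD : ∀ i (γ : SL(2, ℤ)) (hγ : γ ∈ Gamma0 (Nrad N))
      (f : MF (Nrad N) (i + 4 * r + 4 * (2 * r))),
      Dop (Nrad N) (i + 12 * r) γ hγ (cw i f) = cw i (Dop (Nrad N) _ γ hγ f) := by
    intro i γ hγ f
    apply DFunLike.coe_injective
    rw [Dop_coe, hcw, hcw, Dop_coe]
    have e : ((i + 12 * r : ℕ) : ℤ) = ((i + 4 * r + 4 * (2 * r) : ℕ) : ℤ) := by push_cast; ring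
    exact congrArg (fun w : ℤ => (⇑f) ∣[w] γ) e
  refine ⟨12 * r, ?_, fun i => cw i ∘ₗ Pdep N hN i r g hg, ?_, ?_, ?_⟩
  · refine (pow_dvd_pow 2 (show m + 1 ≤ M + 1 by omega)).trans ⟨6, ?_⟩
    rw [pow_succ]; ring
  · intro i γ hγ hγ' f
    rw [LinearMap.comp_apply, hcwD, Pdep_Dop hN hg i r hγ hγ', LinearMap.comp_apply]
  · intro S i h1 hi f hf n
    obtain ⟨c, hc, h2⟩ := Pdep_congr hN hg (m := M) (by omega : i ≠ 0) (hM i hi) hf n
    refine ⟨2 ^ (M - m) * c, S.mul_mem (S.pow_mem (Cg.two_mem S) _) hc, ?_⟩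
    rw [LinearMap.comp_apply, hcwan, h2, ← mul_assoc, ← pow_add]
    congr 3
    omega
  · intro S hS i h1 f hf γ hγ
    have := hf.pdep hN hg hS (r := r) (by omega : i ≠ 0) γ hγ
    rw [LinearMap.comp_apply, hcwD]
    intro n
    have h3 := this n
    rw [coeff_qs] at h3 ⊢
    rwa [hcwan]

end

end Crest.Agent.R007.Op
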