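import Crest.Agent.R007.Dep
import Crest.Agent.R007.OpU

/-! Row 7, node DEP for EMB (helper668): the depletion operator in the form used by `helper7`. -/

set_option autoImplicit false

namespace Crest.Agent.R007.Op

open Matrix UpperHalfPlane ModularForm CongruenceSubgroup Matrix.SpecialLinearGroup
open scoped MatrixGroups ModularForm Manifold Pointwise
open Crest.NumberTheoryR.HeckeTwoAdic

lemma allS_iff_an {N : ℕ} [NeZero N] {S : Subring ℂ} {k : ℕ} {f : MF N k} :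
    AllS S f ↔ ∀ (g : SL(2, ℤ)) (hg : g ∈ Gamma0 N) (n : ℕ), an (Dop N k g hg f) n ∈ S := by
  constructor
  · intro h g hg n
    have := h g hg n
    rwa [coeff_qs] at this
  · intro h g hg n
    rw [coeff_qs]
    exact h g hg n

/-- every element of `Γ₀(N)` is a diamond for some `d` prime to `N`. -/
lemma exists_diam_of_mem {N : ℕ} [NeZero N] {g : SL(2, ℤ)} (hg : g ∈ Gamma0 N) :
    ∃ d : ℕ, d.Coprime N ∧ IsDiam N d g := by
  have hu : IsUnit ((g.1 1 1 : ℤ) : ZMod N) := by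
    have h10 : ((g.1 1 0 : ℤ) : ZMod N) = 0 := Gamma0_mem.mp hg
    have hdet := congrArg (fun z : ℤ => (z : ZMod N)) ((Matrix.det_fin_two g.1).symm.trans g.2)
    push_cast at hdet
    rw [h10, mul_zero, sub_zero] at hdet
    exact IsUnit.of_mul_eq_one _ (by rw [mul_comm]; exact hdet)
  refine ⟨((g.1 1 1 : ℤ) : ZMod N).val, ?_, hg, ?_⟩
  · obtain ⟨u, hu⟩ := hu
    rw [← hu]
    exact ZMod.val_coe_unit_coprime u
  · rw [ZMod.natCast_val, ZMod.cast_id]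

lemma allS_iff_diam {N : ℕ} [NeZero N] {D : ℕ → (i : ℕ) → (MF N i →ₗ[ℂ] MF N i)}
    (hD : IsDiamondFamily N D) {S : Subring ℂ} {k : ℕ} {f : MF N k} :
    AllS S f ↔ ∀ d : ℕ, d.Coprime N → ∀ n : ℕ, an (D d k f) n ∈ S := by
  rw [allS_iff_an]
  constructor
  · intro h d hd n
    obtain ⟨g, hg⟩ := exists_isDiam hd
    rw [D_eq_Dop hD hg]
    exact h g hg.1 n
  · intro h g hg n
    obtain ⟨d, hd, hdg⟩ := exists_diam_of_mem hg
    have := h d hd n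
    rwa [D_eq_Dop hD hdg] at this

lemma AllS.mono {N : ℕ} [NeZero N] {S S' : Subring ℂ} (hS : S ≤ S') {k : ℕ} {f : MF N k}
    (h : AllS S f) : AllS S' f := fun γ hγ n => hS (h γ hγ n)

/-- **(I3)**, form for EMB. `i : Fin k` stands for the weight `i + 1`. -/
theorem exists_dep_fin (N : ℕ) [NeZero N] (hN : ¬ 2 ∣ N) (m k : ℕ) :
    ∃ w : ℕ, 2 ^ (m + 1) ∣ w ∧
      ∃ P : (i : Fin k) → MF N ((i : ℕ) + 1) →ₗ[ℂ] MF (Nrad N) ((i : ℕ) + 1 + w),
      (∀ (i : Fin k) (g : SL(2, ℤ)) (hg : g ∈ Gamma0 (Nrad N)) (hg' : g ∈ Gamma0 N)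
        (f : MF N ((i : ℕ) + 1)),
        Dop (Nrad N) ((i : ℕ) + 1 + w) g hg (P i f) = P i (Dop N ((i : ℕ) + 1) g hg' f)) ∧
      (∀ (i : Fin k) (g : SL(2, ℤ)), g ∈ Gamma0 (Nrad N) → ∀ f f1 : MF N ((i : ℕ) + 1),
        ⇑f1 = ⇑f ∣[(((i : ℕ) + 1 : ℕ) : ℤ)] g →
        ⇑(P i f1) = ⇑(P i f) ∣[(((i : ℕ) + 1 + w : ℕ) : ℤ)] g) ∧
      (∀ (S : Subring ℂ) (i : Fin k) (f : MF N ((i : ℕ) + 1)), AllS S f → ∀ n, ∃ c ∈ S,
        an (P i f) n = (if n.Coprime (2 * N) then an f n else 0) + 2 ^ (m + 1) * c) ∧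
      (∀ (S : Subring ℂ) (i : Fin k) (f : MF N ((i : ℕ) + 1)), AllS S ((2 : ℂ) ^ m • f) →
        ∀ n, ∃ c ∈ S, an (P i f) n = (if n.Coprime (2 * N) then an f n else 0) + 2 * c) ∧
      (∀ (S : Subring ℂ), (2 : ℂ)⁻¹ ∈ S → ∀ (i : Fin k) (f : MF N ((i : ℕ) + 1)), AllS S f →
        AllS S (P i f)) := by
  obtain ⟨w, hw, P, h1, h2, h3⟩ := exists_dep N hN m k
  refine ⟨w, hw, fun i => P ((i : ℕ) + 1), ?_, ?_, ?_, ?_, ?_⟩
  · intro i g hg hg' f
    exact h1 _ g hg hg' f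
  · intro i g hg f f1 hf
    have hg' : g ∈ Gamma0 N := Gamma0_mono (dvd_Nrad N) hg
    have e : f1 = Dop N ((i : ℕ) + 1) g hg' f := by
      apply DFunLike.coe_injective
      rw [Dop_coe]; exact hf
    rw [e, ← h1 _ g hg hg' f, Dop_coe]
  · intro S i f hf n
    exact h2 S _ (by omega) (by omega) f hf n
  · intro S i f hf n
    obtain ⟨c, hc, h⟩ := h2 S _ (by omega) (by omega) _ hf n
    refine ⟨c, hc, ?_⟩
    rw [map_smul, an_smul, an_smul] at h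
    have h2m : ((2 : ℂ) ^ m) ≠ 0 := pow_ne_zero _ two_ne_zero
    apply mul_left_cancel₀ h2m
    rw [h]
    split_ifs <;> ring
  · intro S hS i f hf
    exact h3 S hS _ (by omega) f hf

end Crest.Agent.R007.Op
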