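import Mathlib

/-!
Row 7, section B (helper707): abstract duality.
`T0` a commutative `F`-algebra with a descending chain of cofinite ideals `K k`, separated and
complete; `W0 c` = the space of functionals killing some `K k`, a `T0`-module; evaluation
`T0 → Module.Dual F (W0 c)` is bijective.
-/

set_option autoImplicit false

namespace Crest.Agent.R007.Du

/-- A descending chain of cofinite ideals, separated and complete. -/
structure Chain (F : Type*) (T0 : Type*) [Field F] [CommRing T0] [Algebra F T0] where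
  K : ℕ → Ideal T0
  anti : ∀ k, K (k + 1) ≤ K k
  fin : ∀ k, FiniteDimensional F (T0 ⧸ K k)
  sep : ∀ x, (∀ k, x ∈ K k) → x = 0
  compl : ∀ x : ℕ → T0, (∀ k, x (k + 1) - x k ∈ K k) → ∃ y, ∀ k, y - x k ∈ K k

section Duality

variable {F : Type*} {T0 : Type*} [Field F] [CommRing T0] [Algebra F T0] (c : Chain F T0)

theorem Chain.antitone : Antitone c.K := antitone_nat_of_succ_le c.anti

/-- The functionals killing some `K k`. -/
def W0sub : Submodule F (Module.Dual F T0) where
  carrier := {φ | ∃ k, ∀ x ∈ c.K k, φ x = 0}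
  zero_mem' := ⟨0, fun x _ => rfl⟩
  add_mem' := by
    rintro φ ψ ⟨k, hk⟩ ⟨l, hl⟩
    refine ⟨max k l, fun x hx => ?_⟩
    rw [LinearMap.add_apply, hk x (c.antitone (le_max_left k l) hx),
      hl x (c.antitone (le_max_right k l) hx), add_zero]
  smul_mem' := by
    rintro a φ ⟨k, hk⟩
    exact ⟨k, fun x hx => by rw [LinearMap.smul_apply, hk x hx, smul_zero]⟩

/-- The smooth dual of `T0`. -/
def W0 : Type _ := W0sub c

namespace W0

noncomputable instance : AddCommGroup (W0 c) := inferInstanceAs (AddCommGroup (W0sub c))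
noncomputable instance : Module F (W0 c) := inferInstanceAs (Module F (W0sub c))

variable {c}

/-- the functional underlying an element of `W0`. -/
def fn (w : W0 c) : Module.Dual F T0 := Subtype.val (p := fun x => x ∈ W0sub c) w

theorem ext {w w' : W0 c} (h : ∀ t, fn w t = fn w' t) : w = w' :=
  Subtype.ext (LinearMap.ext h)

theorem fn_smooth (w : W0 c) : ∃ k, ∀ x ∈ c.K k, fn w x = 0 := w.2

/-- build an element of `W0`. -/
def mk (φ : Module.Dual F T0) (h : ∃ k, ∀ x ∈ c.K k, φ x = 0) : W0 c := ⟨φ, h⟩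

@[simp] theorem fn_mk (φ : Module.Dual F T0) (h : ∃ k, ∀ x ∈ c.K k, φ x = 0) :
    fn (mk φ h) = φ := rfl

@[simp] theorem fn_add (w w' : W0 c) : fn (w + w') = fn w + fn w' := rfl
@[simp] theorem fn_zero : fn (0 : W0 c) = 0 := rfl
@[simp] theorem fn_neg (w : W0 c) : fn (-w) = - fn w := rfl
@[simp] theorem fn_sub (w w' : W0 c) : fn (w - w') = fn w - fn w' := rfl
@[simp] theorem fn_smulF (a : F) (w : W0 c) : fn (a • w) = a • fn w := rfl

noncomputable instance : SMul T0 (W0 c) where
  smul t w := mk ((fn w) ∘ₗ LinearMap.mulLeft F t) (by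
    obtain ⟨k, hk⟩ := fn_smooth w
    exact ⟨k, fun x hx => hk _ ((c.K k).mul_mem_left t hx)⟩)

@[simp] theorem fn_smul (t : T0) (w : W0 c) (x : T0) : fn (t • w) x = fn w (t * x) := rfl

noncomputable instance : Module T0 (W0 c) where
  one_smul w := ext fun x => by simp
  mul_smul s t w := ext fun x => by
    rw [fn_smul, fn_smul, fn_smul]; congr 1; ring
  smul_zero t := ext fun x => by simp
  smul_add t w w' := ext fun x => by simp
  add_smul s t w := ext fun x => by simp [add_mul]
  zero_smul w := ext fun x => by simp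

instance : IsScalarTower F T0 (W0 c) where
  smul_assoc a t w := ext fun x => by
    rw [fn_smul, fn_smulF, LinearMap.smul_apply, fn_smul, smul_mul_assoc, map_smul]

instance : SMulCommClass F T0 (W0 c) where
  smul_comm a t w := ext fun x => by
    rw [fn_smulF, LinearMap.smul_apply, fn_smul, fn_smul, fn_smulF, LinearMap.smul_apply]

end W0

/-- evaluation `T0 → (W0)^*`. -/
def evD (t : T0) : Module.Dual F (W0 c) where
  toFun w := W0.fn w t
  map_add' _ _ := rfl
  map_smul' _ _ := rfl

@[simp] theorem evD_apply (t : T0) (w : W0 c) : evD c t w = W0.fn w t := rfl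

theorem evD_mul (s t : T0) (w : W0 c) : evD c (s * t) w = evD c t (s • w) := rfl

/-- The element of `W0` given by a functional on `T0 ⧸ K k`. -/
noncomputable def ofLevel (k : ℕ) : Module.Dual F (T0 ⧸ c.K k) →ₗ[F] W0 c where
  toFun ψ := W0.mk (ψ ∘ₗ (Ideal.Quotient.mkₐ F (c.K k)).toLinearMap) ⟨k, fun x hx => by
    have : Ideal.Quotient.mk (c.K k) x = 0 := Ideal.Quotient.eq_zero_iff_mem.mpr hx
    rw [LinearMap.comp_apply, AlgHom.toLinearMap_apply, Ideal.Quotient.mkₐ_eq_mk, this, map_zero]⟩
  map_add' _ _ := rfl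
  map_smul' _ _ := rfl

theorem fn_ofLevel (k : ℕ) (ψ : Module.Dual F (T0 ⧸ c.K k)) (x : T0) :
    W0.fn (ofLevel c k ψ) x = ψ (Ideal.Quotient.mk _ x) := rfl

theorem exists_ofLevel (w : W0 c) (k : ℕ) (hk : ∀ x ∈ c.K k, W0.fn w x = 0) :
    ∃ ψ, ofLevel c k ψ = w := by
  have key : ∀ a b : T0, Ideal.Quotient.mk (c.K k) a = Ideal.Quotient.mk (c.K k) b →
      W0.fn w a = W0.fn w b := by
    intro a b h
    rw [← sub_eq_zero, ← map_sub]
    exact hk _ (Ideal.Quotient.eq.mp h)
  have hout : ∀ q : T0 ⧸ c.K k, Ideal.Quotient.mk (c.K k) (Quotient.out q) = q :=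
    fun q => Quotient.out_eq q
  refine ⟨{ toFun := fun q => W0.fn w (Quotient.out q), map_add' := fun a b => ?_,
            map_smul' := fun r a => ?_ }, ?_⟩
  · rw [← map_add]
    apply key
    rw [hout, map_add, hout, hout]
  · rw [RingHom.id_apply, ← map_smul]
    apply key
    rw [hout]
    have : Ideal.Quotient.mk (c.K k) (r • Quotient.out a) =
      r • Ideal.Quotient.mk (c.K k) (Quotient.out a) := rfl
    rw [this, hout]
  · apply W0.ext
    intro x
    rw [fn_ofLevel]
    exact key _ _ (hout _)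

theorem evD_injective : Function.Injective (evD c) := by
  have key : ∀ t : T0, (∀ w : W0 c, W0.fn w t = 0) → t = 0 := by
    intro t ht
    apply c.sep
    intro k
    rw [← Ideal.Quotient.eq_zero_iff_mem, ← Module.forall_dual_apply_eq_zero_iff F]
    intro ψ
    have := ht (ofLevel c k ψ)
    rwa [fn_ofLevel] at this
  intro s t hst
  rw [← sub_eq_zero]
  apply key
  intro w
  have := LinearMap.congr_fun hst w
  simp only [evD_apply] at this
  rw [map_sub, this, sub_self]

theorem evD_surjective : Function.Surjective (evD c) := by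
  intro Φ
  have h1 : ∀ k, ∃ x : T0, ∀ ψ : Module.Dual F (T0 ⧸ c.K k),
      ψ (Ideal.Quotient.mk _ x) = Φ (ofLevel c k ψ) := by
    intro k
    have := c.fin k
    obtain ⟨q, hq⟩ := (Module.evalEquiv F (T0 ⧸ c.K k)).surjective (Φ ∘ₗ ofLevel c k)
    obtain ⟨x, rfl⟩ := Ideal.Quotient.mk_surjective q
    refine ⟨x, fun ψ => ?_⟩
    have := LinearMap.congr_fun hq ψ
    rw [Module.evalEquiv_apply] at this
    exact this
  choose x hx using h1
  have h2 : ∀ k (w : W0 c), (∀ z ∈ c.K k, W0.fn w z = 0) → W0.fn w (x k) = Φ w := by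
    intro k w hw
    obtain ⟨ψ, rfl⟩ := exists_ofLevel c w k hw
    rw [fn_ofLevel, hx]
  obtain ⟨y, hy⟩ := c.compl x (by
    intro k
    rw [← Ideal.Quotient.eq_zero_iff_mem, ← Module.forall_dual_apply_eq_zero_iff F]
    intro ψ
    have e1 := h2 k (ofLevel c k ψ) (fun z hz => by
      rw [fn_ofLevel, Ideal.Quotient.eq_zero_iff_mem.mpr hz, map_zero])
    have e2 := h2 (k+1) (ofLevel c k ψ) (fun z hz => by
      rw [fn_ofLevel, Ideal.Quotient.eq_zero_iff_mem.mpr (c.anti k hz), map_zero])
    rw [fn_ofLevel] at e1 e2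
    rw [map_sub, map_sub, e1, e2, sub_self])
  refine ⟨y, LinearMap.ext fun w => ?_⟩
  obtain ⟨k, hk⟩ := W0.fn_smooth w
  rw [evD_apply, ← h2 k w hk, ← sub_eq_zero, ← map_sub]
  exact hk _ (hy k)

/-- **Duality.** `T0 → Dual(W0)` is bijective. -/
theorem evD_bijective : Function.Bijective (evD c) := ⟨evD_injective c, evD_surjective c⟩

/-- The kernel of the action of `T0` on `W0` is zero (faithfulness). -/
theorem smul_faithful (t : T0) (h : ∀ w : W0 c, t • w = 0) : t = 0 := by
  apply evD_injective c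
  refine LinearMap.ext fun w => ?_
  have := congrArg (fun v => W0.fn v 1) (h w)
  simp only [W0.fn_smul, mul_one, W0.fn_zero, LinearMap.zero_apply] at this
  rw [evD_apply, evD_apply, this, map_zero]

end Duality

end Crest.Agent.R007.Du
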