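import Crest.Agent.R007.Du1
import Crest.Agent.R007.BAlg3

/-!
Row 7, section B (helper707): inverse limits with onto transitions; closedness of finitely
generated ideals containing 2; the chain of `T ⧸ J`.
-/

set_option autoImplicit false

open CategoryTheory

namespace Crest.Agent.R007.Du

open BAlg (IsLim)

/-- König's lemma. -/
theorem konig (S : ℕ → Type) [∀ k, Finite (S k)] [∀ k, Nonempty (S k)] (f : ∀ k, S (k + 1) → S k) :
    ∃ s : ∀ k, S k, ∀ k, f k (s (k + 1)) = s k := by
  let G : ℕᵒᵖ ⥤ Type := Functor.ofOpSequence (X := S) (fun n => ↾(f n))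
  have h1 : ∀ j, Finite (G.obj j) := fun j => inferInstanceAs (Finite (S j.unop))
  have h2 : ∀ j, Nonempty (G.obj j) := fun j => inferInstanceAs (Nonempty (S j.unop))
  obtain ⟨s, hs⟩ := nonempty_sections_of_finite_inverse_system G
  refine ⟨fun k => s (Opposite.op k), fun k => ?_⟩
  have h3 : G.map (homOfLE (Nat.le_succ k)).op = ↾(f k) :=
    Functor.ofOpSequence_map_homOfLE_succ (X := S) (fun n => ↾(f n)) k
  have h4 := hs (homOfLE (Nat.le_succ k)).op
  rw [h3] at h4
  exact h4

section Lim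

variable {T : Type*} [CommRing T] {R : ℕ → Type} [∀ k, CommRing (R k)]
  {π : ∀ k, T →+* R k} {ρ : ∀ k, R (k + 1) →+* R k}

/-- sequences compatible below `n`. -/
theorem exists_partial (ρ : ∀ k, R (k + 1) →+* R k) (k : ℕ) (r : R k) :
    ∃ b : ∀ i, R i, b k = r ∧ ∀ i, i < k → ρ i (b (i + 1)) = b i := by
  induction k with
  | zero => exact ⟨Function.update 0 0 r, by simp, fun i hi => absurd hi (Nat.not_lt_zero i)⟩
  | succ k ih =>
    obtain ⟨b, hb, hc⟩ := ih (ρ k r)
    refine ⟨Function.update b (k + 1) r, by simp, fun i hi => ?_⟩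
    rcases Nat.lt_succ_iff_lt_or_eq.mp hi with h | rfl
    · rw [Function.update_of_ne (by omega), Function.update_of_ne (by omega)]
      exact hc i h
    · rw [Function.update_self, Function.update_of_ne (by omega), hb]

/-- **Extension lemma**: lift an element through the tower inside a predicate `P`. -/
theorem exists_lift (hT : IsLim π ρ) (P : ∀ k, R k → Prop)
    (hP : ∀ k x, P k x → ∃ y, P (k + 1) y ∧ ρ k y = x) (k0 : ℕ) (r : R k0) (hr : P k0 r) :
    ∃ x : T, π k0 x = r ∧ ∀ j, k0 ≤ j → P j (π j x) := by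
  classical
  obtain ⟨b0, hb0, hc0⟩ := exists_partial ρ k0 r
  let St : ℕ → Type := fun n => {b : ∀ i, R i // (∀ i, i < k0 + n → ρ i (b (i + 1)) = b i) ∧
    P (k0 + n) (b (k0 + n))}
  have hstep : ∀ n (s : St n), ∃ s' : St (n + 1), ∀ i, i ≤ k0 + n → s'.1 i = s.1 i := by
    intro n s
    obtain ⟨y, hy1, hy2⟩ := hP _ _ s.2.2
    refine ⟨⟨Function.update s.1 (k0 + n + 1) y, fun i hi => ?_, ?_⟩, fun i hi => ?_⟩
    · rcases Nat.lt_succ_iff_lt_or_eq.mp (show i < k0 + n + 1 from hi) with h | rfl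
      · rw [Function.update_of_ne (by omega), Function.update_of_ne (by omega)]
        exact s.2.1 i h
      · rw [Function.update_self, Function.update_of_ne (by omega), hy2]
    · change P (k0 + n + 1) (Function.update s.1 (k0 + n + 1) y (k0 + n + 1))
      rw [Function.update_self]; exact hy1
    · dsimp only
      rw [Function.update_of_ne (by omega)]
  choose nxt hnxt using hstep
  let s0 : St 0 := ⟨b0, fun i hi => hc0 i hi, by
    change P k0 (b0 k0)
    rw [hb0]; exact hr⟩
  let s : ∀ n, St n := fun n => Nat.rec s0 (fun n s => nxt n s) n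
  have hs : ∀ n i, i ≤ k0 + n → (s (n + 1)).1 i = (s n).1 i := fun n i hi => hnxt n (s n) i hi
  have hs' : ∀ m n i, i ≤ k0 + n → (s (n + m)).1 i = (s n).1 i := by
    intro m
    induction m with
    | zero => intro n i _; rfl
    | succ m ih => intro n i hi; rw [← ih n i hi]; exact hs (n + m) i (by omega)
  obtain ⟨x, hx⟩ := hT.lift (fun i => (s i).1 i) (fun i => by
    have h1 := (s (i + 1)).2.1 i (by omega)
    rw [h1, ← hs' 1 i i (by omega)])
  refine ⟨x, ?_, fun j hj => ?_⟩
  · rw [hx]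
    have := hs' k0 0 k0 (by omega)
    rw [zero_add] at this
    rw [this]
    exact hb0
  · rw [hx]
    obtain ⟨n, rfl⟩ := Nat.exists_eq_add_of_le hj
    have h1 := hs' k0 n (k0 + n) le_rfl
    rw [add_comm n k0] at h1
    rw [h1]
    exact (s n).2.2

theorem pi_surjective (hT : IsLim π ρ) (hρ : ∀ k, Function.Surjective (ρ k)) (k : ℕ) :
    Function.Surjective (π k) := by
  intro r
  obtain ⟨x, hx, _⟩ := exists_lift hT (fun _ _ => True)
    (fun k x _ => by obtain ⟨y, hy⟩ := hρ k x; exact ⟨y, trivial, hy⟩) k r trivial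
  exact ⟨x, hx⟩

/-- kernels of the projections. -/
theorem ker_anti (hT : IsLim π ρ) (k : ℕ) : RingHom.ker (π (k + 1)) ≤ RingHom.ker (π k) := by
  intro x hx
  rw [RingHom.mem_ker] at hx ⊢
  rw [← hT.comp, hx, map_zero]

/-- elements of `T` congruent to given compatible classes modulo 2. -/
theorem exists_mod (hT : IsLim π ρ) (hρ : ∀ k, Function.Surjective (ρ k))
    (v : ∀ k, R k ⧸ Ideal.span {(2 : R k)})
    (hv : ∀ k (r : R (k + 1)), Ideal.Quotient.mk _ r = v (k + 1) →
      Ideal.Quotient.mk _ (ρ k r) = v k) :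
    ∃ x : T, ∀ k, Ideal.Quotient.mk _ (π k x) = v k := by
  obtain ⟨r0, hr0⟩ := Ideal.Quotient.mk_surjective (v 0)
  obtain ⟨x, -, hx⟩ := exists_lift hT (fun k r => Ideal.Quotient.mk _ r = v k) (by
    intro k x hx
    obtain ⟨b, hb⟩ := Ideal.Quotient.mk_surjective (v (k + 1))
    have h1 := hv k b hb
    have h2 : ρ k b - x ∈ Ideal.span {(2 : R k)} := by
      rw [← Ideal.Quotient.eq_zero_iff_mem, map_sub, h1, hx, sub_self]
    obtain ⟨c, hc⟩ := Ideal.mem_span_singleton'.mp h2
    obtain ⟨c', rfl⟩ := hρ k c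
    refine ⟨b - c' * 2, ?_, ?_⟩
    · have : Ideal.Quotient.mk (Ideal.span {(2 : R (k+1))}) (c' * 2) = 0 := by
        rw [Ideal.Quotient.eq_zero_iff_mem]
        exact Ideal.mul_mem_left _ _ (Ideal.mem_span_singleton_self _)
      rw [map_sub, this, sub_zero, hb]
    · rw [map_sub, map_mul, map_ofNat, hc]
      ring) 0 r0 hr0
  exact ⟨x, fun k => hx k (Nat.zero_le k)⟩

/-- an element of `T` divisible by 2 on every stage is divisible by 2. -/
theorem two_dvd (hT : IsLim π ρ) (htf : ∀ k (x : R k), 2 * x = 0 → x = 0) (x : T)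
    (hx : ∀ k, π k x ∈ Ideal.span {(2 : R k)}) : ∃ z, x = 2 * z := by
  have h1 : ∀ k, ∃ w : R k, π k x = 2 * w := by
    intro k
    obtain ⟨c, hc⟩ := Ideal.mem_span_singleton'.mp (hx k)
    exact ⟨c, by rw [← hc, mul_comm]⟩
  choose w hw using h1
  obtain ⟨z, hz⟩ := hT.lift w (fun k => by
    rw [← sub_eq_zero]
    apply htf
    rw [mul_sub, ← hw k, ← hT.comp, hw (k + 1), map_mul, map_ofNat, sub_self])
  refine ⟨z, ?_⟩
  rw [← sub_eq_zero]
  apply hT.inj
  intro k
  rw [map_sub, map_mul, map_ofNat, hz, hw, sub_self]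

/-- **Closedness** of finitely generated ideals containing 2. -/
theorem closed_span (hT : IsLim π ρ) (hρ : ∀ k, Function.Surjective (ρ k))
    (hfin : ∀ k, Finite (R k ⧸ Ideal.span {(2 : R k)}))
    (htf : ∀ k (x : R k), 2 * x = 0 → x = 0) {ι : Type} [Finite ι] (y : ι → T) (x : T)
    (hx : ∀ k, π k x ∈ Ideal.span (insert (2 : R k) (Set.range (fun i => π k (y i))))) :
    x ∈ Ideal.span (insert (2 : T) (Set.range y)) := by
  classical
  cases nonempty_fintype ι
  let q : ∀ k, R k →+* R k ⧸ Ideal.span {(2 : R k)} := fun k => Ideal.Quotient.mk _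
  let S : ℕ → Type := fun k => {v : ι → R k ⧸ Ideal.span {(2 : R k)} //
    ∑ i, v i * q k (π k (y i)) = q k (π k x)}
  have hSfin : ∀ k, Finite (S k) := fun k => by
    have := hfin k
    exact Subtype.finite
  have hSne : ∀ k, Nonempty (S k) := by
    intro k
    have h1 := hx k
    rw [Ideal.span_insert, Submodule.mem_sup] at h1
    obtain ⟨a, ha, b, hb, hab⟩ := h1
    rw [Ideal.span, Submodule.mem_span_range_iff_exists_fun] at hb
    obtain ⟨c, hc⟩ := hb
    refine ⟨⟨fun i => q k (c i), ?_⟩⟩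
    have ha' : q k a = 0 := Ideal.Quotient.eq_zero_iff_mem.mpr ha
    rw [← hab, map_add, ha', zero_add, ← hc, map_sum]
    refine Finset.sum_congr rfl fun i _ => ?_
    rw [smul_eq_mul, map_mul]
  have hle : ∀ k, Ideal.span {(2 : R (k+1))} ≤ (Ideal.span {(2 : R k)}).comap (ρ k) := by
    intro k
    rw [Ideal.span_le, Set.singleton_subset_iff, SetLike.mem_coe, Ideal.mem_comap, map_ofNat]
    exact Ideal.mem_span_singleton_self _
  let qr : ∀ k, (R (k+1) ⧸ Ideal.span {(2 : R (k+1))}) →+* (R k ⧸ Ideal.span {(2 : R k)}) :=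
    fun k => Ideal.quotientMap _ (ρ k) (hle k)
  have hqr : ∀ k r, qr k (q (k+1) r) = q k (ρ k r) := fun k r => Ideal.quotientMap_mk
  obtain ⟨s, hs⟩ := konig S (fun k v => ⟨fun i => qr k (v.1 i), by
    have h1 := congrArg (qr k) v.2
    rw [map_sum, hqr, hT.comp] at h1
    rw [← h1]
    refine Finset.sum_congr rfl fun i _ => ?_
    rw [map_mul, hqr, hT.comp]⟩)
  have hz : ∀ i, ∃ z : T, ∀ k, q k (π k z) = (s k).1 i := by
    intro i
    apply exists_mod hT hρ (fun k => (s k).1 i)
    intro k r hr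
    change q (k+1) r = _ at hr
    change q k (ρ k r) = _
    rw [← hqr, hr]
    have := congrArg (fun v : S k => v.1 i) (hs k)
    exact this
  choose z hz using hz
  obtain ⟨w, hw⟩ := two_dvd hT htf (x - ∑ i, z i * y i) (fun k => by
    rw [← Ideal.Quotient.eq_zero_iff_mem]
    change q k _ = 0
    rw [map_sub, map_sub, ← (s k).2, map_sum, map_sum, sub_eq_zero]
    refine Finset.sum_congr rfl fun i _ => ?_
    rw [map_mul, map_mul, hz])
  have hx2 : x = 2 * w + ∑ i, z i * y i := by rw [← hw]; ring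
  rw [hx2]
  apply Ideal.add_mem
  · exact Ideal.mul_mem_right _ _ (Ideal.subset_span (Set.mem_insert _ _))
  · apply Ideal.sum_mem
    intro i _
    exact Ideal.mul_mem_left _ _ (Ideal.subset_span (Set.mem_insert_of_mem _ ⟨i, rfl⟩))

end Lim

end Crest.Agent.R007.Du
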