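import Mathlib
import Crest.Prelude.Def_HeckeTwo

/-!
Row 7, statement layer, part 1: integer matrices of determinant `ℓ`, the `ℓ + 1` representatives,
and the permutation they undergo under right multiplication.
-/

set_option autoImplicit false

open Matrix
open scoped MatrixGroups

namespace Crest.Agent.R007.HD

/-- representatives: `(1, j; 0, ℓ)` for `j < ℓ`, and `η * (ℓ, 0; 0, 1)`. -/
def rep (ℓ : ℕ) (η : SL(2, ℤ)) : Option (Fin ℓ) → Matrix (Fin 2) (Fin 2) ℤ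
  | some j => !![1, (j : ℤ); 0, (ℓ : ℤ)]
  | none => (η : Matrix (Fin 2) (Fin 2) ℤ) * !![(ℓ : ℤ), 0; 0, 1]

lemma det_rep (ℓ : ℕ) (η : SL(2, ℤ)) (i : Option (Fin ℓ)) : (rep ℓ η i).det = ℓ := by
  cases i with
  | none => simp [rep, Matrix.det_mul, Matrix.det_fin_two_of]
  | some j => simp [rep, Matrix.det_fin_two_of]

/-- existence of the representative of a matrix of determinant `ℓ` modulo left multiplication by
`SL(2, ℤ)`. -/
lemma exists_rep (ℓ : ℕ) (hℓ : ℓ.Prime) (η : SL(2, ℤ)) (δ : Matrix (Fin 2) (Fin 2) ℤ)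
    (hδ : δ.det = ℓ) : ∃ (i : Option (Fin ℓ)) (X : SL(2, ℤ)),
      δ = (X : Matrix (Fin 2) (Fin 2) ℤ) * rep ℓ η i := by
  have hp : Prime (ℓ : ℤ) := Nat.prime_iff_prime_int.mp hℓ
  have hℓ0 : (ℓ : ℤ) ≠ 0 := by exact_mod_cast hℓ.ne_zero
  have : NeZero ℓ := ⟨hℓ.ne_zero⟩
  have hd : δ 0 0 * δ 1 1 - δ 0 1 * δ 1 0 = ℓ := by rw [← Matrix.det_fin_two]; exact hδ
  -- it is enough to find `j` or infinity
  have key : (∃ j : Fin ℓ, (ℓ : ℤ) ∣ δ 0 1 - j * δ 0 0 ∧ (ℓ : ℤ) ∣ δ 1 1 - j * δ 1 0) ∨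
      ((ℓ : ℤ) ∣ δ 0 0 ∧ (ℓ : ℤ) ∣ δ 1 0) := by
    have : Fact ℓ.Prime := ⟨hℓ⟩
    by_cases h0 : (ℓ : ℤ) ∣ δ 0 0
    · by_cases h1 : (ℓ : ℤ) ∣ δ 1 0
      · exact Or.inr ⟨h0, h1⟩
      · left
        have hu : ((δ 1 0 : ℤ) : ZMod ℓ) ≠ 0 := by
          rwa [Ne, ZMod.intCast_zmod_eq_zero_iff_dvd]
        set x : ZMod ℓ := ((δ 1 1 : ℤ) : ZMod ℓ) * ((δ 1 0 : ℤ) : ZMod ℓ)⁻¹ with hx
        refine ⟨⟨x.val, ZMod.val_lt x⟩, ?_, ?_⟩
        · have h2 : (ℓ : ℤ) ∣ δ 0 1 := by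
            have h3 : (ℓ : ℤ) ∣ δ 0 1 * δ 1 0 := by
              have : δ 0 1 * δ 1 0 = δ 0 0 * δ 1 1 - ℓ := by linarith
              rw [this]
              exact dvd_sub (h0.mul_right _) (dvd_refl _)
            rcases hp.dvd_or_dvd h3 with h | h
            · exact h
            · exact absurd h h1
          exact dvd_sub h2 (h0.mul_left _)
        · rw [← ZMod.intCast_zmod_eq_zero_iff_dvd]
          push_cast
          rw [ZMod.natCast_zmod_val, hx, mul_assoc, inv_mul_cancel₀ hu, mul_one, sub_self]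
    · left
      have hu : ((δ 0 0 : ℤ) : ZMod ℓ) ≠ 0 := by
        rwa [Ne, ZMod.intCast_zmod_eq_zero_iff_dvd]
      set x : ZMod ℓ := ((δ 0 1 : ℤ) : ZMod ℓ) * ((δ 0 0 : ℤ) : ZMod ℓ)⁻¹ with hx
      refine ⟨⟨x.val, ZMod.val_lt x⟩, ?_, ?_⟩
      · rw [← ZMod.intCast_zmod_eq_zero_iff_dvd]
        push_cast
        rw [ZMod.natCast_zmod_val, hx, mul_assoc, inv_mul_cancel₀ hu, mul_one, sub_self]
      · rw [← ZMod.intCast_zmod_eq_zero_iff_dvd]
        push_cast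
        rw [ZMod.natCast_zmod_val, hx]
        have h4 : ((δ 0 0 : ℤ) : ZMod ℓ) * ((δ 1 1 : ℤ) : ZMod ℓ) =
            ((δ 0 1 : ℤ) : ZMod ℓ) * ((δ 1 0 : ℤ) : ZMod ℓ) := by
          have := congrArg (Int.cast : ℤ → ZMod ℓ) hd
          push_cast at this
          rw [ZMod.natCast_self] at this
          exact sub_eq_zero.mp this
        field_simp
        linear_combination h4
  rcases key with ⟨j, ⟨x, hx⟩, ⟨y, hy⟩⟩ | ⟨⟨x, hx⟩, ⟨y, hy⟩⟩
  · refine ⟨some j, ⟨!![δ 0 0, x; δ 1 0, y], ?_⟩, ?_⟩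
    · rw [Matrix.det_fin_two_of]
      have : (ℓ : ℤ) * (δ 0 0 * y - x * δ 1 0) = ℓ * 1 := by
        linear_combination hd - δ 0 0 * hy + δ 1 0 * hx
      exact mul_left_cancel₀ hℓ0 this
    · ext a b
      fin_cases a <;> fin_cases b <;> simp [rep, Matrix.mul_apply, Fin.sum_univ_two]
      · linear_combination hx
      · linear_combination hy
  · obtain ⟨Y, hY⟩ : ∃ Y : SL(2, ℤ), (Y : Matrix (Fin 2) (Fin 2) ℤ) = !![x, δ 0 1; y, δ 1 1] := by
      refine ⟨⟨!![x, δ 0 1; y, δ 1 1], ?_⟩, rfl⟩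
      rw [Matrix.det_fin_two_of]
      have : (ℓ : ℤ) * (x * δ 1 1 - δ 0 1 * y) = ℓ * 1 := by
        linear_combination hd - δ 1 1 * hx + δ 0 1 * hy
      exact mul_left_cancel₀ hℓ0 this
    refine ⟨none, Y * η⁻¹, ?_⟩
    have h1 : ((Y * η⁻¹ : SL(2, ℤ)) : Matrix (Fin 2) (Fin 2) ℤ) * rep ℓ η none =
        !![x, δ 0 1; y, δ 1 1] * !![(ℓ : ℤ), 0; 0, 1] := by
      rw [rep, ← Matrix.mul_assoc, ← Matrix.SpecialLinearGroup.coe_mul, inv_mul_cancel_right, hY]
    rw [h1]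
    ext a b
    fin_cases a <;> fin_cases b <;> simp [Matrix.mul_apply, Fin.sum_univ_two]
    · linear_combination hx
    · linear_combination hy

/-- uniqueness of the representative. -/
lemma rep_unique (ℓ : ℕ) (hℓ : ℓ.Prime) (η : SL(2, ℤ)) (i j : Option (Fin ℓ)) (X : SL(2, ℤ))
    (h : rep ℓ η i = (X : Matrix (Fin 2) (Fin 2) ℤ) * rep ℓ η j) : i = j := by
  have hℓ0 : (ℓ : ℤ) ≠ 0 := by exact_mod_cast hℓ.ne_zero
  have hℓ1 : ¬ (ℓ : ℤ) ∣ 1 := by
    intro h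
    have := Int.eq_one_of_dvd_one (by positivity) h
    exact hℓ.one_lt.ne' (by exact_mod_cast this)
  have hsome : ∀ (a : Fin ℓ) (Y : SL(2, ℤ)),
      ¬ (!![1, (a : ℤ); 0, (ℓ : ℤ)] = (Y : Matrix (Fin 2) (Fin 2) ℤ) * !![(ℓ : ℤ), 0; 0, 1]) := by
    intro a Y hY
    have := congrFun (congrFun hY 0) 0
    simp [Matrix.mul_apply, Fin.sum_univ_two] at this
    exact hℓ1 ⟨Y 0 0, by linarith⟩
  cases i with
  | none =>
    cases j with
    | none => rfl
    | some b =>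
      exfalso
      simp only [rep] at h
      refine hsome b (X⁻¹ * η) ?_
      rw [Matrix.SpecialLinearGroup.coe_mul, Matrix.mul_assoc, h, ← Matrix.mul_assoc,
        ← Matrix.SpecialLinearGroup.coe_mul, inv_mul_cancel]
      simp
  | some a =>
    cases j with
    | none =>
      exfalso
      simp only [rep] at h
      refine hsome a (X * η) ?_
      rw [Matrix.SpecialLinearGroup.coe_mul, Matrix.mul_assoc]
      exact h
    | some b =>
      simp only [rep] at h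
      have h00 := congrFun (congrFun h 0) 0
      have h10 := congrFun (congrFun h 1) 0
      have h01 := congrFun (congrFun h 0) 1
      have h11 := congrFun (congrFun h 1) 1
      simp [Matrix.mul_apply, Fin.sum_univ_two] at h00 h10 h01 h11
      have hab : (a : ℤ) - b = X 0 1 * ℓ := by rw [h01, ← h00]; ring
      have ha : (a : ℤ) < ℓ := by exact_mod_cast a.2
      have hb : (b : ℤ) < ℓ := by exact_mod_cast b.2
      have ha0 : (0 : ℤ) ≤ a := by positivity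
      have hb0 : (0 : ℤ) ≤ b := by positivity
      have hX : X 0 1 = 0 := by
        by_contra hne
        have hℓpos : (0 : ℤ) < ℓ := by exact_mod_cast hℓ.pos
        rcases lt_or_gt_of_ne hne with h | h
        · have : X 0 1 * ℓ ≤ (-1) * ℓ := mul_le_mul_of_nonneg_right (by omega) hℓpos.le
          linarith
        · have : 1 * ℓ ≤ X 0 1 * ℓ := mul_le_mul_of_nonneg_right (by omega) hℓpos.le
          linarith
      rw [hX, zero_mul, sub_eq_zero] at hab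
      congr 1
      exact Fin.ext (by exact_mod_cast hab)

end Crest.Agent.R007.HD
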