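import Mathlib
import Crest.Prelude.Def_HeckeTwo
import Crest.Agent.R007.HDCoset

/-!
Row 7, statement layer, part 2: slash action of integer matrices of positive determinant on
functions that are holomorphic and bounded at all rational cusps.
-/

set_option autoImplicit false

open Matrix UpperHalfPlane OnePoint Crest.NumberTheoryR.HeckeTwoAdic
open scoped MatrixGroups ModularForm Manifold

namespace Crest.Agent.R007.HD

/-- holomorphic and bounded at all rational cusps. -/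
def Good (k : ℤ) (F : ℍ → ℂ) : Prop :=
  MDifferentiable 𝓘(ℂ) 𝓘(ℂ) F ∧ ∀ c : OnePoint ℝ, IsCusp c 𝒮ℒ → c.IsBoundedAt F k

lemma Good.zero (k : ℤ) : Good k (0 : ℍ → ℂ) := by
  refine ⟨mdifferentiable_const, fun c _ g _ => ?_⟩
  rw [SlashAction.zero_slash]
  exact zero_form_isBoundedAtImInfty

lemma Good.add {k : ℤ} {F G : ℍ → ℂ} (hF : Good k F) (hG : Good k G) : Good k (F + G) :=
  ⟨hF.1.add hG.1, fun c hc => (hF.2 c hc).add (hG.2 c hc)⟩

lemma Good.sum {k : ℤ} {ι : Type*} (s : Finset ι) {F : ι → ℍ → ℂ} (hF : ∀ i ∈ s, Good k (F i)) :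
    Good k (∑ i ∈ s, F i) := by
  classical
  induction s using Finset.induction_on with
  | empty => simpa using Good.zero k
  | insert a s ha ih =>
    rw [Finset.sum_insert ha]
    exact (hF a (Finset.mem_insert_self _ _)).add
      (ih fun i hi => hF i (Finset.mem_insert_of_mem hi))

lemma Good.slashQ {k : ℤ} {F : ℍ → ℂ} (hF : Good k F) (g : GL (Fin 2) ℚ) :
    Good k (F ∣[k] (g.map (algebraMap ℚ ℝ))) := by
  refine ⟨hF.1.slash k _, fun c hc => ?_⟩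
  rw [← IsBoundedAt.smul_iff]
  apply hF.2
  rw [isCusp_SL2Z_iff] at hc ⊢
  obtain ⟨c, rfl⟩ := hc
  refine ⟨g • c, ?_⟩
  have := OnePoint.map_smul (algebraMap ℚ ℝ) g c
  exact this

/-- an integer matrix of non-zero determinant as an element of `GL(2, ℚ)`. -/
noncomputable def glQ (δ : Matrix (Fin 2) (Fin 2) ℤ) (h : δ.det ≠ 0) : GL (Fin 2) ℚ :=
  Matrix.GeneralLinearGroup.mkOfDetNeZero ((Int.castRingHom ℚ).mapMatrix δ) (by
    rw [← RingHom.map_det]; simpa using h)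

/-- an integer matrix of non-zero determinant as an element of `GL(2, ℝ)`. -/
noncomputable def gl (δ : Matrix (Fin 2) (Fin 2) ℤ) (h : δ.det ≠ 0) : GL (Fin 2) ℝ :=
  Matrix.GeneralLinearGroup.mkOfDetNeZero ((Int.castRingHom ℝ).mapMatrix δ) (by
    rw [← RingHom.map_det]; simpa using h)

lemma coe_gl (δ : Matrix (Fin 2) (Fin 2) ℤ) (h : δ.det ≠ 0) :
    ((gl δ h : GL (Fin 2) ℝ) : Matrix (Fin 2) (Fin 2) ℝ) = (Int.castRingHom ℝ).mapMatrix δ := rfl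

lemma glQ_map (δ : Matrix (Fin 2) (Fin 2) ℤ) (h : δ.det ≠ 0) :
    (glQ δ h).map (algebraMap ℚ ℝ) = gl δ h := by
  apply Units.ext
  ext a b
  simp [glQ, gl, Matrix.GeneralLinearGroup.mkOfDetNeZero]

lemma Good.slash {k : ℤ} {F : ℍ → ℂ} (hF : Good k F) (δ : Matrix (Fin 2) (Fin 2) ℤ)
    (h : δ.det ≠ 0) : Good k (F ∣[k] gl δ h) := by
  rw [← glQ_map]
  exact hF.slashQ _

lemma gl_congr {δ δ' : Matrix (Fin 2) (Fin 2) ℤ} (e : δ = δ') (h : δ.det ≠ 0) (h' : δ'.det ≠ 0) :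
    gl δ h = gl δ' h' := by subst e; rfl

lemma gl_mul (δ δ' : Matrix (Fin 2) (Fin 2) ℤ) (h : δ.det ≠ 0) (h' : δ'.det ≠ 0)
    (h'' : (δ * δ').det ≠ 0) : gl (δ * δ') h'' = gl δ h * gl δ' h' := by
  apply Units.ext
  rw [Units.val_mul, coe_gl, coe_gl, coe_gl, map_mul]

lemma gl_SL (γ : SL(2, ℤ)) (h : (γ : Matrix (Fin 2) (Fin 2) ℤ).det ≠ 0) :
    gl (γ : Matrix (Fin 2) (Fin 2) ℤ) h = (γ : GL (Fin 2) ℝ) := by
  apply Units.ext
  ext a b
  simp [gl, Matrix.GeneralLinearGroup.mkOfDetNeZero]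

lemma det_SL_ne (γ : SL(2, ℤ)) : (γ : Matrix (Fin 2) (Fin 2) ℤ).det ≠ 0 := by
  rw [γ.det_coe]; exact one_ne_zero

lemma Good.slashSL {k : ℤ} {F : ℍ → ℂ} (hF : Good k F) (γ : SL(2, ℤ)) : Good k (F ∣[k] γ) := by
  rw [ModularForm.SL_slash, ← gl_SL γ (det_SL_ne γ)]
  exact hF.slash _ _

lemma upperMat_eq (ℓ j : ℕ) (hℓ : ℓ ≠ 0) (h : (!![1, (j : ℤ); 0, (ℓ : ℤ)]).det ≠ 0) :
    upperMat ℓ j hℓ = gl !![1, (j : ℤ); 0, (ℓ : ℤ)] h := by
  apply Units.ext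
  ext a b
  fin_cases a <;> fin_cases b <;>
    simp [gl, upperMat, mat2, Matrix.GeneralLinearGroup.mkOfDetNeZero]

lemma lowerMat_eq (ℓ : ℕ) (hℓ : ℓ ≠ 0) (h : (!![(ℓ : ℤ), 0; 0, 1]).det ≠ 0) :
    lowerMat ℓ hℓ = gl !![(ℓ : ℤ), 0; 0, 1] h := by
  apply Units.ext
  ext a b
  fin_cases a <;> fin_cases b <;>
    simp [gl, lowerMat, mat2, Matrix.GeneralLinearGroup.mkOfDetNeZero]

lemma smul_slash_gl (k : ℤ) (c : ℂ) (F : ℍ → ℂ) (δ : Matrix (Fin 2) (Fin 2) ℤ) (h : 0 < δ.det) :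
    (c • F) ∣[k] gl δ h.ne' = c • (F ∣[k] gl δ h.ne') := by
  rw [ModularForm.smul_slash]
  congr 1
  have : 0 < (gl δ h.ne').det.val := by
    rw [Matrix.GeneralLinearGroup.val_det_apply, coe_gl, ← RingHom.map_det]
    simpa using h
  simp only [UpperHalfPlane.σ, this, if_true]
  rfl

section MF
variable {N : ℕ} [NeZero N]

lemma good_of_MF {i : ℕ} (f : MF N i) : Good (i : ℤ) (f : ℍ → ℂ) := by
  refine ⟨f.holo', fun c hc => ?_⟩
  apply f.bdd_at_cusps'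
  rw [Subgroup.IsArithmetic.isCusp_iff_isCusp_SL2Z]
  exact hc

lemma MF_inv {i : ℕ} (f : MF N i) (γ : SL(2, ℤ)) (hγ : γ ∈ CongruenceSubgroup.Gamma1 N) :
    (f : ℍ → ℂ) ∣[(i : ℤ)] γ = f := by
  rw [ModularForm.SL_slash]
  exact SlashInvariantFormClass.slash_action_eq f _ (Subgroup.mem_map_of_mem _ hγ)

/-- build an element of `MF N i`. -/
def mkMF {i : ℕ} (F : ℍ → ℂ) (hF : Good (i : ℤ) F)
    (hinv : ∀ γ ∈ CongruenceSubgroup.Gamma1 N, F ∣[(i : ℤ)] γ = F) : MF N i where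
  toFun := F
  slash_action_eq' := by
    rintro _ ⟨γ, hγ, rfl⟩
    exact hinv γ hγ
  holo' := hF.1
  bdd_at_cusps' := by
    intro c hc
    rw [Subgroup.IsArithmetic.isCusp_iff_isCusp_SL2Z] at hc
    exact hF.2 c hc

@[simp] lemma coe_mkMF {i : ℕ} (F : ℍ → ℂ) (hF : Good (i : ℤ) F)
    (hinv : ∀ γ ∈ CongruenceSubgroup.Gamma1 N, F ∣[(i : ℤ)] γ = F) :
    ((mkMF F hF hinv : MF N i) : ℍ → ℂ) = F := rfl

end MF

end Crest.Agent.R007.HD
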