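import Mathlib
import Crest.Prelude.Def_HeckeTwo
import Crest.Agent.R007.HDCoset
import Crest.Agent.R007.HDSlash

/-!
Row 7, statement layer, part 3: the Hecke and diamond operators on `MF N i` and their
commutation relations.
-/

set_option autoImplicit false

open Matrix UpperHalfPlane OnePoint Crest.NumberTheoryR.HeckeTwoAdic
open scoped MatrixGroups ModularForm Manifold

namespace Crest.Agent.R007.HD

section groups
variable {N : ℕ}

lemma mem_Gamma1_iff (A : SL(2, ℤ)) : A ∈ CongruenceSubgroup.Gamma1 N ↔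
    A ∈ CongruenceSubgroup.Gamma0 N ∧ ((A 1 1 : ℤ) : ZMod N) = 1 := by
  rw [CongruenceSubgroup.Gamma1_mem, CongruenceSubgroup.Gamma0_mem]
  constructor
  · rintro ⟨-, h2, h3⟩; exact ⟨h3, h2⟩
  · rintro ⟨h3, h2⟩
    refine ⟨?_, h2, h3⟩
    have hd : A 0 0 * A 1 1 - A 0 1 * A 1 0 = 1 := by
      rw [← Matrix.det_fin_two]; exact A.det_coe
    have := congrArg (Int.cast : ℤ → ZMod N) hd
    push_cast at this
    rw [h2, h3] at this
    simpa using this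

lemma lr_mul {A B : SL(2, ℤ)} (hA : A ∈ CongruenceSubgroup.Gamma0 N) :
    (((A * B) 1 1 : ℤ) : ZMod N) = ((A 1 1 : ℤ) : ZMod N) * ((B 1 1 : ℤ) : ZMod N) := by
  rw [CongruenceSubgroup.Gamma0_mem] at hA
  rw [Matrix.SpecialLinearGroup.coe_mul, Matrix.mul_apply, Fin.sum_univ_two]
  push_cast
  rw [hA]
  ring

lemma ul_lr {A : SL(2, ℤ)} (hA : A ∈ CongruenceSubgroup.Gamma0 N) :
    ((A 0 0 : ℤ) : ZMod N) * ((A 1 1 : ℤ) : ZMod N) = 1 := by
  rw [CongruenceSubgroup.Gamma0_mem] at hA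
  have hd : A 0 0 * A 1 1 - A 0 1 * A 1 0 = 1 := by
    rw [← Matrix.det_fin_two]; exact A.det_coe
  have := congrArg (Int.cast : ℤ → ZMod N) hd
  push_cast at this
  rw [hA] at this
  simpa using this

lemma lr_inv {A : SL(2, ℤ)} : ((A⁻¹ 1 1 : ℤ) : ZMod N) = ((A 0 0 : ℤ) : ZMod N) := by
  rw [Matrix.SpecialLinearGroup.SL2_inv_expl]
  simp

lemma mul_inv_mem {A B : SL(2, ℤ)} (hA : A ∈ CongruenceSubgroup.Gamma0 N)
    (hB : B ∈ CongruenceSubgroup.Gamma0 N)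
    (h : ((A 1 1 : ℤ) : ZMod N) = ((B 1 1 : ℤ) : ZMod N)) :
    A * B⁻¹ ∈ CongruenceSubgroup.Gamma1 N := by
  rw [mem_Gamma1_iff]
  refine ⟨mul_mem hA (inv_mem hB), ?_⟩
  rw [lr_mul hA, lr_inv, h, mul_comm]
  exact ul_lr hB

end groups

section inv
variable {N : ℕ} {k : ℤ} {F : ℍ → ℂ}

/-- invariance under `Γ₁(N)`. -/
def Inv (N : ℕ) (k : ℤ) (F : ℍ → ℂ) : Prop :=
  ∀ γ ∈ CongruenceSubgroup.Gamma1 N, F ∣[k] γ = F

lemma slash_SL_mul (k : ℤ) (F : ℍ → ℂ) (A B : SL(2, ℤ)) :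
    F ∣[k] (A * B) = (F ∣[k] A) ∣[k] B := SlashAction.slash_mul k A B F

lemma Inv.slash_congr (hF : Inv N k F) {A B : SL(2, ℤ)} (hA : A ∈ CongruenceSubgroup.Gamma0 N)
    (hB : B ∈ CongruenceSubgroup.Gamma0 N)
    (h : ((A 1 1 : ℤ) : ZMod N) = ((B 1 1 : ℤ) : ZMod N)) : F ∣[k] A = F ∣[k] B := by
  have h1 : A = (A * B⁻¹) * B := by group
  rw [h1, slash_SL_mul, hF _ (mul_inv_mem hA hB h)]

lemma Inv.slash (hF : Inv N k F) {A : SL(2, ℤ)} (hA : A ∈ CongruenceSubgroup.Gamma0 N) :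
    Inv N k (F ∣[k] A) := by
  intro γ hγ
  rw [← slash_SL_mul]
  rw [mem_Gamma1_iff] at hγ
  refine hF.slash_congr (mul_mem hA hγ.1) hA ?_
  rw [lr_mul hA, hγ.2, mul_one]

lemma Inv.add {G : ℍ → ℂ} (hF : Inv N k F) (hG : Inv N k G) : Inv N k (F + G) := by
  intro γ hγ
  rw [SlashAction.add_slash, hF γ hγ, hG γ hγ]

end inv

/-- the raw Hecke sum. -/
noncomputable def heckeSum (ℓ : ℕ) (hℓ : ℓ ≠ 0) (k : ℤ) (e : SL(2, ℤ)) (F : ℍ → ℂ) : ℍ → ℂ :=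
  ∑ i : Option (Fin ℓ), F ∣[k] gl (rep ℓ e i) (by rw [det_rep]; exact_mod_cast hℓ)

lemma det_upper_ne (ℓ j : ℕ) (hℓ : ℓ ≠ 0) : (!![1, (j : ℤ); 0, (ℓ : ℤ)]).det ≠ 0 := by
  rw [Matrix.det_fin_two_of]; simpa using hℓ

lemma det_lower_ne (ℓ : ℕ) (hℓ : ℓ ≠ 0) : (!![(ℓ : ℤ), 0; 0, 1]).det ≠ 0 := by
  rw [Matrix.det_fin_two_of]; simpa using hℓ

lemma heckeSum_eq (ℓ : ℕ) (hℓ : ℓ ≠ 0) (k : ℤ) (e : SL(2, ℤ)) (F : ℍ → ℂ) :
    heckeSum ℓ hℓ k e F =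
      (∑ j ∈ Finset.range ℓ, F ∣[k] upperMat ℓ j hℓ) + (F ∣[k] e) ∣[k] lowerMat ℓ hℓ := by
  rw [heckeSum, Fintype.sum_option, add_comm]
  congr 1
  · rw [Finset.sum_range]
    refine Finset.sum_congr rfl fun j _ => ?_
    rw [upperMat_eq ℓ j hℓ (det_upper_ne ℓ j hℓ)]
    rfl
  · rw [lowerMat_eq ℓ hℓ (det_lower_ne ℓ hℓ), ModularForm.SL_slash,
      ← gl_SL e (det_SL_ne e), ← SlashAction.slash_mul,
      ← gl_mul _ _ (det_SL_ne e) (det_lower_ne ℓ hℓ) (by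
        rw [Matrix.det_mul]; exact mul_ne_zero (det_SL_ne e) (det_lower_ne ℓ hℓ))]
    rfl

section slash
variable {N : ℕ} {k : ℤ} {F : ℍ → ℂ}

lemma rep_col (ℓ : ℕ) {e : SL(2, ℤ)} (he : e ∈ CongruenceSubgroup.Gamma0 N)
    (he1 : ((e 1 1 : ℤ) : ZMod N) = ℓ) (i : Option (Fin ℓ)) :
    ((rep ℓ e i 0 0 : ℤ) : ZMod N) = 1 ∧ ((rep ℓ e i 1 0 : ℤ) : ZMod N) = 0 := by
  cases i with
  | some j => simp [rep]
  | none =>
    have h1 := ul_lr he
    rw [CongruenceSubgroup.Gamma0_mem] at he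
    constructor
    · rw [rep, Matrix.mul_apply, Fin.sum_univ_two]
      simp only [Matrix.of_apply, Matrix.cons_val', Matrix.cons_val_zero, Matrix.cons_val_one,
        Matrix.cons_val_fin_one, mul_zero, add_zero]
      push_cast
      rw [← he1]
      exact h1
    · rw [rep, Matrix.mul_apply, Fin.sum_univ_two]
      simp only [Matrix.of_apply, Matrix.cons_val', Matrix.cons_val_zero, Matrix.cons_val_one,
        Matrix.cons_val_fin_one, mul_zero, add_zero]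
      push_cast
      rw [he, zero_mul]

lemma mem_Gamma1_of_col (X : SL(2, ℤ)) (ρ δ : Matrix (Fin 2) (Fin 2) ℤ)
    (h : δ = (X : Matrix (Fin 2) (Fin 2) ℤ) * ρ)
    (hρ : ((ρ 0 0 : ℤ) : ZMod N) = 1 ∧ ((ρ 1 0 : ℤ) : ZMod N) = 0)
    (hδ : ((δ 0 0 : ℤ) : ZMod N) = 1 ∧ ((δ 1 0 : ℤ) : ZMod N) = 0) :
    X ∈ CongruenceSubgroup.Gamma1 N := by
  have h00 := congrArg (fun M : Matrix (Fin 2) (Fin 2) ℤ => ((M 0 0 : ℤ) : ZMod N)) h
  have h10 := congrArg (fun M : Matrix (Fin 2) (Fin 2) ℤ => ((M 1 0 : ℤ) : ZMod N)) h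
  simp only [Matrix.mul_apply, Fin.sum_univ_two] at h00 h10
  push_cast at h00 h10
  rw [hρ.1, hρ.2, hδ.1] at h00
  rw [hρ.1, hρ.2, hδ.2] at h10
  have h0 : X ∈ CongruenceSubgroup.Gamma0 N := by
    rw [CongruenceSubgroup.Gamma0_mem]
    simpa using h10.symm
  rw [mem_Gamma1_iff]
  refine ⟨h0, ?_⟩
  have := ul_lr h0
  have h1 : ((X 0 0 : ℤ) : ZMod N) = 1 := by simpa using h00.symm
  rwa [h1, one_mul] at this

lemma heckeSum_slash (ℓ : ℕ) (hℓ : ℓ.Prime) {e : SL(2, ℤ)}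
    (he : e ∈ CongruenceSubgroup.Gamma0 N) (he1 : ((e 1 1 : ℤ) : ZMod N) = ℓ)
    (hF : Inv N k F) {γ : SL(2, ℤ)} (hγ : γ ∈ CongruenceSubgroup.Gamma0 N) :
    (heckeSum ℓ hℓ.ne_zero k e F) ∣[k] γ = heckeSum ℓ hℓ.ne_zero k e (F ∣[k] γ) := by
  classical
  have hdetne : ∀ i, (rep ℓ e i).det ≠ 0 := fun i => by
    rw [det_rep]; exact_mod_cast hℓ.ne_zero
  -- the conjugated matrices
  set ε : Option (Fin ℓ) → Matrix (Fin 2) (Fin 2) ℤ := fun i =>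
    ((γ⁻¹ : SL(2, ℤ)) : Matrix (Fin 2) (Fin 2) ℤ) * rep ℓ e i *
      (γ : Matrix (Fin 2) (Fin 2) ℤ) with hε
  have hεdet : ∀ i, (ε i).det = ℓ := by
    intro i
    rw [hε]
    simp only [Matrix.det_mul, det_rep, Matrix.SpecialLinearGroup.det_coe]
    ring
  have hex : ∀ i, ∃ (i' : Option (Fin ℓ)) (X : SL(2, ℤ)),
      ε i = (X : Matrix (Fin 2) (Fin 2) ℤ) * rep ℓ e i' := fun i =>
    exists_rep ℓ hℓ e (ε i) (hεdet i)
  choose s X hs using hex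
  have hεcol : ∀ i, ((ε i 0 0 : ℤ) : ZMod N) = 1 ∧ ((ε i 1 0 : ℤ) : ZMod N) = 0 := by
    intro i
    have hr := rep_col (N := N) ℓ he he1 i
    have hg1 := ul_lr hγ
    have hg0 := CongruenceSubgroup.Gamma0_mem.mp hγ
    have hinv : ((γ⁻¹ : SL(2, ℤ)) : Matrix (Fin 2) (Fin 2) ℤ) =
        !![γ 1 1, -γ 0 1; -γ 1 0, γ 0 0] := by
      rw [Matrix.SpecialLinearGroup.coe_inv, Matrix.adjugate_fin_two]
    constructor
    · have h1 : ε i 0 0 = (γ 1 1 * rep ℓ e i 0 0 - γ 0 1 * rep ℓ e i 1 0) * γ 0 0 +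
          (γ 1 1 * rep ℓ e i 0 1 - γ 0 1 * rep ℓ e i 1 1) * γ 1 0 := by
        simp only [hε, hinv, Matrix.mul_apply, Fin.sum_univ_two]
        simp
        ring
      rw [h1]
      push_cast
      rw [hr.1, hr.2, hg0]
      linear_combination hg1
    · have h1 : ε i 1 0 = (-γ 1 0 * rep ℓ e i 0 0 + γ 0 0 * rep ℓ e i 1 0) * γ 0 0 +
          (-γ 1 0 * rep ℓ e i 0 1 + γ 0 0 * rep ℓ e i 1 1) * γ 1 0 := by
        simp only [hε, hinv, Matrix.mul_apply, Fin.sum_univ_two]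
        simp
      rw [h1]
      push_cast
      rw [hr.1, hr.2, hg0]
      ring
  have hX : ∀ i, X i ∈ CongruenceSubgroup.Gamma1 N := fun i =>
    mem_Gamma1_of_col (X i) _ _ (hs i) (rep_col ℓ he he1 _) (hεcol i)
  have hinj : Function.Injective s := by
    intro i j hij
    apply rep_unique ℓ hℓ e i j (γ * X i * (X j)⁻¹ * γ⁻¹)
    have h1 : rep ℓ e i = (γ : Matrix (Fin 2) (Fin 2) ℤ) * ε i *
        ((γ⁻¹ : SL(2, ℤ)) : Matrix (Fin 2) (Fin 2) ℤ) := by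
      rw [hε]
      simp only [← Matrix.mul_assoc]
      rw [← Matrix.SpecialLinearGroup.coe_mul, mul_inv_cancel, Matrix.SpecialLinearGroup.coe_one,
        Matrix.one_mul, Matrix.mul_assoc, ← Matrix.SpecialLinearGroup.coe_mul, mul_inv_cancel,
        Matrix.SpecialLinearGroup.coe_one, Matrix.mul_one]
    have h2 : rep ℓ e (s j) = (((X j)⁻¹ : SL(2, ℤ)) : Matrix (Fin 2) (Fin 2) ℤ) * ε j := by
      rw [hs j, ← Matrix.mul_assoc, ← Matrix.SpecialLinearGroup.coe_mul, inv_mul_cancel,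
        Matrix.SpecialLinearGroup.coe_one, Matrix.one_mul]
    rw [h1, hs i, hij, h2, hε]
    simp only [Matrix.SpecialLinearGroup.coe_mul, Matrix.mul_assoc]
    congr 5
    rw [← Matrix.SpecialLinearGroup.coe_mul, mul_inv_cancel, Matrix.SpecialLinearGroup.coe_one,
      Matrix.mul_one]
  have hbij : Function.Bijective s := Finite.injective_iff_bijective.mp hinj
  have hterm : ∀ i, (F ∣[k] gl (rep ℓ e i) (hdetne i)) ∣[k] γ =
      (F ∣[k] γ) ∣[k] gl (rep ℓ e (s i)) (hdetne (s i)) := by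
    intro i
    have E1 : ((gl (rep ℓ e i) (hdetne i)) * (γ : GL (Fin 2) ℝ)) =
        (γ : GL (Fin 2) ℝ) * ((X i : GL (Fin 2) ℝ) * gl (rep ℓ e (s i)) (hdetne (s i))) := by
      rw [← gl_SL γ (det_SL_ne γ), ← gl_SL (X i) (det_SL_ne _)]
      rw [← gl_mul _ _ _ _ (by rw [Matrix.det_mul]; exact mul_ne_zero (hdetne i) (det_SL_ne _)),
        ← gl_mul _ _ _ _ (by rw [Matrix.det_mul]; exact mul_ne_zero (det_SL_ne _) (hdetne _)),
        ← gl_mul _ _ _ _ (by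
          rw [Matrix.det_mul, Matrix.det_mul]
          exact mul_ne_zero (det_SL_ne _) (mul_ne_zero (det_SL_ne _) (hdetne _)))]
      apply gl_congr
      rw [← hs i, hε]
      simp only [← Matrix.mul_assoc]
      rw [← Matrix.SpecialLinearGroup.coe_mul, mul_inv_cancel, Matrix.SpecialLinearGroup.coe_one,
        Matrix.one_mul]
    rw [ModularForm.SL_slash, ← SlashAction.slash_mul, E1, SlashAction.slash_mul,
      SlashAction.slash_mul]
    congr 1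
    exact (hF.slash hγ) (X i) (hX i)
  rw [heckeSum, ModularForm.SL_slash, SlashAction.sum_slash, heckeSum]
  rw [← Function.Bijective.sum_comp hbij
    (fun i => (F ∣[k] γ) ∣[k] gl (rep ℓ e i) (hdetne i))]
  exact Finset.sum_congr rfl fun i _ => hterm i

end slash

end Crest.Agent.R007.HD
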