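import Mathlib
import Crest.Prelude.Def_HeckeTwo
import Crest.Agent.R007.HDCoset
import Crest.Agent.R007.HDSlash
import Crest.Agent.R007.HDHecke

/-!
Row 7, statement layer, part 4: the families `T`, `D` and their commutation relations.
-/

set_option autoImplicit false

open Matrix UpperHalfPlane OnePoint Crest.NumberTheoryR.HeckeTwoAdic
open scoped MatrixGroups ModularForm Manifold

namespace Crest.Agent.R007.HD

section reindex

variable {A : Type*} [AddCommMonoid A]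

/-- reindexing of a periodic function by a unit. -/
lemma sum_range_mul_of_periodic (p a : ℕ) (hp : 0 < p) (hc : Nat.Coprime a p) (H : ℤ → A)
    (hH : ∀ m n : ℤ, H (m + n * p) = H m) :
    ∑ j ∈ Finset.range p, H ((a * j : ℕ) : ℤ) = ∑ j ∈ Finset.range p, H (j : ℤ) := by
  have hmod : ∀ m : ℕ, H (m : ℤ) = H ((m % p : ℕ) : ℤ) := by
    intro m
    have h := hH ((m % p : ℕ) : ℤ) ((m / p : ℕ) : ℤ)
    rw [← h]
    congr 1
    have := Nat.mod_add_div m p
    push_cast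
    have h2 : ((m % p + p * (m / p) : ℕ) : ℤ) = (m : ℤ) := by rw [this]
    push_cast at h2
    linarith
  refine Finset.sum_bij (fun j _ => (a * j) % p) ?_ ?_ ?_ ?_
  · intro j _
    exact Finset.mem_range.mpr (Nat.mod_lt _ hp)
  · intro i hi j hj hij
    have h1 : a * i ≡ a * j [MOD p] := hij
    have h2 : i ≡ j [MOD p] := Nat.ModEq.cancel_left_of_coprime (by
      rw [Nat.gcd_comm]; exact hc) h1
    exact Nat.ModEq.eq_of_lt_of_lt h2 (Finset.mem_range.mp hi) (Finset.mem_range.mp hj)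
  · intro b hb
    have hinj : Set.InjOn (fun j => (a * j) % p) (Finset.range p : Set ℕ) := by
      intro i hi j hj hij
      have h1 : a * i ≡ a * j [MOD p] := hij
      have h2 : i ≡ j [MOD p] := Nat.ModEq.cancel_left_of_coprime (by
        rw [Nat.gcd_comm]; exact hc) h1
      exact Nat.ModEq.eq_of_lt_of_lt h2 (Finset.mem_range.mp (by simpa using hi))
        (Finset.mem_range.mp (by simpa using hj))
    have hmaps : Set.MapsTo (fun j => (a * j) % p) (Finset.range p : Set ℕ)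
        (Finset.range p : Set ℕ) := by
      intro j _
      simpa using Nat.mod_lt _ hp
    have hsurj := Finset.surjOn_of_injOn_of_card_le _ hmaps hinj le_rfl
    obtain ⟨j, hj, hjb⟩ := hsurj (by simpa using hb)
    exact ⟨j, by simpa using hj, hjb⟩
  · intro j _
    exact hmod (a * j)

lemma sum_range_prod (a b : ℕ) (G : ℤ → A) :
    ∑ i ∈ Finset.range a, ∑ j ∈ Finset.range b, G ((j : ℤ) + i * b) =
      ∑ m ∈ Finset.range (a * b), G m := by
  induction a with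
  | zero => simp
  | succ n ih =>
    rw [Finset.sum_range_succ, ih, Nat.succ_mul, Finset.sum_range_add]
    congr 1
    refine Finset.sum_congr rfl fun j _ => ?_
    push_cast
    congr 1
    ring

end reindex

section commute

variable {N : ℕ} {k : ℤ}

/-- upper representative with an arbitrary integer entry. -/
noncomputable def up (a : ℤ) (m : ℤ) (d : ℤ) (h : (!![a, m; 0, d]).det ≠ 0) : GL (Fin 2) ℝ :=
  gl !![a, m; 0, d] h

lemma det_up (a m d : ℤ) (ha : a ≠ 0) (hd : d ≠ 0) : (!![a, m; 0, d]).det ≠ 0 := by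
  rw [Matrix.det_fin_two_of]; simpa using mul_ne_zero ha hd

/-- periodicity of a `Γ₁(N)`-invariant function. -/
lemma Inv.periodic {F : ℍ → ℂ} (hF : Inv N k F) (a m n d : ℤ) (ha : a ≠ 0) (hd : d ≠ 0) :
    F ∣[k] gl !![a, m + n * d; 0, d] (det_up a _ d ha hd) =
      F ∣[k] gl !![a, m; 0, d] (det_up a m d ha hd) := by
  obtain ⟨X, hX⟩ : ∃ X : SL(2, ℤ), (X : Matrix (Fin 2) (Fin 2) ℤ) = !![1, n; 0, 1] :=
    ⟨⟨!![1, n; 0, 1], by rw [Matrix.det_fin_two_of]; ring⟩, rfl⟩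
  have hX1 : X ∈ CongruenceSubgroup.Gamma1 N := by
    rw [CongruenceSubgroup.Gamma1_mem]
    rw [hX]
    simp
  have h1 : gl !![a, m + n * d; 0, d] (det_up a _ d ha hd) =
      (X : GL (Fin 2) ℝ) * gl !![a, m; 0, d] (det_up a m d ha hd) := by
    rw [← gl_SL X (det_SL_ne X), ← gl_mul _ _ _ _ (by
      rw [Matrix.det_mul]; exact mul_ne_zero (det_SL_ne _) (det_up a m d ha hd))]
    apply gl_congr
    rw [hX]
    ext i j
    fin_cases i <;> fin_cases j <;> simp [Matrix.mul_apply, Fin.sum_univ_two]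
  rw [h1, SlashAction.slash_mul]
  congr 1
  exact hF X hX1

/-- the double Hecke sum, expanded. -/
noncomputable def dbl (k : ℤ) (p q : ℕ) (hp : p ≠ 0) (hq : q ≠ 0) (F Fp Fq Fpq : ℍ → ℂ) :
    ℍ → ℂ :=
  (∑ m ∈ Finset.range (p * q), F ∣[k] gl !![1, (m : ℤ); 0, ((p * q : ℕ) : ℤ)]
    (det_up _ _ _ one_ne_zero (by exact_mod_cast mul_ne_zero hp hq))) +
  (∑ m ∈ Finset.range q, Fp ∣[k] gl !![(p : ℤ), (m : ℤ); 0, (q : ℤ)]
    (det_up _ _ _ (by exact_mod_cast hp) (by exact_mod_cast hq))) +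
  (∑ m ∈ Finset.range p, Fq ∣[k] gl !![(q : ℤ), (m : ℤ); 0, (p : ℤ)]
    (det_up _ _ _ (by exact_mod_cast hq) (by exact_mod_cast hp))) +
  Fpq ∣[k] gl !![((p * q : ℕ) : ℤ), 0; 0, 1]
    (det_up _ _ _ (by exact_mod_cast mul_ne_zero hp hq) one_ne_zero)

lemma dbl_symm (k : ℤ) (p q : ℕ) (hp : p ≠ 0) (hq : q ≠ 0) (F Fp Fq Fpq : ℍ → ℂ) :
    dbl k p q hp hq F Fp Fq Fpq = dbl k q p hq hp F Fq Fp Fpq := by
  have e : p * q = q * p := mul_comm p q
  unfold dbl
  have h1 : ∀ (a b : ℕ) (hab : a = b) (ha : a ≠ 0) (hb : b ≠ 0),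
      (∑ m ∈ Finset.range a, F ∣[k] gl !![1, (m : ℤ); 0, (a : ℤ)]
        (det_up _ _ _ one_ne_zero (by exact_mod_cast ha))) =
      (∑ m ∈ Finset.range b, F ∣[k] gl !![1, (m : ℤ); 0, (b : ℤ)]
        (det_up _ _ _ one_ne_zero (by exact_mod_cast hb))) := by
    intro a b hab ha hb
    subst hab
    rfl
  have h2 : ∀ (a b : ℕ) (hab : a = b) (ha : a ≠ 0) (hb : b ≠ 0),
      Fpq ∣[k] gl !![(a : ℤ), 0; 0, 1] (det_up _ _ _ (by exact_mod_cast ha) one_ne_zero) =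
      Fpq ∣[k] gl !![(b : ℤ), 0; 0, 1] (det_up _ _ _ (by exact_mod_cast hb) one_ne_zero) := by
    intro a b hab ha hb
    subst hab
    rfl
  rw [h1 _ _ e (mul_ne_zero hp hq) (mul_ne_zero hq hp),
    h2 _ _ e (mul_ne_zero hp hq) (mul_ne_zero hq hp)]
  abel

/-- expansion of the composite of two Hecke sums. -/
lemma heckeSum_heckeSum {F : ℍ → ℂ} (hF : Inv N k F) (p q : ℕ) (hp : p.Prime) (hq : q ≠ 0)
    (hpq : Nat.Coprime p q) {ep eq : SL(2, ℤ)}
    (hep : ep ∈ CongruenceSubgroup.Gamma0 N) (hep1 : ((ep 1 1 : ℤ) : ZMod N) = p)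
    (heq : eq ∈ CongruenceSubgroup.Gamma0 N) :
    heckeSum q hq k eq (heckeSum p hp.ne_zero k ep F) =
      dbl k p q hp.ne_zero hq F (F ∣[k] ep) (F ∣[k] eq) (F ∣[k] (eq * ep)) := by
  have hp0 : (p : ℤ) ≠ 0 := by exact_mod_cast hp.ne_zero
  have hq0 : (q : ℤ) ≠ 0 := by exact_mod_cast hq
  have hFp : Inv N k (F ∣[k] ep) := hF.slash hep
  have hFq : Inv N k (F ∣[k] eq) := hF.slash heq
  rw [heckeSum_eq q hq, heckeSum_slash p hp hep hep1 hF heq, heckeSum_eq p hp.ne_zero,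
    heckeSum_eq p hp.ne_zero]
  -- combine
  have c1 : ∀ (G : ℍ → ℂ) (i j : ℕ), (G ∣[k] upperMat p i hp.ne_zero) ∣[k] upperMat q j hq =
      G ∣[k] gl !![1, (j : ℤ) + i * q; 0, ((p * q : ℕ) : ℤ)]
        (det_up _ _ _ one_ne_zero (by exact_mod_cast mul_ne_zero hp.ne_zero hq)) := by
    intro G i j
    rw [← SlashAction.slash_mul, upperMat_eq p i hp.ne_zero (det_upper_ne p i hp.ne_zero),
      upperMat_eq q j hq (det_upper_ne q j hq),
      ← gl_mul _ _ _ _ (by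
        rw [Matrix.det_mul]; exact mul_ne_zero (det_upper_ne _ _ hp.ne_zero) (det_upper_ne _ _ hq))]
    congr 1
    apply gl_congr
    ext a b
    fin_cases a <;> fin_cases b <;> simp [Matrix.mul_apply, Fin.sum_univ_two]
  have c2 : ∀ (G : ℍ → ℂ) (j : ℕ), (G ∣[k] lowerMat p hp.ne_zero) ∣[k] upperMat q j hq =
      G ∣[k] gl !![(p : ℤ), ((p * j : ℕ) : ℤ); 0, (q : ℤ)] (det_up _ _ _ hp0 hq0) := by
    intro G j
    rw [← SlashAction.slash_mul, lowerMat_eq p hp.ne_zero (det_lower_ne p hp.ne_zero),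
      upperMat_eq q j hq (det_upper_ne q j hq),
      ← gl_mul _ _ _ _ (by
        rw [Matrix.det_mul]; exact mul_ne_zero (det_lower_ne _ hp.ne_zero) (det_upper_ne _ _ hq))]
    congr 1
    apply gl_congr
    ext a b
    fin_cases a <;> fin_cases b <;> simp [Matrix.mul_apply, Fin.sum_univ_two]
  have c3 : ∀ (G : ℍ → ℂ) (i : ℕ), (G ∣[k] upperMat p i hp.ne_zero) ∣[k] lowerMat q hq =
      G ∣[k] gl !![(q : ℤ), (i : ℤ); 0, (p : ℤ)] (det_up _ _ _ hq0 hp0) := by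
    intro G i
    rw [← SlashAction.slash_mul, lowerMat_eq q hq (det_lower_ne q hq),
      upperMat_eq p i hp.ne_zero (det_upper_ne p i hp.ne_zero),
      ← gl_mul _ _ _ _ (by
        rw [Matrix.det_mul]; exact mul_ne_zero (det_upper_ne _ _ hp.ne_zero) (det_lower_ne _ hq))]
    congr 1
    apply gl_congr
    ext a b
    fin_cases a <;> fin_cases b <;> simp [Matrix.mul_apply, Fin.sum_univ_two]
  have c4 : ∀ (G : ℍ → ℂ), (G ∣[k] lowerMat p hp.ne_zero) ∣[k] lowerMat q hq =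
      G ∣[k] gl !![((p * q : ℕ) : ℤ), 0; 0, 1]
        (det_up _ _ _ (by exact_mod_cast mul_ne_zero hp.ne_zero hq) one_ne_zero) := by
    intro G
    rw [← SlashAction.slash_mul, lowerMat_eq q hq (det_lower_ne q hq),
      lowerMat_eq p hp.ne_zero (det_lower_ne p hp.ne_zero),
      ← gl_mul _ _ _ _ (by
        rw [Matrix.det_mul]; exact mul_ne_zero (det_lower_ne _ hp.ne_zero) (det_lower_ne _ hq))]
    congr 1
    apply gl_congr
    ext a b
    fin_cases a <;> fin_cases b <;> simp [Matrix.mul_apply, Fin.sum_univ_two]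
  simp only [SlashAction.add_slash, SlashAction.sum_slash, c1, c2, c3, c4, ← slash_SL_mul]
  rw [dbl, Finset.sum_add_distrib, Finset.sum_comm]
  have s1 := sum_range_prod p q (fun m : ℤ => F ∣[k] gl !![1, m; 0, ((p * q : ℕ) : ℤ)]
        (det_up _ _ _ one_ne_zero (by exact_mod_cast mul_ne_zero hp.ne_zero hq)))
  have s2 := sum_range_mul_of_periodic q p (Nat.pos_of_ne_zero hq) hpq
    (fun m : ℤ => (F ∣[k] ep) ∣[k] gl !![(p : ℤ), m; 0, (q : ℤ)] (det_up _ _ _ hp0 hq0))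
    (fun m n => hFp.periodic (p : ℤ) m n (q : ℤ) hp0 hq0)
  rw [s1, s2]
  abel

lemma heckeSum_comm {F : ℍ → ℂ} (hF : Inv N k F) (p q : ℕ) (hp : p.Prime) (hq : q.Prime)
    {ep eq : SL(2, ℤ)}
    (hep : ep ∈ CongruenceSubgroup.Gamma0 N) (hep1 : ((ep 1 1 : ℤ) : ZMod N) = p)
    (heq : eq ∈ CongruenceSubgroup.Gamma0 N) (heq1 : ((eq 1 1 : ℤ) : ZMod N) = q)
    (hpq : p ≠ q) :
    heckeSum q hq.ne_zero k eq (heckeSum p hp.ne_zero k ep F) =
      heckeSum p hp.ne_zero k ep (heckeSum q hq.ne_zero k eq F) := by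
  have hc : Nat.Coprime p q := (Nat.coprime_primes hp hq).mpr hpq
  rw [heckeSum_heckeSum hF p q hp hq.ne_zero hc hep hep1 heq,
    heckeSum_heckeSum hF q p hq hp.ne_zero hc.symm heq heq1 hep, dbl_symm]
  congr 1
  refine hF.slash_congr (mul_mem heq hep) (mul_mem hep heq) ?_
  rw [lr_mul heq, lr_mul hep, mul_comm]

end commute

section families

variable (N : ℕ) [NeZero N]

open Classical in
/-- the diamond operators. -/
noncomputable def dia (d i : ℕ) : MF N i →ₗ[ℂ] MF N i :=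
  if h : ∃ γ : SL(2, ℤ), γ ∈ CongruenceSubgroup.Gamma0 N ∧ ((γ 1 1 : ℤ) : ZMod N) = d then
    { toFun := fun f => mkMF ((f : ℍ → ℂ) ∣[(i : ℤ)] h.choose)
        ((good_of_MF f).slashSL _) (Inv.slash (fun γ hγ => MF_inv f γ hγ) h.choose_spec.1)
      map_add' := fun f g => by
        apply DFunLike.coe_injective
        exact SlashAction.add_slash (i : ℤ) h.choose (f : ℍ → ℂ) (g : ℍ → ℂ)
      map_smul' := fun c f => by
        apply DFunLike.coe_injective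
        exact ModularForm.SL_smul_slash (f := (f : ℍ → ℂ)) (i : ℤ) h.choose c }
  else 0

theorem isDiamondFamily : IsDiamondFamily N (dia N) := by
  intro d i γ hγ hd f
  have h : ∃ γ : SL(2, ℤ), γ ∈ CongruenceSubgroup.Gamma0 N ∧ ((γ 1 1 : ℤ) : ZMod N) = d :=
    ⟨γ, hγ, hd⟩
  rw [dia, dif_pos h]
  show (f : ℍ → ℂ) ∣[(i : ℤ)] h.choose = _
  exact Inv.slash_congr (fun γ hγ => MF_inv f γ hγ) h.choose_spec.1 hγ
    (h.choose_spec.2.trans hd.symm)

lemma exists_lr (ℓ : ℕ) (h : Nat.Coprime ℓ N) : ∃ γ : SL(2, ℤ),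
    γ ∈ CongruenceSubgroup.Gamma0 N ∧ ((γ 1 1 : ℤ) : ZMod N) = ℓ := by
  have hc : IsCoprime (ℓ : ℤ) (N : ℤ) := Nat.isCoprime_iff_coprime.mpr h
  obtain ⟨a, b, hab⟩ := hc
  obtain ⟨Y, hY⟩ : ∃ Y : SL(2, ℤ), (Y : Matrix (Fin 2) (Fin 2) ℤ) =
      !![a, -b; (N : ℤ), (ℓ : ℤ)] :=
    ⟨⟨!![a, -b; (N : ℤ), (ℓ : ℤ)], by rw [Matrix.det_fin_two_of]; linear_combination hab⟩, rfl⟩
  refine ⟨Y, ?_, ?_⟩
  · rw [CongruenceSubgroup.Gamma0_mem, hY]; simp
  · rw [hY]; simp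

open Classical in
/-- a chosen matrix in `Γ₀(N)` with lower right entry `ℓ` modulo `N`. -/
noncomputable def eta (ℓ : ℕ) : SL(2, ℤ) :=
  if h : Nat.Coprime ℓ N then (exists_lr N ℓ h).choose else 1

lemma eta_mem (ℓ : ℕ) : eta N ℓ ∈ CongruenceSubgroup.Gamma0 N := by
  unfold eta
  split_ifs with h
  · exact (exists_lr N ℓ h).choose_spec.1
  · exact one_mem _

lemma eta_lr {ℓ : ℕ} (h : Nat.Coprime ℓ N) : ((eta N ℓ 1 1 : ℤ) : ZMod N) = ℓ := by
  unfold eta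
  rw [dif_pos h]
  exact (exists_lr N ℓ h).choose_spec.2

lemma heckeSum_good {k : ℤ} {F : ℍ → ℂ} (hF : Good k F) (ℓ : ℕ) (hℓ : ℓ ≠ 0) (e : SL(2, ℤ)) :
    Good k (heckeSum ℓ hℓ k e F) :=
  Good.sum _ fun _ _ => hF.slash _ _

variable {N} in
lemma heckeSum_inv {k : ℤ} {F : ℍ → ℂ} (hF : Inv N k F) (ℓ : ℕ) (hℓ : ℓ.Prime)
    {e : SL(2, ℤ)} (he : e ∈ CongruenceSubgroup.Gamma0 N)
    (he1 : ((e 1 1 : ℤ) : ZMod N) = ℓ) : Inv N k (heckeSum ℓ hℓ.ne_zero k e F) := by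
  intro γ hγ
  rw [heckeSum_slash ℓ hℓ he he1 hF (CongruenceSubgroup.Gamma1_in_Gamma0 N hγ), hF γ hγ]

lemma heckeSum_add (ℓ : ℕ) (hℓ : ℓ ≠ 0) (k : ℤ) (e : SL(2, ℤ)) (F G : ℍ → ℂ) :
    heckeSum ℓ hℓ k e (F + G) = heckeSum ℓ hℓ k e F + heckeSum ℓ hℓ k e G := by
  simp only [heckeSum, SlashAction.add_slash, Finset.sum_add_distrib]

lemma heckeSum_smul (ℓ : ℕ) (hℓ : ℓ ≠ 0) (k : ℤ) (e : SL(2, ℤ)) (c : ℂ) (F : ℍ → ℂ) :
    heckeSum ℓ hℓ k e (c • F) = c • heckeSum ℓ hℓ k e F := by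
  simp only [heckeSum, Finset.smul_sum]
  refine Finset.sum_congr rfl fun i _ => ?_
  exact smul_slash_gl k c F _ (by rw [det_rep]; exact_mod_cast Nat.pos_of_ne_zero hℓ)

open Classical in
/-- the Hecke operators. -/
noncomputable def hecke (ℓ i : ℕ) : MF N i →ₗ[ℂ] MF N i :=
  if h : ℓ.Prime ∧ Nat.Coprime ℓ N then
    { toFun := fun f => mkMF (heckeSum ℓ h.1.ne_zero (i : ℤ) (eta N ℓ) (f : ℍ → ℂ))
        (heckeSum_good (good_of_MF f) _ _ _)
        (heckeSum_inv (fun γ hγ => MF_inv f γ hγ) ℓ h.1 (eta_mem N ℓ) (eta_lr N h.2))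
      map_add' := fun f g => by
        apply DFunLike.coe_injective
        exact heckeSum_add ℓ h.1.ne_zero (i : ℤ) (eta N ℓ) (f : ℍ → ℂ) (g : ℍ → ℂ)
      map_smul' := fun c f => by
        apply DFunLike.coe_injective
        exact heckeSum_smul ℓ h.1.ne_zero (i : ℤ) (eta N ℓ) c (f : ℍ → ℂ) }
  else 0

lemma hecke_coe {ℓ : ℕ} (h1 : ℓ.Prime) (h2 : Nat.Coprime ℓ N) (i : ℕ) (f : MF N i) :
    ((hecke N ℓ i f : MF N i) : ℍ → ℂ) = heckeSum ℓ h1.ne_zero (i : ℤ) (eta N ℓ) f := by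
  rw [hecke, dif_pos ⟨h1, h2⟩]
  rfl

lemma coprime_of_not_dvd {ℓ : ℕ} (hℓ : ℓ.Prime) (h : ¬ ℓ ∣ 2 * N) : Nat.Coprime ℓ N := by
  rw [hℓ.coprime_iff_not_dvd]
  intro h'
  exact h (h'.mul_left 2)

theorem isHeckeFamily : IsHeckeFamily N (hecke N) (dia N) := by
  intro ℓ hℓ hN i f
  have hc := coprime_of_not_dvd N hℓ hN
  rw [hecke_coe N hℓ hc, heckeSum_eq]
  congr 2
  exact (isDiamondFamily N ℓ i (eta N ℓ) (eta_mem N ℓ) (eta_lr N hc) f).symm

/-- the diamond operators commute. -/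
theorem dia_comm (d e i : ℕ) : Commute (dia N d i) (dia N e i) := by
  by_cases hd : ∃ γ : SL(2, ℤ), γ ∈ CongruenceSubgroup.Gamma0 N ∧ ((γ 1 1 : ℤ) : ZMod N) = d
  · by_cases he : ∃ γ : SL(2, ℤ), γ ∈ CongruenceSubgroup.Gamma0 N ∧ ((γ 1 1 : ℤ) : ZMod N) = e
    · obtain ⟨γ, hγ, hγ1⟩ := hd
      obtain ⟨δ, hδ, hδ1⟩ := he
      apply LinearMap.ext
      intro f
      apply DFunLike.coe_injective
      rw [Module.End.mul_apply, Module.End.mul_apply,
        isDiamondFamily N d i γ hγ hγ1, isDiamondFamily N e i δ hδ hδ1,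
        isDiamondFamily N e i δ hδ hδ1, isDiamondFamily N d i γ hγ hγ1,
        ← slash_SL_mul, ← slash_SL_mul]
      refine Inv.slash_congr (fun γ hγ => MF_inv f γ hγ) (mul_mem hδ hγ) (mul_mem hγ hδ) ?_
      rw [lr_mul hγ, lr_mul hδ, mul_comm]
    · rw [dia, dia, dif_neg he]
      exact Commute.zero_right _
  · rw [dia, dif_neg hd]
    exact Commute.zero_left _

/-- Hecke and diamond operators commute. -/
theorem hecke_dia_comm (ℓ d i : ℕ) : Commute (hecke N ℓ i) (dia N d i) := by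
  by_cases h : ℓ.Prime ∧ Nat.Coprime ℓ N
  · by_cases hd : ∃ γ : SL(2, ℤ), γ ∈ CongruenceSubgroup.Gamma0 N ∧ ((γ 1 1 : ℤ) : ZMod N) = d
    · obtain ⟨γ, hγ, hγ1⟩ := hd
      apply LinearMap.ext
      intro f
      apply DFunLike.coe_injective
      rw [Module.End.mul_apply, Module.End.mul_apply, hecke_coe N h.1 h.2,
        isDiamondFamily N d i γ hγ hγ1, isDiamondFamily N d i γ hγ hγ1, hecke_coe N h.1 h.2,
        heckeSum_slash ℓ h.1 (eta_mem N ℓ) (eta_lr N h.2) (fun γ hγ => MF_inv f γ hγ) hγ]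
    · rw [dia, dif_neg hd]
      exact Commute.zero_right _
  · rw [hecke, dif_neg h]
    exact Commute.zero_left _

/-- Hecke operators commute. -/
theorem hecke_comm (p q i : ℕ) : Commute (hecke N p i) (hecke N q i) := by
  by_cases hp : p.Prime ∧ Nat.Coprime p N
  · by_cases hq : q.Prime ∧ Nat.Coprime q N
    · by_cases hpq : p = q
      · rw [hpq]
      · apply LinearMap.ext
        intro f
        apply DFunLike.coe_injective
        rw [Module.End.mul_apply, Module.End.mul_apply, hecke_coe N hp.1 hp.2,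
          hecke_coe N hq.1 hq.2, hecke_coe N hq.1 hq.2, hecke_coe N hp.1 hp.2]
        exact heckeSum_comm (fun γ hγ => MF_inv f γ hγ) q p hq.1 hp.1 (eta_mem N q)
          (eta_lr N hq.2) (eta_mem N p) (eta_lr N hp.2) (Ne.symm hpq)
    · rw [hecke, hecke, dif_neg hq]
      exact Commute.zero_right _
  · rw [hecke, dif_neg hp]
    exact Commute.zero_left _

end families

end Crest.Agent.R007.HD
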