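import Mathlib
import Crest.Prelude.Def_HeckeTwo
import Crest.Agent.R007.HDFam

/-!
Row 7, statement layer, part 5: commutativity of `stage`, `stageTwo`, `HeckeTwo`, and the reduction
of S0007 to `ringKrullDim ≤ 4`.
-/

set_option autoImplicit false

open Crest.NumberTheoryR.HeckeTwoAdic
open scoped TensorProduct

namespace Crest.Agent.R007.HD

section generic

variable (N : ℕ) (T D : ℕ → (i : ℕ) → (MF N i →ₗ[ℂ] MF N i))

/-- the generators commute. -/
def GensComm : Prop := ∀ (p q : ℕ), p.Prime → ¬ p ∣ 2 * N → q.Prime → ¬ q ∣ 2 * N → ∀ i : ℕ,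
  Commute (T p i) (T q i) ∧ Commute (T p i) (D q i) ∧ Commute (D p i) (D q i)

variable {N T D}

lemma gens_comm (h : GensComm N T D) (k : ℕ) (a b : EndProd N k) (ha : a ∈ heckeGens N T D k)
    (hb : b ∈ heckeGens N T D k) : a * b = b * a := by
  obtain ⟨p, hp, hpN, hpa⟩ := ha
  obtain ⟨q, hq, hqN, hqb⟩ := hb
  funext i
  have h1 := h p q hp hpN hq hqN ((i : ℕ) + 1)
  have h2 := h q p hq hqN hp hpN ((i : ℕ) + 1)
  rcases hpa with rfl | rfl <;> rcases hqb with rfl | rfl
  · exact h1.1.eq
  · exact (h1.2.1.smul_right _).eq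
  · exact (h2.2.1.symm.smul_left _).eq
  · exact ((h1.2.2.smul_left _).smul_right _).eq

lemma stage_comm (h : GensComm N T D) (k : ℕ) (a b : stage N T D k) : a * b = b * a := by
  have hsub : (stage N T D k : Set (EndProd N k)) ⊆
      Subring.centralizer (Subring.centralizer (heckeGens N T D k) : Set (EndProd N k)) :=
    Subring.closure_le_centralizer_centralizer _
  have hgen : heckeGens N T D k ⊆ Subring.centralizer (heckeGens N T D k) := by
    intro x hx
    rw [SetLike.mem_coe, Subring.mem_centralizer_iff]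
    intro g hg
    exact gens_comm h k g x hg hx
  have hst : stage N T D k ≤ Subring.centralizer (heckeGens N T D k) :=
    Subring.closure_le.mpr hgen
  apply Subtype.ext
  have hb : (b : EndProd N k) ∈ Subring.centralizer (heckeGens N T D k) := hst b.2
  have ha := hsub a.2
  rw [SetLike.mem_coe, Subring.mem_centralizer_iff] at ha
  exact (ha b hb).symm

lemma tensor_comm {A S : Type*} [CommRing A] [Ring S] (h : ∀ s t : S, s * t = t * s)
    (a b : A ⊗[ℤ] S) : a * b = b * a := by
  induction a using TensorProduct.induction_on with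
  | zero => rw [zero_mul, mul_zero]
  | add x y hx hy => rw [add_mul, mul_add, hx, hy]
  | tmul z s =>
    induction b using TensorProduct.induction_on with
    | zero => rw [zero_mul, mul_zero]
    | add x y hx hy => rw [add_mul, mul_add, hx, hy]
    | tmul w t =>
      rw [Algebra.TensorProduct.tmul_mul_tmul, Algebra.TensorProduct.tmul_mul_tmul,
        mul_comm z w, h s t]

lemma stageTwo_comm (h : GensComm N T D) (k : ℕ) (a b : stageTwo N T D k) : a * b = b * a :=
  tensor_comm (A := PadicInt 2) (S := stage N T D k) (stage_comm h k) a b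

theorem heckeTwo_comm (h : GensComm N T D) (a b : HeckeTwo N T D) : a * b = b * a := by
  apply Subtype.ext
  funext k
  exact stageTwo_comm h k _ _

end generic

theorem gensComm_hecke (N : ℕ) [NeZero N] : GensComm N (hecke N) (dia N) :=
  fun p q _ _ _ _ i => ⟨hecke_comm N p q i, hecke_dia_comm N p q i, dia_comm N p q i⟩

/-- the frozen statement for given families. -/
theorem shell_of_dim (N : ℕ) (T D : ℕ → (i : ℕ) → (MF N i →ₗ[ℂ] MF N i))
    (hD : IsDiamondFamily N D) (hT : IsHeckeFamily N T D)
    (hcomm : ∀ a b : HeckeTwo N T D, a * b = b * a)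
    (hnt : Nontrivial (HeckeTwo N T D))
    (hdim : @ringKrullDim (HeckeTwo N T D)
      (commRingOfComm (HeckeTwo N T D) hcomm).toCommSemiring ≤ 4) :
    ∃ (T D : ℕ → (i : ℕ) → (MF N i →ₗ[ℂ] MF N i)),
      IsDiamondFamily N D ∧ IsHeckeFamily N T D ∧
      ∃ hcomm : ∀ a b : HeckeTwo N T D, a * b = b * a,
        Nontrivial (HeckeTwo N T D) ∧
        ∀ P : Ideal (HeckeTwo N T D),
          P ∈ @minimalPrimes (HeckeTwo N T D)
            (commRingOfComm (HeckeTwo N T D) hcomm).toCommSemiring →
          @ringKrullDim (HeckeTwo N T D ⧸ P)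
            (@Ideal.Quotient.commRing (HeckeTwo N T D)
              (commRingOfComm (HeckeTwo N T D) hcomm) P).toCommSemiring ≤ 4 := by
  refine ⟨T, D, hD, hT, hcomm, hnt, fun P _ => ?_⟩
  exact le_trans (@ringKrullDim_quotient_le (HeckeTwo N T D)
    (commRingOfComm (HeckeTwo N T D) hcomm) P) hdim

/-- the frozen statement from an honest commutative ring isomorphic to the Hecke algebra. -/
theorem shell (N : ℕ) [NeZero N] (hnt : Nontrivial (HeckeTwo N (hecke N) (dia N)))
    {R : Type*} [CommRing R] (e : R ≃+* HeckeTwo N (hecke N) (dia N))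
    (hdim : ringKrullDim R ≤ 4) :
    ∃ (T D : ℕ → (i : ℕ) → (MF N i →ₗ[ℂ] MF N i)),
      IsDiamondFamily N D ∧ IsHeckeFamily N T D ∧
      ∃ hcomm : ∀ a b : HeckeTwo N T D, a * b = b * a,
        Nontrivial (HeckeTwo N T D) ∧
        ∀ P : Ideal (HeckeTwo N T D),
          P ∈ @minimalPrimes (HeckeTwo N T D)
            (commRingOfComm (HeckeTwo N T D) hcomm).toCommSemiring →
          @ringKrullDim (HeckeTwo N T D ⧸ P)
            (@Ideal.Quotient.commRing (HeckeTwo N T D)
              (commRingOfComm (HeckeTwo N T D) hcomm) P).toCommSemiring ≤ 4 := by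
  refine shell_of_dim N (hecke N) (dia N) (isDiamondFamily N) (isHeckeFamily N)
    (heckeTwo_comm (gensComm_hecke N)) hnt ?_
  let _ : CommRing (HeckeTwo N (hecke N) (dia N)) :=
    commRingOfComm _ (heckeTwo_comm (gensComm_hecke N))
  let e' : R ≃+* HeckeTwo N (hecke N) (dia N) :=
    { toFun := e, invFun := e.symm, left_inv := e.left_inv, right_inv := e.right_inv,
      map_mul' := e.map_mul, map_add' := e.map_add }
  exact (ringKrullDim_eq_of_ringEquiv e').symm.trans_le hdim

end Crest.Agent.R007.HD
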