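import Mathlib
import Crest.Prelude.Def_HeckeTwo
import Crest.Agent.R007.HeckeA

set_option autoImplicit false

namespace Crest.Agent.R007

open Crest.NumberTheoryR.HeckeTwoAdic
open UpperHalfPlane ModularForm CongruenceSubgroup Matrix OnePoint
open scoped ModularForm MatrixGroups Manifold

variable {N : ℕ}

lemma mf_slash [NeZero N] {k : ℕ} (f : MF N k) {γ : SL(2, ℤ)} (hγ : γ ∈ Gamma1 N) :
    (⇑f) ∣[(k : ℤ)] γ = ⇑f := by
  have := SlashInvariantForm.slash_action_eqn (Γ := (Gamma1 N : Subgroup (GL (Fin 2) ℝ))) (k := (k : ℤ)) f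
    (Matrix.SpecialLinearGroup.mapGL ℝ γ) ⟨γ, hγ, rfl⟩
  exact this

lemma mf_bdd [NeZero N] {k : ℕ} (f : MF N k) (c : OnePoint ℝ) (hc : IsCusp c 𝒮ℒ) :
    IsBoundedAt c (⇑f) (k : ℤ) := by
  have h : IsCusp c (Gamma1 N : Subgroup (GL (Fin 2) ℝ)) := by
    rw [Subgroup.IsArithmetic.isCusp_iff_isCusp_SL2Z]; exact hc
  exact ModularFormClass.bdd_at_cusps f h

/-- build a form of level Gamma1(N) -/
def mkMF [NeZero N] (k : ℕ) (F : ℍ → ℂ) (h1 : ∀ γ : SL(2, ℤ), γ ∈ Gamma1 N → F ∣[(k : ℤ)] γ = F)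
    (h2 : MDiff F) (h3 : ∀ c : OnePoint ℝ, IsCusp c 𝒮ℒ → IsBoundedAt c F (k : ℤ)) : MF N k where
  toFun := F
  slash_action_eq' := by
    rintro _ ⟨γ, hγ, rfl⟩
    exact h1 γ hγ
  holo' := h2
  bdd_at_cusps' := by
    intro c hc
    apply h3
    rw [← Subgroup.IsArithmetic.isCusp_iff_isCusp_SL2Z (Gamma1 N : Subgroup (GL (Fin 2) ℝ))]
    exact hc

@[simp] lemma mkMF_coe [NeZero N] (k : ℕ) (F : ℍ → ℂ) (h1 h2 h3) : ⇑(mkMF (N := N) k F h1 h2 h3) = F := rfl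

/-- slash by `γ ∈ Γ₀(N)` preserves `MF N k` -/
lemma conj_mem [NeZero N] {γ δ : SL(2, ℤ)} (hγ : γ ∈ Gamma0 N) (hδ : δ ∈ Gamma1 N) :
    γ * δ * γ⁻¹ ∈ Gamma1 N := by
  rw [Gamma1_mem] at hδ ⊢
  rw [Gamma0_mem] at hγ
  obtain ⟨h1, h2, h3⟩ := hδ
  have hdet : ((γ 0 0 : ℤ) : ZMod N) * (γ 1 1 : ℤ) = 1 := by
    have := γ.det_coe
    rw [Matrix.det_fin_two] at this
    have h := congrArg (Int.cast : ℤ → ZMod N) this
    push_cast at h
    rw [hγ, mul_zero, sub_zero] at h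
    exact h
  have e : (γ * δ * γ⁻¹ : SL(2, ℤ)).1 = γ.1 * δ.1 * γ.1.adjugate := by
    simp [Matrix.SpecialLinearGroup.coe_inv]
  have entries : ∀ i j, ((γ * δ * γ⁻¹ : SL(2, ℤ)) i j : ℤ) = (γ.1 * δ.1 * γ.1.adjugate) i j := by
    intro i j; exact congrFun (congrFun e i) j
  refine ⟨?_, ?_, ?_⟩
  · rw [entries]
    simp only [Matrix.adjugate_fin_two, Matrix.mul_apply, Fin.sum_univ_two, Matrix.of_apply, Matrix.cons_val', Matrix.cons_val_zero, Matrix.cons_val_one]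
    push_cast
    rw [hγ, h1, h2, h3]
    linear_combination hdet
  · rw [entries]
    simp only [Matrix.adjugate_fin_two, Matrix.mul_apply, Fin.sum_univ_two, Matrix.of_apply, Matrix.cons_val', Matrix.cons_val_zero, Matrix.cons_val_one]
    push_cast
    rw [hγ, h1, h2, h3]
    linear_combination hdet
  · rw [entries]
    simp only [Matrix.adjugate_fin_two, Matrix.mul_apply, Fin.sum_univ_two, Matrix.of_apply, Matrix.cons_val', Matrix.cons_val_zero, Matrix.cons_val_one]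
    push_cast
    rw [hγ, h3]
    ring

lemma slash_g0 [NeZero N] {k : ℕ} (f : MF N k) {γ : SL(2, ℤ)} (hγ : γ ∈ Gamma0 N) {δ : SL(2, ℤ)}
    (hδ : δ ∈ Gamma1 N) : ((⇑f) ∣[(k : ℤ)] γ) ∣[(k : ℤ)] δ = (⇑f) ∣[(k : ℤ)] γ := by
  rw [← SlashAction.slash_mul]
  have e : γ * δ = (γ * δ * γ⁻¹) * γ := by group
  rw [e, SlashAction.slash_mul, mf_slash f (conj_mem hγ hδ)]

/-- slash by `γ ∈ Γ₀(N)` as a linear endomorphism -/
noncomputable def slashL [NeZero N] (k : ℕ) (γ : SL(2, ℤ)) (hγ : γ ∈ Gamma0 N) : MF N k →ₗ[ℂ] MF N k where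
  toFun f := mkMF k ((⇑f) ∣[(k : ℤ)] γ) (fun _ hδ => slash_g0 f hγ hδ)
    (by rw [SL_slash]; exact (ModularFormClass.holo f).slash _ _)
    (by
      intro c hc
      obtain ⟨g, hg⟩ := toGL_rat γ.1 (by simp)
      rw [SL_slash]
      have : (γ : GL (Fin 2) ℝ) = g.map (Rat.castHom ℝ) := by rw [← hg]; exact mapGL_eq_toGL γ
      rw [this]
      exact bdd_slash (fun c hc => mf_bdd f c hc) g c hc)
  map_add' f g := by
    apply DFunLike.coe_injective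
    simp only [mkMF_coe, FunLike.coe_add, SlashAction.add_slash]
  map_smul' c f := by
    apply DFunLike.coe_injective
    simp only [mkMF_coe, FunLike.coe_smul, SL_smul_slash, RingHom.id_apply]

@[simp] lemma slashL_coe [NeZero N] (k : ℕ) (γ : SL(2, ℤ)) (hγ : γ ∈ Gamma0 N) (f : MF N k) :
    ⇑(slashL k γ hγ f) = (⇑f) ∣[(k : ℤ)] γ := rfl

lemma slash_congr [NeZero N] {k : ℕ} (f : MF N k) {γ γ' : SL(2, ℤ)} (hγ : γ ∈ Gamma0 N) (hγ' : γ' ∈ Gamma0 N)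
    (e : ((γ 1 1 : ℤ) : ZMod N) = ((γ' 1 1 : ℤ) : ZMod N)) :
    (⇑f) ∣[(k : ℤ)] γ = (⇑f) ∣[(k : ℤ)] γ' := by
  have hm : γ * γ'⁻¹ ∈ Gamma1 N := by
    rw [Gamma1_mem]
    rw [Gamma0_mem] at hγ hγ'
    have d1 : ((γ 0 0 : ℤ) : ZMod N) * (γ 1 1 : ℤ) = 1 := by
      have := γ.det_coe
      rw [Matrix.det_fin_two] at this
      have h := congrArg (Int.cast : ℤ → ZMod N) this
      push_cast at h
      rw [hγ, mul_zero, sub_zero] at h
      exact h
    have d2 : ((γ' 0 0 : ℤ) : ZMod N) * (γ' 1 1 : ℤ) = 1 := by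
      have := γ'.det_coe
      rw [Matrix.det_fin_two] at this
      have h := congrArg (Int.cast : ℤ → ZMod N) this
      push_cast at h
      rw [hγ', mul_zero, sub_zero] at h
      exact h
    have e' : (γ * γ'⁻¹ : SL(2, ℤ)).1 = γ.1 * γ'.1.adjugate := by
      simp [Matrix.SpecialLinearGroup.coe_inv]
    have entries : ∀ i j, ((γ * γ'⁻¹ : SL(2, ℤ)) i j : ℤ) = (γ.1 * γ'.1.adjugate) i j := by
      intro i j; exact congrFun (congrFun e' i) j
    refine ⟨?_, ?_, ?_⟩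
    · rw [entries]
      simp only [Matrix.adjugate_fin_two, Matrix.mul_apply, Fin.sum_univ_two, Matrix.of_apply, Matrix.cons_val', Matrix.cons_val_zero, Matrix.cons_val_one]
      push_cast
      rw [hγ', ← e]
      linear_combination d1
    · rw [entries]
      simp only [Matrix.adjugate_fin_two, Matrix.mul_apply, Fin.sum_univ_two, Matrix.of_apply, Matrix.cons_val', Matrix.cons_val_zero, Matrix.cons_val_one]
      push_cast
      rw [hγ, e]
      linear_combination d2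
    · rw [entries]
      simp only [Matrix.adjugate_fin_two, Matrix.mul_apply, Fin.sum_univ_two, Matrix.of_apply, Matrix.cons_val', Matrix.cons_val_zero, Matrix.cons_val_one]
      push_cast
      rw [hγ, hγ']
      ring
  have e2 : γ = (γ * γ'⁻¹) * γ' := by group
  rw [e2, SlashAction.slash_mul, mf_slash f hm]

/-- every unit mod N is the lower right entry of an element of Γ₀(N) -/
lemma exists_g0 [NeZero N] {u : ZMod N} (hu : IsUnit u) :
    ∃ γ : SL(2, ℤ), γ ∈ Gamma0 N ∧ ((γ 1 1 : ℤ) : ZMod N) = u := by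
  have hcop : Nat.Coprime u.val N := ZMod.val_coe_unit_coprime hu.unit
  have hb : (u.val : ℤ) * Nat.gcdA u.val N + (N : ℤ) * Nat.gcdB u.val N = 1 := by
    have := Nat.gcd_eq_gcd_ab u.val N
    rw [hcop] at this
    exact this.symm
  refine ⟨⟨!![Nat.gcdA u.val N, -Nat.gcdB u.val N; (N : ℤ), (u.val : ℤ)], ?_⟩, ?_, ?_⟩
  · rw [Matrix.det_fin_two_of]; linear_combination hb
  · rw [Gamma0_mem]; simp
  · simp

open Classical in
/-- the diamond operator indexed by `ZMod N` (zero for non-units) -/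
noncomputable def dia [NeZero N] (u : ZMod N) (k : ℕ) : MF N k →ₗ[ℂ] MF N k :=
  if h : ∃ γ : SL(2, ℤ), γ ∈ Gamma0 N ∧ ((γ 1 1 : ℤ) : ZMod N) = u then slashL k h.choose h.choose_spec.1 else 0

lemma dia_spec [NeZero N] {k : ℕ} (f : MF N k) {γ : SL(2, ℤ)} (hγ : γ ∈ Gamma0 N) {u : ZMod N}
    (hu : ((γ 1 1 : ℤ) : ZMod N) = u) : ⇑(dia u k f) = (⇑f) ∣[(k : ℤ)] γ := by
  have h : ∃ γ : SL(2, ℤ), γ ∈ Gamma0 N ∧ ((γ 1 1 : ℤ) : ZMod N) = u := ⟨γ, hγ, hu⟩
  rw [dia, dif_pos h]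
  exact slash_congr f h.choose_spec.1 hγ (h.choose_spec.2.trans hu.symm)

lemma g0_unit [NeZero N] {γ : SL(2, ℤ)} (hγ : γ ∈ Gamma0 N) :
    ((γ 0 0 : ℤ) : ZMod N) * ((γ 1 1 : ℤ) : ZMod N) = 1 := by
  rw [Gamma0_mem] at hγ
  have := γ.det_coe
  rw [Matrix.det_fin_two] at this
  have h := congrArg (Int.cast : ℤ → ZMod N) this
  push_cast at h
  rw [hγ, mul_zero, sub_zero] at h
  exact h

lemma g0_isUnit [NeZero N] {γ : SL(2, ℤ)} (hγ : γ ∈ Gamma0 N) : IsUnit ((γ 1 1 : ℤ) : ZMod N) :=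
  IsUnit.of_mul_eq_one _ (by rw [mul_comm]; exact g0_unit hγ)

lemma dia_mul [NeZero N] {k : ℕ} {u v : ZMod N} (hu : IsUnit u) (hv : IsUnit v) (f : MF N k) :
    dia u k (dia v k f) = dia (u * v) k f := by
  obtain ⟨γ, hγ, eγ⟩ := exists_g0 hu
  obtain ⟨δ, hδ, eδ⟩ := exists_g0 hv
  apply DFunLike.coe_injective
  rw [dia_spec _ hγ eγ, dia_spec _ hδ eδ, ← SlashAction.slash_mul]
  refine (dia_spec f (mul_mem hδ hγ) ?_).symm
  rw [Gamma0_mem] at hγ hδ
  have : ((δ * γ : SL(2, ℤ)) 1 1 : ℤ) = δ 1 0 * γ 0 1 + δ 1 1 * γ 1 1 := by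
    simp [Matrix.mul_apply, Fin.sum_univ_two]
  rw [this]
  push_cast
  rw [hδ, eγ, eδ]; ring

lemma dia_one [NeZero N] {k : ℕ} (f : MF N k) : dia 1 k f = f := by
  apply DFunLike.coe_injective
  rw [dia_spec f (one_mem _) (by simp), SlashAction.slash_one]

lemma dia_nonunit [NeZero N] {k : ℕ} {u : ZMod N} (hu : ¬ IsUnit u) : dia u k = 0 := by
  rw [dia, dif_neg]
  rintro ⟨γ, hγ, rfl⟩
  exact hu (g0_isUnit hγ)

lemma dia_comm [NeZero N] {k : ℕ} (u v : ZMod N) (f : MF N k) :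
    dia u k (dia v k f) = dia v k (dia u k f) := by
  by_cases hu : IsUnit u
  · by_cases hv : IsUnit v
    · rw [dia_mul hu hv, dia_mul hv hu, mul_comm]
    · simp [dia_nonunit hv]
  · simp [dia_nonunit hu]

end Crest.Agent.R007
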