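import Mathlib
import Crest.Prelude.Def_HeckeTwo
import Crest.Agent.R007.HeckeB

set_option autoImplicit false

namespace Crest.Agent.R007

open Crest.NumberTheoryR.HeckeTwoAdic
open UpperHalfPlane ModularForm CongruenceSubgroup Matrix OnePoint
open scoped ModularForm MatrixGroups Manifold TensorProduct

/-- a level one form seen at level `Γ₁(N)` -/
noncomputable def ofLevelOne (N : ℕ) [NeZero N] (k : ℕ) (f : ModularForm 𝒮ℒ (k : ℤ)) : MF N k :=
  mkMF k (⇑f) (fun γ _ => SlashInvariantForm.slash_action_eqn (Γ := 𝒮ℒ) (k := (k : ℤ)) f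
      (Matrix.SpecialLinearGroup.mapGL ℝ γ) ⟨γ, rfl⟩)
    (ModularFormClass.holo f) (fun _ hc => ModularFormClass.bdd_at_cusps f hc)

@[simp] lemma ofLevelOne_coe (N : ℕ) [NeZero N] (k : ℕ) (f : ModularForm 𝒮ℒ (k : ℤ)) :
    ⇑(ofLevelOne N k f) = ⇑f := rfl

lemma nontrivial_MF4 (N : ℕ) [NeZero N] : Nontrivial (MF N 4) := by
  have h : Nontrivial (ModularForm 𝒮ℒ 4) := by
    by_contra hn
    rw [not_nontrivial_iff_subsingleton] at hn
    have h1 := ModularForm.levelOne_weight_four_rank_one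
    rw [rank_subsingleton'] at h1
    exact zero_ne_one h1
  obtain ⟨f, hf⟩ := exists_ne (0 : ModularForm 𝒮ℒ 4)
  refine ⟨⟨ofLevelOne N 4 f, 0, ?_⟩⟩
  intro h
  apply hf
  apply DFunLike.coe_injective
  have h1 := congrArg (fun f : MF N 4 => (⇑f : ℍ → ℂ)) h
  simpa using! h1

/-- a torsion-free ring with `1 ≠ 0`: the base change to `ℤ₂` is non trivial -/
lemma nontrivial_tensor (R : Type*) [Ring R] [Nontrivial R] [Module.IsTorsionFree ℤ R] :
    Nontrivial (TensorProduct ℤ (PadicInt 2) R) := by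
  -- flatness of `ℤ₂`
  have hflat : Module.Flat ℤ (PadicInt 2) := by
    infer_instance
  let i : ℤ →ₗ[ℤ] R := LinearMap.toSpanSingleton ℤ R 1
  have hi : Function.Injective i := by
    intro a b hab
    simp only [i, LinearMap.toSpanSingleton_apply] at hab
    exact smul_left_injective ℤ (one_ne_zero : (1 : R) ≠ 0) hab
  have hinj : Function.Injective (i.lTensor (PadicInt 2)) :=
    Module.Flat.lTensor_preserves_injective_linearMap i hi
  have : Nontrivial (TensorProduct ℤ (PadicInt 2) ℤ) := (TensorProduct.rid ℤ (PadicInt 2)).toEquiv.nontrivial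
  exact hinj.nontrivial

instance stage_torsionFree (N : ℕ) (T D : ℕ → (i : ℕ) → (MF N i →ₗ[ℂ] MF N i)) (k : ℕ) :
    Module.IsTorsionFree ℤ (stage N T D k) := by
  have h0 : ∀ (V : Type) [AddCommGroup V] [Module ℂ V], Module.IsTorsionFree ℤ V := by
    intro V _ _
    refine ⟨fun n hn v w hvw => ?_⟩
    have hn0 : (n : ℂ) ≠ 0 := by
      exact_mod_cast hn.ne_zero
    have h1 : (n : ℂ) • v = (n : ℂ) • w := by
      rw [Int.cast_smul_eq_zsmul, Int.cast_smul_eq_zsmul]
      exact hvw
    exact smul_right_injective V hn0 h1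
  have : Module.IsTorsionFree ℤ (EndProd N k) := h0 _
  exact (Subtype.coe_injective (p := fun x => x ∈ stage N T D k)).moduleIsTorsionFree _ (fun n x => by simp)

theorem nontrivial_heckeTwo (N : ℕ) [NeZero N] (T D : ℕ → (i : ℕ) → (MF N i →ₗ[ℂ] MF N i)) :
    Nontrivial (HeckeTwo N T D) := by
  have h4 := nontrivial_MF4 N
  have hE : Nontrivial (EndProd N 4) := by
    have : Nontrivial (Module.End ℂ (MF N ((3 : Fin 4) + 1))) := by
      have : Nontrivial (MF N ((3 : Fin 4) + 1)) := h4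
      infer_instance
    exact Pi.nontrivial_at (3 : Fin 4)
  have hs : Nontrivial (stage N T D 4) := Subring.instNontrivialSubtypeMem _
  have ht : Nontrivial (stageTwo N T D 4) := nontrivial_tensor (stage N T D 4)
  refine ⟨⟨0, 1, ?_⟩⟩
  intro h
  have h1 : (((0 : HeckeTwo N T D) : (k : ℕ) → stageTwo N T D k)) 4 = ((1 : HeckeTwo N T D) : (k : ℕ) → stageTwo N T D k) 4 := by rw [h]
  exact zero_ne_one h1

end Crest.Agent.R007
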