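import Crest.Agent.R007.Du2
import Crest.Agent.R007.BAlg4
import Crest.Agent.R007.HDShell
import Crest.Agent.R007.NT

/-!
Row 7, section B (helper707), concrete layer: the Hecke algebra `T = lim ℤ₂ ⊗ A k` as an honest
commutative ring, its generators, arithmetic of the scalars `e_c` for `c ≡ 1 mod N`.
-/

set_option autoImplicit false

open Crest.NumberTheoryR.HeckeTwoAdic
open scoped TensorProduct

namespace Crest.Agent.R007.Du

open HD (gensComm_hecke stage_comm isDiamondFamily isHeckeFamily)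
open BAlg (IsLim)

section arith

/-- powers of `ℓ ≡ 5 mod 8` -/
theorem pow_two_pow_eq (l : ℤ) (hl : l % 8 = 5) (j : ℕ) :
    ∃ u : ℤ, Odd u ∧ l ^ (2 ^ j) = 1 + 2 ^ (j + 2) * u := by
  induction j with
  | zero => exact ⟨(l - 1) / 4, by rw [Int.odd_iff]; omega, by norm_num; omega⟩
  | succ j ih =>
    obtain ⟨u, hu, h⟩ := ih
    refine ⟨u + 2 ^ (j + 1) * u ^ 2, ?_, ?_⟩
    · apply Odd.add_even hu
      rw [pow_succ]
      exact ⟨2 ^ j * u ^ 2, by ring⟩
    · rw [pow_succ 2 j, pow_mul, h]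
      ring

/-- the powers of `ℓ ≡ 5 mod 8` are dense in `1 + 4ℤ₂`. -/
theorem exists_pow_sub (l : ℤ) (hl : l % 8 = 5) (b : ℤ) (hb : b % 4 = 1) (m : ℕ) :
    ∃ a : ℕ, (2 : ℤ) ^ m ∣ l ^ a - b := by
  have key : ∀ m : ℕ, ∃ a : ℕ, (2 : ℤ) ^ (m + 2) ∣ l ^ a - b := by
    intro m
    induction m with
    | zero => exact ⟨0, by norm_num; omega⟩
    | succ m ih =>
      obtain ⟨a, c, hc⟩ := ih
      rcases Int.even_or_odd c with ⟨d, hd⟩ | hc'
      · exact ⟨a, d, by rw [hc, hd]; ring⟩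
      · obtain ⟨u, hu, h⟩ := pow_two_pow_eq l hl m
        have hb' : Odd b := by rw [Int.odd_iff]; omega
        obtain ⟨d, hd⟩ := hc'.add_odd (hb'.mul hu)
        refine ⟨a + 2 ^ m, d + 2 ^ (m + 1) * (c * u), ?_⟩
        have h1 : l ^ a = b + 2 ^ (m + 2) * c := by rw [← hc]; ring
        rw [pow_add, h1, h]
        have h2 : c + b * u = 2 * d := by rw [hd]; ring
        have h3 : (b + 2 ^ (m + 2) * c) * (1 + 2 ^ (m + 2) * u) - b =
          2 ^ (m + 2) * (c + b * u) + 2 ^ (m + 2) * (2 ^ (m + 2) * (c * u)) := by ring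
        rw [h3, h2]
        ring
  obtain ⟨a, ha⟩ := key m
  exact ⟨a, (pow_dvd_pow 2 (by omega)).trans ha⟩

end arith

variable (N : ℕ) [NeZero N]

/-- the Hecke ring of weights `≤ k` -/
def A (k : ℕ) : Type := stage N (HD.hecke N) (HD.dia N) k

noncomputable instance instA (k : ℕ) : CommRing (A N k) :=
  commRingOfComm (stage N (HD.hecke N) (HD.dia N) k) (stage_comm (gensComm_hecke N) k)

instance tfA (k : ℕ) : Module.IsTorsionFree ℤ (A N k) :=
  stage_torsionFree N (HD.hecke N) (HD.dia N) k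

/-- action on weight `i + 1` -/
noncomputable def act {k : ℕ} (i : Fin k) : A N k →+* Module.End ℂ (MF N ((i : ℕ) + 1)) :=
  (Pi.evalRingHom (fun j : Fin k => Module.End ℂ (MF N ((j : ℕ) + 1))) i).comp
    (stage N (HD.hecke N) (HD.dia N) k).subtype

theorem A_ext {k : ℕ} {x y : A N k} (h : ∀ i, act N i x = act N i y) : x = y :=
  Subtype.ext (funext h)

variable {N} in
/-- the generator `T_ℓ` -/
noncomputable def gT {l : ℕ} (hl : l.Prime) (hlN : ¬ l ∣ 2 * N) (k : ℕ) : A N k :=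
  ⟨fun i => HD.hecke N l ((i : ℕ) + 1), Subring.subset_closure ⟨l, hl, hlN, Or.inl rfl⟩⟩

variable {N} in
/-- the generator `ℓ S_ℓ` -/
noncomputable def gE {l : ℕ} (hl : l.Prime) (hlN : ¬ l ∣ 2 * N) (k : ℕ) : A N k :=
  ⟨fun i => ((l : ℂ) ^ (i : ℕ)) • HD.dia N l ((i : ℕ) + 1),
    Subring.subset_closure ⟨l, hl, hlN, Or.inr rfl⟩⟩

variable {N} in
@[simp] theorem act_gT {l : ℕ} (hl : l.Prime) (hlN : ¬ l ∣ 2 * N) (k : ℕ) (i : Fin k) :
    act N i (gT hl hlN k) = HD.hecke N l ((i : ℕ) + 1) := rfl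

variable {N} in
@[simp] theorem act_gE {l : ℕ} (hl : l.Prime) (hlN : ¬ l ∣ 2 * N) (k : ℕ) (i : Fin k) :
    act N i (gE hl hlN k) = ((l : ℂ) ^ (i : ℕ)) • HD.dia N l ((i : ℕ) + 1) := rfl

/-- restriction of weights -/
noncomputable def resA (k : ℕ) : A N (k + 1) →+* A N k := restrictStageInt N (HD.hecke N) (HD.dia N) k

theorem act_resA (k : ℕ) (i : Fin k) (x : A N (k + 1)) :
    act N i (resA N k x) = act N (Fin.castSucc i) x := rfl

variable {N} in
@[simp] theorem resA_gT {l : ℕ} (hl : l.Prime) (hlN : ¬ l ∣ 2 * N) (k : ℕ) :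
    resA N k (gT hl hlN (k + 1)) = gT hl hlN k := rfl

variable {N} in
@[simp] theorem resA_gE {l : ℕ} (hl : l.Prime) (hlN : ¬ l ∣ 2 * N) (k : ℕ) :
    resA N k (gE hl hlN (k + 1)) = gE hl hlN k := rfl

/-- the generators of `A N k`. -/
def gens (k : ℕ) : Set (A N k) :=
  {a | ∃ (l : ℕ) (hl : l.Prime) (hlN : ¬ l ∣ 2 * N), a = gT hl hlN k ∨ a = gE hl hlN k}

theorem closure_gens (k : ℕ) : Subring.closure (gens N k) = ⊤ := by
  rw [eq_top_iff]
  rintro ⟨x, hx⟩ -
  have h1 : ∀ (y : EndProd N k) (hy : y ∈ stage N (HD.hecke N) (HD.dia N) k),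
      (⟨y, hy⟩ : A N k) ∈ Subring.closure (gens N k) := by
    intro y hy
    induction hy using Subring.closure_induction with
    | mem y hy =>
      obtain ⟨l, hl, hlN, h⟩ := hy
      apply Subring.subset_closure
      refine ⟨l, hl, hlN, ?_⟩
      rcases h with rfl | rfl
      · exact Or.inl rfl
      · exact Or.inr rfl
    | zero => exact zero_mem _
    | one => exact one_mem _
    | add a b ha hb iha ihb => exact add_mem iha ihb
    | neg a ha iha => exact neg_mem iha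
    | mul a b ha hb iha ihb => exact mul_mem iha ihb
  exact h1 x hx

theorem resA_surjective (k : ℕ) : Function.Surjective (resA N k) := by
  have h : (⊤ : Subring (A N k)) ≤ (resA N k).range := by
    rw [← closure_gens, Subring.closure_le]
    rintro _ ⟨l, hl, hlN, rfl | rfl⟩
    · exact ⟨gT hl hlN (k + 1), rfl⟩
    · exact ⟨gE hl hlN (k + 1), rfl⟩
  intro x
  exact h (Subring.mem_top x)

/-- the finite stage `ℤ₂ ⊗ A k`. -/
def R (k : ℕ) : Type := ℤ_[2] ⊗[ℤ] A N k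

noncomputable instance instR (k : ℕ) : CommRing (R N k) :=
  inferInstanceAs (CommRing (ℤ_[2] ⊗[ℤ] A N k))

noncomputable instance algR (k : ℕ) : Algebra ℤ_[2] (R N k) :=
  inferInstanceAs (Algebra ℤ_[2] (ℤ_[2] ⊗[ℤ] A N k))

variable {N} in
/-- pure tensors -/
noncomputable def tm {k : ℕ} (z : ℤ_[2]) (a : A N k) : R N k := z ⊗ₜ[ℤ] a

variable {N} in
theorem R_induction {k : ℕ} {P : R N k → Prop} (x : R N k) (h0 : P 0) (ht : ∀ z a, P (tm z a))
    (ha : ∀ x y, P x → P y → P (x + y)) : P x :=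
  TensorProduct.induction_on (motive := fun x : ℤ_[2] ⊗[ℤ] A N k => P x) x h0 ht ha

/-- transition maps. -/
noncomputable def resR (k : ℕ) : R N (k + 1) →+* R N k :=
  (Algebra.TensorProduct.map (AlgHom.id ℤ ℤ_[2]) (resA N k).toIntAlgHom).toRingHom

/-- the inclusion `A k → ℤ₂ ⊗ A k`. -/
noncomputable def inc (k : ℕ) : A N k →+* R N k :=
  (Algebra.TensorProduct.includeRight : A N k →ₐ[ℤ] ℤ_[2] ⊗[ℤ] A N k).toRingHom

theorem inc_apply (k : ℕ) (a : A N k) : inc N k a = tm 1 a := rfl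

theorem algebraMap_R (k : ℕ) (z : ℤ_[2]) : algebraMap ℤ_[2] (R N k) z = tm z 1 := rfl

theorem tm_eq (k : ℕ) (z : ℤ_[2]) (a : A N k) :
    tm z a = algebraMap ℤ_[2] (R N k) z * inc N k a := by
  rw [algebraMap_R, inc_apply]
  have h : (z ⊗ₜ[ℤ] (1 : A N k)) * ((1 : ℤ_[2]) ⊗ₜ[ℤ] a) = (z * 1) ⊗ₜ[ℤ] (1 * a) :=
    Algebra.TensorProduct.tmul_mul_tmul _ _ _ _
  rw [mul_one, one_mul] at h
  exact h.symm

theorem resR_tm (k : ℕ) (z : ℤ_[2]) (a : A N (k + 1)) :
    resR N k (tm z a) = tm z (resA N k a) := rfl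

@[simp] theorem resR_inc (k : ℕ) (a : A N (k + 1)) : resR N k (inc N (k + 1) a) = inc N k (resA N k a) :=
  rfl

theorem resR_surjective (k : ℕ) : Function.Surjective (resR N k) := by
  intro x
  refine R_induction (P := fun x => ∃ y, resR N k y = x) x ⟨0, map_zero _⟩ (fun z a => ?_)
    (fun x y hx hy => ?_)
  · obtain ⟨b, rfl⟩ := resA_surjective N k a
    exact ⟨tm z b, rfl⟩
  · obtain ⟨a, rfl⟩ := hx
    obtain ⟨b, rfl⟩ := hy
    exact ⟨a + b, map_add _ _ _⟩

theorem tensor_torsionFree {M : Type*} [CommRing M] [Module.IsTorsionFree ℤ M]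
    (x : ℤ_[2] ⊗[ℤ] M) (hx : 2 * x = 0) : x = 0 := by
  have hflat : Module.Flat ℤ ℤ_[2] := by infer_instance
  let f : M →ₗ[ℤ] M := LinearMap.lsmul ℤ M 2
  have hf : Function.Injective f := by
    intro a b hab
    exact smul_right_injective M (two_ne_zero : (2 : ℤ) ≠ 0) hab
  have h1 := Module.Flat.lTensor_preserves_injective_linearMap (M := ℤ_[2]) f hf
  have h2 : ∀ y : ℤ_[2] ⊗[ℤ] M, f.lTensor ℤ_[2] y = 2 * y := by
    intro y
    induction y using TensorProduct.induction_on with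
    | zero => rw [map_zero, mul_zero]
    | tmul z a =>
      rw [LinearMap.lTensor_tmul]
      change z ⊗ₜ[ℤ] ((2 : ℤ) • a) = 2 * (z ⊗ₜ[ℤ] a)
      rw [TensorProduct.tmul_smul, ofNat_smul_eq_nsmul, two_mul]
      rw [two_nsmul]
    | add x y hx hy => rw [map_add, hx, hy, mul_add]
  apply h1
  rw [map_zero, h2, hx]

theorem R_torsionFree (k : ℕ) (x : R N k) (hx : 2 * x = 0) : x = 0 :=
  @tensor_torsionFree (A N k) _ (tfA N k) x hx

/-- `T = lim ℤ₂ ⊗ A k`, as compatible sequences. -/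
noncomputable def TT : Subring (∀ k, R N k) where
  carrier := {a | ∀ k : ℕ, resR N k (a (k + 1)) = a k}
  mul_mem' {a b} ha hb := fun k => by rw [Pi.mul_apply, map_mul, ha k, hb k, Pi.mul_apply]
  one_mem' := fun k => by rw [Pi.one_apply, map_one, Pi.one_apply]
  add_mem' {a b} ha hb := fun k => by rw [Pi.add_apply, map_add, ha k, hb k, Pi.add_apply]
  zero_mem' := fun k => by rw [Pi.zero_apply, map_zero, Pi.zero_apply]
  neg_mem' {a} ha := fun k => by rw [Pi.neg_apply, map_neg, ha k, Pi.neg_apply]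

/-- projections. -/
noncomputable def pr (k : ℕ) : TT N →+* R N k := (Pi.evalRingHom (fun k => R N k) k).comp (TT N).subtype

theorem isLim : IsLim (pr N) (resR N) where
  comp k x := by exact x.2 k
  inj x hx := Subtype.ext (funext hx)
  lift a ha := ⟨⟨a, ha⟩, fun _ => rfl⟩

variable {N} in
/-- `T_ℓ` in `T`. -/
noncomputable def tT {l : ℕ} (hl : l.Prime) (hlN : ¬ l ∣ 2 * N) : TT N :=
  ⟨fun k => inc N k (gT hl hlN k), fun _ => rfl⟩

variable {N} in
/-- `e_ℓ = ℓ S_ℓ` in `T`. -/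
noncomputable def tE {l : ℕ} (hl : l.Prime) (hlN : ¬ l ∣ 2 * N) : TT N :=
  ⟨fun k => inc N k (gE hl hlN k), fun _ => rfl⟩

variable {N} in
@[simp] theorem pr_tT {l : ℕ} (hl : l.Prime) (hlN : ¬ l ∣ 2 * N) (k : ℕ) :
    pr N k (tT hl hlN) = inc N k (gT hl hlN k) := rfl

variable {N} in
@[simp] theorem pr_tE {l : ℕ} (hl : l.Prime) (hlN : ¬ l ∣ 2 * N) (k : ℕ) :
    pr N k (tE hl hlN) = inc N k (gE hl hlN k) := rfl

end Crest.Agent.R007.Du
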