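import Crest.Agent.R007.Du3

/-!
Row 7, section B (helper707): identification with `HeckeTwo`.
-/

set_option autoImplicit false

open Crest.NumberTheoryR.HeckeTwoAdic
open scoped TensorProduct

namespace Crest.Agent.R007.Du

variable (N : ℕ) [NeZero N]

/-- `A k` is the stage. -/
noncomputable def eA (k : ℕ) : A N k ≃+* stage N (HD.hecke N) (HD.dia N) k where
  toFun x := x
  invFun x := x
  left_inv _ := rfl
  right_inv _ := rfl
  map_mul' _ _ := rfl
  map_add' _ _ := rfl

/-- `ℤ₂ ⊗ A k` is the finite stage of the statement. -/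
noncomputable def eR (k : ℕ) : R N k ≃+* stageTwo N (HD.hecke N) (HD.dia N) k :=
  (Algebra.TensorProduct.congr (AlgEquiv.refl : PadicInt 2 ≃ₐ[ℤ] PadicInt 2)
    (eA N k).toIntAlgEquiv).toRingEquiv

theorem restrict_eR (k : ℕ) (x : R N (k + 1)) :
    restrictStage N (HD.hecke N) (HD.dia N) k (eR N (k + 1) x) = eR N k (resR N k x) := by
  refine R_induction (P := fun x => restrictStage N (HD.hecke N) (HD.dia N) k (eR N (k + 1) x) =
    eR N k (resR N k x)) x ?_ (fun z a => ?_) (fun x y hx hy => ?_)
  · rw [map_zero, map_zero, map_zero, map_zero]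
  · rfl
  · rw [map_add, map_add, map_add, map_add, hx, hy]

theorem restrict_eR_symm (k : ℕ) (x : stageTwo N (HD.hecke N) (HD.dia N) (k + 1)) :
    resR N k ((eR N (k + 1)).symm x) =
      (eR N k).symm (restrictStage N (HD.hecke N) (HD.dia N) k x) := by
  rw [RingEquiv.eq_symm_apply, ← restrict_eR, RingEquiv.apply_symm_apply]

/-- `T` is the ring of the statement. -/
noncomputable def equivHecke : TT N ≃+* HeckeTwo N (HD.hecke N) (HD.dia N) where
  toFun x := ⟨fun k => eR N k (x.1 k), fun k => by rw [restrict_eR]; exact congrArg _ (x.2 k)⟩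
  invFun x := ⟨fun k => (eR N k).symm (x.1 k), fun k => by
    rw [restrict_eR_symm]; exact congrArg _ (x.2 k)⟩
  left_inv x := Subtype.ext (funext fun k => (eR N k).symm_apply_apply _)
  right_inv x := Subtype.ext (funext fun k => (eR N k).apply_symm_apply _)
  map_mul' x y := Subtype.ext (funext fun k => map_mul (eR N k) _ _)
  map_add' x y := Subtype.ext (funext fun k => map_add (eR N k) _ _)

end Crest.Agent.R007.Du
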