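import Crest.Agent.R007.Du3

/-!
Row 7, section B (helper707): scalar elements of the Hecke rings.
-/

set_option autoImplicit false

open Crest.NumberTheoryR.HeckeTwoAdic
open Polynomial

namespace Crest.Agent.R007.Du

variable {N : ℕ} [NeZero N]

/-- `x` acts on weight `i + 1` by the integer `f i`. -/
def IsSc {k : ℕ} (x : A N k) (f : ℕ → ℤ) : Prop :=
  ∀ i : Fin k, act N i x = ((f (i : ℕ) : ℤ) : Module.End ℂ (MF N ((i : ℕ) + 1)))

theorem dia_one {l : ℕ} (h : (l : ZMod N) = 1) (i : ℕ) : HD.dia N l i = 1 := by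
  refine LinearMap.ext fun f => DFunLike.coe_injective ?_
  rw [HD.isDiamondFamily N l i 1 (one_mem _) (by simp [h]) f]
  simp

theorem isSc_gE {l : ℕ} (hl : l.Prime) (hlN : ¬ l ∣ 2 * N) (h : (l : ZMod N) = 1) (k : ℕ) :
    IsSc (gE hl hlN k : A N k) (fun i => (l : ℤ) ^ i) := by
  intro i
  rw [act_gE, dia_one h]
  refine LinearMap.ext fun f => ?_
  rw [LinearMap.smul_apply, Module.End.one_apply, Module.End.intCast_apply]
  push_cast
  rw [← Int.cast_smul_eq_zsmul ℂ]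
  push_cast
  rfl

theorem IsSc.mul {k : ℕ} {x y : A N k} {f g : ℕ → ℤ} (hx : IsSc x f) (hy : IsSc y g) :
    IsSc (x * y) (fun i => f i * g i) := by
  intro i
  rw [map_mul, hx i, hy i, Int.cast_mul]

theorem IsSc.sub {k : ℕ} {x y : A N k} {f g : ℕ → ℤ} (hx : IsSc x f) (hy : IsSc y g) :
    IsSc (x - y) (fun i => f i - g i) := by
  intro i
  rw [map_sub, hx i, hy i, Int.cast_sub]

theorem IsSc.pow {k : ℕ} {x : A N k} {f : ℕ → ℤ} (hx : IsSc x f) (n : ℕ) :
    IsSc (x ^ n) (fun i => f i ^ n) := by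
  intro i
  rw [map_pow, hx i, Int.cast_pow]

theorem IsSc.aeval {k : ℕ} {x : A N k} {f : ℕ → ℤ} (hx : IsSc x f) (p : ℤ[X]) :
    IsSc (aeval x p) (fun i => p.eval (f i)) := by
  intro i
  rw [aeval_def, hom_eval₂, hx i]
  have h : (act N i).comp (algebraMap ℤ (A N k)) =
    Int.castRingHom (Module.End ℂ (MF N ((i : ℕ) + 1))) := RingHom.ext_int _ _
  rw [h]
  exact eval₂_at_apply _ _

theorem IsSc.eq {k : ℕ} {x y : A N k} {f g : ℕ → ℤ} (hx : IsSc x f) (hy : IsSc y g)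
    (h : ∀ i, i < k → f i = g i) : x = y := by
  apply A_ext
  intro i
  rw [hx i, hy i, h i i.2]

theorem isSc_intCast (k : ℕ) (n : ℤ) : IsSc ((n : ℤ) : A N k) (fun _ => n) := by
  intro i
  rw [map_intCast]

/-- `e_ℓ - 1` is nilpotent modulo 2. -/
theorem nil_mod_two {k : ℕ} {x : A N k} {l : ℤ} (hl : Odd l) (hx : IsSc x (fun i => l ^ i)) :
    (x - 1) ^ k ∈ Ideal.span {(2 : A N k)} := by
  let p : ℤ[X] := ∏ i ∈ Finset.range k, (X - C (l ^ i))
  have h0 : aeval x p = 0 := by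
    have h1 : IsSc (0 : A N k) (fun _ => 0) := by
      intro i; rw [map_zero, Int.cast_zero]
    refine (hx.aeval p).eq h1 (fun i hi => ?_)
    rw [eval_prod]
    apply Finset.prod_eq_zero (Finset.mem_range.mpr hi)
    simp
  rw [← Ideal.Quotient.eq_zero_iff_mem]
  have h2 : aeval x p = ∏ i ∈ Finset.range k, (x - ((l ^ i : ℤ) : A N k)) := by
    rw [map_prod]
    refine Finset.prod_congr rfl fun i _ => ?_
    rw [map_sub, aeval_X, aeval_C]
    rfl
  have h3 : Ideal.Quotient.mk (Ideal.span {(2 : A N k)}) (∏ i ∈ Finset.range k,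
      (x - ((l ^ i : ℤ) : A N k))) = Ideal.Quotient.mk (Ideal.span {(2 : A N k)}) ((x - 1) ^ k) := by
    have h4 : (x - 1) ^ k = ∏ _i ∈ Finset.range k, (x - 1) := by
      rw [Finset.prod_const, Finset.card_range]
    rw [h4, map_prod, map_prod]
    refine Finset.prod_congr rfl fun i _ => ?_
    rw [Ideal.Quotient.eq]
    obtain ⟨c, hc⟩ := (hl.pow (n := i)).sub_odd (odd_one : Odd (1 : ℤ))
    have h5 : x - ((l ^ i : ℤ) : A N k) - (x - 1) = ((-c : ℤ) : A N k) * 2 := by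
      have h6 : ((l ^ i : ℤ) : A N k) - 1 = ((c + c : ℤ) : A N k) := by
        rw [← hc]; push_cast; ring
      have h7 : x - ((l ^ i : ℤ) : A N k) - (x - 1) = -(((l ^ i : ℤ) : A N k) - 1) := by ring
      rw [h7, h6]; push_cast; ring
    rw [h5]
    exact Ideal.mul_mem_left _ _ (Ideal.mem_span_singleton_self _)
  rw [← h3, ← h2, h0, map_zero]

/-- scalar elements divisible by a high power of 2 in every weight are divisible by 2. -/
theorem close {k : ℕ} {x : A N k} {l : ℤ} (hl : 2 ≤ l) (hx : IsSc x (fun i => l ^ i)) :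
    ∃ m : ℕ, ∀ (z : A N k) (w : ℕ → ℤ), IsSc z w → (∀ i, i < k → (2 : ℤ) ^ m ∣ w i) →
      z ∈ Ideal.span {(2 : A N k)} := by
  classical
  let p : ℕ → ℤ[X] := fun i => ∏ j ∈ (Finset.range k).erase i, (X - C (l ^ j))
  let c : ℕ → ℤ := fun i => (p i).eval (l ^ i)
  have hc : ∀ i, c i ≠ 0 := by
    intro i
    change (p i).eval (l ^ i) ≠ 0
    rw [eval_prod, Finset.prod_ne_zero_iff]
    intro j hj
    rw [Finset.mem_erase] at hj
    rw [eval_sub, eval_X, eval_C, sub_ne_zero]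
    intro h
    exact hj.1 (Int.pow_right_injective (by omega) h.symm)
  have hp0 : ∀ i j, i < k → i ≠ j → (p j).eval (l ^ i) = 0 := by
    intro i j hi hij
    rw [eval_prod]
    apply Finset.prod_eq_zero (Finset.mem_erase.mpr ⟨hij, Finset.mem_range.mpr hi⟩)
    simp
  let D : ℤ := ∏ i ∈ Finset.range k, c i
  have hD : D ≠ 0 := Finset.prod_ne_zero_iff.mpr fun i _ => hc i
  obtain ⟨s, o', ho', hDo⟩ := Nat.exists_eq_two_pow_mul_odd (n := D.natAbs) (by
    rwa [Int.natAbs_ne_zero])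
  obtain ⟨o, ho, hDo2⟩ : ∃ o : ℤ, Odd o ∧ D = 2 ^ s * o := by
    rcases Int.natAbs_eq D with h | h
    · exact ⟨o', by exact_mod_cast ho', by rw [h, hDo]; push_cast; ring⟩
    · exact ⟨-o', by simpa using ho', by rw [h, hDo]; push_cast; ring⟩
  refine ⟨s + 1, fun z w hz hw => ?_⟩
  choose w' hw' using fun i (hi : i < k) => hw i hi
  let v : ℕ → ℤ := fun i => if hi : i < k then w' i hi else 0
  have hv : ∀ i, i < k → w i = 2 ^ (s + 1) * v i := by
    intro i hi
    simp only [v, dif_pos hi]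
    exact hw' i hi
  let g : ℤ[X] := ∑ i ∈ Finset.range k, C (v i * ∏ j ∈ (Finset.range k).erase i, c j) * p i
  have hg : ∀ i, i < k → g.eval (l ^ i) = v i * D := by
    intro i hi
    change (∑ j ∈ Finset.range k, _ : ℤ[X]).eval (l ^ i) = _
    rw [eval_finset_sum, Finset.sum_eq_single_of_mem i (Finset.mem_range.mpr hi)]
    · rw [eval_mul, eval_C]
      change v i * (∏ j ∈ (Finset.range k).erase i, c j) * c i = v i * D
      rw [mul_assoc, Finset.prod_erase_mul _ _ (Finset.mem_range.mpr hi)]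
    · intro j _ hji
      rw [eval_mul, hp0 i j hi (Ne.symm hji), mul_zero]
  -- `o z = 2 g(x)`
  have h1 : ((o : ℤ) : A N k) * z = ((2 : ℤ) : A N k) * aeval x g := by
    refine ((isSc_intCast k o).mul hz).eq ((isSc_intCast k 2).mul (hx.aeval g)) (fun i hi => ?_)
    rw [hg i hi, hv i hi, hDo2]
    ring
  obtain ⟨q, hq⟩ := ho
  have h2 : z = 2 * (aeval x g - (q : A N k) * z) := by
    have h3 : ((o : ℤ) : A N k) * z = 2 * ((q : A N k) * z) + z := by
      rw [hq]; push_cast; ring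
    rw [h3] at h1
    have h4 : z = ((2 : ℤ) : A N k) * aeval x g - 2 * ((q : A N k) * z) := by
      rw [← h1]; ring
    have h5 : ((2 : ℤ) : A N k) = 2 := by norm_num
    rw [h5] at h4
    rw [mul_sub, ← h4]
  rw [h2]
  exact Ideal.mul_mem_right _ _ (Ideal.mem_span_singleton_self _)

/-- scalars `b ^ i` with `b ≡ 1 mod 4` are `≡ 1` modulo `(2, e_ℓ - 1)`. -/
theorem mem_span_of_isSc {k : ℕ} {x z : A N k} {l b : ℤ} (hl8 : l % 8 = 5) (hl : 2 ≤ l)
    (hx : IsSc x (fun i => l ^ i)) (hb : b % 4 = 1) (hz : IsSc z (fun i => b ^ i)) :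
    z - 1 ∈ Ideal.span {(2 : A N k), x - 1} := by
  obtain ⟨m, hm⟩ := close hl hx
  obtain ⟨a, ha⟩ := exists_pow_sub l hl8 b hb m
  have h1 : z - x ^ a ∈ Ideal.span {(2 : A N k)} := by
    refine hm _ _ (hz.sub (hx.pow a)) (fun i _ => ?_)
    have h2 : (b ^ i - (l ^ i) ^ a : ℤ) = -((l ^ a) ^ i - b ^ i) := by
      rw [← pow_mul, ← pow_mul, mul_comm i a]; ring
    rw [h2, dvd_neg]
    exact ha.trans (sub_dvd_pow_sub_pow _ _ _)
  have h3 : z - 1 = (z - x ^ a) + (x ^ a - 1) := by ring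
  rw [h3]
  apply Ideal.add_mem
  · exact Ideal.span_mono (by simp) h1
  · have h4 : x - 1 ∣ x ^ a - 1 := by
      simpa using sub_dvd_pow_sub_pow x 1 a
    obtain ⟨u, hu⟩ := h4
    rw [hu]
    exact Ideal.mul_mem_right _ _ (Ideal.subset_span (by simp))

end Crest.Agent.R007.Du
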