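import Crest.Agent.R007.Du2

/-!
Row 7, section B (helper707): the chain of `T ⧸ J` for an inverse limit `T` and a closed ideal
`J ∋ 2`.
-/

set_option autoImplicit false

namespace Crest.Agent.R007.Du

open BAlg (IsLim)

section algTwo

/-- a ring with `2 = 0` is an `F₂`-algebra. -/
noncomputable def homTwo {B : Type*} [CommRing B] (h : (2 : B) = 0) : ZMod 2 →+* B :=
  (Ideal.Quotient.lift (Ideal.span {(2 : ℤ)}) (Int.castRingHom B) (fun a ha => by
    obtain ⟨c, rfl⟩ := Ideal.mem_span_singleton'.mp ha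
    rw [map_mul, map_ofNat, h, mul_zero])).comp
    (Int.quotientSpanNatEquivZMod 2).symm.toRingHom

end algTwo

section Lim

variable {T : Type*} [CommRing T] {R : ℕ → Type} [∀ k, CommRing (R k)]
  {π : ∀ k, T →+* R k} {ρ : ∀ k, R (k + 1) →+* R k}

theorem two_mem_K (hπ : ∀ k, Function.Surjective (π k)) (J : Ideal T) (h2 : (2 : T) ∈ J)
    (k : ℕ) (x : T) (hx : π k x ∈ Ideal.span {(2 : R k)}) :
    Ideal.Quotient.mk J x ∈ (RingHom.ker (π k)).map (Ideal.Quotient.mk J) := by
  rw [Ideal.mem_quotient_iff_mem_sup]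
  obtain ⟨r, hr⟩ := Ideal.mem_span_singleton'.mp hx
  obtain ⟨s, rfl⟩ := hπ k r
  have h3 : x = (x - s * 2) + s * 2 := by ring
  rw [h3]
  apply Ideal.add_mem
  · apply Ideal.mem_sup_left
    rw [RingHom.mem_ker, map_sub, map_mul, map_ofNat, hr, sub_self]
  · exact Ideal.mem_sup_right (Ideal.mul_mem_left _ _ h2)

/-- the chain. -/
noncomputable def chainOf (hT : IsLim π ρ) (hρ : ∀ k, Function.Surjective (ρ k))
    (hfin : ∀ k, Finite (R k ⧸ Ideal.span {(2 : R k)})) (J : Ideal T) (h2 : (2 : T) ∈ J)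
    (hcl : ∀ x, (∀ k, π k x ∈ J.map (π k)) → x ∈ J) [Algebra (ZMod 2) (T ⧸ J)] :
    Chain (ZMod 2) (T ⧸ J) where
  K k := (RingHom.ker (π k)).map (Ideal.Quotient.mk J)
  anti k := Ideal.map_mono (ker_anti hT k)
  fin k := by
    have hπ := pi_surjective hT hρ
    have := hfin k
    choose s hs using hπ k
    let f : (R k ⧸ Ideal.span {(2 : R k)}) →
        ((T ⧸ J) ⧸ (RingHom.ker (π k)).map (Ideal.Quotient.mk J)) :=
      fun q => Ideal.Quotient.mk _ (Ideal.Quotient.mk J (s (Quotient.out q)))
    have hf : Function.Surjective f := by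
      intro z
      obtain ⟨z, rfl⟩ := Ideal.Quotient.mk_surjective z
      obtain ⟨z, rfl⟩ := Ideal.Quotient.mk_surjective z
      refine ⟨Ideal.Quotient.mk _ (π k z), ?_⟩
      change Ideal.Quotient.mk _ (Ideal.Quotient.mk J _) = _
      rw [Ideal.Quotient.eq, ← map_sub]
      apply two_mem_K hπ J h2
      rw [map_sub, hs, ← Ideal.Quotient.eq]
      exact Quotient.out_eq _
    have : Finite ((T ⧸ J) ⧸ (RingHom.ker (π k)).map (Ideal.Quotient.mk J)) :=
      Finite.of_surjective f hf
    exact Module.Finite.of_finite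
  sep x hx := by
    obtain ⟨x, rfl⟩ := Ideal.Quotient.mk_surjective x
    rw [Ideal.Quotient.eq_zero_iff_mem]
    apply hcl
    intro k
    have h := hx k
    rw [Ideal.mem_quotient_iff_mem_sup, Submodule.mem_sup] at h
    obtain ⟨a, ha, b, hb, hab⟩ := h
    rw [← hab, map_add, (RingHom.mem_ker).mp ha, zero_add]
    exact Ideal.mem_map_of_mem _ hb
  compl x hx := by
    choose a ha using fun k => Ideal.Quotient.mk_surjective (x k)
    have h1 : ∀ k, ∃ n ∈ RingHom.ker (π k), ∃ j ∈ J, n + j = a (k + 1) - a k := by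
      intro k
      have h := hx k
      rw [← ha, ← ha, ← map_sub, Ideal.mem_quotient_iff_mem_sup, Submodule.mem_sup] at h
      exact h
    choose n hn j hj hnj using h1
    let z : ℕ → T := fun k => a k - ∑ i ∈ Finset.range k, j i
    have hz : ∀ k, z (k + 1) - z k ∈ RingHom.ker (π k) := by
      intro k
      have : z (k + 1) - z k = n k := by
        simp only [z, Finset.sum_range_succ]
        have := hnj k
        linear_combination -this
      rw [this]; exact hn k
    obtain ⟨y, hy⟩ := hT.lift (fun k => π k (z k)) (fun k => by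
      rw [hT.comp]
      have := hz k
      rwa [RingHom.mem_ker, map_sub, sub_eq_zero] at this)
    refine ⟨Ideal.Quotient.mk J y, fun k => ?_⟩
    have h2 : Ideal.Quotient.mk J (z k) = x k := by
      rw [← ha, Ideal.Quotient.eq]
      have : z k - a k = - ∑ i ∈ Finset.range k, j i := by simp only [z]; ring
      rw [this]
      exact neg_mem (Ideal.sum_mem _ fun i _ => hj i)
    rw [← h2, ← map_sub]
    apply Ideal.mem_map_of_mem
    rw [RingHom.mem_ker, map_sub, hy, sub_self]

end Lim

end Crest.Agent.R007.Du
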