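import Crest.Agent.R007.Du4
import Crest.Agent.R007.Du5
import Crest.Agent.R007.Du6
import Crest.Agent.R007.EmbDens

/-!
Row 7, section B (helper707): `T0 = T/(2, y, y')`, its smooth dual `W0`, exports for the assembly.
-/

set_option autoImplicit false

open Crest.NumberTheoryR.HeckeTwoAdic

namespace Crest.Agent.R007.Du

open BAlg (IsLim)

/-- the two auxiliary primes. -/
structure PP (N : ℕ) where
  l : ℕ
  hl : l.Prime
  hlN : ¬ l ∣ 2 * N
  l8 : l % 8 = 5
  lN : (l : ZMod N) = 1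
  n : ℕ
  hn : n.Prime
  hnN : ¬ n ∣ 2 * N
  n4 : n % 4 = 3
  nN : (n : ZMod N) = 1

theorem exists_PP {N : ℕ} [NeZero N] (hN : Odd N) : Nonempty (PP N) := by
  obtain ⟨l, hl, hlB, h8, hlN⟩ := EmbDens.exists_prime_five hN (2 * N)
  obtain ⟨n, hn, hnB, h4, hnN⟩ := EmbDens.exists_prime_three hN (2 * N)
  have hN0 : 0 < 2 * N := Nat.mul_pos two_pos (Nat.pos_of_ne_zero (NeZero.ne N))
  exact ⟨⟨l, hl, fun h => absurd (Nat.le_of_dvd hN0 h) (by omega), h8,
    by simpa using (ZMod.natCast_eq_natCast_iff l 1 N).2 hlN, n, hn,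
    fun h => absurd (Nat.le_of_dvd hN0 h) (by omega), h4,
    by simpa using (ZMod.natCast_eq_natCast_iff n 1 N).2 hnN⟩⟩

variable {N : ℕ} [NeZero N]

/-- `t` acts on every stage by the scalars `b ^ i`. -/
def ScT (t : TT N) (b : ℤ) : Prop :=
  ∀ k, ∃ z : A N k, pr N k t = inc N k z ∧ IsSc z (fun i => b ^ i)

theorem scT_tE {l : ℕ} (hl : l.Prime) (hlN : ¬ l ∣ 2 * N) (h : (l : ZMod N) = 1) :
    ScT (tE hl hlN : TT N) l :=
  fun k => ⟨gE hl hlN k, rfl, isSc_gE hl hlN h k⟩

theorem ScT.mul {s t : TT N} {b c : ℤ} (hs : ScT s b) (ht : ScT t c) : ScT (s * t) (b * c) := by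
  intro k
  obtain ⟨z, hz, hz'⟩ := hs k
  obtain ⟨w, hw, hw'⟩ := ht k
  refine ⟨z * w, by rw [map_mul, map_mul, hz, hw], ?_⟩
  have := hz'.mul hw'
  intro i
  rw [this i]
  dsimp only
  rw [mul_pow]

section fin

variable (hfin : ∀ k, Module.Finite ℤ_[2] (R N k))
include hfin

theorem finite_mod_two (k : ℕ) : Finite (R N k ⧸ Ideal.span {(2 : R N k)}) := by
  have := hfin k
  have h := BAlg.finite_quot_of_finite_padic 2 (R N k) 1
  rw [pow_one, Nat.cast_ofNat] at h
  exact h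

theorem closed {ι : Type} [Finite ι] (y : ι → TT N) (x : TT N)
    (hx : ∀ k, pr N k x ∈ Ideal.span (insert (2 : R N k) (Set.range (fun i => pr N k (y i))))) :
    x ∈ Ideal.span (insert (2 : TT N) (Set.range y)) :=
  closed_span (isLim N) (resR_surjective N) (finite_mod_two hfin) (R_torsionFree N) y x hx

variable (c : PP N)

omit hfin in
/-- `y = e_ℓ - 1` -/
noncomputable def yy (c : PP N) : TT N := tE c.hl c.hlN - 1

omit hfin in
/-- `y' = e_{n'} - 1` -/
noncomputable def yy' (c : PP N) : TT N := tE c.hn c.hnN - 1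

omit hfin in
/-- the ideal `(2, y, y')` -/
noncomputable def JJ (c : PP N) : Ideal (TT N) := Ideal.span {2, yy c, yy' c}

theorem scal_four {t : TT N} {b : ℤ} (ht : ScT t b) (hb : b % 4 = 1) :
    t - 1 ∈ Ideal.span {2, yy c} := by
  have h0 : (insert (2 : TT N) (Set.range (fun _ : Unit => yy c))) = {2, yy c} := by
    rw [Set.range_const]
  rw [← h0]
  apply closed hfin
  intro k
  rw [Set.range_const]
  obtain ⟨z, hz, hz'⟩ := ht k
  have hl2 : (2 : ℤ) ≤ c.l := by exact_mod_cast c.hl.two_le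
  have hl8 : (c.l : ℤ) % 8 = 5 := by have := c.l8; omega
  have h1 := mem_span_of_isSc hl8 hl2 (isSc_gE c.hl c.hlN c.lN k) hb hz'
  have h2 := Ideal.mem_map_of_mem (inc N k) h1
  rw [Ideal.map_span, Set.image_pair, map_ofNat, map_sub, map_sub, map_one] at h2
  rw [map_sub, map_one, hz]
  have h3 : pr N k (yy c) = inc N k (gE c.hl c.hlN k) - 1 := by
    rw [yy, map_sub, map_one, pr_tE]
  rw [h3]
  exact h2

omit hfin in
theorem span_le_JJ : (Ideal.span {2, yy c} : Ideal (TT N)) ≤ JJ c := by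
  apply Ideal.span_mono
  intro x hx
  rcases hx with rfl | rfl
  · simp
  · simp

omit hfin in
theorem yy'_mem : yy' c ∈ JJ c := Ideal.subset_span (by simp)

omit hfin in
theorem yy_mem : yy c ∈ JJ c := Ideal.subset_span (by simp)

omit hfin in
theorem two_mem : (2 : TT N) ∈ JJ c := Ideal.subset_span (by simp)

/-- the scalars `e_b`, `b ≡ 1 mod N` prime, are `1` in `T0`. -/
theorem scal {b : ℕ} (hb : b.Prime) (hbN : ¬ b ∣ 2 * N) (h : (b : ZMod N) = 1) :
    tE hb hbN - 1 ∈ JJ c := by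
  have hodd : b % 2 = 1 := by
    rcases Nat.Prime.eq_two_or_odd hb with h2 | h2
    · exact absurd (by rw [h2]; exact dvd_mul_right 2 N) hbN
    · exact h2
  have h4 : b % 4 = 1 ∨ b % 4 = 3 := by omega
  rcases h4 with h4 | h4
  · exact span_le_JJ c (scal_four hfin c (scT_tE hb hbN h) (by omega))
  · have h5 : ((b : ℤ) * c.n) % 4 = 1 := by
      have := c.n4
      rw [Int.mul_emod]
      have e1 : (b : ℤ) % 4 = 3 := by omega
      have e2 : (c.n : ℤ) % 4 = 3 := by omega
      rw [e1, e2]; norm_num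
    have h6 := span_le_JJ c (scal_four hfin c ((scT_tE hb hbN h).mul (scT_tE c.hn c.hnN c.nN)) h5)
    have h7 : tE hb hbN - 1 = (tE hb hbN * tE c.hn c.hnN - 1) - tE hb hbN * yy' c := by
      rw [yy']; ring
    rw [h7]
    exact Ideal.sub_mem _ h6 (Ideal.mul_mem_left _ _ (yy'_mem c))

theorem yy'_sq : yy' c ^ 2 ∈ Ideal.span {2, yy c} := by
  have h5 : ((c.n : ℤ) * c.n) % 4 = 1 := by
    have := c.n4
    rw [Int.mul_emod]
    have e2 : (c.n : ℤ) % 4 = 3 := by omega
    rw [e2]; norm_num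
  have h6 := scal_four hfin c ((scT_tE c.hn c.hnN c.nN).mul (scT_tE c.hn c.hnN c.nN)) h5
  have h7 : yy' c ^ 2 = (tE c.hn c.hnN * tE c.hn c.hnN - 1) - (tE c.hn c.hnN - 1) * 2 := by
    rw [yy']; ring
  rw [h7]
  exact Ideal.sub_mem _ h6 (Ideal.mul_mem_left _ _ (Ideal.subset_span (by simp)))

/-- `T` is complete for `(2, y)`. -/
theorem adic : IsAdicComplete (Ideal.span {2, yy c}) (TT N) := by
  classical
  have h1 : ∀ k, IsAdicComplete (Ideal.span {((2 : ℕ) : R N k)}) (R N k) := by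
    intro k
    have := hfin k
    exact BAlg.isAdicComplete_of_finite_padic 2 (R N k)
  have h2 : BAlg.TopNil 2 (pr N) (Ideal.span {((2 : ℕ) : TT N), yy c}) := by
    apply BAlg.topNil_pair
    intro k
    refine ⟨k, ?_⟩
    have hodd : Odd (c.l : ℤ) := by
      rw [Int.odd_iff]; have := c.l8; omega
    have h3 := Ideal.mem_map_of_mem (inc N k) (nil_mod_two hodd (isSc_gE c.hl c.hlN c.lN k))
    rw [Ideal.map_span, Set.image_singleton, map_ofNat, map_pow, map_sub, map_one] at h3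
    have h4 : pr N k (yy c) = inc N k (gE c.hl c.hlN k) - 1 := by
      rw [yy, map_sub, map_one, pr_tE]
    rw [h4, Nat.cast_ofNat]
    exact h3
  have h3 := BAlg.isAdicComplete_of_isLim (p := 2) (isLim N) (Ideal.span {((2 : ℕ) : TT N), yy c})
    ⟨{((2 : ℕ) : TT N), yy c}, by simp⟩ h2
  rw [Nat.cast_ofNat] at h3
  exact h3

/-- **Reduction of the dimension bound to `T0`.** -/
theorem dim_TT (h1 : IsNoetherianRing (TT N ⧸ JJ c)) (h2 : ringKrullDim (TT N ⧸ JJ c) ≤ 2) :
    IsNoetherianRing (TT N) ∧ ringKrullDim (TT N) ≤ 4 := by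
  have := adic hfin c
  exact BAlg.dim_le_four 2 (yy c) (yy' c) (yy'_sq hfin c) h1 h2

theorem closed_JJ (x : TT N) (hx : ∀ k, pr N k x ∈ (JJ c).map (pr N k)) : x ∈ JJ c := by
  have h0 : (insert (2 : TT N) (Set.range (fun b : Bool => if b then yy c else yy' c))) =
      {2, yy c, yy' c} := by
    ext z
    simp only [Set.mem_insert_iff, Set.mem_range, Bool.exists_bool, Set.mem_singleton_iff,
      Bool.false_eq_true, if_false, if_true]
    tauto
  rw [JJ, ← h0]
  apply closed hfin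
  intro k
  have h1 := hx k
  rw [JJ, ← h0, Ideal.map_span, Set.image_insert_eq, map_ofNat, ← Set.range_comp] at h1
  exact h1

end fin

end Crest.Agent.R007.Du
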