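import Crest.Agent.R007.Du7

/-!
Row 7, section B (helper707): `T0 = T/(2, y, y')`, its smooth dual `W0`, exports for the assembly.
-/

set_option autoImplicit false

open Crest.NumberTheoryR.HeckeTwoAdic

namespace Crest.Agent.R007.Du

open BAlg (IsLim)

variable {N : ℕ} [NeZero N]

/-- `T0 = T/(2,y,y')`. -/
def T0 (c : PP N) : Type := TT N ⧸ JJ c

noncomputable instance instT0 (c : PP N) : CommRing (T0 c) :=
  inferInstanceAs (CommRing (TT N ⧸ JJ c))

/-- the projection. -/
noncomputable def mk0 (c : PP N) : TT N →+* T0 c := Ideal.Quotient.mk (JJ c)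

theorem mk0_surjective (c : PP N) : Function.Surjective (mk0 c) := Ideal.Quotient.mk_surjective

theorem mk0_eq_zero (c : PP N) (x : TT N) : mk0 c x = 0 ↔ x ∈ JJ c :=
  Ideal.Quotient.eq_zero_iff_mem

theorem two_eq_zero (c : PP N) : (2 : T0 c) = 0 := by
  have h := (mk0_eq_zero c 2).mpr (two_mem c)
  rwa [map_ofNat] at h

noncomputable instance algT0 (c : PP N) : Algebra (ZMod 2) (T0 c) :=
  (homTwo (two_eq_zero c)).toAlgebra

section

variable (c : PP N) (hfin : ∀ k, Module.Finite ℤ_[2] (R N k))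

/-- the chain of cofinite ideals. -/
noncomputable def chain : Chain (ZMod 2) (T0 c) :=
  @chainOf (TT N) _ (R N) _ (pr N) (resR N) (isLim N) (resR_surjective N)
    (finite_mod_two hfin) (JJ c) (two_mem c) (closed_JJ hfin c) (algT0 c)

theorem mem_chain (k : ℕ) (x : TT N) (hx : pr N k x ∈ Ideal.span {(2 : R N k)}) :
    mk0 c x ∈ (chain c hfin).K k :=
  two_mem_K (pi_surjective (isLim N) (resR_surjective N)) (JJ c) (two_mem c) k x hx

theorem mem_chain_ker (k : ℕ) (x : TT N) (hx : pr N k x = 0) :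
    mk0 c x ∈ (chain c hfin).K k := by
  apply mem_chain
  rw [hx]
  exact zero_mem _

/-- `W0`, the smooth dual of `T0`. -/
abbrev WW : Type := W0 (chain c hfin)

/-- the first coefficient functional. -/
noncomputable def a1 : WW c hfin →ₗ[ZMod 2] ZMod 2 where
  toFun w := W0.fn w 1
  map_add' _ _ := rfl
  map_smul' _ _ := rfl

theorem a1_smul (t : T0 c) (w : WW c hfin) : a1 c hfin (t • w) = W0.fn w t := by
  change W0.fn (t • w) 1 = _
  rw [W0.fn_smul, mul_one]

theorem dual_inj (t : T0 c) (h : ∀ w : WW c hfin, a1 c hfin (t • w) = 0) : t = 0 := by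
  apply evD_injective (chain c hfin)
  refine LinearMap.ext fun w => ?_
  rw [evD_apply, evD_apply, map_zero, ← a1_smul, h]

theorem dual_surj (f : WW c hfin →ₗ[ZMod 2] ZMod 2) :
    ∃ t : T0 c, ∀ w, f w = a1 c hfin (t • w) := by
  obtain ⟨t, ht⟩ := evD_surjective (chain c hfin) f
  refine ⟨t, fun w => ?_⟩
  rw [a1_smul, ← ht, evD_apply]

/-- Index set of the generators. -/
def Gen (N : ℕ) : Type := {l : ℕ // l.Prime ∧ ¬ l ∣ 2 * N} × Bool

/-- generators: `(l, true) ↦ T_l`, `(l, false) ↦ e_l`. -/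
noncomputable def genT (i : Gen N) : TT N :=
  if i.2 then tT i.1.2.1 i.1.2.2 else tE i.1.2.1 i.1.2.2

/-- generators in `T0`. -/
noncomputable def gen0 (i : Gen N) : T0 c := mk0 c (genT i)

theorem gen0_T {l : ℕ} (hl : l.Prime) (hlN : ¬ l ∣ 2 * N) :
    gen0 c (⟨⟨l, hl, hlN⟩, true⟩ : Gen N) = mk0 c (tT hl hlN) := rfl

theorem gen0_E {l : ℕ} (hl : l.Prime) (hlN : ¬ l ∣ 2 * N) :
    gen0 c (⟨⟨l, hl, hlN⟩, false⟩ : Gen N) = mk0 c (tE hl hlN) := rfl

theorem lift_A (k : ℕ) (a : A N k) : ∃ u : TT N, pr N k u = inc N k a ∧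
    mk0 c u ∈ Algebra.adjoin (ZMod 2) (Set.range (gen0 c)) := by
  have ha : a ∈ Subring.closure (gens N k) := by rw [closure_gens]; exact Subring.mem_top a
  induction ha using Subring.closure_induction with
  | mem a ha =>
    obtain ⟨l, hl, hlN, h⟩ := ha
    rcases h with rfl | rfl
    · exact ⟨tT hl hlN, rfl, Algebra.subset_adjoin ⟨⟨⟨l, hl, hlN⟩, true⟩, rfl⟩⟩
    · exact ⟨tE hl hlN, rfl, Algebra.subset_adjoin ⟨⟨⟨l, hl, hlN⟩, false⟩, rfl⟩⟩
  | zero => exact ⟨0, by rw [map_zero, map_zero], by rw [map_zero]; exact zero_mem _⟩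
  | one => exact ⟨1, by rw [map_one, map_one], by rw [map_one]; exact one_mem _⟩
  | add x y _ _ hx hy =>
    obtain ⟨u, hu, hu'⟩ := hx
    obtain ⟨v, hv, hv'⟩ := hy
    exact ⟨u + v, by rw [map_add, map_add, hu, hv], by rw [map_add]; exact add_mem hu' hv'⟩
  | neg x _ hx =>
    obtain ⟨u, hu, hu'⟩ := hx
    exact ⟨-u, by rw [map_neg, map_neg, hu], by rw [map_neg]; exact neg_mem hu'⟩
  | mul x y _ _ hx hy =>
    obtain ⟨u, hu, hu'⟩ := hx
    obtain ⟨v, hv, hv'⟩ := hy
    exact ⟨u * v, by rw [map_mul, map_mul, hu, hv], by rw [map_mul]; exact mul_mem hu' hv'⟩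

/-- every 2-adic integer is `0` or `1` modulo 2. -/
theorem padic_mod_two (z : ℤ_[2]) : ∃ (n : ℕ) (y : ℤ_[2]), z = n + 2 * y := by
  obtain ⟨n, -, hn⟩ := PadicInt.exists_mem_range (p := 2) z
  rw [PadicInt.maximalIdeal_eq_span_p, Ideal.mem_span_singleton] at hn
  obtain ⟨y, hy⟩ := hn
  exact ⟨n, y, by rw [sub_eq_iff_eq_add'] at hy; rw [hy]; push_cast; ring⟩

theorem R_mod_two (k : ℕ) (x : R N k) : ∃ a : A N k, x - inc N k a ∈ Ideal.span {(2 : R N k)} := by
  refine R_induction (P := fun x => ∃ a : A N k, x - inc N k a ∈ Ideal.span {(2 : R N k)}) x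
    ⟨0, by rw [map_zero, sub_zero]; exact zero_mem _⟩ (fun z a => ?_) (fun x y hx hy => ?_)
  · obtain ⟨n, y, rfl⟩ := padic_mod_two z
    refine ⟨n * a, ?_⟩
    rw [tm_eq, map_add, map_mul, map_natCast, map_ofNat, map_mul, map_natCast]
    have : ((n : R N k) + 2 * algebraMap ℤ_[2] (R N k) y) * inc N k a - (n : R N k) * inc N k a =
      (algebraMap ℤ_[2] (R N k) y * inc N k a) * 2 := by ring
    rw [this]
    exact Ideal.mul_mem_left _ _ (Ideal.mem_span_singleton_self _)
  · obtain ⟨a, ha⟩ := hx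
    obtain ⟨b, hb⟩ := hy
    refine ⟨a + b, ?_⟩
    have : x + y - inc N k (a + b) = (x - inc N k a) + (y - inc N k b) := by
      rw [map_add]; ring
    rw [this]
    exact add_mem ha hb

theorem exists_level (s : Finset (WW c hfin)) :
    ∃ k, ∀ w ∈ s, ∀ x ∈ (chain c hfin).K k, W0.fn w x = 0 := by
  classical
  induction s using Finset.induction_on with
  | empty => exact ⟨0, fun w hw => absurd hw (Finset.notMem_empty w)⟩
  | insert w s _ ih =>
    obtain ⟨k, hk⟩ := ih
    obtain ⟨l, hl⟩ := W0.fn_smooth w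
    refine ⟨max k l, fun v hv x hx => ?_⟩
    rcases Finset.mem_insert.mp hv with rfl | hv
    · exact hl x ((chain c hfin).antitone (le_max_right k l) hx)
    · exact hk v hv x ((chain c hfin).antitone (le_max_left k l) hx)

theorem smul_eq_of_level {k : ℕ} {w : WW c hfin} (hk : ∀ x ∈ (chain c hfin).K k, W0.fn w x = 0)
    {s t : T0 c} (h : s - t ∈ (chain c hfin).K k) : s • w = t • w := by
  apply W0.ext
  intro x
  rw [W0.fn_smul, W0.fn_smul, ← sub_eq_zero, ← map_sub, ← sub_mul]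
  exact hk _ (Ideal.mul_mem_right _ _ h)

/-- **Local approximation** by polynomials in the generators. -/
theorem approx (s : Finset (WW c hfin)) (t : T0 c) :
    ∃ x ∈ Algebra.adjoin (ZMod 2) (Set.range (gen0 c)), ∀ w ∈ s, t • w = x • w := by
  obtain ⟨k, hk⟩ := exists_level c hfin s
  obtain ⟨t, rfl⟩ := mk0_surjective c t
  obtain ⟨a, ha⟩ := R_mod_two k (pr N k t)
  obtain ⟨u, hu, hu'⟩ := lift_A c k a
  refine ⟨mk0 c u, hu', fun w hw => smul_eq_of_level c hfin (hk w hw) ?_⟩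
  rw [← map_sub]
  apply mem_chain
  rw [map_sub, hu]
  exact ha

/-- **Orbits are finite-dimensional.** -/
theorem locfin (w : WW c hfin) : Module.Finite (ZMod 2) (Submodule.span (T0 c) {w}) := by
  obtain ⟨k, hk⟩ := W0.fn_smooth w
  have h1 : Module.Finite (ZMod 2) (T0 c ⧸ (chain c hfin).K k) := (chain c hfin).fin k
  have h2 : Finite (Module.Dual (ZMod 2) (T0 c ⧸ (chain c hfin).K k)) :=
    Module.finite_of_finite (ZMod 2)
  have h3 : ((Submodule.span (T0 c) {w} : Submodule (T0 c) (WW c hfin)) : Set (WW c hfin)) ⊆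
      Set.range (ofLevel (chain c hfin) k) := by
    intro v hv
    obtain ⟨t, rfl⟩ := Submodule.mem_span_singleton.mp hv
    apply exists_ofLevel
    intro x hx
    rw [W0.fn_smul]
    exact hk _ (Ideal.mul_mem_left _ _ hx)
  have h4 : Finite (Submodule.span (T0 c) {w} : Submodule (T0 c) (WW c hfin)) :=
    (Set.finite_range (ofLevel (chain c hfin) k)).subset h3
  exact Module.Finite.of_finite

/-- `e_b = 1` in `T0` for `b ≡ 1 mod N`. -/
theorem mk0_tE (hfin : ∀ k, Module.Finite ℤ_[2] (R N k)) {b : ℕ} (hb : b.Prime)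
    (hbN : ¬ b ∣ 2 * N) (h : (b : ZMod N) = 1) : mk0 c (tE hb hbN) = 1 := by
  rw [← sub_eq_zero, ← map_one (mk0 c), ← map_sub, mk0_eq_zero]
  exact scal hfin c hb hbN h

/-- **Stage form of an element of `W0`.** -/
theorem exists_stage (w : WW c hfin) : ∃ (k : ℕ) (φ : A N k →+ ZMod 2),
    ∀ (s : A N k) (t : TT N), pr N k t = inc N k s → W0.fn w (mk0 c t) = φ s := by
  obtain ⟨k, hk⟩ := W0.fn_smooth w
  choose u hu hu' using fun a : A N k => lift_A c k a
  have key : ∀ (s : A N k) (t : TT N), pr N k t = inc N k s →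
      W0.fn w (mk0 c t) = W0.fn w (mk0 c (u s)) := by
    intro s t ht
    rw [← sub_eq_zero, ← map_sub, ← map_sub]
    apply hk
    apply mem_chain_ker
    rw [map_sub, ht, hu, sub_self]
  refine ⟨k, { toFun := fun s => W0.fn w (mk0 c (u s)), map_zero' := ?_, map_add' := fun s t => ?_ },
    key⟩
  · rw [← key 0 0 (by rw [map_zero, map_zero]), map_zero, map_zero]
  · rw [← key (s + t) (u s + u t) (by rw [map_add, map_add, hu, hu]), map_add, map_add]

/-- the same with every larger `k`. -/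
theorem exists_stage_ge (w : WW c hfin) : ∃ k0 : ℕ, ∀ k, k0 ≤ k → ∃ φ : A N k →+ ZMod 2,
    ∀ (s : A N k) (t : TT N), pr N k t = inc N k s → W0.fn w (mk0 c t) = φ s := by
  obtain ⟨k0, hk0⟩ := W0.fn_smooth w
  refine ⟨k0, fun k hkk => ?_⟩
  have hk : ∀ x ∈ (chain c hfin).K k, W0.fn w x = 0 :=
    fun x hx => hk0 x ((chain c hfin).antitone hkk hx)
  choose u hu hu' using fun a : A N k => lift_A c k a
  have key : ∀ (s : A N k) (t : TT N), pr N k t = inc N k s →
      W0.fn w (mk0 c t) = W0.fn w (mk0 c (u s)) := by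
    intro s t ht
    rw [← sub_eq_zero, ← map_sub, ← map_sub]
    apply hk
    apply mem_chain_ker
    rw [map_sub, ht, hu, sub_self]
  refine ⟨{ toFun := fun s => W0.fn w (mk0 c (u s)), map_zero' := ?_, map_add' := fun s t => ?_ },
    key⟩
  · rw [← key 0 0 (by rw [map_zero, map_zero]), map_zero, map_zero]
  · rw [← key (s + t) (u s + u t) (by rw [map_add, map_add, hu, hu]), map_add, map_add]

/-- `a1 (t • w) = φ s`. -/
theorem a1_stage (w : WW c hfin) {k : ℕ} {φ : A N k →+ ZMod 2}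
    (h : ∀ (s : A N k) (t : TT N), pr N k t = inc N k s → W0.fn w (mk0 c t) = φ s)
    (s : A N k) (t : TT N) (hst : pr N k t = inc N k s) : a1 c hfin (mk0 c t • w) = φ s := by
  rw [a1_smul, h s t hst]

/-- **Final reduction**: the statement for `T0` implies `dim T ≤ 4`. -/
theorem final (hfin : ∀ k, Module.Finite ℤ_[2] (R N k))
    (h : IsNoetherianRing (T0 c) ∧ ringKrullDim (T0 c) ≤ 2) :
    IsNoetherianRing (TT N) ∧ ringKrullDim (TT N) ≤ 4 :=
  dim_TT hfin c h.1 h.2

end

end Crest.Agent.R007.Du
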