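import Mathlib

/-!
Row 7 (S0007), section E, algebraic core (wishes C1a - C1e of helper879).
-/

set_option autoImplicit false

namespace Crest.Agent.R007.ECore

open Polynomial

section C1a

variable {B Om G : Type*} [CommRing B] [Field Om] [Group G] [MulSemiringAction G B]

/-- invariant combination: `∑ g, (g • b) ∏_{h ≠ g} (w - h • w) = b ∏_{h ≠ 1} (w - h • w)` has image
in `K` -/
theorem mul_prod_mem (e : B →+* Om) (K : Subfield Om)
    (hK : ∀ b : B, (∀ g : G, g • b = b) → e b ∈ K) (w : B) (hw : e w ∈ K) (b : B)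
    [Fintype G] [DecidableEq G] :
    e b * ∏ h ∈ Finset.univ.erase (1 : G), (e w - e (h • w)) ∈ K := by
  classical
  let T : B[X] := ∑ g : G, C (g • b) * ∏ h ∈ Finset.univ.erase g, (X - C (h • w))
  -- invariance
  have hinv : ∀ k : G, T.map (MulSemiringAction.toRingHom G B k) = T := by
    intro k
    simp only [T, Polynomial.map_sum, Polynomial.map_mul, Polynomial.map_prod, Polynomial.map_sub,
      map_X, map_C, MulSemiringAction.toRingHom_apply, smul_smul]
    refine Fintype.sum_equiv (Equiv.mulLeft k) _ _ ?_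
    intro g
    simp only [Equiv.coe_mulLeft]
    congr 1
    refine Finset.prod_bij' (fun h _ => k * h) (fun h _ => k⁻¹ * h) ?_ ?_ ?_ ?_ ?_
    · intro h hh
      rw [Finset.mem_erase] at hh ⊢
      exact ⟨fun heq => hh.1 (mul_left_cancel heq), Finset.mem_univ _⟩
    · intro h hh
      rw [Finset.mem_erase] at hh ⊢
      refine ⟨fun heq => hh.1 ?_, Finset.mem_univ _⟩
      rw [← heq]; simp
    · intro h _; simp
    · intro h _; simp
    · intro h _; rfl
  have hcoef : ∀ j, e (T.coeff j) ∈ K := by
    intro j
    apply hK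
    intro g
    have := congrArg (fun P => Polynomial.coeff P j) (hinv g)
    simpa [Polynomial.coeff_map] using this
  have heval : e (T.eval w) ∈ K := by
    rw [Polynomial.eval_eq_sum_range, map_sum]
    apply sum_mem
    intro j _
    rw [map_mul, map_pow]
    exact mul_mem (hcoef j) (pow_mem hw j)
  have hT : T.eval w = b * ∏ h ∈ Finset.univ.erase (1 : G), (w - h • w) := by
    simp only [T, eval_finsetSum, eval_mul, eval_C, eval_prod, eval_sub, eval_X]
    rw [Finset.sum_eq_single (1 : G)]
    · rw [one_smul]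
    · intro g _ hg
      have h1 : ∏ h ∈ Finset.univ.erase g, (w - h • w) = 0 := by
        apply Finset.prod_eq_zero (i := (1 : G))
        · rw [Finset.mem_erase]; exact ⟨Ne.symm hg, Finset.mem_univ _⟩
        · rw [one_smul, sub_self]
      rw [h1, mul_zero]
    · intro h; exact absurd (Finset.mem_univ _) h
  rw [hT, map_mul, map_prod] at heval
  simp only [map_sub] at heval
  exact heval

/-- **(C1a)** -/
theorem mem_of_separating [Finite G] (e : B →+* Om) (K : Subfield Om)
    (hK : ∀ b : B, (∀ g : G, g • b = b) → e b ∈ K) (w : B) (hw : e w ∈ K)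
    (hsep : ∀ g : G, g ≠ 1 → e (g • w) ≠ e w) (b : B) : e b ∈ K := by
  classical
  have : Fintype G := Fintype.ofFinite G
  have h1 := mul_prod_mem e K hK w hw b
  have h2 := mul_prod_mem e K hK w hw 1
  rw [map_one, one_mul] at h2
  have h3 : ∏ h ∈ Finset.univ.erase (1 : G), (e w - e (h • w)) ≠ 0 := by
    rw [Finset.prod_ne_zero_iff]
    intro h hh
    rw [Finset.mem_erase] at hh
    exact sub_ne_zero.mpr (Ne.symm (hsep h hh.1))
  have h4 := mul_mem h1 (inv_mem h2)
  rwa [mul_assoc, mul_inv_cancel₀ h3, mul_one] at h4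

end C1a

section C1b

variable {B Om G O κ J : Type*} [CommRing B] [Field Om] [Group G] [Finite G]
  [MulSemiringAction G B] [CommRing O] [Algebra O B] [SMulCommClass G O B] [Field κ] [Infinite κ]
  [Fintype J]

/-- **(C1b)** -/
theorem exists_separating (e : B →+* Om) (K : Subfield Om) (r : O →+* κ)
    (hr : Function.Surjective r) (ι : κ →+* Om) (hι : ∀ c, ι c ∈ K)
    (hcomp : ∀ c : O, e (algebraMap O B c) = ι (r c)) (θ : J → B) (hθ : ∀ j, e (θ j) ∈ K)
    (hsep : ∀ g : G, g ≠ 1 → ∃ j, e (g • θ j) ≠ e (θ j)) :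
    ∃ w : B, e w ∈ K ∧ ∀ g : G, g ≠ 1 → e (g • w) ≠ e w := by
  classical
  have : Fintype G := Fintype.ofFinite G
  let _ : Algebra κ Om := ι.toAlgebra
  -- the linear forms
  let v : G → J → Om := fun g j => e (g • θ j) - e (θ j)
  let ℓ : G → ((J → κ) →ₗ[κ] Om) := fun g =>
    { toFun := fun lam => ∑ j, ι (lam j) * v g j
      map_add' := by
        intro a b
        simp only [Pi.add_apply, map_add, add_mul, Finset.sum_add_distrib]
      map_smul' := by
        intro c a
        simp only [Pi.smul_apply, smul_eq_mul, map_mul, mul_assoc, ← Finset.mul_sum,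
          RingHom.id_apply, Algebra.smul_def, RingHom.algebraMap_toAlgebra] }
  have hcov : ⋃ g : {g : G // g ≠ 1}, ((LinearMap.ker (ℓ g.1) : Submodule κ (J → κ)) : Set (J → κ))
      ≠ Set.univ := by
    intro hcov
    obtain ⟨g, hg⟩ := Subspace.exists_eq_top_of_iUnion_eq_univ hcov
    obtain ⟨j, hj⟩ := hsep g.1 g.2
    have h1 : Pi.single j (1 : κ) ∈ LinearMap.ker (ℓ g.1) := by rw [hg]; trivial
    rw [LinearMap.mem_ker] at h1
    change ∑ j', ι ((Pi.single j (1 : κ) : J → κ) j') * v g.1 j' = 0 at h1
    rw [Finset.sum_eq_single j] at h1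
    · rw [Pi.single_eq_same, map_one, one_mul] at h1
      exact hj (sub_eq_zero.mp h1)
    · intro j' _ hj'
      rw [Pi.single_eq_of_ne hj', map_zero, zero_mul]
    · intro h; exact absurd (Finset.mem_univ _) h
  rw [Set.ne_univ_iff_exists_notMem] at hcov
  obtain ⟨lam, hlam⟩ := hcov
  rw [Set.mem_iUnion, not_exists] at hlam
  choose c hc using fun j => hr (lam j)
  refine ⟨∑ j, algebraMap O B (c j) * θ j, ?_, ?_⟩
  · rw [map_sum]
    apply sum_mem
    intro j _
    rw [map_mul, hcomp]
    exact mul_mem (hι _) (hθ j)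
  · intro g hg heq
    apply hlam ⟨g, hg⟩
    rw [SetLike.mem_coe, LinearMap.mem_ker]
    change ∑ j, ι (lam j) * v g j = 0
    have h1 : g • (∑ j, algebraMap O B (c j) * θ j) = ∑ j, algebraMap O B (c j) * (g • θ j) := by
      rw [Finset.smul_sum]
      apply Finset.sum_congr rfl
      intro j _
      rw [← Algebra.smul_def, smul_comm, Algebra.smul_def]
    rw [h1, map_sum, map_sum, ← sub_eq_zero, ← Finset.sum_sub_distrib] at heq
    rw [← heq]
    apply Finset.sum_congr rfl
    intro j _
    simp only [v]
    rw [map_mul, map_mul, hcomp, hc, mul_sub]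

end C1b

section C1e

/-- **(C1e), existence.** -/
theorem exists_extension {A B Om : Type*} [CommRing A] [CommRing B] [Algebra A B]
    [Algebra.IsIntegral A B] [Field Om] [IsAlgClosed Om] (hinj : Function.Injective (algebraMap A B))
    (φ : A →+* Om) : ∃ e : B →+* Om, ∀ a, e (algebraMap A B a) = φ a := by
  classical
  let P : Ideal A := RingHom.ker φ
  have hP : P.IsPrime := RingHom.ker_isPrime φ
  obtain ⟨Q, -, hQ, hQP⟩ := Ideal.exists_ideal_over_prime_of_isIntegral (R := A) (S := B) P ⊥ (by
    intro x hx
    rw [Ideal.mem_comap, Ideal.mem_bot] at hx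
    have : x = 0 := hinj (by rw [hx, map_zero])
    rw [this]; exact zero_mem _)
  -- quotient rings
  let A' := A ⧸ P
  let B' := B ⧸ Q
  let f : A' →+* B' := Ideal.quotientMap Q (algebraMap A B) (by rw [hQP])
  have hf : Function.Injective f := Ideal.quotientMap_injective' (by rw [hQP])
  let φ' : A' →+* Om := Ideal.Quotient.lift P φ (fun a ha => ha)
  have hφ' : Function.Injective φ' := by
    rw [RingHom.injective_iff_ker_eq_bot, Ideal.ker_quotient_lift, Ideal.map_quotient_self]
  let _ : Algebra A' B' := f.toAlgebra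
  let _ : Algebra A' Om := φ'.toAlgebra
  have : IsDomain A' := Ideal.Quotient.isDomain P
  have : IsDomain B' := Ideal.Quotient.isDomain Q
  have hint : Algebra.IsIntegral A' B' := by
    constructor
    intro b
    obtain ⟨b, rfl⟩ := Ideal.Quotient.mk_surjective b
    obtain ⟨p, hp, hpb⟩ := Algebra.IsIntegral.isIntegral (R := A) b
    refine ⟨p.map (Ideal.Quotient.mk P), hp.map _, ?_⟩
    rw [eval₂_map]
    have h1 : (algebraMap A' B').comp (Ideal.Quotient.mk P) =
        (Ideal.Quotient.mk Q).comp (algebraMap A B) := by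
      ext a
      rfl
    rw [h1, ← hom_eval₂, hpb, map_zero]
  have : Module.IsTorsionFree A' B' :=
    Module.isTorsionFree_iff_algebraMap_injective.mpr hf
  have : Module.IsTorsionFree A' Om :=
    Module.isTorsionFree_iff_algebraMap_injective.mpr hφ'
  have : Algebra.IsAlgebraic A' B' := Algebra.IsIntegral.isAlgebraic
  let g : B' →ₐ[A'] Om := IsAlgClosed.lift
  refine ⟨g.toRingHom.comp (Ideal.Quotient.mk Q), fun a => ?_⟩
  have h2 : g (algebraMap A' B' (Ideal.Quotient.mk P a)) = algebraMap A' Om (Ideal.Quotient.mk P a) :=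
    g.commutes _
  exact h2

/-- **(C1e), transitivity.** -/
theorem exists_smul_eq {B Om G : Type*} [CommRing B] [CommRing Om] [IsDomain Om] [Group G]
    [Finite G] [MulSemiringAction G B] (e1 e2 : B →+* Om)
    (h : ∀ b : B, (∀ g : G, g • b = b) → e1 b = e2 b) : ∃ g : G, ∀ b, e2 b = e1 (g • b) := by
  classical
  have : Fintype G := Fintype.ofFinite G
  by_contra hcon
  push Not at hcon
  choose b hb using hcon
  let L : G → MvPolynomial G B := fun g => ∑ k : G, MvPolynomial.C (g • b k) * MvPolynomial.X k
  let P : Polynomial (MvPolynomial G B) := ∏ g : G, (Polynomial.X - Polynomial.C (L g))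
  let act : G → (MvPolynomial G B →+* MvPolynomial G B) := fun k =>
    MvPolynomial.map (MulSemiringAction.toRingHom G B k)
  have hL : ∀ k g, act k (L g) = L (k * g) := by
    intro k g
    simp only [act, L, map_sum, map_mul, MvPolynomial.map_X, MvPolynomial.map_C,
      MulSemiringAction.toRingHom_apply, smul_smul]
  have hinv : ∀ k, P.map (act k) = P := by
    intro k
    simp only [P, Polynomial.map_prod, Polynomial.map_sub, Polynomial.map_X, Polynomial.map_C, hL]
    exact Fintype.prod_equiv (Equiv.mulLeft k) _ _ (fun g => rfl)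
  have hP : P.map (MvPolynomial.map e1) = P.map (MvPolynomial.map e2) := by
    ext j m
    rw [Polynomial.coeff_map, Polynomial.coeff_map, MvPolynomial.coeff_map, MvPolynomial.coeff_map]
    apply h
    intro k
    have h1 := congrArg (fun Q => MvPolynomial.coeff m (Polynomial.coeff Q j)) (hinv k)
    simp only [Polynomial.coeff_map, act, MvPolynomial.coeff_map] at h1
    exact h1
  let M1 : G → MvPolynomial G Om := fun g => ∑ k : G, MvPolynomial.C (e1 (g • b k)) * MvPolynomial.X k
  let M2 : G → MvPolynomial G Om := fun g => ∑ k : G, MvPolynomial.C (e2 (g • b k)) * MvPolynomial.X k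
  have hM1 : ∀ g, MvPolynomial.map e1 (L g) = M1 g := by
    intro g; simp only [L, M1, map_sum, map_mul, MvPolynomial.map_X, MvPolynomial.map_C]
  have hM2 : ∀ g, MvPolynomial.map e2 (L g) = M2 g := by
    intro g; simp only [L, M2, map_sum, map_mul, MvPolynomial.map_X, MvPolynomial.map_C]
  simp only [P, Polynomial.map_prod, Polynomial.map_sub, Polynomial.map_X, Polynomial.map_C,
    hM1, hM2] at hP
  have h0 := congrArg (Polynomial.eval (M2 1)) hP
  rw [Polynomial.eval_prod, Polynomial.eval_prod] at h0
  have h1 : ∏ g : G, Polynomial.eval (M2 1) (Polynomial.X - Polynomial.C (M2 g)) = 0 := by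
    apply Finset.prod_eq_zero (Finset.mem_univ (1 : G))
    rw [Polynomial.eval_sub, Polynomial.eval_X, Polynomial.eval_C, sub_self]
  rw [h1, Finset.prod_eq_zero_iff] at h0
  obtain ⟨g, -, hg⟩ := h0
  rw [Polynomial.eval_sub, Polynomial.eval_X, Polynomial.eval_C, sub_eq_zero] at hg
  apply hb g
  have h2 := congrArg (MvPolynomial.coeff (Finsupp.single g 1)) hg
  simp only [M1, M2, MvPolynomial.coeff_sum, one_smul] at h2
  have h3 : ∀ c : G → Om, ∑ k : G, MvPolynomial.coeff (Finsupp.single g 1)
      (MvPolynomial.C (c k) * (MvPolynomial.X k : MvPolynomial G Om)) = c g := by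
    intro c
    rw [Finset.sum_eq_single g]
    · rw [MvPolynomial.coeff_C_mul, MvPolynomial.coeff_X, if_pos rfl, mul_one]
    · intro k _ hk
      rw [MvPolynomial.coeff_C_mul, MvPolynomial.coeff_X, if_neg, mul_zero]
      intro heq
      exact hk (Finsupp.single_left_injective one_ne_zero heq)
    · intro hn; exact absurd (Finset.mem_univ _) hn
  rw [h3 (fun k => e2 (b k)), h3 (fun k => e1 (g • b k))] at h2
  exact h2

end C1e

section C1d

/-- **(C1d)** -/
theorem laurent_mem_of_integral {κ : Type*} [Field κ] (x : LaurentSeries κ)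
    (hx : IsIntegral (PowerSeries κ) x) : ∃ r : PowerSeries κ, algebraMap (PowerSeries κ) (LaurentSeries κ) r = x :=
  IsIntegrallyClosed.isIntegral_iff.mp hx

theorem mem_of_integral_of_laurent {κ Om : Type*} [Field κ] [Field Om] [Algebra (PowerSeries κ) Om]
    [Algebra (LaurentSeries κ) Om] [IsScalarTower (PowerSeries κ) (LaurentSeries κ) Om]
    (x : LaurentSeries κ) (hx : IsIntegral (PowerSeries κ) (algebraMap (LaurentSeries κ) Om x)) :
    ∃ r : PowerSeries κ, algebraMap (PowerSeries κ) Om r = algebraMap (LaurentSeries κ) Om x := by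
  have h1 : IsIntegral (PowerSeries κ) x :=
    (isIntegral_algebraMap_iff (algebraMap (LaurentSeries κ) Om).injective).mp hx
  obtain ⟨r, hr⟩ := laurent_mem_of_integral x h1
  exact ⟨r, by rw [← hr, ← IsScalarTower.algebraMap_apply]⟩

end C1d

section C1c

/-- **(C1c)** a monic polynomial over `κ⟦t⟧` which splits with "unit differences" of its roots has
all its roots in `κ⟦t⟧`. -/
theorem roots_mem {κ Om I : Type*} [Field κ] [IsAlgClosed κ] [Field Om] [Algebra (PowerSeries κ) Om]
    (hinj : Function.Injective (algebraMap (PowerSeries κ) Om)) [Fintype I] (f : (PowerSeries κ)[X])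
    (hf : f.Monic) (ρ : I → Om) (hρ : f.map (algebraMap (PowerSeries κ) Om) = ∏ i : I, (X - C (ρ i)))
    (hd : ∀ i j, i ≠ j → ∃ c : Om, IsIntegral (PowerSeries κ) c ∧ (ρ i - ρ j) * c = 1) (i : I) :
    ∃ r : PowerSeries κ, algebraMap (PowerSeries κ) Om r = ρ i := by
  classical
  let S := integralClosure (PowerSeries κ) Om
  have hroot : ∀ i, Polynomial.aeval (ρ i) f = 0 := by
    intro i
    rw [Polynomial.aeval_def, ← Polynomial.eval_map, hρ, Polynomial.eval_prod]
    apply Finset.prod_eq_zero (Finset.mem_univ i)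
    simp
  have hint : ∀ i, IsIntegral (PowerSeries κ) (ρ i) := fun i => ⟨f, hf, hroot i⟩
  let ρS : I → S := fun i => ⟨ρ i, hint i⟩
  have hSinj : Function.Injective (algebraMap (PowerSeries κ) S) := by
    intro a b hab
    apply hinj
    exact congrArg Subtype.val hab
  -- residue map extends to S
  obtain ⟨ψ, hψ⟩ := exists_extension (A := PowerSeries κ) (B := S) (Om := κ) hSinj
    (PowerSeries.constantCoeff (R := κ))
  let a0 : κ := ψ (ρS i)
  -- the polynomial in S
  have hfS : f.map (algebraMap (PowerSeries κ) S) = ∏ i : I, (X - C (ρS i)) := by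
    apply Polynomial.map_injective (algebraMap S Om) (fun a b hab => Subtype.ext hab)
    rw [Polynomial.map_map, Polynomial.map_prod]
    simp only [Polynomial.map_sub, map_X, map_C]
    rw [← IsScalarTower.algebraMap_eq]
    exact hρ
  have hres : f.map (PowerSeries.constantCoeff (R := κ)) = ∏ i : I, (X - C (ψ (ρS i))) := by
    have h1 : f.map (PowerSeries.constantCoeff (R := κ)) =
        (f.map (algebraMap (PowerSeries κ) S)).map ψ := by
      rw [Polynomial.map_map]
      congr 1
      exact RingHom.ext fun a => (hψ a).symm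
    rw [h1, hfS, Polynomial.map_prod]
    simp only [Polynomial.map_sub, map_X, map_C]
  have hdist : ∀ i j, i ≠ j → ψ (ρS i) ≠ ψ (ρS j) := by
    intro i j hij heq
    obtain ⟨c, hc, hc1⟩ := hd i j hij
    let cS : S := ⟨c, hc⟩
    have h1 : (ρS i - ρS j) * cS = 1 := Subtype.ext hc1
    have h2 := congrArg ψ h1
    rw [map_mul, map_sub, heq, sub_self, zero_mul, map_one] at h2
    exact zero_ne_one h2
  -- Hensel
  have hX : IsAdicComplete (Ideal.span {(PowerSeries.X : PowerSeries κ)}) (PowerSeries κ) := inferInstance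
  have hmem : ∀ z : PowerSeries κ, z ∈ Ideal.span {(PowerSeries.X : PowerSeries κ)} ↔
      PowerSeries.constantCoeff z = 0 := by
    intro z
    rw [Ideal.mem_span_singleton, PowerSeries.X_dvd_iff]
  have hev : ∀ g : (PowerSeries κ)[X], PowerSeries.constantCoeff (g.eval (PowerSeries.C a0)) =
      (g.map (PowerSeries.constantCoeff (R := κ))).eval a0 := by
    intro g
    rw [Polynomial.eval_map, ← Polynomial.eval₂_at_apply, PowerSeries.constantCoeff_C]
  obtain ⟨a, ha, haa⟩ := HenselianRing.is_henselian
    (I := Ideal.span {(PowerSeries.X : PowerSeries κ)}) f hf (PowerSeries.C a0) (by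
      rw [hmem, hev, hres, Polynomial.eval_prod]
      apply Finset.prod_eq_zero (Finset.mem_univ i)
      simp [a0]) (by
      have h1 : IsUnit (f.derivative.eval (PowerSeries.C a0)) := by
        rw [PowerSeries.isUnit_iff_constantCoeff, isUnit_iff_ne_zero, hev,
          ← Polynomial.derivative_map, hres, Polynomial.derivative_prod_finset, Polynomial.eval_finsetSum,
          Finset.sum_eq_single i]
        · rw [Polynomial.eval_mul, Polynomial.eval_prod]
          simp only [derivative_sub, derivative_X, derivative_C, sub_zero, eval_one, mul_one,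
            eval_sub, eval_X, eval_C]
          rw [Finset.prod_ne_zero_iff]
          intro j hj
          rw [Finset.mem_erase] at hj
          exact sub_ne_zero.mpr (hdist i j (Ne.symm hj.1))
        · intro j _ hji
          rw [Polynomial.eval_mul, Polynomial.eval_prod]
          apply mul_eq_zero_of_left
          apply Finset.prod_eq_zero (i := i)
          · rw [Finset.mem_erase]; exact ⟨Ne.symm hji, Finset.mem_univ _⟩
          · simp [a0]
        · intro h; exact absurd (Finset.mem_univ _) h
      exact h1.map _)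
  -- `a` is a root of `f`, so equals some `ρ j` in Om
  have hcong : ψ (algebraMap _ S a) = a0 := by
    rw [hψ]
    rw [hmem, map_sub, PowerSeries.constantCoeff_C, sub_eq_zero] at haa
    exact haa
  have h1 : (f.map (algebraMap (PowerSeries κ) S)).eval (algebraMap _ S a) = 0 := by
    rw [Polynomial.eval_map, Polynomial.eval₂_at_apply, ha.eq_zero, map_zero]
  rw [hfS, Polynomial.eval_prod, Finset.prod_eq_zero_iff] at h1
  obtain ⟨j, -, hj⟩ := h1
  rw [eval_sub, eval_X, eval_C, sub_eq_zero] at hj
  have hji : j = i := by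
    by_contra hne
    apply hdist j i hne
    rw [← hj, hcong]
  refine ⟨a, ?_⟩
  have h2 := congrArg Subtype.val hj
  rw [hji] at h2
  exact h2

end C1c

end Crest.Agent.R007.ECore
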