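import Crest.Agent.R007.FGrp

/-!
Row 7, section E, E-CORE-2 (helper853): cube roots in `κ⟦t⟧`, the automorphism `t ↦ t w`,
renormalisation of a ring homomorphism on a graded ring, and the two constancy lemmas.
-/

set_option autoImplicit false

open PowerSeries

namespace Crest.Agent.R007.ECore2

/-! ### (C2a) cube roots -/

section Cube

variable {κ : Type*} [Field κ]

theorem isUnit_iff_cc (b : PowerSeries κ) : IsUnit b ↔ constantCoeff b ≠ 0 := by
  rw [PowerSeries.isUnit_iff_constantCoeff, isUnit_iff_ne_zero]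

/-- every unit of `κ⟦t⟧` is an `n`-th power if `n ≠ 0` in `κ`, `κ` algebraically closed. -/
theorem exists_root [IsAlgClosed κ] {n : ℕ} (hn0 : 0 < n) (hn : (n : κ) ≠ 0)
    {b : PowerSeries κ} (hb : IsUnit b) : ∃ u : PowerSeries κ, IsUnit u ∧ u ^ n = b := by
  obtain ⟨γ, hγ⟩ := IsAlgClosed.exists_pow_nat_eq (constantCoeff b) hn0
  have hγ0 : γ ≠ 0 := by
    rintro rfl
    rw [zero_pow hn0.ne'] at hγ
    exact (isUnit_iff_cc b).1 hb hγ.symm
  let I : Ideal (PowerSeries κ) := Ideal.span {X}
  have hmem : ∀ a : PowerSeries κ, a ∈ I ↔ constantCoeff a = 0 := by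
    intro a
    rw [Ideal.mem_span_singleton, PowerSeries.X_dvd_iff]
  have hmon : (Polynomial.X ^ n - Polynomial.C b : Polynomial (PowerSeries κ)).Monic :=
    Polynomial.monic_X_pow_sub_C b hn0.ne'
  obtain ⟨u, hu, hu2⟩ := HenselianRing.is_henselian (I := I)
    (Polynomial.X ^ n - Polynomial.C b : Polynomial (PowerSeries κ)) hmon (C γ) (by
      rw [hmem]; simp [hγ]) (by
      apply IsUnit.map
      rw [isUnit_iff_cc]
      simp only [Polynomial.derivative_sub, Polynomial.derivative_X_pow, Polynomial.derivative_C,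
        sub_zero, Polynomial.eval_mul, Polynomial.eval_pow, Polynomial.eval_X,
        map_mul, map_pow, PowerSeries.constantCoeff_C, map_natCast]
      exact mul_ne_zero (by simpa using hn) (pow_ne_zero _ hγ0))
  have hu3 : u ^ n = b := by
    have := hu
    rw [Polynomial.IsRoot, Polynomial.eval_sub, Polynomial.eval_pow, Polynomial.eval_X,
      Polynomial.eval_C, sub_eq_zero] at this
    exact this
  refine ⟨u, ?_, hu3⟩
  rw [← hu3] at hb
  exact (isUnit_pow_iff hn0.ne').1 hb

/-- (C2a) -/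
theorem exists_cube_root [IsAlgClosed κ] [CharP κ 2] {b : PowerSeries κ} (hb : IsUnit b) :
    ∃ u : PowerSeries κ, IsUnit u ∧ u ^ 3 = b := by
  refine exists_root (by norm_num) ?_ hb
  have h2 : ((2 : ℕ) : κ) = 0 := CharP.cast_eq_zero κ 2
  intro h3
  have : (1 : κ) = ((3 : ℕ) : κ) - ((2 : ℕ) : κ) := by push_cast; ring
  rw [h3, h2, sub_zero] at this
  exact one_ne_zero this

end Cube

/-! ### (C2b) the automorphism `t ↦ t w` -/

section Aut

variable {κ : Type*} [Field κ]

/-- (C2b) for a unit `w` there is a (unique, `F.ext_X`) `κ`-automorphism of `κ⟦t⟧` with `t ↦ t w`. -/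
theorem exists_aut {w : PowerSeries κ} (hw : IsUnit w) :
    ∃ s : PowerSeries κ ≃ₐ[κ] PowerSeries κ, s X = X * w := by
  have hc : constantCoeff (X * w : PowerSeries κ) = 0 := by simp
  have hu1 : IsUnit (coeff 1 (X * w : PowerSeries κ)) := by
    rw [show (1 : ℕ) = 0 + 1 from rfl, PowerSeries.coeff_succ_X_mul,
      PowerSeries.coeff_zero_eq_constantCoeff_apply, isUnit_iff_ne_zero]
    exact (isUnit_iff_cc w).1 hw
  obtain ⟨ψ, hψ0, -, hl, hr⟩ := R227.exists_sinv hc hu1
  have hψs : HasSubst ψ := HasSubst.of_constantCoeff_zero' hψ0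
  have hws : HasSubst (X * w : PowerSeries κ) := HasSubst.of_constantCoeff_zero' hc
  let s : PowerSeries κ →ₐ[κ] PowerSeries κ := PowerSeries.substAlgHom hws
  let s' : PowerSeries κ →ₐ[κ] PowerSeries κ := PowerSeries.substAlgHom hψs
  have hsX : s X = X * w := by
    show PowerSeries.substAlgHom hws X = _
    rw [PowerSeries.coe_substAlgHom, PowerSeries.subst_X hws]
  have hs'X : s' X = ψ := by
    show PowerSeries.substAlgHom hψs X = ψ
    rw [PowerSeries.coe_substAlgHom, PowerSeries.subst_X hψs]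
  have e1 : s.comp s' = AlgHom.id κ _ := by
    apply F.ext_X
    rw [AlgHom.comp_apply, hs'X, AlgHom.id_apply]
    show PowerSeries.substAlgHom hws ψ = X
    rw [PowerSeries.coe_substAlgHom]
    exact hl
  have e2 : s'.comp s = AlgHom.id κ _ := by
    apply F.ext_X
    rw [AlgHom.comp_apply, hsX, AlgHom.id_apply]
    show PowerSeries.substAlgHom hψs (X * w) = X
    rw [PowerSeries.coe_substAlgHom]
    exact hr
  exact ⟨AlgEquiv.ofAlgHom s s' e1 e2, hsX⟩

end Aut

/-! ### (C2c) renormalisation on a graded ring -/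

section Renorm

variable {L R : Type*} [CommRing L] [CommRing R]

/-- (C2c), bundled form: `𝒜` a grading of `L`, `ψ : L →+* R`, `v : R`; the map `F ↦ v ^ k * ψ F` on
`𝒜 k` extends to a ring homomorphism. -/
theorem exists_twist {σ : Type*} [SetLike σ L] [AddSubmonoidClass σ L] (𝒜 : ℕ → σ) [GradedRing 𝒜]
    (ψ : L →+* R) (v : R) :
    ∃ χ : L →+* R, ∀ k, ∀ F ∈ 𝒜 k, χ F = v ^ k * ψ F := by
  let f : ∀ k, 𝒜 k →+ R := fun k =>
    (AddMonoidHom.mulLeft (v ^ k)).comp ((ψ : L →+ R).comp (AddSubmonoidClass.subtype (𝒜 k)))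
  have hf : ∀ k (x : 𝒜 k), f k x = v ^ k * ψ x := fun k x => rfl
  let χ : (DirectSum ℕ fun k => 𝒜 k) →+* R := DirectSum.toSemiring f
    (by
      rw [hf]
      change v ^ 0 * ψ ((1 : L)) = 1
      simp)
    (by
      intro i j a b
      rw [hf, hf, hf]
      change v ^ (i + j) * ψ ((a : L) * (b : L)) = _
      rw [map_mul, pow_add]; ring)
  refine ⟨χ.comp (DirectSum.decomposeRingEquiv 𝒜 : L →+* _), fun k F hF => ?_⟩
  have h1 : (DirectSum.decomposeRingEquiv 𝒜 : L →+* _) F = DirectSum.of (fun k => 𝒜 k) k ⟨F, hF⟩ :=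
    DirectSum.decompose_of_mem 𝒜 hF
  rw [RingHom.comp_apply, h1]
  show DirectSum.toSemiring f _ _ _ = _
  rw [DirectSum.toSemiring_of]
  rfl

/-- (C2c), unbundled form. -/
theorem exists_twist' (A : ℕ → AddSubgroup L) (h1 : (1 : L) ∈ A 0)
    (hmul : ∀ i j a b, a ∈ A i → b ∈ A j → a * b ∈ A (i + j)) (hint : DirectSum.IsInternal A)
    (ψ : L →+* R) (v : R) :
    ∃ χ : L →+* R, ∀ k, ∀ F ∈ A k, χ F = v ^ k * ψ F := by
  classical
  let _ : DirectSum.Decomposition A := hint.chooseDecomposition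
  let _ : SetLike.GradedMonoid A := { one_mem := h1, mul_mem := fun {i j a b} ha hb => hmul i j a b ha hb }
  let _ : GradedRing A := { }
  exact exists_twist A ψ v

/-- two ring homs agreeing on all homogeneous elements are equal -/
theorem hom_ext_graded (A : ℕ → AddSubgroup L) (hint : DirectSum.IsInternal A)
    {χ χ' : L →+* R} (h : ∀ k, ∀ F ∈ A k, χ F = χ' F) : χ = χ' := by
  ext F
  obtain ⟨y, rfl⟩ := hint.2 F
  induction y using DirectSum.induction_on with
  | zero => simp
  | of i x => rw [DirectSum.coeAddMonoidHom_of]; exact h i x x.2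
  | add x y hx hy => rw [map_add, map_add, map_add, hx, hy]

end Renorm

/-! ### (C2d) -/

section JInv

variable {κ : Type*} [Field κ]

/-- (C2d) `∑ λ_c ((1+t³)/t¹²)^c` regular at `t = 0` only if `λ_c = 0` for `c > 0`. -/
theorem coeff_eq_zero_of_regular (K : Type*) [Field K] [Algebra κ K] [Algebra (PowerSeries κ) K]
    [IsScalarTower κ (PowerSeries κ) K] [FaithfulSMul (PowerSeries κ) K]
    (p : Polynomial κ) (r : PowerSeries κ)
    (h : Polynomial.aeval (algebraMap (PowerSeries κ) K (1 + X ^ 3) /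
      algebraMap (PowerSeries κ) K X ^ 12) p = algebraMap (PowerSeries κ) K r) :
    ∃ a : κ, p = Polynomial.C a := by
  by_contra hcon
  have hn : 0 < p.natDegree := by
    rw [Nat.pos_iff_ne_zero]
    intro h0
    exact hcon ⟨_, Polynomial.eq_C_of_natDegree_eq_zero h0⟩
  set n := p.natDegree with hnd
  have hX : algebraMap (PowerSeries κ) K X ≠ 0 := by
    intro h0
    have := FaithfulSMul.algebraMap_injective (PowerSeries κ) K (h0.trans (map_zero _).symm)
    exact X_ne_zero this
  let q : PowerSeries κ := ∑ c ∈ Finset.range (n + 1),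
    C (p.coeff c) * (1 + X ^ 3) ^ c * X ^ (12 * (n - c))
  have hq : q = X ^ (12 * n) * r := by
    apply FaithfulSMul.algebraMap_injective (PowerSeries κ) K
    rw [map_mul, ← h, Polynomial.aeval_eq_sum_range, ← hnd, Finset.mul_sum, map_sum]
    refine Finset.sum_congr rfl fun c hc => ?_
    have hcn : c ≤ n := Nat.lt_succ_iff.1 (Finset.mem_range.1 hc)
    rw [map_mul, map_mul, map_pow, map_pow, map_pow, Algebra.smul_def, div_pow, ← pow_mul]
    have e1 : algebraMap κ K (p.coeff c) = algebraMap (PowerSeries κ) K (C (p.coeff c)) := by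
      rw [IsScalarTower.algebraMap_apply κ (PowerSeries κ) K]; rfl
    have e2 : 12 * n = 12 * (n - c) + 12 * c := by omega
    rw [e1, e2, pow_add]
    field_simp
  have h1 : constantCoeff q = p.coeff n := by
    show constantCoeff (∑ c ∈ Finset.range (n + 1), _) = _
    rw [map_sum, Finset.sum_range_succ, Finset.sum_eq_zero, zero_add]
    · simp
    · intro c hc
      have hcn : c < n := Finset.mem_range.1 hc
      have : 12 * (n - c) ≠ 0 := by omega
      simp [this]
  have h2 : constantCoeff q = 0 := by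
    rw [hq]
    have : 12 * n ≠ 0 := by omega
    simp [this]
  rw [h1] at h2
  have h3 : p.leadingCoeff = 0 := h2
  rw [Polynomial.leadingCoeff_eq_zero] at h3
  rw [hnd, h3] at hn
  simp at hn

end JInv

/-! ### (C2e) -/

/-- (C2e) an algebraic element over an algebraically closed field is constant. -/
theorem algebraic_const {κ A : Type*} [Field κ] [IsAlgClosed κ] [CommRing A] [IsDomain A]
    [Algebra κ A] {b : A} (hb : IsAlgebraic κ b) : ∃ a : κ, b = algebraMap κ A a := by
  have hint : IsIntegral κ b := hb.isIntegral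
  have hirr := minpoly.irreducible hint
  have hdeg : (minpoly κ b).degree = 1 := IsAlgClosed.degree_eq_one_of_irreducible κ hirr
  obtain ⟨a, ha⟩ := minpoly.mem_range_of_degree_eq_one κ b hdeg
  exact ⟨a, ha.symm⟩

/-- (C2e) the same in a ring `A` with a ring hom `f : κ →+* A` (no instances). -/
theorem algebraic_const_hom {κ A : Type*} [Field κ] [IsAlgClosed κ] [CommRing A] [IsDomain A]
    (f : κ →+* A) {b : A} {p : Polynomial κ} (hp : p ≠ 0) (hb : p.eval₂ f b = 0) :
    ∃ a : κ, b = f a := by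
  let _ : Algebra κ A := f.toAlgebra
  obtain ⟨a, ha⟩ := algebraic_const (κ := κ) (A := A) (b := b) ⟨p, hp, hb⟩
  exact ⟨a, ha⟩

theorem algebraic_const_hahn {κ : Type*} [Field κ] [IsAlgClosed κ] {b : HahnSeries ℚ κ}
    {p : Polynomial κ} (hp : p ≠ 0) (hb : p.eval₂ HahnSeries.C b = 0) :
    ∃ a : κ, b = HahnSeries.C a := by
  obtain ⟨a, ha⟩ := algebraic_const_hom (HahnSeries.C : κ →+* HahnSeries ℚ κ) hp hb
  exact ⟨a, ha⟩

end Crest.Agent.R007.ECore2
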