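import Mathlib

/-!
Row 7 (S0007), section A: forms on Γ(M) as plain functions, closure properties, q-expansions.
-/

set_option autoImplicit false

noncomputable section

namespace Crest.Agent.R007.Rat

open UpperHalfPlane ModularForm CongruenceSubgroup Matrix.SpecialLinearGroup
open scoped MatrixGroups Manifold

/-- `f` is a holomorphic modular form of weight `k` and level `Γ(M)`. -/
structure IsF (M : ℕ) (k : ℤ) (f : ℍ → ℂ) : Prop where
  slash : ∀ γ ∈ Gamma M, f ∣[k] γ = f
  holo : MDiff f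
  bdd : ∀ g : SL(2, ℤ), IsBoundedAtImInfty (f ∣[k] g)

variable {M : ℕ} {k l : ℤ} {f f' : ℍ → ℂ}

lemma IsF.of_modularForm [NeZero M] (F : ModularForm ((Gamma M : Subgroup SL(2, ℤ)) : Subgroup (GL (Fin 2) ℝ)) k) :
    IsF M k F where
  slash γ hγ := by
    exact SlashInvariantFormClass.slash_action_eq F (mapGL ℝ γ) (Subgroup.mem_map_of_mem _ hγ)
  holo := ModularFormClass.holo F
  bdd g := ModularFormClass.bdd_at_infty_slash F g

/-- Bundle. -/
def IsF.toModularForm [NeZero M] (hf : IsF M k f) :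
    ModularForm ((Gamma M : Subgroup SL(2, ℤ)) : Subgroup (GL (Fin 2) ℝ)) k where
  toFun := f
  slash_action_eq' γ hγ := by
    obtain ⟨g, hg, rfl⟩ := hγ
    exact hf.slash g hg
  holo' := hf.holo
  bdd_at_cusps' {c} hc := by
    rw [Subgroup.IsArithmetic.isCusp_iff_isCusp_SL2Z] at hc
    rw [OnePoint.isBoundedAt_iff_forall_SL2Z hc]
    intro g _
    exact hf.bdd g

@[simp] lemma IsF.coe_toModularForm [NeZero M] (hf : IsF M k f) : ⇑hf.toModularForm = f := rfl

lemma IsF.add (hf : IsF M k f) (hf' : IsF M k f') : IsF M k (f + f') where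
  slash γ hγ := by rw [SlashAction.add_slash, hf.slash γ hγ, hf'.slash γ hγ]
  holo := hf.holo.add hf'.holo
  bdd g := by rw [SlashAction.add_slash]; exact (hf.bdd g).add (hf'.bdd g)

lemma IsF.smul (c : ℂ) (hf : IsF M k f) : IsF M k (c • f) where
  slash γ hγ := by rw [SL_smul_slash, hf.slash γ hγ]
  holo := hf.holo.const_smul c
  bdd g := by rw [SL_smul_slash]; exact (hf.bdd g).const_smul_left c

lemma IsF.neg (hf : IsF M k f) : IsF M k (-f) := by
  simpa using hf.smul (-1)

lemma IsF.sub (hf : IsF M k f) (hf' : IsF M k f') : IsF M k (f - f') := by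
  simpa [sub_eq_add_neg] using hf.add hf'.neg

lemma IsF.zero : IsF M k 0 where
  slash γ _ := by simp
  holo := mdifferentiable_const
  bdd g := by simpa using! zero_form_isBoundedAtImInfty

lemma IsF.sum {ι : Type*} (s : Finset ι) (F : ι → ℍ → ℂ) (h : ∀ i ∈ s, IsF M k (F i)) :
    IsF M k (∑ i ∈ s, F i) := by
  classical
  induction s using Finset.induction_on with
  | empty => simpa using IsF.zero
  | insert a s ha ih =>
    rw [Finset.sum_insert ha]
    exact (h a (by simp)).add (ih fun i hi => h i (by simp [hi]))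

lemma IsF.mul (hf : IsF M k f) (hf' : IsF M l f') : IsF M (k + l) (f * f') where
  slash γ hγ := by rw [mul_slash_SL2, hf.slash γ hγ, hf'.slash γ hγ]
  holo := hf.holo.mul hf'.holo
  bdd g := by rw [mul_slash_SL2]; exact (hf.bdd g).mul (hf'.bdd g)

lemma IsF.one : IsF M 0 1 where
  slash γ _ := by
    ext τ; simp [SL_slash_apply]
  holo := mdifferentiable_const
  bdd g := by
    have : ((1 : ℍ → ℂ) ∣[(0 : ℤ)] g) = 1 := by ext τ; simp [SL_slash_apply]
    rw [this]
    exact Filter.const_boundedAtFilter _ (1 : ℂ)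

lemma IsF.cast {k k' : ℤ} (hk : k = k') (hf : IsF M k f) : IsF M k' f := hk ▸ hf

lemma one_slash (g : SL(2, ℤ)) : ((1 : ℍ → ℂ) ∣[(0 : ℤ)] g) = 1 := by
  ext τ; simp [SL_slash_apply]

lemma prod_slash' {ι : Type*} (s : Finset ι) (F : ι → ℍ → ℂ) (k : ℤ) (g : SL(2, ℤ)) :
    (∏ i ∈ s, F i) ∣[(s.card : ℤ) * k] g = ∏ i ∈ s, (F i ∣[k] g) := by
  classical
  induction s using Finset.induction_on with
  | empty => simp [one_slash]
  | insert a s ha ih =>
    rw [Finset.prod_insert ha, Finset.prod_insert ha, Finset.card_insert_of_notMem ha,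
      show ((s.card + 1 : ℕ) : ℤ) * k = k + (s.card : ℤ) * k by push_cast; ring, mul_slash_SL2, ih]

lemma IsF.prod {ι : Type*} (s : Finset ι) (F : ι → ℍ → ℂ) (h : ∀ i ∈ s, IsF M k (F i)) :
    IsF M ((s.card : ℤ) * k) (∏ i ∈ s, F i) := by
  classical
  induction s using Finset.induction_on with
  | empty => simpa using IsF.one
  | insert a s ha ih =>
    rw [Finset.prod_insert ha, Finset.card_insert_of_notMem ha]
    exact ((h a (by simp)).mul (ih fun i hi => h i (by simp [hi]))).cast (by push_cast; ring)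

lemma pow_slash' (f : ℍ → ℂ) (n : ℕ) (k : ℤ) (g : SL(2, ℤ)) :
    (f ^ n) ∣[(n : ℤ) * k] g = (f ∣[k] g) ^ n := by
  induction n with
  | zero => simp [one_slash]
  | succ n ih =>
    rw [pow_succ, pow_succ, show ((n + 1 : ℕ) : ℤ) * k = (n : ℤ) * k + k by push_cast; ring,
      mul_slash_SL2, ih]

lemma IsF.pow (hf : IsF M k f) (n : ℕ) : IsF M ((n : ℤ) * k) (f ^ n) := by
  induction n with
  | zero => simpa using IsF.one
  | succ n ih => rw [pow_succ]; exact (ih.mul hf).cast (by push_cast; ring)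

lemma IsF.slash_SL (hf : IsF M k f) (g : SL(2, ℤ)) : IsF M k (f ∣[k] g) where
  slash γ hγ := by
    rw [← SlashAction.slash_mul]
    have hn : g * γ * g⁻¹ ∈ Gamma M := (Gamma_normal M).conj_mem γ hγ g
    have : g * γ = (g * γ * g⁻¹) * g := by group
    rw [this, SlashAction.slash_mul, hf.slash _ hn]
  holo := by rw [SL_slash]; exact hf.holo.slash k _
  bdd h := by rw [← SlashAction.slash_mul]; exact hf.bdd _

lemma IsF.mono {M' : ℕ} (h : M ∣ M') (hf : IsF M k f) : IsF M' k f where
  slash γ hγ := hf.slash γ (by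
    rw [Gamma_mem] at hγ ⊢
    obtain ⟨h1, h2, h3, h4⟩ := hγ
    have key : ∀ a b : ℤ, (a : ZMod M') = (b : ZMod M') → (a : ZMod M) = (b : ZMod M) := by
      intro a b hab
      rw [ZMod.intCast_eq_intCast_iff_dvd_sub] at hab ⊢
      exact (Int.natCast_dvd_natCast.mpr h).trans hab
    refine ⟨by simpa using key _ 1 (by simpa using h1), by simpa using key _ 0 (by simpa using h2),
      by simpa using key _ 0 (by simpa using h3), by simpa using key _ 1 (by simpa using h4)⟩)
  holo := hf.holo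
  bdd := hf.bdd

/-! ### q-expansions -/

lemma mem_strictPeriods [NeZero M] :
    (M : ℝ) ∈ ((Gamma M : Subgroup SL(2, ℤ)) : Subgroup (GL (Fin 2) ℝ)).strictPeriods := by
  rw [CongruenceSubgroup.strictPeriods_Gamma]
  exact AddSubgroup.mem_zmultiples _

lemma Mpos [NeZero M] : (0 : ℝ) < M := by
  exact_mod_cast Nat.pos_of_ne_zero (NeZero.ne M)

lemma IsF.periodic [NeZero M] (hf : IsF M k f) : Function.Periodic (f ∘ ofComplex) (M : ℝ) :=
  SlashInvariantFormClass.periodic_comp_ofComplex hf.toModularForm mem_strictPeriods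

lemma IsF.bdd_infty (hf : IsF M k f) : IsBoundedAtImInfty f := by
  simpa using hf.bdd 1

lemma IsF.analytic [NeZero M] (hf : IsF M k f) : AnalyticAt ℂ (cuspFunction (M : ℝ) f) 0 :=
  analyticAt_cuspFunction_zero Mpos hf.periodic hf.holo hf.bdd_infty

/-- q-expansion of period `M`. -/
def qe (M : ℕ) (f : ℍ → ℂ) : PowerSeries ℂ := qExpansion (M : ℝ) f

lemma qe_add [NeZero M] (hf : IsF M k f) (hf' : IsF M l f') : qe M (f + f') = qe M f + qe M f' :=
  qExpansion_add hf.analytic hf'.analytic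

lemma qe_mul [NeZero M] (hf : IsF M k f) (hf' : IsF M l f') : qe M (f * f') = qe M f * qe M f' :=
  qExpansion_mul hf.analytic hf'.analytic

lemma qe_smul [NeZero M] (hf : IsF M k f) (c : ℂ) : qe M (c • f) = c • qe M f :=
  qExpansion_smul hf.analytic c

lemma qe_one : qe M 1 = 1 := qExpansion_one _

lemma qe_zero : qe M 0 = 0 := qExpansion_zero _

lemma qe_sum [NeZero M] {ι : Type*} (s : Finset ι) (F : ι → ℍ → ℂ) (h : ∀ i ∈ s, IsF M k (F i)) :
    qe M (∑ i ∈ s, F i) = ∑ i ∈ s, qe M (F i) := by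
  classical
  induction s using Finset.induction_on with
  | empty => simp [qe_zero]
  | insert a s ha ih =>
    rw [Finset.sum_insert ha, Finset.sum_insert ha, qe_add (h a (by simp))
      (IsF.sum s F fun i hi => h i (by simp [hi])), ih fun i hi => h i (by simp [hi])]

lemma qe_prod [NeZero M] {ι : Type*} (s : Finset ι) (F : ι → ℍ → ℂ) (h : ∀ i ∈ s, IsF M k (F i)) :
    qe M (∏ i ∈ s, F i) = ∏ i ∈ s, qe M (F i) := by
  classical
  induction s using Finset.induction_on with
  | empty => simp [qe_one]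
  | insert a s ha ih =>
    rw [Finset.prod_insert ha, Finset.prod_insert ha, qe_mul (h a (by simp))
      (IsF.prod s F fun i hi => h i (by simp [hi])), ih fun i hi => h i (by simp [hi])]

lemma qe_pow [NeZero M] (hf : IsF M k f) (n : ℕ) : qe M (f ^ n) = qe M f ^ n := by
  induction n with
  | zero => simp [qe_one]
  | succ n ih => rw [pow_succ, pow_succ, qe_mul (hf.pow n) hf, ih]

lemma qe_eq_zero_iff [NeZero M] (hf : IsF M k f) : qe M f = 0 ↔ f = 0 :=
  qExpansion_eq_zero_iff Mpos hf.periodic hf.holo hf.bdd_infty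

lemma qe_inj [NeZero M] (hf : IsF M k f) (hf' : IsF M k f') (h : qe M f = qe M f') : f = f' := by
  have h1 : qe M (f + (-1 : ℂ) • f') = 0 := by
    rw [qe_add hf (hf'.smul (-1)), qe_smul hf', h]; simp
  have := (qe_eq_zero_iff (hf.add (hf'.smul (-1)))).mp h1
  simpa [add_neg_eq_zero] using this

end Crest.Agent.R007.Rat
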