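import Crest.Agent.R007.Wp4
import Crest.Agent.R007.RatBasic

/-!
R007/Wp5: the division values are modular forms of level Γ(M).
-/

set_option autoImplicit false

namespace Crest.Agent.R007.Wp

open UpperHalfPlane hiding I
open Complex PeriodPair ModularForm Matrix Function Filter CongruenceSubgroup
open scoped MatrixGroups Real PeriodPair Nat Topology Manifold

local notation "𝕢" => Function.Periodic.qParam

noncomputable section

section general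

variable {h : ℝ} {c : ℕ → ℂ} {f : ℍ → ℂ}

lemma hasSum_of_norm_lt (hh : 0 < h) (hf : ∀ τ : ℍ, HasSum (fun n => c n * 𝕢 h τ ^ n) (f τ))
    {q : ℂ} (hq : ‖q‖ < 1) : Summable (fun n => c n * q ^ n) := by
  rcases eq_or_ne q 0 with rfl | hq0
  · exact (hasSum_single (f := fun n => c n * (0 : ℂ) ^ n) 0 (by
      intro n hn; simp [zero_pow hn])).summable
  · have h1 := Periodic.im_invQParam_pos_of_norm_lt_one hh hq hq0
    have := (hf ⟨Periodic.invQParam h q, h1⟩).summable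
    simpa [Periodic.qParam_right_inv hh.ne' hq0] using this

lemma hasFPowerSeries_of_hasSum (hh : 0 < h)
    (hf : ∀ τ : ℍ, HasSum (fun n => c n * 𝕢 h τ ^ n) (f τ)) :
    HasFPowerSeriesOnBall (fun q : ℂ => ∑' n, c n * q ^ n) (.ofScalars ℂ c) 0 1 := by
  constructor
  · refine le_of_forall_lt_imp_le_of_dense fun r hr ↦ ?_
    lift r to NNReal using hr.ne_top
    apply FormalMultilinearSeries.le_radius_of_summable
    have hr' : ‖(r : ℂ)‖ < 1 := by simpa using hr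
    simpa [smul_eq_mul, norm_mul, mul_comm, mul_left_comm, mul_assoc] using
      (hasSum_of_norm_lt hh hf hr').norm
  · simp
  · intro y hy
    rw [← ENNReal.coe_one, Metric.eball_coe, NNReal.coe_one, mem_ball_zero_iff] at hy
    simpa [mul_comm] using (hasSum_of_norm_lt hh hf hy).hasSum

lemma mdiff_of_hasSum (hh : 0 < h)
    (hf : ∀ τ : ℍ, HasSum (fun n => c n * 𝕢 h τ ^ n) (f τ)) : MDiff f := by
  rw [UpperHalfPlane.mdifferentiable_iff]
  have h1 := (hasFPowerSeries_of_hasSum hh hf).differentiableOn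
  have h2 : DifferentiableOn ℂ (fun z : ℂ => 𝕢 h z) {z | 0 < z.im} :=
    (Periodic.differentiable_qParam).differentiableOn
  have h3 : Set.MapsTo (fun z : ℂ => 𝕢 h z) {z | 0 < z.im} (Metric.eball (0 : ℂ) 1) := by
    intro z hz
    rw [← ENNReal.coe_one, Metric.eball_coe, NNReal.coe_one, mem_ball_zero_iff]
    exact Periodic.norm_qParam_lt_one hh hz
  refine (h1.comp h2 h3).congr fun z hz => ?_
  have := hf (ofComplex z)
  rw [ofComplex_apply_of_im_pos hz] at this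
  simp only [Function.comp_apply]
  rw [ofComplex_apply_of_im_pos hz]
  exact this.tsum_eq.symm

lemma bdd_of_hasSum (hh : 0 < h)
    (hf : ∀ τ : ℍ, HasSum (fun n => c n * 𝕢 h τ ^ n) (f τ)) : IsBoundedAtImInfty f :=
  isBoundedAtImInfty_of_hasSum_qExpansion hh (c := c) (by simpa using hf)

end general

lemma vecMul_mem_Gamma {M : ℕ} {γ : SL(2, ℤ)} (hγ : γ ∈ CongruenceSubgroup.Gamma M) (v : Fin 2 → ℤ) (i : Fin 2) :
    (((v ᵥ* (γ : Matrix (Fin 2) (Fin 2) ℤ)) i : ℤ) : ZMod M) = v i := by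
  rw [Gamma_mem] at hγ
  obtain ⟨h1, h2, h3, h4⟩ := hγ
  fin_cases i <;> simp [Matrix.vecMul, dotProduct, Fin.sum_univ_two, h1, h2, h3, h4]

theorem isF_P {M : ℕ} (hM : M ≠ 0) (v : Fin 2 → ℤ) : Rat.IsF M 2 (P M v) where
  slash γ hγ := by
    rw [P_slash]
    exact P_congr hM (vecMul_mem_Gamma hγ v)
  holo := mdiff_of_hasSum (h := M) (by positivity) (hasSum_P hM v)
  bdd g := by
    rw [P_slash]
    exact bdd_of_hasSum (h := M) (by positivity) (hasSum_P hM _)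

theorem isF_Q {M : ℕ} (hM : M ≠ 0) (v : Fin 2 → ℤ) : Rat.IsF M 3 (Q M v) where
  slash γ hγ := by
    rw [Q_slash]
    exact Q_congr hM (vecMul_mem_Gamma hγ v)
  holo := mdiff_of_hasSum (h := M) (by positivity) (hasSum_Q hM v)
  bdd g := by
    rw [Q_slash]
    exact bdd_of_hasSum (h := M) (by positivity) (hasSum_Q hM _)

theorem coeff_qe_of_hasSum {M : ℕ} [NeZero M] {k : ℤ} {f : ℍ → ℂ} (hf : Rat.IsF M k f) {c : ℕ → ℂ}
    (hs : ∀ τ : ℍ, HasSum (fun n => c n * 𝕢 (M : ℝ) τ ^ n) (f τ)) (n : ℕ) :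
    (Rat.qe M f).coeff n = c n := by
  have h1 : ∀ τ : ℍ, HasSum (fun m => c m • 𝕢 (M : ℝ) τ ^ m) (f τ) := fun τ => by
    simpa only [smul_eq_mul] using hs τ
  have h2 := ModularFormClass.qExpansion_coeff_unique (f := hf.toModularForm) (h := (M : ℝ))
    (k := k) (c := c) Rat.Mpos Rat.mem_strictPeriods h1 n
  rw [h2]
  rfl

theorem qe_P {M : ℕ} [NeZero M] (v : Fin 2 → ℤ) : Rat.qe M (P M v) = PowerSeries.mk (cP M v) := by
  ext n
  rw [coeff_qe_of_hasSum (isF_P (NeZero.ne M) v) (hasSum_P (NeZero.ne M) v), PowerSeries.coeff_mk]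

theorem qe_Q {M : ℕ} [NeZero M] (v : Fin 2 → ℤ) : Rat.qe M (Q M v) = PowerSeries.mk (cQ M v) := by
  ext n
  rw [coeff_qe_of_hasSum (isF_Q (NeZero.ne M) v) (hasSum_Q (NeZero.ne M) v), PowerSeries.coeff_mk]

/-! ### rationality of the coefficients -/

lemma chi_mem {M : ℕ} {K : Subfield ℂ} (hz : zeta M ∈ K) (s : ℕ) (a b : ℤ) (d e : ℕ) :
    chi M s a b d e ∈ K := by
  unfold chi
  have h1 : ∀ n : ℤ, zeta M ^ n ∈ K := fun n => zpow_mem hz n
  refine add_mem ?_ (mul_mem (pow_mem (neg_mem (one_mem _)) _) ?_)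
  · split_ifs
    · exact mul_mem (pow_mem (natCast_mem _ _) _) (pow_mem (h1 _) _)
    · exact zero_mem _
  · split_ifs
    · exact mul_mem (pow_mem (natCast_mem _ _) _) (pow_mem (h1 _) _)
    · exact zero_mem _

theorem cQ_mem {M : ℕ} (hM : M ≠ 0) {K : Subfield ℂ} (hz : zeta M ∈ K) {v : Fin 2 → ℤ}
    (hv : (v 0 : ZMod M) ≠ 0 ∨ (v 1 : ZMod M) ≠ 0) (n : ℕ) : cQ M v n ∈ K := by
  have h1 : ∀ n : ℤ, zeta M ^ n ∈ K := fun n => zpow_mem hz n
  refine add_mem ?_ (sum_mem fun p _ => chi_mem hz _ _ _ _ _)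
  split_ifs
  · rw [cQ0_eq hM hv]
    split_ifs
    · exact div_mem (mul_mem (h1 _) (add_mem (one_mem _) (h1 _))) (pow_mem (sub_mem (one_mem _) (h1 _)) _)
    · exact zero_mem _
  · exact zero_mem _

theorem cP_mem {M : ℕ} (hM : M ≠ 0) {K : Subfield ℂ} (hz : zeta M ∈ K) {v : Fin 2 → ℤ}
    (hv : (v 0 : ZMod M) ≠ 0 ∨ (v 1 : ZMod M) ≠ 0) (n : ℕ) : cP M v n ∈ K := by
  have h1 : ∀ n : ℤ, zeta M ^ n ∈ K := fun n => zpow_mem hz n
  refine add_mem ?_ (sum_mem fun p _ => sub_mem (chi_mem hz _ _ _ _ _) (chi_mem hz _ _ _ _ _))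
  split_ifs
  · rw [cP0_eq hM hv]
    refine add_mem (div_mem (one_mem _) (ofNat_mem _ _)) ?_
    split_ifs
    · exact div_mem (h1 _) (pow_mem (sub_mem (one_mem _) (h1 _)) _)
    · exact zero_mem _
  · exact zero_mem _

/-- nonzero vectors mod `M` stay nonzero under `SL(2,ℤ)`. -/
lemma vecMul_ne {M : ℕ} {v : Fin 2 → ℤ} (hv : (v 0 : ZMod M) ≠ 0 ∨ (v 1 : ZMod M) ≠ 0)
    (g : SL(2, ℤ)) : (((v ᵥ* (g : Matrix (Fin 2) (Fin 2) ℤ)) 0 : ℤ) : ZMod M) ≠ 0 ∨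
      (((v ᵥ* (g : Matrix (Fin 2) (Fin 2) ℤ)) 1 : ℤ) : ZMod M) ≠ 0 := by
  by_contra hcon
  push Not at hcon
  obtain ⟨h0, h1⟩ := hcon
  have hd := g.det_coe
  rw [Matrix.det_fin_two] at hd
  have hd' : ((g 0 0 : ℤ) : ZMod M) * (g 1 1 : ℤ) - ((g 0 1 : ℤ) : ZMod M) * (g 1 0 : ℤ) = 1 := by
    exact_mod_cast congrArg (Int.cast : ℤ → ZMod M) hd
  simp only [Matrix.vecMul, dotProduct, Fin.sum_univ_two] at h0 h1
  push_cast at h0 h1
  rcases hv with hv | hv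
  · apply hv
    linear_combination (-(v 0 : ZMod M)) * hd' + ((g 1 1 : ℤ) : ZMod M) * h0 - ((g 1 0 : ℤ) : ZMod M) * h1
  · apply hv
    linear_combination (-(v 1 : ZMod M)) * hd' - ((g 0 1 : ℤ) : ZMod M) * h0 + ((g 0 0 : ℤ) : ZMod M) * h1

theorem qe_Q_slash_mem {M : ℕ} [NeZero M] {K : Subfield ℂ} (hz : zeta M ∈ K) {v : Fin 2 → ℤ}
    (hv : (v 0 : ZMod M) ≠ 0 ∨ (v 1 : ZMod M) ≠ 0) (g : SL(2, ℤ)) (n : ℕ) :
    (Rat.qe M (Q M v ∣[(3 : ℤ)] g)).coeff n ∈ K := by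
  rw [Q_slash, qe_Q, PowerSeries.coeff_mk]
  exact cQ_mem (NeZero.ne M) hz (vecMul_ne hv g) n

theorem qe_P_slash_mem {M : ℕ} [NeZero M] {K : Subfield ℂ} (hz : zeta M ∈ K) {v : Fin 2 → ℤ}
    (hv : (v 0 : ZMod M) ≠ 0 ∨ (v 1 : ZMod M) ≠ 0) (g : SL(2, ℤ)) (n : ℕ) :
    (Rat.qe M (P M v ∣[(2 : ℤ)] g)).coeff n ∈ K := by
  rw [P_slash, qe_P, PowerSeries.coeff_mk]
  exact cP_mem (NeZero.ne M) hz (vecMul_ne hv g) n

end

end Crest.Agent.R007.Wp
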