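import Crest.Agent.R007.Wp6

/-!
R007/Wp7: `g₂, g₃` of `ℤτ+ℤ` in terms of Mathlib's `E 4`, `E 6`; the cubic relation
`Q² = 4P³ − (E₄/12) P + E₆/216`.
-/

set_option autoImplicit false

namespace Crest.Agent.R007.Wp

open UpperHalfPlane hiding I
open Complex PeriodPair ModularForm Matrix Function Filter CongruenceSubgroup EisensteinSeries
open scoped MatrixGroups Real PeriodPair Nat Topology Manifold

noncomputable section

lemma G_PP {k : ℕ} (τ : ℍ) : (PP τ).G k = ∑' v : Fin 2 → ℤ, eisSummand k v τ := by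
  rw [PeriodPair.G, ← ((PP τ).latticeEquivProd.symm.toEquiv).tsum_eq,
    ← (finTwoArrowEquiv ℤ).tsum_eq]
  refine tsum_congr fun v => ?_
  simp [eisSummand, PeriodPair.latticeEquiv_symm_apply]

lemma G_PP_eq {k : ℕ} (hk : 3 ≤ k) (τ : ℍ) : (PP τ).G k = 2 * riemannZeta k * E hk τ := by
  rw [G_PP, tsum_eisSummand_eq_riemannZeta_mul_eisensteinSeries hk,
    show E hk τ = ((1 / 2 : ℂ) • eisensteinSeriesSIF (N := 1) 0 k) τ from rfl]
  simp [eisensteinSeriesSIF_apply]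
  ring

lemma zeta_six : riemannZeta 6 = π ^ 6 / 945 := by
  have h := riemannZeta_two_mul_nat (k := 3) (by norm_num)
  have hb : bernoulli 6 = 1 / 42 := by decide +kernel
  norm_num [Nat.factorial, hb] at h
  rw [h]
  ring

theorem g₂_PP (τ : ℍ) : (PP τ).g₂ = 4 / 3 * π ^ 4 * E (k := 4) (by norm_num) τ := by
  rw [PeriodPair.g₂, G_PP_eq (k := 4) (by norm_num)]
  rw [show ((4 : ℕ) : ℂ) = 4 by norm_num, riemannZeta_four]
  ring

theorem g₃_PP (τ : ℍ) : (PP τ).g₃ = 8 / 27 * π ^ 6 * E (k := 6) (by norm_num) τ := by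
  rw [PeriodPair.g₃, G_PP_eq (k := 6) (by norm_num)]
  rw [show ((6 : ℕ) : ℂ) = 6 by norm_num, zeta_six]
  ring

lemma pt_notMem {M : ℕ} (hM : M ≠ 0) {v : Fin 2 → ℤ} (hv : (v 0 : ZMod M) ≠ 0 ∨ (v 1 : ZMod M) ≠ 0)
    (τ : ℍ) : pt M v τ ∉ (PP τ).lattice := by
  rw [mem_PP]
  rintro ⟨m, n, h⟩
  have hM' : (M : ℂ) ≠ 0 := by exact_mod_cast hM
  have h1 : ((v 0 - m * M : ℤ) : ℂ) * τ + ((v 1 - n * M : ℤ) : ℂ) = 0 := by
    rw [pt] at h
    push_cast
    field_simp at h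
    linear_combination -h
  have him := congrArg Complex.im h1
  simp at him
  have hτ := τ.im_ne_zero
  have h0 : v 0 - m * M = 0 := by
    rcases him with h2 | h2
    · exact_mod_cast h2
    · exact absurd h2 hτ
  rw [h0] at h1
  have h3 : v 1 - n * M = 0 := by
    have : ((v 1 - n * M : ℤ) : ℂ) = 0 := by simpa using h1
    exact_mod_cast this
  rcases hv with h | h
  · apply h
    have : v 0 = m * M := by linarith
    rw [this]; simp
  · apply h
    have : v 1 = n * M := by linarith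
    rw [this]; simp

/-- The cubic relation. -/
theorem Q_sq {M : ℕ} (hM : M ≠ 0) {v : Fin 2 → ℤ} (hv : (v 0 : ZMod M) ≠ 0 ∨ (v 1 : ZMod M) ≠ 0)
    (τ : ℍ) : Q M v τ ^ 2 = 4 * P M v τ ^ 3 - E (k := 4) (by norm_num) τ / 12 * P M v τ +
      E (k := 6) (by norm_num) τ / 216 := by
  have h := (PP τ).derivWeierstrassP_sq _ (pt_notMem hM hv τ)
  have hpi : (π : ℂ) ≠ 0 := by exact_mod_cast Real.pi_ne_zero
  rw [P, Q, mul_pow, h, g₂_PP, g₃_PP]
  have hI : (I : ℂ) ^ 2 = -1 := I_sq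
  have h6 : ((2 * π * I : ℂ) ^ 3)⁻¹ ^ 2 = -(1 / (64 * π ^ 6)) := by
    rw [← inv_pow, ← pow_mul, show (2 * π * I : ℂ)⁻¹ ^ (3 * 2) = ((2 * π * I : ℂ) ^ 2)⁻¹ ^ 3 by
      rw [← inv_pow, ← pow_mul], mul_pow, hI]
    field_simp
    norm_num
  have h2 : ((2 * π * I : ℂ) ^ 2)⁻¹ = -(1 / (4 * π ^ 2)) := by
    rw [mul_pow, hI]
    field_simp
    norm_num
  rw [h6, h2]
  field_simp
  ring

end

end Crest.Agent.R007.Wp
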