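import Mathlib

/-!
Row 7, M1 part 1: Liouville for elliptic functions, second order ODE of `℘`, Taylor expansions.
-/

set_option autoImplicit false

open Filter Topology PeriodPair Function

noncomputable section

namespace Crest.Agent.R007.WpId

section liouville

variable (L : PeriodPair)

/-- Liouville's theorem for elliptic functions with removable singularities. -/
theorem liouville (f : ℂ → ℂ) (hper : ∀ (l : L.lattice) (z : ℂ), f (z + l) = f z)
    (h : ∀ z, ∃ g : ℂ → ℂ, AnalyticAt ℂ g z ∧ f =ᶠ[𝓝[≠] z] g) :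
    ∃ c : ℂ, ∀ z, f =ᶠ[𝓝[≠] z] fun _ => c := by
  choose g hg hfg using h
  set F : ℂ → ℂ := fun z => g z z with hF
  have hlim : ∀ z, Tendsto f (𝓝[≠] z) (𝓝 (F z)) := fun z =>
    ((hg z).continuousAt.tendsto.mono_left nhdsWithin_le_nhds).congr' (hfg z).symm
  have hFg : ∀ z, F =ᶠ[𝓝 z] g z := by
    intro z
    have h1 : ∀ᶠ w in 𝓝 z, w ≠ z → f w = g z w := eventually_nhdsWithin_iff.mp (hfg z)
    have h2 : ∀ᶠ w in 𝓝 z, AnalyticAt ℂ (g z) w := (hg z).eventually_analyticAt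
    filter_upwards [h1.eventually_nhds, h2] with w hw1 hw2
    by_cases hwz : w = z
    · subst hwz; rfl
    · have h3 : f =ᶠ[𝓝[≠] w] g z := by
        have h4 : ∀ᶠ v in 𝓝 w, v ≠ z := isOpen_ne.mem_nhds hwz
        filter_upwards [nhdsWithin_le_nhds hw1, nhdsWithin_le_nhds h4] with v hv1 hv2
        exact hv1 hv2
      exact tendsto_nhds_unique (hlim w)
        ((hw2.continuousAt.tendsto.mono_left nhdsWithin_le_nhds).congr' h3.symm)
  have hFan : ∀ z, AnalyticAt ℂ F z := fun z => (hg z).congr (hFg z).symm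
  have hFper : ∀ (l : L.lattice) (z : ℂ), F (z + l) = F z := by
    intro l z
    have h1 : Tendsto (fun w : ℂ => w + l) (𝓝[≠] z) (𝓝[≠] (z + l)) := by
      refine tendsto_nhdsWithin_of_tendsto_nhds_of_eventually_within _ ?_ ?_
      · exact (continuous_id.add continuous_const).continuousAt.tendsto.mono_left
          nhdsWithin_le_nhds
      · filter_upwards [self_mem_nhdsWithin] with w hw
        simpa using hw
    have h2 : Tendsto (fun w => f (w + l)) (𝓝[≠] z) (𝓝 (F (z + l))) := (hlim (z + l)).comp h1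
    have h3 : (fun w => f (w + l)) = f := funext fun w => hper l w
    rw [h3] at h2
    exact tendsto_nhds_unique h2 (hlim z)
  have hdiff : Differentiable ℂ F := fun z => (hFan z).differentiableAt
  have hb := (IsZLattice.isCompact_range_of_periodic L.lattice F hdiff.continuous
    (fun z w hw => by lift w to L.lattice using hw; exact hFper w z)).isBounded
  refine ⟨F 0, fun z => ?_⟩
  have h5 : f =ᶠ[𝓝[≠] z] F := (hfg z).trans ((hFg z).symm.filter_mono nhdsWithin_le_nhds)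
  filter_upwards [h5] with w hw
  rw [hw]
  exact hdiff.apply_eq_apply_of_bounded hb w 0

end liouville

section taylor

/-- Taylor expansion of order three with analytic remainder. -/
theorem taylor3 {f : ℂ → ℂ} {a : ℂ} (hf : AnalyticAt ℂ f a) :
    ∃ R : ℂ → ℂ, AnalyticAt ℂ R 0 ∧ R 0 = iteratedDeriv 3 f a / 6 ∧
      ∀ h : ℂ, f (a + h) = f a + deriv f a * h + iteratedDeriv 2 f a / 2 * h ^ 2 +
        h ^ 3 * R h := by
  have hp' := AnalyticAt.hasFPowerSeriesAt hf
  set φ : ℕ → ℂ → ℂ := fun n => (swap dslope a)^[n] f with hφ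
  have hcoeff : ∀ n, φ n a = iteratedDeriv n f a / (n.factorial : ℂ) := by
    intro n
    have h1 := hp'.has_fpower_series_iterate_dslope_fslope n
    have h2 := h1.coeff_zero 1
    rw [← FormalMultilinearSeries.coeff, FormalMultilinearSeries.coeff_iterate_fslope,
      zero_add, FormalMultilinearSeries.coeff_ofScalars] at h2
    exact h2.symm
  have hrec : ∀ n z, φ n z = φ n a + (z - a) * φ (n + 1) z := by
    intro n z
    have h1 : φ (n + 1) = dslope (φ n) a := by
      simp only [hφ, Function.iterate_succ_apply']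
    rw [h1]
    have h2 := sub_smul_dslope (φ n) a z
    rw [smul_eq_mul] at h2
    rw [h2]
    ring
  have han : AnalyticAt ℂ (φ 3) a :=
    ⟨_, hp'.has_fpower_series_iterate_dslope_fslope 3⟩
  refine ⟨fun h => φ 3 (a + h), ?_, ?_, ?_⟩
  · have h1 : AnalyticAt ℂ (fun h : ℂ => a + h) 0 := analyticAt_const.add analyticAt_id
    exact AnalyticAt.fun_comp (by simpa using han) h1
  · simp only [add_zero]
    rw [hcoeff 3]
    norm_num [Nat.factorial]
  · intro h
    have e0 := hrec 0 (a + h)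
    have e1 := hrec 1 (a + h)
    have e2 := hrec 2 (a + h)
    have c1 := hcoeff 1
    have c2 := hcoeff 2
    have f0 : φ 0 = f := rfl
    rw [iteratedDeriv_one] at c1
    norm_num [Nat.factorial] at c1 c2
    rw [f0] at e0
    simp only [add_sub_cancel_left] at e0 e1 e2
    norm_num at e1 e2 e0
    rw [e0, e1, e2, c1, c2]
    ring

/-- Taylor expansion of order two with analytic remainder. -/
theorem taylor2 {f : ℂ → ℂ} {a : ℂ} (hf : AnalyticAt ℂ f a) :
    ∃ R : ℂ → ℂ, AnalyticAt ℂ R 0 ∧ R 0 = iteratedDeriv 2 f a / 2 ∧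
      ∀ h : ℂ, f (a + h) = f a + deriv f a * h + h ^ 2 * R h := by
  obtain ⟨R, hR, hR0, hf3⟩ := taylor3 hf
  refine ⟨fun h => iteratedDeriv 2 f a / 2 + h * R h, ?_, ?_, ?_⟩
  · exact analyticAt_const.add (analyticAt_id.mul hR)
  · simp
  · intro h
    rw [hf3]
    ring

/-- Taylor expansion of order one with analytic remainder. -/
theorem taylor1 {f : ℂ → ℂ} {a : ℂ} (hf : AnalyticAt ℂ f a) :
    ∃ R : ℂ → ℂ, AnalyticAt ℂ R 0 ∧ R 0 = deriv f a ∧
      ∀ h : ℂ, f (a + h) = f a + h * R h := by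
  obtain ⟨R, hR, hR0, hf2⟩ := taylor2 hf
  refine ⟨fun h => deriv f a + h * R h, ?_, ?_, ?_⟩
  · exact analyticAt_const.add (analyticAt_id.mul hR)
  · simp
  · intro h
    rw [hf2]
    ring

end taylor

section ode

variable (L : PeriodPair)

lemma analyticAt_wp {z : ℂ} (hz : z ∉ L.lattice) : AnalyticAt ℂ ℘[L] z :=
  L.analyticOnNhd_weierstrassP z hz

lemma analyticAt_dwp {z : ℂ} (hz : z ∉ L.lattice) : AnalyticAt ℂ ℘'[L] z :=
  L.analyticOnNhd_derivWeierstrassP z hz

/-- the regular part of `℘` at the origin. -/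
def E : ℂ → ℂ := ℘[L - (0 : ℂ)]

/-- the regular part of `℘'` at the origin. -/
def E' : ℂ → ℂ := ℘'[L - (0 : ℂ)]

lemma analyticAt_E : AnalyticAt ℂ (E L) 0 := L.analyticAt_weierstrassPExcept 0

lemma analyticAt_E' : AnalyticAt ℂ (E' L) 0 := L.analyticAt_derivWeierstrassPExcept 0

lemma E_zero : E L 0 = 0 := L.weierstrassPExcept_zero 0

lemma wp_eq (z : ℂ) : ℘[L] z = (z ^ 2)⁻¹ + E L z := by
  have h := L.weierstrassPExcept_def (0 : L.lattice) z
  simp only [ZeroMemClass.coe_zero, sub_zero] at h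
  rw [E, h]
  norm_num

lemma dwp_eq (z : ℂ) : ℘'[L] z = -2 * (z ^ 3)⁻¹ + E' L z := by
  have h := L.derivWeierstrassPExcept_def (0 : L.lattice) z
  simp only [ZeroMemClass.coe_zero, sub_zero] at h
  rw [E', h]
  ring

lemma not_mem_eventually (z₀ : ℂ) : ∀ᶠ z in 𝓝[≠] z₀, z ∉ L.lattice := by
  filter_upwards [nhdsWithin_le_nhds (L.compl_lattice_sdiff_singleton_mem_nhds z₀),
    self_mem_nhdsWithin] with z hz hz' hmem
  exact hz ⟨hmem, hz'⟩

lemma isPreconnected_compl : IsPreconnected ((L.lattice : Set ℂ)ᶜ) := by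
  refine (Set.Countable.isConnected_compl_of_one_lt_rank (by simp) ?_).2
  exact countable_of_Lindelof_of_discrete (X := L.lattice) |> Set.countable_coe_iff.mp

lemma isOpen_compl : IsOpen ((L.lattice : Set ℂ)ᶜ) := L.isClosed_lattice.isOpen_compl

/-- `℘'` does not vanish identically near any point. -/
lemma dwp_not_eventually_zero (z₀ : ℂ) : ¬ (∀ᶠ z in 𝓝[≠] z₀, ℘'[L] z = 0) := by
  intro h
  -- a regular point where it vanishes in a neighbourhood
  have h1 : ∀ᶠ z in 𝓝[≠] z₀, z ∉ L.lattice ∧ (∀ᶠ w in 𝓝 z, ℘'[L] w = 0) := by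
    have h2 : ∀ᶠ z in 𝓝[≠] z₀, ∀ᶠ w in 𝓝 z, w ≠ z₀ → ℘'[L] w = 0 := by
      have := (eventually_nhdsWithin_iff.mp h).eventually_nhds
      exact this.filter_mono nhdsWithin_le_nhds
    filter_upwards [not_mem_eventually L z₀, h2, self_mem_nhdsWithin] with z hz hz2 hz3
    refine ⟨hz, ?_⟩
    have h4 : ∀ᶠ v in 𝓝 z, v ≠ z₀ := isOpen_ne.mem_nhds hz3
    filter_upwards [hz2, h4] with w hw1 hw2 using hw1 hw2
  obtain ⟨z₁, hz₁, hz₁'⟩ := h1.exists
  have h5 : Set.EqOn ℘'[L] 0 ((L.lattice : Set ℂ)ᶜ) :=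
    L.analyticOnNhd_derivWeierstrassP.eqOn_zero_of_preconnected_of_eventuallyEq_zero
      (isPreconnected_compl L) hz₁ hz₁'
  -- contradiction at the pole `0`
  have h6 : ∀ᶠ z in 𝓝[≠] (0 : ℂ), z ^ 3 * E' L z = 2 := by
    filter_upwards [not_mem_eventually L 0, self_mem_nhdsWithin] with z hz hz0
    have h7 := h5 hz
    rw [dwp_eq] at h7
    simp only [Pi.zero_apply] at h7
    have hz3 : (z : ℂ) ^ 3 ≠ 0 := pow_ne_zero 3 hz0
    have h8 : E' L z = 2 * (z ^ 3)⁻¹ := by linear_combination h7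
    rw [h8, mul_left_comm, mul_inv_cancel₀ hz3, mul_one]
  have h9 : Tendsto (fun z => z ^ 3 * E' L z) (𝓝[≠] (0 : ℂ)) (𝓝 ((0 : ℂ) ^ 3 * E' L 0)) :=
    (((continuousAt_id.pow 3).mul (analyticAt_E' L).continuousAt).tendsto).mono_left
      nhdsWithin_le_nhds
  have h10 : Tendsto (fun z => z ^ 3 * E' L z) (𝓝[≠] (0 : ℂ)) (𝓝 2) :=
    tendsto_const_nhds.congr' (by filter_upwards [h6] with z hz using hz.symm)
  have := tendsto_nhds_unique h9 h10
  norm_num at this

/-- `℘` takes a value `c` only at isolated points. -/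
lemma wp_ne_eventually (c z₀ : ℂ) : ∀ᶠ z in 𝓝[≠] z₀, ℘[L] z ≠ c := by
  have hmer : MeromorphicAt (fun z => ℘[L] z - c) z₀ :=
    (L.meromorphic_weierstrassP z₀).sub (MeromorphicAt.const c z₀)
  rcases hmer.eventually_eq_zero_or_eventually_ne_zero with h | h
  · exfalso
    refine dwp_not_eventually_zero L z₀ ?_
    have h1 := (eventually_nhdsWithin_iff.mp h).eventually_nhds
    filter_upwards [nhdsWithin_le_nhds h1, self_mem_nhdsWithin] with z hz hz0
    have h4 : ∀ᶠ v in 𝓝 z, v ≠ z₀ := isOpen_ne.mem_nhds hz0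
    have h2 : ℘[L] =ᶠ[𝓝 z] fun _ => c := by
      filter_upwards [hz, h4] with w hw1 hw2
      exact sub_eq_zero.mp (hw1 hw2)
    rw [← L.deriv_weierstrassP, h2.deriv_eq]
    simp
  · filter_upwards [h] with z hz
    exact sub_ne_zero.mp hz

/-- `℘'' = 6 ℘² - g₂ / 2`. -/
theorem deriv_dwp {z : ℂ} (hz : z ∉ L.lattice) :
    deriv ℘'[L] z = 6 * ℘[L] z ^ 2 - L.g₂ / 2 := by
  have key : ∀ w ∉ L.lattice, ℘'[L] w * (deriv ℘'[L] w - (6 * ℘[L] w ^ 2 - L.g₂ / 2)) = 0 := by
    intro w hw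
    have h1 : (fun v => ℘'[L] v ^ 2) =ᶠ[𝓝 w]
        fun v => 4 * ℘[L] v ^ 3 - L.g₂ * ℘[L] v - L.g₃ := by
      filter_upwards [(isOpen_compl L).mem_nhds hw] with v hv
      exact L.derivWeierstrassP_sq v hv
    have h2 := h1.deriv_eq
    have d1 : HasDerivAt ℘'[L] (deriv ℘'[L] w) w :=
      (analyticAt_dwp L hw).differentiableAt.hasDerivAt
    have d0 : HasDerivAt ℘[L] (℘'[L] w) w := by
      have := (analyticAt_wp L hw).differentiableAt.hasDerivAt
      rwa [L.deriv_weierstrassP] at this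
    have d2 : HasDerivAt (fun v => ℘'[L] v ^ 2) _ w := d1.pow 2
    have d3 : HasDerivAt (fun v => 4 * ℘[L] v ^ 3 - L.g₂ * ℘[L] v - L.g₃) _ w :=
      (((d0.pow 3).const_mul 4).sub (d0.const_mul L.g₂)).sub_const L.g₃
    rw [d2.deriv, d3.deriv] at h2
    push_cast at h2
    norm_num at h2
    linear_combination h2 / 2
  set W : ℂ → ℂ := fun w => deriv ℘'[L] w - (6 * ℘[L] w ^ 2 - L.g₂ / 2) with hW
  have hWan : AnalyticOnNhd ℂ W ((L.lattice : Set ℂ)ᶜ) := by
    intro w hw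
    have a1 : AnalyticAt ℂ (deriv ℘'[L]) w := (analyticAt_dwp L hw).deriv
    have a2 := analyticAt_wp L hw
    exact a1.sub ((analyticAt_const.mul (a2.pow 2)).sub analyticAt_const)
  rcases L.analyticOnNhd_derivWeierstrassP.eq_zero_or_eq_zero_of_mul_eq_zero hWan
    (fun w hw => key w hw) (isPreconnected_compl L) with h | h
  · exfalso
    refine dwp_not_eventually_zero L z ?_
    filter_upwards [not_mem_eventually L z] with w hw using h w hw
  · exact sub_eq_zero.mp (h z hz)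

lemma hasDerivAt_wp {z : ℂ} (hz : z ∉ L.lattice) : HasDerivAt ℘[L] (℘'[L] z) z := by
  have := (analyticAt_wp L hz).differentiableAt.hasDerivAt
  rwa [L.deriv_weierstrassP] at this

lemma iteratedDeriv_two_wp {z : ℂ} (hz : z ∉ L.lattice) :
    iteratedDeriv 2 ℘[L] z = 6 * ℘[L] z ^ 2 - L.g₂ / 2 := by
  rw [iteratedDeriv_succ, iteratedDeriv_one, L.deriv_weierstrassP]
  exact deriv_dwp L hz

/-- `℘''' = 12 ℘ ℘'`. -/
lemma iteratedDeriv_two_dwp {z : ℂ} (hz : z ∉ L.lattice) :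
    iteratedDeriv 2 ℘'[L] z = 12 * ℘[L] z * ℘'[L] z := by
  rw [iteratedDeriv_succ, iteratedDeriv_one]
  have h1 : deriv ℘'[L] =ᶠ[𝓝 z] fun v => 6 * ℘[L] v ^ 2 - L.g₂ / 2 := by
    filter_upwards [(isOpen_compl L).mem_nhds hz] with v hv
    exact deriv_dwp L hv
  rw [h1.deriv_eq]
  have d3 : HasDerivAt (fun v => 6 * ℘[L] v ^ 2 - L.g₂ / 2) _ z :=
    (((hasDerivAt_wp L hz).pow 2).const_mul 6).sub_const (L.g₂ / 2)
  rw [d3.deriv]
  push_cast
  ring

lemma iteratedDeriv_three_wp {z : ℂ} (hz : z ∉ L.lattice) :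
    iteratedDeriv 3 ℘[L] z = 12 * ℘[L] z * ℘'[L] z := by
  rw [iteratedDeriv_succ', L.deriv_weierstrassP]
  exact iteratedDeriv_two_dwp L hz

end ode

end Crest.Agent.R007.WpId
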