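import Mathlib
import Crest.Agent.R007.WpBase

/-!
Row 7, M1 part 2: addition-type identity, zeros of `℘'`, injectivity of `℘` modulo `±1`,
3-torsion: the flex relation and the Tate normal form.
-/

set_option autoImplicit false

open Filter Topology PeriodPair Function

noncomputable section

namespace Crest.Agent.R007.WpId

variable (L : PeriodPair)

lemma neg_mem_iff {z : ℂ} : -z ∈ L.lattice ↔ z ∈ L.lattice := L.lattice.neg_mem_iff

lemma wp_add {z l : ℂ} (hl : l ∈ L.lattice) : ℘[L] (z + l) = ℘[L] z :=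
  L.weierstrassP_add_coe z ⟨l, hl⟩

lemma dwp_add {z l : ℂ} (hl : l ∈ L.lattice) : ℘'[L] (z + l) = ℘'[L] z :=
  L.derivWeierstrassP_add_coe z ⟨l, hl⟩

/-- transport of a removable singularity along a period. -/
lemma removable_add (f : ℂ → ℂ) (hper : ∀ (l : L.lattice) (z : ℂ), f (z + l) = f z)
    (z : ℂ) (l : L.lattice) (h : ∃ g : ℂ → ℂ, AnalyticAt ℂ g z ∧ f =ᶠ[𝓝[≠] z] g) :
    ∃ g : ℂ → ℂ, AnalyticAt ℂ g (z + l) ∧ f =ᶠ[𝓝[≠] (z + l)] g := by
  obtain ⟨g, hg, hfg⟩ := h
  refine ⟨fun w => g (w - l), ?_, ?_⟩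
  · have h1 : AnalyticAt ℂ (fun w : ℂ => w - l) (z + l) := analyticAt_id.sub analyticAt_const
    exact AnalyticAt.fun_comp (by simpa using hg) h1
  · have h1 : Tendsto (fun w : ℂ => w - l) (𝓝[≠] (z + l)) (𝓝[≠] z) := by
      refine tendsto_nhdsWithin_of_tendsto_nhds_of_eventually_within _ ?_ ?_
      · have : ContinuousAt (fun w : ℂ => w - l) (z + l) :=
          (continuous_id.sub continuous_const).continuousAt
        have h2 := this.tendsto
        simp only [add_sub_cancel_right] at h2
        exact h2.mono_left nhdsWithin_le_nhds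
      · filter_upwards [self_mem_nhdsWithin] with w hw
        intro hw'
        apply hw
        simp only [Set.mem_singleton_iff] at hw' ⊢
        rw [← hw']
        ring
    have h2 := h1.eventually hfg
    filter_upwards [h2] with w hw
    rw [← hw, ← hper l (w - l), sub_add_cancel]

lemma tendsto_shift (b : ℂ) : Tendsto (fun h : ℂ => b + h) (𝓝[≠] 0) (𝓝[≠] b) := by
  refine tendsto_nhdsWithin_of_tendsto_nhds_of_eventually_within _ ?_ ?_
  · have : ContinuousAt (fun h : ℂ => b + h) 0 := (continuous_const.add continuous_id).continuousAt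
    have h2 := this.tendsto
    simp only [add_zero] at h2
    exact h2.mono_left nhdsWithin_le_nhds
  · filter_upwards [self_mem_nhdsWithin] with w hw
    simpa using hw

/-- moving the analytic extension to the origin. -/
lemma removable_of_origin (f : ℂ → ℂ) (b : ℂ)
    (h : ∃ g : ℂ → ℂ, AnalyticAt ℂ g 0 ∧ ∀ᶠ h in 𝓝[≠] (0 : ℂ), f (b + h) = g h) :
    ∃ g : ℂ → ℂ, AnalyticAt ℂ g b ∧ f =ᶠ[𝓝[≠] b] g := by
  obtain ⟨g, hg, hfg⟩ := h
  refine ⟨fun w => g (w - b), ?_, ?_⟩
  · have h1 : AnalyticAt ℂ (fun w : ℂ => w - b) b := analyticAt_id.sub analyticAt_const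
    exact AnalyticAt.fun_comp (by simpa using hg) h1
  · have h1 : Tendsto (fun w : ℂ => w - b) (𝓝[≠] b) (𝓝[≠] 0) := by
      refine tendsto_nhdsWithin_of_tendsto_nhds_of_eventually_within _ ?_ ?_
      · have : ContinuousAt (fun w : ℂ => w - b) b :=
          (continuous_id.sub continuous_const).continuousAt
        have h2 := this.tendsto
        simp only [sub_self] at h2
        exact h2.mono_left nhdsWithin_le_nhds
      · filter_upwards [self_mem_nhdsWithin] with w hw
        simpa [sub_eq_zero] using hw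
    filter_upwards [h1.eventually hfg] with w hw
    rw [← hw]
    congr 1
    ring

/-- an even analytic function composed etc.: the odd function `℘(h+b) - ℘(h-b)`. -/
lemma wp_neg_add (b h : ℂ) : ℘[L] (h - b) = ℘[L] (b - h) := by
  rw [← L.weierstrassP_neg, neg_sub]

section additive

variable {L} {b : ℂ}

/-- the auxiliary function of the addition-type identity. -/
def aux (L : PeriodPair) (b z : ℂ) : ℂ :=
  (℘[L] (z + b) - ℘[L] (z - b)) * (℘[L] z - ℘[L] b) ^ 2 + ℘'[L] z * ℘'[L] b

lemma aux_per (L : PeriodPair) (b : ℂ) (l : L.lattice) (z : ℂ) :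
    aux L b (z + l) = aux L b z := by
  unfold aux
  rw [show z + l + b = (z + b) + l by ring, show z + l - b = (z - b) + l by ring]
  simp

lemma aux_origin (hb : b ∉ L.lattice) :
    ∃ g : ℂ → ℂ, AnalyticAt ℂ g 0 ∧ ∀ᶠ h in 𝓝[≠] (0 : ℂ), aux L b (0 + h) = g h := by
  obtain ⟨R, hR, hR0, hTay⟩ := taylor3 (analyticAt_wp L hb)
  rw [iteratedDeriv_three_wp L hb] at hR0
  rw [L.deriv_weierstrassP] at hTay
  set p := ℘[L] b with hp
  set p' := ℘'[L] b with hp'
  set m := iteratedDeriv 2 ℘[L] b / 2 with hm
  -- ℘(b+h) - ℘(b-h) = 2 p' h + h^3 S(h)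
  set S : ℂ → ℂ := fun h => R h + R (-h) with hS
  have hRneg : AnalyticAt ℂ (fun h : ℂ => R (-h)) 0 :=
    AnalyticAt.fun_comp (by simpa using hR) analyticAt_id.neg
  have hSan : AnalyticAt ℂ S 0 := hR.add hRneg
  have hS0 : S 0 = 4 * p * p' := by
    simp only [hS, neg_zero, hR0]
    ring
  have hD : ∀ h : ℂ, ℘[L] (h + b) - ℘[L] (h - b) = 2 * p' * h + h ^ 3 * S h := by
    intro h
    rw [wp_neg_add, add_comm h b, hTay h, sub_eq_add_neg b h, hTay (-h)]
    simp only [hS]
    ring
  -- bracket
  set B : ℂ → ℂ := fun h => 4 * p' * (E L h - p) + 2 * p' * h ^ 2 * (E L h - p) ^ 2 +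
    S h * (1 + h ^ 2 * (E L h - p)) ^ 2 with hB
  have hE := analyticAt_E L
  have hBan : AnalyticAt ℂ B 0 := by
    have e1 : AnalyticAt ℂ (fun h => E L h - p) 0 := hE.sub analyticAt_const
    have e2 : AnalyticAt ℂ (fun h : ℂ => h ^ 2) 0 := analyticAt_id.pow 2
    exact ((analyticAt_const.mul e1).add ((analyticAt_const.mul e2).mul (e1.pow 2))).add
      (hSan.mul ((analyticAt_const.add (e2.mul e1)).pow 2))
  have hB0 : B 0 = 0 := by
    simp only [hB, E_zero, hS0]
    ring
  obtain ⟨B1, hB1, -, hB1e⟩ := taylor1 hBan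
  refine ⟨fun h => B1 h + E' L h * p', ?_, ?_⟩
  · exact hB1.add ((analyticAt_E' L).mul analyticAt_const)
  · filter_upwards [self_mem_nhdsWithin] with h hh
    have hh0 : h ≠ 0 := hh
    have hBh : B h = h * B1 h := by
      have := hB1e h
      rw [zero_add, hB0, zero_add] at this
      exact this
    rw [zero_add]
    unfold aux
    rw [hD h, wp_eq L h, dwp_eq L h, ← hp, ← hp']
    have e : h * (B1 h + E' L h * p') = B h + h * (E' L h * p') := by rw [hBh]; ring
    apply mul_left_cancel₀ hh0
    rw [e]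
    simp only [hB]
    field_simp
    ring

lemma aux_pole (hb : b ∉ L.lattice) (h2b : 2 * b ∉ L.lattice) :
    ∃ g : ℂ → ℂ, AnalyticAt ℂ g 0 ∧ ∀ᶠ h in 𝓝[≠] (0 : ℂ), aux L b (b + h) = g h := by
  obtain ⟨R, hR, hR0, hTay⟩ := taylor1 (analyticAt_wp L hb)
  set p := ℘[L] b with hp
  set p' := ℘'[L] b with hp'
  have a1 : AnalyticAt ℂ (fun h : ℂ => ℘[L] (b + h + b)) 0 := by
    have : AnalyticAt ℂ (fun h : ℂ => b + h + b) 0 :=
      (analyticAt_const.add analyticAt_id).add analyticAt_const
    exact AnalyticAt.fun_comp (by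
      have : (b + 0 + b : ℂ) = 2 * b := by ring
      rw [this]
      exact analyticAt_wp L h2b) this
  have a2 : AnalyticAt ℂ (fun h : ℂ => ℘'[L] (b + h)) 0 := by
    have : AnalyticAt ℂ (fun h : ℂ => b + h) 0 := analyticAt_const.add analyticAt_id
    exact AnalyticAt.fun_comp (by
      rw [add_zero]
      exact analyticAt_dwp L hb) this
  refine ⟨fun h => (℘[L] (b + h + b) - E L h) * (h * R h) ^ 2 - R h ^ 2 + ℘'[L] (b + h) * p',
    ?_, ?_⟩
  · exact (((a1.sub (analyticAt_E L)).mul ((analyticAt_id.mul hR).pow 2)).sub (hR.pow 2)).add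
      (a2.mul analyticAt_const)
  · filter_upwards [self_mem_nhdsWithin] with h hh
    have hh0 : h ≠ 0 := hh
    unfold aux
    rw [hTay h, add_sub_cancel_left, wp_eq L h, ← hp, ← hp', add_sub_cancel_left]
    field_simp
    ring

lemma aux_neg (b z : ℂ) : aux L b (-z) = - aux L b z := by
  unfold aux
  rw [show -z + b = -(z - b) by ring, show -z - b = -(z + b) by ring]
  simp only [L.weierstrassP_neg, L.derivWeierstrassP_neg]
  ring

/-- **addition-type identity**. -/
theorem wp_add_sub {z : ℂ} (hz : z ∉ L.lattice) (hb : b ∉ L.lattice)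
    (h1 : z + b ∉ L.lattice) (h2 : z - b ∉ L.lattice) :
    (℘[L] (z + b) - ℘[L] (z - b)) * (℘[L] z - ℘[L] b) ^ 2 = - (℘'[L] z * ℘'[L] b) := by
  by_cases h2b : 2 * b ∈ L.lattice
  · have e1 : ℘[L] (z + b) = ℘[L] (z - b) := by
      rw [show z + b = (z - b) + 2 * b by ring, wp_add L h2b]
    have e2 : ℘'[L] b = 0 := by
      have h3 : ℘'[L] b = ℘'[L] (-b) := by
        rw [show b = -b + 2 * b by ring, dwp_add L h2b, show -(-b + 2 * b) = -b by ring]
      rw [L.derivWeierstrassP_neg] at h3
      have : (2 : ℂ) * ℘'[L] b = 0 := by linear_combination h3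
      exact (mul_eq_zero.mp this).resolve_left two_ne_zero
    rw [e1, e2]
    ring
  · have hb' : ∀ w : ℂ, ∃ g : ℂ → ℂ, AnalyticAt ℂ g w ∧ aux L b =ᶠ[𝓝[≠] w] g := by
      intro w
      by_cases hw : w ∈ L.lattice
      · have := removable_add L (aux L b) (aux_per L b) 0 ⟨w, hw⟩
          (removable_of_origin _ 0 (aux_origin hb))
        simpa using this
      by_cases hw1 : w - b ∈ L.lattice
      · have := removable_add L (aux L b) (aux_per L b) b ⟨w - b, hw1⟩
          (removable_of_origin _ b (aux_pole hb h2b))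
        simpa using this
      by_cases hw2 : w + b ∈ L.lattice
      · -- by symmetry
        have h3 : ∃ g : ℂ → ℂ, AnalyticAt ℂ g 0 ∧
            ∀ᶠ h in 𝓝[≠] (0 : ℂ), aux L b (-b + h) = g h := by
          obtain ⟨g, hg, hge⟩ := aux_pole hb h2b
          refine ⟨fun h => - g (-h), ?_, ?_⟩
          · exact (AnalyticAt.fun_comp (by simpa using hg) analyticAt_id.neg).neg
          · have hneg : Tendsto (fun h : ℂ => -h) (𝓝[≠] 0) (𝓝[≠] 0) := by
              refine tendsto_nhdsWithin_of_tendsto_nhds_of_eventually_within _ ?_ ?_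
              · have := (continuous_neg (G := ℂ)).tendsto 0
                simp only [neg_zero] at this
                exact this.mono_left nhdsWithin_le_nhds
              · filter_upwards [self_mem_nhdsWithin] with v hv
                simpa using hv
            filter_upwards [hneg.eventually hge] with h hh
            rw [← hh, ← aux_neg]
            congr 1
            ring
        have := removable_add L (aux L b) (aux_per L b) (-b) ⟨w + b, hw2⟩
          (removable_of_origin _ (-b) h3)
        simpa using this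
      · refine ⟨aux L b, ?_, EventuallyEq.rfl⟩
        have a1 : AnalyticAt ℂ (fun z : ℂ => ℘[L] (z + b)) w :=
          AnalyticAt.fun_comp (analyticAt_wp L hw2) (analyticAt_id.add analyticAt_const)
        have a2 : AnalyticAt ℂ (fun z : ℂ => ℘[L] (z - b)) w :=
          AnalyticAt.fun_comp (analyticAt_wp L hw1) (analyticAt_id.sub analyticAt_const)
        exact ((a1.sub a2).mul (((analyticAt_wp L hw).sub analyticAt_const).pow 2)).add
          ((analyticAt_dwp L hw).mul analyticAt_const)
    obtain ⟨c, hc⟩ := liouville L (aux L b) (aux_per L b) hb'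
    have hc0 : c = 0 := by
      have hneg : Tendsto (fun h : ℂ => -h) (𝓝[≠] 0) (𝓝[≠] 0) := by
        refine tendsto_nhdsWithin_of_tendsto_nhds_of_eventually_within _ ?_ ?_
        · have := (continuous_neg (G := ℂ)).tendsto 0
          simp only [neg_zero] at this
          exact this.mono_left nhdsWithin_le_nhds
        · filter_upwards [self_mem_nhdsWithin] with v hv
          simpa using hv
      obtain ⟨h, hh1, hh2⟩ := ((hc 0).and (hneg.eventually (hc 0))).exists
      rw [aux_neg, hh1] at hh2
      have : (2 : ℂ) * c = 0 := by linear_combination -hh2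
      exact (mul_eq_zero.mp this).resolve_left two_ne_zero
    have hcont : ContinuousAt (aux L b) z := by
      have a1 : AnalyticAt ℂ (fun z : ℂ => ℘[L] (z + b)) z :=
        AnalyticAt.fun_comp (analyticAt_wp L h1) (analyticAt_id.add analyticAt_const)
      have a2 : AnalyticAt ℂ (fun z : ℂ => ℘[L] (z - b)) z :=
        AnalyticAt.fun_comp (analyticAt_wp L h2) (analyticAt_id.sub analyticAt_const)
      exact (((a1.sub a2).mul (((analyticAt_wp L hz).sub analyticAt_const).pow 2)).add
          ((analyticAt_dwp L hz).mul analyticAt_const)).continuousAt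
    have h3 : Tendsto (aux L b) (𝓝[≠] z) (𝓝 (aux L b z)) :=
      hcont.tendsto.mono_left nhdsWithin_le_nhds
    have h4 : Tendsto (aux L b) (𝓝[≠] z) (𝓝 c) :=
      tendsto_const_nhds.congr' (by filter_upwards [hc z] with w hw using hw.symm)
    have h5 : aux L b z = 0 := (tendsto_nhds_unique h3 h4).trans hc0
    unfold aux at h5
    linear_combination h5

end additive

end Crest.Agent.R007.WpId
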