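import Mathlib
import Crest.Agent.R007.WpBase
import Crest.Agent.R007.WpId

/-!
Row 7, M1 part 3: zeros of `℘'`, injectivity of `℘` modulo `±1`, flex relation at 3-torsion points
and the Tate normal form.
-/

set_option autoImplicit false

open Filter Topology PeriodPair Function

noncomputable section

namespace Crest.Agent.R007.WpId

variable (L : PeriodPair) {b : ℂ}

lemma dwp_of_two_torsion (h2b : 2 * b ∈ L.lattice) : ℘'[L] b = 0 := by
  have h3 : ℘'[L] b = ℘'[L] (-b) := by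
    rw [show b = -b + 2 * b by ring, dwp_add L h2b, show -(-b + 2 * b) = -b by ring]
  rw [L.derivWeierstrassP_neg] at h3
  have : (2 : ℂ) * ℘'[L] b = 0 := by linear_combination h3
  exact (mul_eq_zero.mp this).resolve_left two_ne_zero

lemma eventually_shift (c : ℂ) (z₀ : ℂ) {P : ℂ → Prop} (h : ∀ᶠ w in 𝓝[≠] (z₀ + c), P w) :
    ∀ᶠ z in 𝓝[≠] z₀, P (z + c) := by
  have h1 : Tendsto (fun z : ℂ => z + c) (𝓝[≠] z₀) (𝓝[≠] (z₀ + c)) := by
    refine tendsto_nhdsWithin_of_tendsto_nhds_of_eventually_within _ ?_ ?_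
    · exact (continuous_id.add continuous_const).continuousAt.tendsto.mono_left nhdsWithin_le_nhds
    · filter_upwards [self_mem_nhdsWithin] with w hw
      simpa using hw
  exact h1.eventually h

/-- **zeros of `℘'`**. -/
theorem dwp_eq_zero_iff (hb : b ∉ L.lattice) : ℘'[L] b = 0 ↔ 2 * b ∈ L.lattice := by
  refine ⟨fun h0 => ?_, dwp_of_two_torsion L⟩
  by_contra h2b
  -- the identity gives ℘(z+b) = ℘(z-b) near -b
  have h1 : ∀ᶠ z in 𝓝[≠] (-b), ℘[L] (z + b) = ℘[L] (z - b) := by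
    have e1 := not_mem_eventually L (-b)
    have e2 := eventually_shift b (-b) (not_mem_eventually L (-b + b))
    have e3 := eventually_shift (-b) (-b) (not_mem_eventually L (-b + -b))
    have e4 := wp_ne_eventually L (℘[L] b) (-b)
    filter_upwards [e1, e2, e3, e4] with z h1 h2 h3 h4
    have h5 := wp_add_sub h1 hb h2 (by rwa [sub_eq_add_neg])
    rw [h0, mul_zero, neg_zero] at h5
    rcases mul_eq_zero.mp h5 with h6 | h6
    · exact sub_eq_zero.mp h6
    · exact absurd (sub_eq_zero.mp (pow_eq_zero_iff (two_ne_zero)|>.mp h6)) h4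
  -- contradiction with the pole
  have h2 : ∀ᶠ h in 𝓝[≠] (0 : ℂ), ℘[L] h = ℘[L] (h - 2 * b) := by
    have := eventually_shift (-b) 0 (by rwa [zero_add])
    filter_upwards [this] with h hh
    rw [neg_add_cancel_right] at hh
    rw [hh]
    congr 1
    ring
  have h3 : ∀ᶠ h in 𝓝[≠] (0 : ℂ), 1 + h ^ 2 * E L h = h ^ 2 * ℘[L] (h - 2 * b) := by
    filter_upwards [h2, self_mem_nhdsWithin] with h hh hh0
    have hh0' : h ≠ 0 := hh0
    rw [← hh, wp_eq]
    field_simp
  have h2b' : -(2 * b) ∉ L.lattice := fun h => h2b ((neg_mem_iff L).mp h)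
  have a1 : ContinuousAt (fun h : ℂ => ℘[L] (h - 2 * b)) 0 := by
    have : AnalyticAt ℂ (fun h : ℂ => ℘[L] (h - 2 * b)) 0 :=
      AnalyticAt.fun_comp (by rw [zero_sub]; exact analyticAt_wp L h2b')
        (analyticAt_id.sub analyticAt_const)
    exact this.continuousAt
  have l1 : Tendsto (fun h : ℂ => 1 + h ^ 2 * E L h) (𝓝[≠] 0)
      (𝓝 (1 + (0 : ℂ) ^ 2 * E L 0)) :=
    ((continuousAt_const.add ((continuousAt_id.pow 2).mul
      (analyticAt_E L).continuousAt)).tendsto).mono_left nhdsWithin_le_nhds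
  have l2 : Tendsto (fun h : ℂ => h ^ 2 * ℘[L] (h - 2 * b)) (𝓝[≠] 0)
      (𝓝 ((0 : ℂ) ^ 2 * ℘[L] (0 - 2 * b))) :=
    (((continuousAt_id.pow 2).mul a1).tendsto).mono_left nhdsWithin_le_nhds
  have l3 := tendsto_nhds_unique l1 (l2.congr' (by filter_upwards [h3] with h hh using hh.symm))
  norm_num at l3

/-- for a point of order two, `(℘(z+b)-e)(℘(z)-e)` is constant. -/
lemma half_period (hb : b ∉ L.lattice) (h2b : 2 * b ∈ L.lattice) :
    ∃ c : ℂ, ∀ z, (fun z => (℘[L] (z + b) - ℘[L] b) * (℘[L] z - ℘[L] b)) =ᶠ[𝓝[≠] z]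
      fun _ => c := by
  set f : ℂ → ℂ := fun z => (℘[L] (z + b) - ℘[L] b) * (℘[L] z - ℘[L] b) with hf
  have hper : ∀ (l : L.lattice) (z : ℂ), f (z + l) = f z := by
    intro l z
    simp only [hf]
    rw [show z + l + b = (z + b) + l by ring]
    simp
  have hb2 : ∀ z, f (z + b) = f z := by
    intro z
    simp only [hf]
    rw [show z + b + b = z + 2 * b by ring, wp_add L h2b, mul_comm]
  have h0 : ∃ g : ℂ → ℂ, AnalyticAt ℂ g 0 ∧ ∀ᶠ h in 𝓝[≠] (0 : ℂ), f (0 + h) = g h := by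
    obtain ⟨R, hR, -, hTay⟩ := taylor2 (analyticAt_wp L hb)
    rw [L.deriv_weierstrassP, dwp_of_two_torsion L h2b] at hTay
    refine ⟨fun h => R h * (1 + h ^ 2 * (E L h - ℘[L] b)), ?_, ?_⟩
    · exact hR.mul (analyticAt_const.add ((analyticAt_id.pow 2).mul
        ((analyticAt_E L).sub analyticAt_const)))
    · filter_upwards [self_mem_nhdsWithin] with h hh
      have hh0 : h ≠ 0 := hh
      simp only [hf]
      rw [zero_add, add_comm h b, hTay h, wp_eq L h]
      field_simp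
      ring
  refine liouville L f hper fun w => ?_
  by_cases hw : w ∈ L.lattice
  · have := removable_add L f hper 0 ⟨w, hw⟩ (removable_of_origin _ 0 h0)
    simpa using this
  by_cases hw1 : w + b ∈ L.lattice
  · have hw2 : w - b ∈ L.lattice := by
      have := L.lattice.sub_mem hw1 h2b
      rwa [show w + b - 2 * b = w - b by ring] at this
    have h1 : ∃ g : ℂ → ℂ, AnalyticAt ℂ g 0 ∧ ∀ᶠ h in 𝓝[≠] (0 : ℂ), f (b + h) = g h := by
      obtain ⟨g, hg, hge⟩ := h0
      refine ⟨g, hg, ?_⟩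
      filter_upwards [hge] with h hh
      rw [← hh, zero_add, add_comm b h, hb2]
    have := removable_add L f hper b ⟨w - b, hw2⟩ (removable_of_origin _ b h1)
    simpa using this
  · refine ⟨f, ?_, EventuallyEq.rfl⟩
    have a1 : AnalyticAt ℂ (fun z : ℂ => ℘[L] (z + b)) w :=
      AnalyticAt.fun_comp (analyticAt_wp L hw1) (analyticAt_id.add analyticAt_const)
    exact (a1.sub analyticAt_const).mul ((analyticAt_wp L hw).sub analyticAt_const)

/-- **injectivity of `℘` modulo `±1` and periods**. -/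
theorem wp_eq_iff {a : ℂ} (ha : a ∉ L.lattice) (hb : b ∉ L.lattice) :
    ℘[L] a = ℘[L] b ↔ a - b ∈ L.lattice ∨ a + b ∈ L.lattice := by
  constructor
  · intro h
    by_contra hcon
    rw [not_or] at hcon
    obtain ⟨h1, h2⟩ := hcon
    have h3 := wp_add_sub ha hb h2 h1
    rw [h, sub_self] at h3
    have h4 : ℘'[L] a * ℘'[L] b = 0 := by
      rw [zero_pow two_ne_zero, mul_zero] at h3
      exact neg_eq_zero.mp h3.symm
    have h5 : ℘'[L] a ^ 2 = ℘'[L] b ^ 2 := by
      rw [L.derivWeierstrassP_sq a ha, L.derivWeierstrassP_sq b hb, h]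
    have h6 : ℘'[L] b = 0 := by
      rcases mul_eq_zero.mp h4 with h6 | h6
      · rw [h6] at h5
        exact pow_eq_zero_iff two_ne_zero |>.mp (by rw [← h5]; ring)
      · exact h6
    have h2b : 2 * b ∈ L.lattice := (dwp_eq_zero_iff L hb).mp h6
    obtain ⟨c, hc⟩ := half_period L hb h2b
    -- value at `a`
    have hcont : ContinuousAt (fun z => (℘[L] (z + b) - ℘[L] b) * (℘[L] z - ℘[L] b)) a := by
      have a1 : AnalyticAt ℂ (fun z : ℂ => ℘[L] (z + b)) a :=
        AnalyticAt.fun_comp (analyticAt_wp L h2) (analyticAt_id.add analyticAt_const)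
      exact ((a1.sub analyticAt_const).mul
        ((analyticAt_wp L ha).sub analyticAt_const)).continuousAt
    have l1 := hcont.tendsto.mono_left (nhdsWithin_le_nhds (s := {a}ᶜ))
    have l2 : Tendsto (fun z => (℘[L] (z + b) - ℘[L] b) * (℘[L] z - ℘[L] b)) (𝓝[≠] a) (𝓝 c) :=
      tendsto_const_nhds.congr' (by filter_upwards [hc a] with w hw using hw.symm)
    have h7 := tendsto_nhds_unique l1 l2
    simp only [h, sub_self, mul_zero] at h7
    -- contradiction near `0`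
    have e1 := eventually_shift b 0 (wp_ne_eventually L (℘[L] b) (0 + b))
    have e2 := wp_ne_eventually L (℘[L] b) 0
    obtain ⟨z, h8, h9, h10⟩ := (e1.and (e2.and (hc 0))).exists
    simp only [← h7] at h10
    rcases mul_eq_zero.mp h10 with h11 | h11
    · exact h8 (sub_eq_zero.mp h11)
    · exact h9 (sub_eq_zero.mp h11)
  · rintro (h | h)
    · rw [show a = b + (a - b) by ring, wp_add L h]
    · rw [show a = -b + (a + b) by ring, wp_add L h, L.weierstrassP_neg]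

/-- **flex relation** at a point of order three. -/
theorem flex (hb : b ∉ L.lattice) (h3b : 3 * b ∈ L.lattice) :
    (6 * ℘[L] b ^ 2 - L.g₂ / 2) ^ 2 = 12 * ℘[L] b * ℘'[L] b ^ 2 := by
  have h2b : 2 * b ∉ L.lattice := by
    intro h
    apply hb
    have := L.lattice.sub_mem h3b h
    rwa [show 3 * b - 2 * b = b by ring] at this
  obtain ⟨R, hR, hR0, hTay⟩ := taylor3 (analyticAt_wp L hb)
  obtain ⟨S, hS, hS0, hTay'⟩ := taylor2 (analyticAt_dwp L hb)
  rw [iteratedDeriv_three_wp L hb] at hR0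
  rw [iteratedDeriv_two_dwp L hb] at hS0
  rw [L.deriv_weierstrassP, iteratedDeriv_two_wp L hb] at hTay
  rw [deriv_dwp L hb] at hTay'
  set p := ℘[L] b with hp
  set p1 := ℘'[L] b with hp1
  set p2 := 6 * p ^ 2 - L.g₂ / 2 with hp2
  -- the function whose value at 0 gives the relation
  set Ψ : ℂ → ℂ := fun h => (℘[L] (b - h) - E L h) * (p1 + p2 / 2 * h + h ^ 2 * R h) ^ 2 -
    p2 ^ 2 / 4 - 2 * p1 * R h - p2 * h * R h - h ^ 2 * R h ^ 2 + p1 * S h with hΨ
  have hev : ∀ᶠ h in 𝓝[≠] (0 : ℂ), Ψ h = 0 := by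
    have e1 := eventually_shift b 0 (not_mem_eventually L (0 + b))
    have e2 := eventually_shift (2 * b) 0 (not_mem_eventually L (0 + 2 * b))
    have e3 := not_mem_eventually L 0
    filter_upwards [e1, e2, e3, self_mem_nhdsWithin] with h h1 h2 h3 hh
    have hh0 : h ≠ 0 := hh
    have h4 := wp_add_sub (z := b + h) (by rwa [add_comm]) hb
      (by rwa [show b + h + b = h + 2 * b by ring]) (by rwa [add_sub_cancel_left])
    have h5 : ℘[L] (b + h + b) = ℘[L] (b - h) := by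
      rw [show b + h + b = -(b - h) + 3 * b by ring, wp_add L h3b, L.weierstrassP_neg]
    rw [add_sub_cancel_left, h5, hTay h, hTay' h, wp_eq L h, ← hp, ← hp1] at h4
    have h6 : h ^ 2 * Ψ h = 0 := by
      have h7 : (h ^ 2)⁻¹ * h ^ 2 = 1 := inv_mul_cancel₀ (pow_ne_zero 2 hh0)
      simp only [hΨ]
      have h8 : p + p1 * h + p2 / 2 * h ^ 2 + h ^ 3 * R h - p =
          h * (p1 + p2 / 2 * h + h ^ 2 * R h) := by ring
      rw [h8, mul_pow] at h4
      linear_combination h4 + (p1 + p2 / 2 * h + h ^ 2 * R h) ^ 2 * h7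
    exact (mul_eq_zero.mp h6).resolve_left (pow_ne_zero 2 hh0)
  have hcont : ContinuousAt Ψ 0 := by
    have a1 : ContinuousAt (fun h : ℂ => ℘[L] (b - h)) 0 := by
      have : AnalyticAt ℂ (fun h : ℂ => ℘[L] (b - h)) 0 :=
        AnalyticAt.fun_comp (by rw [sub_zero]; exact analyticAt_wp L hb)
          (analyticAt_const.sub analyticAt_id)
      exact this.continuousAt
    have a2 := (analyticAt_E L).continuousAt
    have a3 := hR.continuousAt
    have a4 := hS.continuousAt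
    have a5 : ContinuousAt (fun h : ℂ => h) 0 := continuousAt_id
    have a6 : ∀ c : ℂ, ContinuousAt (fun _ : ℂ => c) 0 := fun c => continuousAt_const
    exact ((((((a1.sub a2).mul (((a6 p1).add ((a6 (p2 / 2)).mul a5)).add
      ((a5.pow 2).mul a3) |>.pow 2)).sub (a6 (p2 ^ 2 / 4))).sub
      ((a6 (2 * p1)).mul a3)).sub (((a6 p2).mul a5).mul a3)).sub
      ((a5.pow 2).mul (a3.pow 2))).add ((a6 p1).mul a4)
  have l1 := hcont.tendsto.mono_left (nhdsWithin_le_nhds (s := {(0 : ℂ)}ᶜ))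
  have l2 : Tendsto Ψ (𝓝[≠] 0) (𝓝 0) :=
    tendsto_const_nhds.congr' (by filter_upwards [hev] with w hw using hw.symm)
  have h9 := tendsto_nhds_unique l1 l2
  simp only [hΨ, sub_zero, E_zero, hR0, hS0, mul_zero, zero_mul, add_zero, ne_eq,
    OfNat.ofNat_ne_zero, not_false_eq_true, zero_pow] at h9
  linear_combination (-4) * h9

section tate

/-- `A₃ = ℘'(b)`. -/
def tateA3 (L : PeriodPair) (b : ℂ) : ℂ := ℘'[L] b

/-- `A₁ = ℘''(b) / ℘'(b)`. -/
def tateA1 (L : PeriodPair) (b : ℂ) : ℂ := (6 * ℘[L] b ^ 2 - L.g₂ / 2) / ℘'[L] b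

variable (hb : b ∉ L.lattice) (h3b : 3 * b ∈ L.lattice)
include hb h3b

lemma two_not_mem_of_three : 2 * b ∉ L.lattice := by
  intro h
  apply hb
  have := L.lattice.sub_mem h3b h
  rwa [show 3 * b - 2 * b = b by ring] at this

lemma tateA3_ne_zero : tateA3 L b ≠ 0 := by
  intro h
  exact two_not_mem_of_three L hb h3b ((dwp_eq_zero_iff L hb).mp h)

lemma tateA1_mul : tateA1 L b * tateA3 L b = 6 * ℘[L] b ^ 2 - L.g₂ / 2 :=
  div_mul_cancel₀ _ (tateA3_ne_zero L hb h3b)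

/-- `A₁² = 12 ℘(b)`. -/
theorem tateA1_sq : tateA1 L b ^ 2 = 12 * ℘[L] b := by
  have h1 := tateA1_mul L hb h3b
  have h2 := flex L hb h3b
  have h3 := tateA3_ne_zero L hb h3b
  rw [← h1] at h2
  have h4 : tateA3 L b ^ 2 * (tateA1 L b ^ 2 - 12 * ℘[L] b) = 0 := by
    have h5 : (tateA1 L b * tateA3 L b) ^ 2 = 12 * ℘[L] b * tateA3 L b ^ 2 := h2
    linear_combination h5
  exact sub_eq_zero.mp ((mul_eq_zero.mp h4).resolve_left (pow_ne_zero 2 h3))

/-- `12 g₂ = A₁ (A₁³ - 24 A₃)`. -/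
theorem tate_g2 : 12 * L.g₂ = tateA1 L b * (tateA1 L b ^ 3 - 24 * tateA3 L b) := by
  have h1 := tateA1_mul L hb h3b
  have h2 := tateA1_sq L hb h3b
  have h3 : tateA1 L b ^ 4 = 144 * ℘[L] b ^ 2 := by
    rw [show tateA1 L b ^ 4 = (tateA1 L b ^ 2) ^ 2 by ring, h2]; ring
  linear_combination 24 * h1 - h3

/-- `216 g₃ = -(A₁⁶ - 36 A₁³ A₃ + 216 A₃²)`. -/
theorem tate_g3 : 216 * L.g₃ =
    -(tateA1 L b ^ 6 - 36 * tateA1 L b ^ 3 * tateA3 L b + 216 * tateA3 L b ^ 2) := by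
  have h1 := tateA1_mul L hb h3b
  have h2 := tateA1_sq L hb h3b
  have h3 : tateA3 L b ^ 2 = 4 * ℘[L] b ^ 3 - L.g₂ * ℘[L] b - L.g₃ :=
    L.derivWeierstrassP_sq b hb
  have h4 := tate_g2 L hb h3b
  have h5 : ℘[L] b = tateA1 L b ^ 2 / 12 := by rw [h2]; ring
  have h6 : L.g₂ = tateA1 L b * (tateA1 L b ^ 3 - 24 * tateA3 L b) / 12 := by
    rw [← h4]; ring
  rw [h5, h6] at h3
  linear_combination 216 * h3

/-- the discriminant. -/
theorem tate_disc : L.g₂ ^ 3 - 27 * L.g₃ ^ 2 =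
    tateA3 L b ^ 3 * (tateA1 L b ^ 3 - 27 * tateA3 L b) := by
  have h4 := tate_g2 L hb h3b
  have h5 := tate_g3 L hb h3b
  have h6 : L.g₂ = tateA1 L b * (tateA1 L b ^ 3 - 24 * tateA3 L b) / 12 := by
    rw [← h4]; ring
  have h7 : L.g₃ = -(tateA1 L b ^ 6 - 36 * tateA1 L b ^ 3 * tateA3 L b +
      216 * tateA3 L b ^ 2) / 216 := by
    rw [← h5]; ring
  rw [h6, h7]
  ring

/-- the Tate normal form `y² + A₁xy + A₃y = x³`. -/
theorem tate_curve {w : ℂ} (hw : w ∉ L.lattice) :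
    ((℘'[L] w - tateA1 L b * (℘[L] w - ℘[L] b) - tateA3 L b) / 2) ^ 2 +
      tateA1 L b * (℘[L] w - ℘[L] b) *
        ((℘'[L] w - tateA1 L b * (℘[L] w - ℘[L] b) - tateA3 L b) / 2) +
      tateA3 L b * ((℘'[L] w - tateA1 L b * (℘[L] w - ℘[L] b) - tateA3 L b) / 2) =
      (℘[L] w - ℘[L] b) ^ 3 := by
  have h1 := tateA1_mul L hb h3b
  have h2 := tateA1_sq L hb h3b
  have h3 : tateA3 L b ^ 2 = 4 * ℘[L] b ^ 3 - L.g₂ * ℘[L] b - L.g₃ :=
    L.derivWeierstrassP_sq b hb
  have h4 := L.derivWeierstrassP_sq w hw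
  linear_combination (1 / 4) * h4 - (1 / 4) * h3 -
    (1 / 4) * (℘[L] w - ℘[L] b) ^ 2 * h2 - (1 / 2) * (℘[L] w - ℘[L] b) * h1

end tate

end Crest.Agent.R007.WpId
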