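import Crest.Agent.R007.Tc2
import Crest.Agent.R007.WpTor
import Crest.Agent.R007.Wp5
import Crest.Agent.R007.Wp7

/-!
Row 7, section E (M1/M2): the forms `A₁` (weight 1) and `A₃ = Q 3 v` (weight 3) of level 3.
-/

set_option autoImplicit false

namespace Crest.Agent.R007.Tc

open Crest.Agent.R007.Wp Crest.Agent.R007.Rat Crest.Agent.R007.WpId
open UpperHalfPlane hiding I
open Complex PeriodPair ModularForm Matrix Function Filter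
open scoped MatrixGroups Real PeriodPair Manifold Topology

noncomputable section

/-- The weight one form attached to a vector of order 3. -/
def A1 (v : Fin 2 → ℤ) (τ : ℍ) : ℂ := (2 * π * I)⁻¹ * tateA1 (PP τ) (pt 3 v τ)

/-- The weight three form attached to a vector of order 3. -/
def A3 (v : Fin 2 → ℤ) : ℍ → ℂ := Q 3 v

lemma pt3_mem (v : Fin 2 → ℤ) (τ : ℍ) : 3 * pt 3 v τ ∈ (PP τ).lattice := by
  rw [mem_PP]
  refine ⟨v 0, v 1, ?_⟩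
  rw [pt]; push_cast; ring

variable {v w : Fin 2 → ℤ}

section
variable (hv : NZ 3 v) (τ : ℍ)
include hv

lemma pt3_notMem : pt 3 v τ ∉ (PP τ).lattice := pt_notMem (by norm_num) hv τ

omit hv in
lemma A3_eq : A3 v τ = ((2 * π * I) ^ 3)⁻¹ * tateA3 (PP τ) (pt 3 v τ) := rfl

lemma A3_ne_zero : A3 v τ ≠ 0 := by
  rw [A3_eq]
  refine mul_ne_zero (inv_ne_zero (pow_ne_zero _ two_pi_I_ne)) ?_
  exact tateA3_ne_zero _ (pt3_notMem hv τ) (pt3_mem v τ)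

theorem A1_sq : A1 v τ ^ 2 = 12 * P 3 v τ := by
  have h := tateA1_sq _ (pt3_notMem hv τ) (pt3_mem v τ)
  rw [A1, mul_pow, h, P]
  rw [← inv_pow]
  ring

theorem A1_mul : A1 v τ * A3 v τ = 6 * P 3 v τ ^ 2 - E (k := 4) (by norm_num) τ / 24 := by
  have h := tateA1_mul _ (pt3_notMem hv τ) (pt3_mem v τ)
  have hpi : (π : ℂ) ≠ 0 := by exact_mod_cast Real.pi_ne_zero
  have hI : (I : ℂ) ^ 4 = 1 := I_pow_four
  rw [g₂_PP] at h
  have e : A1 v τ * A3 v τ = ((2 * π * I) ^ 4)⁻¹ * (tateA1 (PP τ) (pt 3 v τ) * tateA3 (PP τ) (pt 3 v τ)) := by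
    rw [A3_eq, A1, ← inv_pow, ← inv_pow]; ring
  rw [e, h, P]
  have h2 : ((2 * π * I : ℂ) ^ 4)⁻¹ = (16 * (π : ℂ) ^ 4)⁻¹ := by
    rw [mul_pow, hI]; ring
  have h3 : (((2 * π * I : ℂ) ^ 2)⁻¹ * ℘[PP τ] (pt 3 v τ)) ^ 2 =
      (16 * (π : ℂ) ^ 4)⁻¹ * ℘[PP τ] (pt 3 v τ) ^ 2 := by
    rw [mul_pow, ← h2, ← inv_pow, ← inv_pow]; ring
  rw [h2, h3]
  field_simp
  ring

theorem E4_eq : (E (k := 4) (by norm_num) τ : ℂ) = A1 v τ * (A1 v τ ^ 3 - 24 * A3 v τ) := by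
  have h := tate_g2 _ (pt3_notMem hv τ) (pt3_mem v τ)
  have hpi : (π : ℂ) ≠ 0 := by exact_mod_cast Real.pi_ne_zero
  have hI : (I : ℂ) ^ 4 = 1 := I_pow_four
  rw [g₂_PP] at h
  have e : A1 v τ * (A1 v τ ^ 3 - 24 * A3 v τ) = ((2 * π * I) ^ 4)⁻¹ *
      (tateA1 (PP τ) (pt 3 v τ) * (tateA1 (PP τ) (pt 3 v τ) ^ 3 - 24 * tateA3 (PP τ) (pt 3 v τ))) := by
    rw [A3_eq, A1, ← inv_pow, ← inv_pow]; ring
  have h2 : ((2 * π * I : ℂ) ^ 4)⁻¹ = (16 * (π : ℂ) ^ 4)⁻¹ := by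
    rw [mul_pow, hI]; ring
  rw [e, ← h, h2]
  field_simp
  ring

theorem E6_eq : (E (k := 6) (by norm_num) τ : ℂ) =
    A1 v τ ^ 6 - 36 * A1 v τ ^ 3 * A3 v τ + 216 * A3 v τ ^ 2 := by
  have h := tate_g3 _ (pt3_notMem hv τ) (pt3_mem v τ)
  have hpi : (π : ℂ) ≠ 0 := by exact_mod_cast Real.pi_ne_zero
  have hI : (I : ℂ) ^ 2 = -1 := I_sq
  rw [g₃_PP] at h
  have e : A1 v τ ^ 6 - 36 * A1 v τ ^ 3 * A3 v τ + 216 * A3 v τ ^ 2 = -(((2 * π * I) ^ 6)⁻¹ *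
      (-(tateA1 (PP τ) (pt 3 v τ) ^ 6 - 36 * tateA1 (PP τ) (pt 3 v τ) ^ 3 * tateA3 (PP τ) (pt 3 v τ) +
        216 * tateA3 (PP τ) (pt 3 v τ) ^ 2))) := by
    rw [A3_eq, A1, ← inv_pow, ← inv_pow]; ring
  have h2 : ((2 * π * I : ℂ) ^ 6)⁻¹ = -(64 * (π : ℂ) ^ 6)⁻¹ := by
    have : (2 * π * I : ℂ) ^ 6 = -(64 * (π : ℂ) ^ 6) := by
      rw [mul_pow, show (I : ℂ) ^ 6 = (I ^ 2) ^ 3 by ring, hI]; ring
    rw [this, inv_neg]
  rw [e, ← h, h2]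
  field_simp
  ring

theorem disc_eq : ModularForm.discriminant τ = A3 v τ ^ 3 * (A1 v τ ^ 3 - 27 * A3 v τ) := by
  rw [ModularForm.discriminant_eq_E₄_cube_sub_E₆_sq]
  have h4 := E4_eq hv τ
  have h6 := E6_eq hv τ
  have e4 : (E₄ τ : ℂ) = E (k := 4) (by norm_num) τ := rfl
  have e6 : (E₆ τ : ℂ) = E (k := 6) (by norm_num) τ := rfl
  rw [e4, e6, h4, h6]
  ring

end

lemma NZ.vecMul {M : ℕ} {v : Fin 2 → ℤ} (hv : NZ M v) (g : SL(2, ℤ)) :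
    NZ M (v ᵥ* (g : Matrix (Fin 2) (Fin 2) ℤ)) := vecMul_ne hv g

lemma E4_slash (γ : SL(2, ℤ)) : ((E (k := 4) (by norm_num) : ℍ → ℂ)) ∣[(4 : ℤ)] γ =
    (E (k := 4) (by norm_num) : ℍ → ℂ) :=
  SlashInvariantForm.slash_action_eqn (Γ := 𝒮ℒ) (E (k := 4) (by norm_num)) _ ⟨γ, rfl⟩

theorem A1_slash (hv : NZ 3 v) (γ : SL(2, ℤ)) :
    A1 v ∣[(1 : ℤ)] γ = A1 (v ᵥ* (γ : Matrix (Fin 2) (Fin 2) ℤ)) := by
  have hf : A1 v * A3 v = (6 : ℂ) • (P 3 v * P 3 v) + (-(1 / 24) : ℂ) • (E (k := 4) (by norm_num) : ℍ → ℂ) := by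
    funext τ
    have := A1_mul hv τ
    simp only [Pi.mul_apply, Pi.add_apply, Pi.smul_apply, smul_eq_mul]
    rw [this]; ring
  have hf' : (A1 v * A3 v) ∣[((1 : ℤ) + 3)] γ = _ := congrArg (fun F => F ∣[((1 : ℤ) + 3)] γ) hf
  rw [mul_slash_SL2] at hf'
  have e2 : ((6 : ℂ) • (P 3 v * P 3 v) + (-(1 / 24) : ℂ) • (E (k := 4) (by norm_num) : ℍ → ℂ))
      ∣[((1 : ℤ) + 3)] γ = (6 : ℂ) • (P 3 (v ᵥ* (γ : Matrix (Fin 2) (Fin 2) ℤ)) *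
        P 3 (v ᵥ* (γ : Matrix (Fin 2) (Fin 2) ℤ))) +
        (-(1 / 24) : ℂ) • (E (k := 4) (by norm_num) : ℍ → ℂ) := by
    rw [show ((1 : ℤ) + 3) = 2 + 2 by norm_num, SlashAction.add_slash, SL_smul_slash, SL_smul_slash,
      mul_slash_SL2, P_slash]
    congr 2
    exact E4_slash γ
  rw [e2] at hf'
  funext τ
  have h1 := congrFun hf' τ
  rw [Pi.mul_apply, A3, Q_slash] at h1
  have h2 := A1_mul (hv.vecMul γ) τ
  have h3 := A3_ne_zero (hv.vecMul γ) τ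
  have h4 : (A1 v ∣[(1 : ℤ)] γ) τ * A3 (v ᵥ* (γ : Matrix (Fin 2) (Fin 2) ℤ)) τ =
      A1 (v ᵥ* (γ : Matrix (Fin 2) (Fin 2) ℤ)) τ * A3 (v ᵥ* (γ : Matrix (Fin 2) (Fin 2) ℤ)) τ := by
    rw [h2]
    have h5 : (A1 v ∣[(1 : ℤ)] γ) τ * A3 (v ᵥ* (γ : Matrix (Fin 2) (Fin 2) ℤ)) τ = _ := h1
    rw [h5]
    simp only [Pi.mul_apply, Pi.add_apply, Pi.smul_apply, smul_eq_mul]
    ring
  exact mul_right_cancel₀ h3 h4

lemma A1_congr (h : ∀ i, (v i : ZMod 3) = w i) (hv : NZ 3 v) : A1 v = A1 w := by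
  have hw : NZ 3 w := by
    rcases hv with h' | h'
    · left; rwa [← h 0]
    · right; rwa [← h 1]
  funext τ
  have e1 := A1_mul hv τ
  have e2 := A1_mul hw τ
  have e3 : P 3 v = P 3 w := P_congr (by norm_num) h
  have e4 : Q 3 v = Q 3 w := Q_congr (by norm_num) h
  rw [e3, A3, e4, ← e2] at e1
  exact mul_right_cancel₀ (A3_ne_zero hw τ) e1

lemma A1_neg (hv : NZ 3 v) : A1 (-v) = - A1 v := by
  have hw : NZ 3 (-v) := by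
    rcases hv with h' | h'
    · left; simpa using h'
    · right; simpa using h'
  funext τ
  have e1 := A1_mul hv τ
  have e2 := A1_mul hw τ
  rw [P_neg, ← e1, A3, A3, Q_neg] at e2
  apply mul_right_cancel₀ (A3_ne_zero hv τ)
  rw [Pi.neg_apply, neg_mul, A3]
  have e5 : A1 (-v) τ * -(Q 3 v τ) = A1 v τ * Q 3 v τ := e2
  linear_combination -e5

lemma A1_mdiff (hv : NZ 3 v) : MDiff (A1 v) := by
  have h1 : A1 v = fun τ => (6 * P 3 v τ ^ 2 - E (k := 4) (by norm_num) τ / 24) / A3 v τ := by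
    funext τ
    rw [eq_div_iff (A3_ne_zero hv τ)]
    exact A1_mul hv τ
  have hP := (isF_P (M := 3) (by norm_num) v).holo
  have hQ := (isF_Q (M := 3) (by norm_num) v).holo
  have hE : MDiff ((E (k := 4) (by norm_num) : ℍ → ℂ)) := ModularFormClass.holo _
  rw [UpperHalfPlane.mdifferentiable_iff] at hP hQ hE ⊢
  rw [h1]
  have h2 : DifferentiableOn ℂ (fun z => (6 * ((P 3 v ∘ ofComplex) z) ^ 2 -
      (((E (k := 4) (by norm_num) : ℍ → ℂ)) ∘ ofComplex) z / 24) / ((Q 3 v ∘ ofComplex) z))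
      {z | 0 < z.im} := by
    refine DifferentiableOn.div ?_ hQ ?_
    · exact ((hP.pow 2).const_mul 6).sub (hE.div_const 24)
    · intro z _
      exact A3_ne_zero hv _
  exact h2

lemma A1_bdd (hv : NZ 3 v) : IsBoundedAtImInfty (A1 v) := by
  have h := (isF_P (M := 3) (by norm_num) v).bdd_infty
  rw [isBoundedAtImInfty_iff] at h ⊢
  obtain ⟨C, A, hCA⟩ := h
  refine ⟨12 * C + 1, A, fun τ hτ => ?_⟩
  have h1 := hCA τ hτ
  have h2 : ‖A1 v τ‖ ^ 2 = 12 * ‖P 3 v τ‖ := by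
    rw [← norm_pow, A1_sq hv, norm_mul]; simp
  have h3 : 0 ≤ ‖A1 v τ‖ := norm_nonneg _
  have h4 : 0 ≤ C := (norm_nonneg _).trans h1
  nlinarith

theorem isF_A1 (hv : NZ 3 v) : IsF 3 1 (A1 v) where
  slash γ hγ := by
    rw [A1_slash hv]
    exact A1_congr (vecMul_mem_Gamma hγ v) (hv.vecMul γ)
  holo := A1_mdiff hv
  bdd g := by rw [A1_slash hv]; exact A1_bdd (hv.vecMul g)

theorem isF_A3 (v : Fin 2 → ℤ) : IsF 3 3 (A3 v) := isF_Q (by norm_num) v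

lemma A3_slash (γ : SL(2, ℤ)) : A3 v ∣[(3 : ℤ)] γ = A3 (v ᵥ* (γ : Matrix (Fin 2) (Fin 2) ℤ)) :=
  Q_slash γ 3 v

theorem qe_A1_sq (hv : NZ 3 v) : qe 3 (A1 v) ^ 2 = (12 : ℂ) • sP 3 v := by
  rw [← qe_pow (isF_A1 hv)]
  have : A1 v ^ 2 = (12 : ℂ) • P 3 v := by
    funext τ
    rw [Pi.pow_apply, A1_sq hv]; rfl
  rw [this, qe_smul (isF_P (M := 3) (by norm_num) v), qe_P]
  rfl

/-- HASSE at all cusps of `SL₂(ℤ)`: `A₁ ≡ 1 mod 2`. -/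
theorem hasse {O : Subring ℂ} (hO : OddRing O) (hv : NZ 3 v) : In2 O (qe 3 (A1 v) - 1) :=
  hasse_series hO hv (qe_A1_sq hv)

theorem isR_A1 {O : Subring ℂ} (hO : OddRing O) (hv : NZ 3 v) : IsR O 3 1 (A1 v) :=
  ⟨isF_A1 hv, fun g => by
    rw [A1_slash hv]
    have := (hasse hO (hv.vecMul g)).coeffIn.add (CoeffIn.one (S := O))
    rwa [sub_add_cancel] at this⟩

theorem isR_Q {O : Subring ℂ} (hO : OddRing O) {M : ℕ} (hM : Odd M) {v : Fin 2 → ℤ} (hv : NZ M v) :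
    IsR O M 3 (Q M v) :=
  ⟨isF_Q hM.pos.ne' v, fun g => by
    have : NeZero M := ⟨hM.pos.ne'⟩
    rw [Q_slash, qe_Q]
    exact sQ_coeffIn hO hM (hv.vecMul g)⟩

theorem isR_A3 {O : Subring ℂ} (hO : OddRing O) (hv : NZ 3 v) : IsR O 3 3 (A3 v) :=
  isR_Q hO (by decide) hv

end

end Crest.Agent.R007.Tc
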