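import Crest.Agent.R007.EHasse1
import Crest.Agent.R007.Tc3

/-! Row 7: (H1) integral forms `IsR O M k f` lie in `Lk O k`; (H2) the Hasse congruence for all
`δ ∈ G2`. -/

set_option autoImplicit false

namespace Crest.Agent.R007.EH

open UpperHalfPlane ModularForm CongruenceSubgroup Matrix
open Crest.Agent.R007.Lat Crest.Agent.R007.Rat Crest.Agent.R007.Tc
open scoped MatrixGroups Manifold ModularForm

lemma ee_eq_zeta (r : ℚ) : ee r = Wp.zeta r.den ^ r.num := by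
  rw [ee, Wp.zeta, ← Complex.exp_int_mul]
  congr 1
  have h1 : (r : ℂ) = (r.num : ℂ) / (r.den : ℂ) := Rat.cast_def r
  rw [h1]
  ring

lemma root_mem_of_oddRing {O : Subring ℂ} (hO : OddRing O) (r : ℚ) (hr : Odd r.den) : ee r ∈ O := by
  rw [ee_eq_zeta]
  exact zeta_zpow_mem hO hr _

lemma oddStable_two {O : Subring ℂ} (hO : OddRing O) : OddStable (twoO O) :=
  oddStable_twoO hO.inv_mem (root_mem_of_oddRing hO)

lemma isF_mem_MX {M k : ℕ} [NeZero M] {f : ℍ → ℂ} (hf : IsF M (k : ℤ) f) : lift k f ∈ MX M k :=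
  ⟨hf.toModularForm, rfl⟩

lemma isF_mem_MO {M k : ℕ} (hM : Odd M) {f : ℍ → ℂ} (hf : IsF M (k : ℤ) f) : lift k f ∈ MO k := by
  have : NeZero M := ⟨hM.pos.ne'⟩
  exact ⟨M, hM, isF_mem_MX hf⟩

lemma isF_mem_PB {M : ℕ} [NeZero M] {k : ℤ} {f : ℍ → ℂ} (hf : IsF M k f) : f ∈ PB M :=
  ⟨hf.periodic, hf.holo, hf.bdd_infty⟩

/-- coefficients of a form of level `Γ(M)`, `M` odd -/
lemma Cin_of_qe {I : AddSubgroup ℂ} {M : ℕ} (hM : Odd M) {k : ℤ} {f : ℍ → ℂ} (hf : IsF M k f)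
    (h : ∀ n, PowerSeries.coeff n (qe M f) ∈ I) : Cin I f := by
  have : NeZero M := ⟨hM.pos.ne'⟩
  have hPB := isF_mem_PB hf
  refine ⟨⟨M, hM, hPB⟩, fun r => ?_⟩
  by_cases hr : ∃ n : ℕ, (n : ℚ) / M = r
  · obtain ⟨n, rfl⟩ := hr
    rw [qf_eq' M hM hPB, emb_coeff]
    exact h n
  · push Not at hr
    rw [qf_coeff_of_notMem hM hPB hr]
    exact I.zero_mem

/-- (H1) -/
theorem isR_mem_Lk {O : Subring ℂ} (hO : OddRing O) {M k : ℕ} (hM : Odd M) {f : ℍ → ℂ}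
    (hf : IsR O M (k : ℤ) f) : lift k f ∈ Mix.Lk O k := by
  refine ⟨isF_mem_MO hM hf.1, fun g hg => ?_⟩
  rw [← Cin_O_iff]
  apply Cin_G2 (oddStable_O hO.inv_mem (root_mem_of_oddRing hO)) (lift_mem k f) _ hg
  intro γ
  rw [← slash_SL_eq_res]
  exact Cin_of_qe hM (hf.1.slash_SL γ) (hf.2 γ)

lemma one_mem_PB' (h : ℝ) : (1 : ℍ → ℂ) ∈ PB h := one_mem _

lemma Cin_const {I : AddSubgroup ℂ} {c : ℂ} (hc : c ∈ I) : Cin I (c • (1 : ℍ → ℂ)) := by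
  have h1 : (1 : ℍ → ℂ) ∈ PO := one_mem _
  refine ⟨Subalgebra.smul_mem _ h1 c, fun r => ?_⟩
  rw [qf_smul _ h1, qf_one, HahnSeries.coeff_smul, HahnSeries.coeff_one]
  split_ifs
  · simpa using hc
  · simp

lemma Cin_add {I : AddSubgroup ℂ} {f g : ℍ → ℂ} (hf : Cin I f) (hg : Cin I g) : Cin I (f + g) := by
  refine ⟨add_mem hf.1 hg.1, fun r => ?_⟩
  rw [qf_add hf.1 hg.1, HahnSeries.coeff_add]
  exact I.add_mem (hf.2 r) (hg.2 r)

lemma Cin_sub {I : AddSubgroup ℂ} {f g : ℍ → ℂ} (hf : Cin I f) (hg : Cin I g) : Cin I (f - g) := by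
  refine ⟨sub_mem hf.1 hg.1, fun r => ?_⟩
  rw [qf_sub hf.1 hg.1, HahnSeries.coeff_sub]
  exact I.sub_mem (hf.2 r) (hg.2 r)

/-- all expansions of `A₁ ∥ δ`, `δ ∈ G2`, are `≡ 1 mod 2` -/
theorem hasse_G2 {O : Subring ℂ} (hO : OddRing O) {v : Fin 2 → ℤ} (hv : NZ 3 v)
    {δ : GL(2, ℝ)⁺} (hδ : δ ∈ G2) : Cin (twoO O) (res (sl (lift 1 (A1 v)) δ) - 1) := by
  obtain ⟨n, γ, a, b, d, hut, hn, ha, hd, e⟩ := G2_decomp hδ
  have hodd3 : Odd 3 := by decide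
  have h0 : Cin (twoO O) (res (sl (lift 1 (A1 v)) (sG γ)) - 1) := by
    rw [← slash_SL_eq_res]
    have h1 : (A1 v) ∣[((1 : ℕ) : ℤ)] γ = A1 (v ᵥ* (γ : Matrix (Fin 2) (Fin 2) ℤ)) := A1_slash hv γ
    rw [h1]
    have hF : IsF 3 1 (A1 (v ᵥ* (γ : Matrix (Fin 2) (Fin 2) ℤ))) := isF_A1 (hv.vecMul γ)
    have hPB := isF_mem_PB hF
    have hPO : A1 (v ᵥ* (γ : Matrix (Fin 2) (Fin 2) ℤ)) ∈ PO := ⟨3, hodd3, hPB⟩
    refine ⟨sub_mem hPO (one_mem _), fun r => ?_⟩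
    rw [qf_sub hPO (one_mem _), qf_one]
    have hh := hasse hO (hv.vecMul γ)
    by_cases hr : ∃ m : ℕ, (m : ℚ) / ((3 : ℕ) : ℚ) = r
    · obtain ⟨m, rfl⟩ := hr
      rw [HahnSeries.coeff_sub, qf_eq' 3 hodd3 hPB, emb_coeff, HahnSeries.coeff_one]
      have h2 := hh m
      rw [map_sub, PowerSeries.coeff_one] at h2
      refine ⟨_, h2, ?_⟩
      have h3 : ((m : ℚ) / ((3 : ℕ) : ℚ) = 0) ↔ m = 0 := by
        constructor
        · intro h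
          have : (m : ℚ) = 0 := by
            field_simp at h
            simpa using h
          exact_mod_cast this
        · rintro rfl; simp
      by_cases hm : m = 0
      · rw [if_pos hm, if_pos (h3.2 hm)]
        change (qe 3 _).coeff m - 1 = _
        ring
      · rw [if_neg hm, if_neg (fun h => hm (h3.1 h))]
        change (qe 3 _).coeff m - 0 = _
        ring
    · push Not at hr
      have hr0 : r ≠ 0 := by
        rintro rfl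
        exact hr 0 (by simp)
      rw [HahnSeries.coeff_sub, qf_coeff_of_notMem hodd3 hPB hr, HahnSeries.coeff_one, if_neg hr0,
        sub_zero]
      exact (twoO O).zero_mem
  rw [e 1 _ (lift_mem 1 _)]
  set g : ℍ → ℂ := res (sl (lift 1 (A1 v)) (sG γ)) with hg
  have h5 := Cin_comp_ut (oddStable_two hO) h0 ha hd hut
  have hc : ((n : ℂ) ^ 1 * (((d : ℕ) : ℂ)⁻¹) ^ 1) = (n : ℂ) * ((d : ℕ) : ℂ)⁻¹ := by
    rw [pow_one, pow_one]
  rw [hc]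
  have h6 : (((n : ℂ) * ((d : ℕ) : ℂ)⁻¹) • (fun τ => g (iG (ut a b d) hut • τ)) - 1 : ℍ → ℂ) =
      ((n : ℂ) * ((d : ℕ) : ℂ)⁻¹) • (fun τ => (g - 1) (iG (ut a b d) hut • τ)) +
      (((n : ℂ) * ((d : ℕ) : ℂ)⁻¹) - 1) • (1 : ℍ → ℂ) := by
    funext τ
    simp only [Pi.sub_apply, Pi.smul_apply, Pi.add_apply, Pi.one_apply, smul_eq_mul]
    ring
  rw [h6]
  apply Cin_add
  · apply Cin_smul _ h5
    intro x hx
    rw [mul_assoc]
    exact OddStable.nat_mul _ ((oddStable_two hO).inv_mem _ hd x hx)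
  · apply Cin_const
    -- n/d - 1 = 2 * (((n-d)/2) / d)
    obtain ⟨n', hn'⟩ := hn
    obtain ⟨d', hd'⟩ := hd
    refine ⟨(((n' : ℤ) - (d' : ℤ) : ℤ) : ℂ) * ((d : ℕ) : ℂ)⁻¹,
      O.mul_mem (intCast_mem O _) (hO.inv_mem d ⟨d', hd'⟩), ?_⟩
    have hd0 : ((d : ℕ) : ℂ) ≠ 0 := by
      have : d ≠ 0 := by omega
      exact_mod_cast this
    have hn2 : (n : ℂ) = 2 * n' + 1 := by rw [hn']; push_cast; ring
    have hd2 : ((d : ℕ) : ℂ) = 2 * d' + 1 := by rw [hd']; push_cast; ring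
    have h7 : (n : ℂ) = 2 * (((n' : ℤ) - (d' : ℤ) : ℤ) : ℂ) + ((d : ℕ) : ℂ) := by
      rw [hn2, hd2]; push_cast; ring
    rw [h7]
    field_simp
    ring

lemma A1_mem_MO {v : Fin 2 → ℤ} (hv : NZ 3 v) : lift 1 (A1 v) ∈ MO 1 :=
  isF_mem_MO (M := 3) (by decide) (isF_A1 hv)

theorem A1_mem_Lk {O : Subring ℂ} (hO : OddRing O) {v : Fin 2 → ℤ} (hv : NZ 3 v) :
    lift 1 (A1 v) ∈ Mix.Lk O 1 := isR_mem_Lk hO (by decide) (isR_A1 hO hv)

theorem A3_mem_Lk {O : Subring ℂ} (hO : OddRing O) {v : Fin 2 → ℤ} (hv : NZ 3 v) :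
    lift 3 (A3 v) ∈ Mix.Lk O 3 := isR_mem_Lk hO (by decide) (isR_A3 hO hv)

/-- (H2) -/
theorem hasse_diff {O : Subring ℂ} (hO : OddRing O) {v : Fin 2 → ℤ} (hv : NZ 3 v)
    {δ : GL(2, ℝ)⁺} (hδ : δ ∈ G2) :
    ∃ G ∈ Mix.Lk O 1, sl (lift 1 (A1 v)) δ = lift 1 (A1 v) + 2 * G := by
  obtain ⟨G, hG, e⟩ := Mix.Lk_half (O := O) (k := 1) (F := sl (lift 1 (A1 v)) δ - lift 1 (A1 v))
    (Submodule.sub_mem _ (MO_sl (A1_mem_MO hv) hδ) (A1_mem_MO hv)) (fun g hg => by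
      have h1 := hasse_G2 hO hv (G2.mul_mem hδ hg)
      have h2 := hasse_G2 hO hv hg
      have h3 := (Cin_sub h1 h2).2
      have h4 : res (sl (sl (lift 1 (A1 v)) δ - lift 1 (A1 v)) g) =
          (res (sl (lift 1 (A1 v)) (δ * g)) - 1) - (res (sl (lift 1 (A1 v)) g) - 1) := by
        rw [sl_sub, res_sub, ← sl_mul_right]
        abel
      intro r
      rw [h4]
      exact h3 r)
  exact ⟨G, hG, by rw [← e]; abel⟩

/-- the expansion of `A₁` at infinity is `≡ 1 mod 2` -/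
theorem hasse_inf {O : Subring ℂ} (hO : OddRing O) {v : Fin 2 → ℤ} (hv : NZ 3 v) :
    Mix.Two O (res (lift 1 (A1 v)) - 1) := by
  have h := (hasse_G2 hO hv (one_mem G2)).2
  rw [sl_one_right] at h
  exact h

end Crest.Agent.R007.EH
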