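import Crest.Agent.R007.Mix1
import Crest.Agent.R007.G2Gen

/-! Row 7: coefficients of `F ∥ δ`, `δ ∈ G2`, from the coefficients of `F ∥ γ`, `γ ∈ SL₂(ℤ)`. -/

set_option autoImplicit false

namespace Crest.Agent.R007.EH

open UpperHalfPlane ModularForm CongruenceSubgroup Matrix
open Crest.Agent.R007.Lat
open scoped MatrixGroups Manifold ModularForm

/-- `I` is an additive subgroup of `ℂ` stable under odd units and odd roots of unity -/
structure OddStable (I : AddSubgroup ℂ) : Prop where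
  inv_mem : ∀ n : ℕ, Odd n → ∀ x ∈ I, (n : ℂ)⁻¹ * x ∈ I
  root_mem : ∀ r : ℚ, Odd r.den → ∀ x ∈ I, ee r * x ∈ I

lemma OddStable.nat_mul {I : AddSubgroup ℂ} (n : ℕ) {x : ℂ} (hx : x ∈ I) : (n : ℂ) * x ∈ I := by
  have := I.nsmul_mem hx n
  rwa [nsmul_eq_mul] at this

/-- Hermite form with nonnegative upper right entry -/
lemma exists_hermite' (A : Matrix (Fin 2) (Fin 2) ℤ) (hA : 0 < A.det) :
    ∃ (γ : SL(2, ℤ)) (a b d : ℕ), 0 < a ∧ 0 < d ∧ ((a * d : ℕ) : ℤ) = A.det ∧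
      A = γ.1 * ut a b d := by
  obtain ⟨γ, a, b, d, ha, hd, had, hAe⟩ := exists_hermite A hA
  obtain ⟨a', rfl⟩ := Int.eq_ofNat_of_zero_le ha.le
  obtain ⟨d', rfl⟩ := Int.eq_ofNat_of_zero_le hd.le
  -- `b + m d ≥ 0`
  set m : ℤ := |b| with hm
  have hb : 0 ≤ b + m * d' := by
    have h1 : (1 : ℤ) ≤ d' := hd
    have h2 : |b| * 1 ≤ |b| * (d' : ℤ) := mul_le_mul_of_nonneg_left h1 (abs_nonneg b)
    have h3 := neg_abs_le b
    rw [hm]; linarith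
  obtain ⟨b', hb'⟩ := Int.eq_ofNat_of_zero_le hb
  refine ⟨γ * ⟨!![1, -m; 0, 1], by simp [Matrix.det_fin_two_of]⟩, a', b', d',
    by exact_mod_cast ha, by exact_mod_cast hd, by push_cast; exact had, ?_⟩
  rw [hAe]
  change _ = (γ.1 * !![1, -m; 0, 1]) * ut a' b' d'
  rw [Matrix.mul_assoc]
  congr 1
  rw [ut]
  ext i j
  fin_cases i <;> fin_cases j <;> simp [Matrix.mul_apply, Fin.sum_univ_two]
  rw [← hb']; ring

/-- all coefficients of `f` lie in `I` -/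
def Cin (I : AddSubgroup ℂ) (f : ℍ → ℂ) : Prop := f ∈ PO ∧ ∀ r : ℚ, (qf f).coeff r ∈ I

lemma Cin_smul {I : AddSubgroup ℂ} {c : ℂ} (hc : ∀ x ∈ I, c * x ∈ I) {f : ℍ → ℂ} (hf : Cin I f) :
    Cin I (c • f) := by
  refine ⟨Subalgebra.smul_mem _ hf.1 c, fun r => ?_⟩
  rw [qf_smul _ hf.1, HahnSeries.coeff_smul, smul_eq_mul]
  exact hc _ (hf.2 r)

lemma Cin_comp_ut {I : AddSubgroup ℂ} (hI : OddStable I) {f : ℍ → ℂ} (hf : Cin I f) {a b d : ℕ}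
    (ha : Odd a) (hd : Odd d) (h : 0 < (ut a b d).det) :
    Cin I (fun τ => f (iG (ut a b d) h • τ)) := by
  obtain ⟨M, hM, hfM⟩ := hf.1
  have : NeZero M := ⟨hM.pos.ne'⟩
  refine ⟨⟨M * d, hM.mul hd, PB_comp_ut hfM hd.pos h⟩, fun r => ?_⟩
  have ha0 : (a : ℚ) ≠ 0 := by exact_mod_cast ha.pos.ne'
  have hd0 : (d : ℚ) ≠ 0 := by exact_mod_cast hd.pos.ne'
  have hM0 : (M : ℚ) ≠ 0 := by exact_mod_cast hM.pos.ne'
  have e : r = (r * d / a) * a / d := by field_simp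
  rw [e, qf_comp_ut hf.1 ha hd h]
  by_cases hs : ∃ n : ℕ, (n : ℚ) / M = r * d / a
  · obtain ⟨n, hn⟩ := hs
    rw [← hn]
    apply hI.root_mem _ _ _ (hf.2 _)
    -- den of n / M * b / d divides M * d
    have h1 : ((n : ℚ) / M * b / d) = ((n * b : ℕ) : ℚ) / ((M * d : ℕ) : ℚ) := by
      push_cast
      field_simp
    rw [h1]
    have h2 : (((n * b : ℕ) : ℚ) / ((M * d : ℕ) : ℚ)).den ∣ (M * d) := by
      have h3 := Rat.den_dvd ((n * b : ℕ) : ℤ) ((M * d : ℕ) : ℤ)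
      rw [Rat.divInt_eq_div, Int.cast_natCast, Int.cast_natCast] at h3
      exact Int.natCast_dvd_natCast.1 h3
    exact (hM.mul hd).of_dvd_nat h2
  · push Not at hs
    rw [qf_coeff_of_notMem hM hfM hs, mul_zero]
    exact I.zero_mem

/-- decomposition of the elements of `G2` -/
theorem G2_decomp {δ : GL(2, ℝ)⁺} (hδ : δ ∈ G2) :
    ∃ (n : ℕ) (γ : SL(2, ℤ)) (a b d : ℕ) (hut : 0 < (ut a b d).det), Odd n ∧ Odd a ∧ Odd d ∧
      ∀ (k : ℕ) (F : X → ℂ), F ∈ Wt k → res (sl F δ) =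
        (((n : ℂ)) ^ k * (((d : ℕ) : ℂ)⁻¹) ^ k) •
          (fun τ => res (sl F (sG γ)) (iG (ut a b d) hut • τ)) := by
  obtain ⟨n, A, hn, hA, h1, h2, e1, e2⟩ := G2_exists hδ
  obtain ⟨γ, a, b, d, ha, hd, had, hAe⟩ := exists_hermite' A h1
  have hodd : Odd (a * d) := by
    have : Odd ((a * d : ℕ) : ℤ) := by rw [had]; exact hA
    exact_mod_cast this
  have haodd : Odd a := Nat.Odd.of_mul_left hodd
  have hdodd : Odd d := Nat.Odd.of_mul_right hodd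
  have hut : 0 < (ut a b d).det := by
    rw [ut_det]; exact_mod_cast Nat.mul_pos ha hd
  have e3 : iG A h1 = sG γ * iG (ut a b d) hut := by
    rw [sG, ← iG_mul _ _ _ _ (by rw [← hAe]; exact h1)]
    exact iG_congr hAe h1
  refine ⟨n, γ, a, b, d, hut, hn, haodd, hdodd, fun k F hF => ?_⟩
  have h3 : sl (sl F (iG (sc n) h2)) δ = sl F (iG A h1) := by rw [← sl_mul_right, e1]
  rw [sl_scalar hF n h2, sl_smul] at h3
  have h4 : sl F δ = ((n : ℂ)) ^ k • sl F (iG A h1) := by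
    rw [← h3, smul_smul]
    have : ((n : ℂ)) ^ k * ((((n : ℤ)) : ℂ)⁻¹) ^ k = 1 := by
      rw [← mul_pow]
      have : ((n : ℂ)) * ((((n : ℤ)) : ℂ)⁻¹) = 1 := by
        push_cast
        exact mul_inv_cancel₀ (by exact_mod_cast hn.pos.ne')
      rw [this, one_pow]
    rw [this, one_smul]
  rw [h4, res_smul, mul_smul]
  congr 1
  rw [e3, sl_mul_right]
  funext τ
  rw [res_sl_ut (Wt_sl hF _)]
  simp only [Pi.smul_apply, smul_eq_mul, Int.cast_natCast]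

/-- **stability under `G2`** -/
theorem Cin_G2 {I : AddSubgroup ℂ} (hI : OddStable I) {k : ℕ} {F : X → ℂ} (hF : F ∈ Wt k)
    (h : ∀ γ : SL(2, ℤ), Cin I (res (sl F (sG γ)))) {δ : GL(2, ℝ)⁺} (hδ : δ ∈ G2) :
    Cin I (res (sl F δ)) := by
  obtain ⟨n, γ, a, b, d, hut, hn, ha, hd, e⟩ := G2_decomp hδ
  rw [e k F hF]
  apply Cin_smul
  · intro x hx
    have h1 : (((n : ℂ)) ^ k * (((d : ℕ) : ℂ)⁻¹) ^ k) * x =
        ((n ^ k : ℕ) : ℂ) * ((((d ^ k : ℕ) : ℂ))⁻¹ * x) := by push_cast; rw [inv_pow]; ring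
    rw [h1]
    exact OddStable.nat_mul _ (hI.inv_mem _ hd.pow x hx)
  exact Cin_comp_ut hI (h γ) ha hd hut

/-! ### the subgroups `O` and `2 O` -/

/-- `2 O` as an additive subgroup -/
def twoO (O : Subring ℂ) : AddSubgroup ℂ where
  carrier := {x | ∃ y ∈ O, x = 2 * y}
  add_mem' := by
    rintro _ _ ⟨x, hx, rfl⟩ ⟨y, hy, rfl⟩
    exact ⟨x + y, O.add_mem hx hy, by ring⟩
  zero_mem' := ⟨0, O.zero_mem, by simp⟩
  neg_mem' := by
    rintro _ ⟨x, hx, rfl⟩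
    exact ⟨-x, O.neg_mem hx, by ring⟩

lemma mem_twoO {O : Subring ℂ} {x : ℂ} : x ∈ twoO O ↔ ∃ y ∈ O, x = 2 * y := Iff.rfl

lemma oddStable_O {O : Subring ℂ} (hinv : ∀ n : ℕ, Odd n → (n : ℂ)⁻¹ ∈ O)
    (hroot : ∀ r : ℚ, Odd r.den → ee r ∈ O) : OddStable O.toAddSubgroup where
  inv_mem n hn _ hx := O.mul_mem (hinv n hn) hx
  root_mem r hr _ hx := O.mul_mem (hroot r hr) hx

lemma oddStable_twoO {O : Subring ℂ} (hinv : ∀ n : ℕ, Odd n → (n : ℂ)⁻¹ ∈ O)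
    (hroot : ∀ r : ℚ, Odd r.den → ee r ∈ O) : OddStable (twoO O) where
  inv_mem n hn x hx := by
    obtain ⟨y, hy, rfl⟩ := hx
    exact ⟨_, O.mul_mem (hinv n hn) hy, by ring⟩
  root_mem r hr x hx := by
    obtain ⟨y, hy, rfl⟩ := hx
    exact ⟨_, O.mul_mem (hroot r hr) hy, by ring⟩

lemma Cin_O_iff {O : Subring ℂ} {f : ℍ → ℂ} : Cin O.toAddSubgroup f ↔ f ∈ Mix.IntO O := Iff.rfl

lemma Cin_twoO_iff {O : Subring ℂ} {f : ℍ → ℂ} : Cin (twoO O) f ↔ f ∈ PO ∧ Mix.Two O f := Iff.rfl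

end Crest.Agent.R007.EH
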