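import Mathlib

/-!
Row 7, section F (helper507): the action of `κ`-algebra automorphisms of `κ⟦t⟧` on
`V = κ((t)) / κ⟦t⟧`, and smoothness.
-/

set_option autoImplicit false

open PowerSeries

namespace Crest.Agent.R007.F

section

variable (κ : Type*) [Field κ]

lemma algMap_smul (c : κ) (a : PowerSeries κ) :
    algebraMap (PowerSeries κ) (LaurentSeries κ) (c • a) =
      c • algebraMap (PowerSeries κ) (LaurentSeries κ) a := by
  rw [LaurentSeries.coe_algebraMap]
  exact PowerSeries.coe_smul c a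

/-- `κ⟦t⟧ ⊆ κ((t))` as a `κ`-subspace -/
noncomputable def intSub : Submodule κ (LaurentSeries κ) where
  carrier := Set.range (algebraMap (PowerSeries κ) (LaurentSeries κ))
  add_mem' := by
    rintro _ _ ⟨a, rfl⟩ ⟨b, rfl⟩
    exact ⟨a + b, map_add _ _ _⟩
  zero_mem' := ⟨0, map_zero _⟩
  smul_mem' := by
    rintro c _ ⟨a, rfl⟩
    exact ⟨c • a, algMap_smul κ c a⟩

/-- `V = K / R` -/
abbrev KR : Type _ := LaurentSeries κ ⧸ intSub κ

variable {κ}

/-- the extension of an automorphism of `R` to `K`, as a group homomorphism -/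
noncomputable def extK : (PowerSeries κ ≃ₐ[κ] PowerSeries κ) →* (LaurentSeries κ ≃+* LaurentSeries κ) :=
  (IsFractionRing.ringEquivOfRingEquivHom (PowerSeries κ) (LaurentSeries κ)).comp
    { toFun := fun s => (s : PowerSeries κ ≃+* PowerSeries κ)
      map_one' := rfl
      map_mul' := fun _ _ => rfl }

lemma extK_algebraMap (s : PowerSeries κ ≃ₐ[κ] PowerSeries κ) (a : PowerSeries κ) :
    extK s (algebraMap (PowerSeries κ) (LaurentSeries κ) a) =
      algebraMap (PowerSeries κ) (LaurentSeries κ) (s a) :=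
  IsFractionRing.ringEquivOfRingEquiv_algebraMap (s : PowerSeries κ ≃+* PowerSeries κ) a

lemma smul_eq_algebraMap_C (c : κ) (x : LaurentSeries κ) :
    c • x = algebraMap (PowerSeries κ) (LaurentSeries κ) (C c) * x := by
  rw [LaurentSeries.coe_algebraMap, HahnSeries.ofPowerSeries_C, HahnSeries.C_mul_eq_smul]

lemma extK_smul (s : PowerSeries κ ≃ₐ[κ] PowerSeries κ) (c : κ) (x : LaurentSeries κ) :
    extK s (c • x) = c • extK s x := by
  rw [smul_eq_algebraMap_C, map_mul, extK_algebraMap, smul_eq_algebraMap_C]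
  congr 2
  exact s.commutes c

/-- the `κ`-linear version -/
noncomputable def extKL (s : PowerSeries κ ≃ₐ[κ] PowerSeries κ) :
    LaurentSeries κ →ₗ[κ] LaurentSeries κ where
  toFun := extK s
  map_add' := map_add _
  map_smul' := fun c x => extK_smul s c x

lemma extKL_mem (s : PowerSeries κ ≃ₐ[κ] PowerSeries κ) :
    intSub κ ≤ (intSub κ).comap (extKL s) := by
  rintro _ ⟨a, rfl⟩
  exact ⟨s a, (extK_algebraMap s a).symm⟩

/-- the action on `V = K/R` -/
noncomputable def actKR : (PowerSeries κ ≃ₐ[κ] PowerSeries κ) →* Module.End κ (KR κ) where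
  toFun s := (intSub κ).mapQ (intSub κ) (extKL s) (extKL_mem s)
  map_one' := by
    ext x
    simp only [LinearMap.coe_comp, Function.comp_apply, Submodule.mkQ_apply, Submodule.mapQ_apply]
    change Submodule.Quotient.mk (extK 1 x) = _
    rw [map_one]
    rfl
  map_mul' s t := by
    ext x
    simp only [LinearMap.coe_comp, Function.comp_apply, Submodule.mkQ_apply, Submodule.mapQ_apply]
    change Submodule.Quotient.mk (extK (s * t) x) = _
    rw [map_mul]
    rfl

@[simp] lemma actKR_mk (s : PowerSeries κ ≃ₐ[κ] PowerSeries κ) (x : LaurentSeries κ) :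
    actKR s (Submodule.Quotient.mk x : KR κ) = Submodule.Quotient.mk (extK s x) := rfl

/-- every element of `K` is `a / t^j` -/
lemma exists_div (x : LaurentSeries κ) : ∃ (j : ℕ) (a : PowerSeries κ),
    x * algebraMap (PowerSeries κ) (LaurentSeries κ) X ^ j =
      algebraMap (PowerSeries κ) (LaurentSeries κ) a := by
  obtain ⟨⟨a, ⟨_, j, rfl⟩⟩, h⟩ := IsLocalization.surj (Submonoid.powers (X : PowerSeries κ)) x
  refine ⟨j, a, ?_⟩
  simpa using h

/-- smoothness: an automorphism which is the identity modulo `t^M` fixes `t^{-j} R / R` for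
`j + 1 ≤ M` -/
theorem actKR_fix {M j : ℕ} (hj : j + 1 ≤ M) (s : PowerSeries κ ≃ₐ[κ] PowerSeries κ)
    (hs : ∀ a : PowerSeries κ, X ^ M ∣ s a - a) (x : LaurentSeries κ) (a : PowerSeries κ)
    (hx : x * algebraMap (PowerSeries κ) (LaurentSeries κ) X ^ j =
      algebraMap (PowerSeries κ) (LaurentSeries κ) a) :
    actKR s (Submodule.Quotient.mk x : KR κ) = Submodule.Quotient.mk x := by
  rw [actKR_mk, Submodule.Quotient.eq]
  rcases Nat.eq_zero_or_pos j with rfl | hjpos
  · rw [pow_zero, mul_one] at hx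
    subst hx
    rw [extK_algebraMap]
    exact (intSub κ).sub_mem ⟨_, rfl⟩ ⟨_, rfl⟩
  obtain ⟨m, rfl⟩ : ∃ m, M = m + 1 := ⟨M - 1, by omega⟩
  have hm : j ≤ m := by omega
  obtain ⟨b, hb⟩ := hs X
  have hsX : s X = X * (1 + X ^ m * b) := by
    have : s X = X + X ^ (m + 1) * b := by rw [← hb]; ring
    rw [this]; ring
  have hu : IsUnit (1 + X ^ m * b : PowerSeries κ) := by
    rw [PowerSeries.isUnit_iff_constantCoeff]
    have : m ≠ 0 := by omega
    simp [this]
  obtain ⟨u, hu⟩ := hu
  rw [← hu] at hsX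
  -- `X^m ∣ u^j - 1`
  have h1 : (X : PowerSeries κ) ^ m ∣ (u : PowerSeries κ) ^ j - 1 := by
    have : (u : PowerSeries κ) - 1 ∣ (u : PowerSeries κ) ^ j - 1 := by
      simpa using sub_dvd_pow_sub_pow (u : PowerSeries κ) 1 j
    refine dvd_trans ?_ this
    rw [hu]
    exact ⟨b, by ring⟩
  have h2 : (X : PowerSeries κ) ^ m ∣ s a - a * (u : PowerSeries κ) ^ j := by
    have e : s a - a * (u : PowerSeries κ) ^ j =
        (s a - a) - a * ((u : PowerSeries κ) ^ j - 1) := by ring
    rw [e]
    exact dvd_sub ((pow_dvd_pow _ (Nat.le_succ m)).trans (hs a)) (h1.mul_left _)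
  obtain ⟨w, hw⟩ := (pow_dvd_pow (X : PowerSeries κ) hm).trans h2
  refine ⟨w * ((u⁻¹ : (PowerSeries κ)ˣ) : PowerSeries κ) ^ j, ?_⟩
  set φ := algebraMap (PowerSeries κ) (LaurentSeries κ) with hφ
  have hX0 : φ X ≠ 0 := by
    rw [Ne, map_eq_zero_iff φ (IsFractionRing.injective (PowerSeries κ) (LaurentSeries κ))]
    exact PowerSeries.X_ne_zero
  have hu0 : φ (u : PowerSeries κ) ≠ 0 := by
    rw [Ne, map_eq_zero_iff φ (IsFractionRing.injective (PowerSeries κ) (LaurentSeries κ))]
    exact u.ne_zero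
  have hx2 : extK s x * (φ X * φ (u : PowerSeries κ)) ^ j = φ (s a) := by
    have := congrArg (extK s) hx
    rw [map_mul, map_pow, extK_algebraMap, extK_algebraMap, hsX, map_mul] at this
    exact this
  have hinv : φ ((u⁻¹ : (PowerSeries κ)ˣ) : PowerSeries κ) * φ (u : PowerSeries κ) = 1 := by
    rw [← map_mul, Units.inv_mul, map_one]
  have hkey : (extK s x - x) * (φ X * φ (u : PowerSeries κ)) ^ j =
      φ w * φ X ^ j := by
    have e1 : x * (φ X * φ (u : PowerSeries κ)) ^ j = φ a * φ (u : PowerSeries κ) ^ j := by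
      rw [mul_pow, ← mul_assoc, hx]
    rw [sub_mul, hx2, e1, ← map_pow, ← map_mul, ← map_sub, hw, map_mul, map_pow]
    ring
  have hne : (φ X * φ (u : PowerSeries κ)) ^ j ≠ 0 := pow_ne_zero _ (mul_ne_zero hX0 hu0)
  apply mul_right_cancel₀ hne
  rw [hkey, map_mul, map_pow, mul_pow]
  have : φ ((u⁻¹ : (PowerSeries κ)ˣ) : PowerSeries κ) ^ j * φ (u : PowerSeries κ) ^ j = 1 := by
    rw [← mul_pow, hinv, one_pow]
  linear_combination (φ w * φ X ^ j) * this

/-- smoothness of the action on `V`: every vector is fixed by all automorphisms which are the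
identity modulo a high power of `t` -/
theorem actKR_smooth (v : KR κ) : ∃ M₀ : ℕ, ∀ M, M₀ ≤ M →
    ∀ s : PowerSeries κ ≃ₐ[κ] PowerSeries κ, (∀ a : PowerSeries κ, X ^ M ∣ s a - a) →
      actKR s v = v := by
  obtain ⟨x, rfl⟩ := Submodule.Quotient.mk_surjective _ v
  obtain ⟨j, a, h⟩ := exists_div x
  exact ⟨j + 1, fun M hM s hs => actKR_fix hM s hs x a h⟩

/-- restriction of scalars as a monoid homomorphism of endomorphism rings -/
noncomputable def endRestrict (F : Type*) [Field F] [Algebra F κ] (V : Type*) [AddCommGroup V]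
    [Module κ V] [Module F V] [IsScalarTower F κ V] : Module.End κ V →* Module.End F V where
  toFun f := f.restrictScalars F
  map_one' := rfl
  map_mul' _ _ := rfl

end

end Crest.Agent.R007.F
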