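import Crest.Agent.R007.ECore2
import Crest.Agent.R007.FAct

/-!
Row 7, section E (helper853): the step `e ↦ e'_δ` (pure algebra).

`ψ = e(· ∥ δ)`, `ψ A₁ = t`, `ψ A₃ = u³` a unit, `s t = t / u`, `e' = s⁻¹ (u^{-k} ψ)`.
-/

set_option autoImplicit false

open PowerSeries Crest.LubinTate

namespace Crest.Agent.R007.EStep

open Crest.Agent.R007.F

section Regular

variable {κ : Type*} [Field κ]

/-- the cross-multiplied Hecke formula gives the formula in `K = κ((t))` -/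
theorem ext_of_cross (s : PowerSeries κ ≃ₐ[κ] PowerSeries κ) {k : ℕ} {a b : PowerSeries κ}
    (h : a * s X ^ k = s b * X ^ k) :
    algebraMap (PowerSeries κ) (LaurentSeries κ) a /
        algebraMap (PowerSeries κ) (LaurentSeries κ) X ^ k =
      extK s (algebraMap (PowerSeries κ) (LaurentSeries κ) b /
        algebraMap (PowerSeries κ) (LaurentSeries κ) X ^ k) := by
  have hinj := IsFractionRing.injective (PowerSeries κ) (LaurentSeries κ)
  have hX : algebraMap (PowerSeries κ) (LaurentSeries κ) X ≠ 0 := by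
    intro h0
    exact X_ne_zero (hinj (h0.trans (map_zero _).symm))
  have hsX : algebraMap (PowerSeries κ) (LaurentSeries κ) (s X) ≠ 0 := by
    intro h0
    have h1 : s X = 0 := hinj (h0.trans (map_zero _).symm)
    exact X_ne_zero (s.injective (h1.trans (map_zero s).symm))
  rw [map_div₀, map_pow, extK_algebraMap, extK_algebraMap, div_eq_div_iff (pow_ne_zero _ hX)
    (pow_ne_zero _ hsX)]
  have := congrArg (algebraMap (PowerSeries κ) (LaurentSeries κ)) h
  rwa [map_mul, map_mul, map_pow, map_pow] at this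

/-- regularity is transported -/
theorem dvd_of_cross (s : PowerSeries κ ≃ₐ[κ] PowerSeries κ) {k : ℕ} {a b : PowerSeries κ}
    (h : a * s X ^ k = s b * X ^ k) : X ^ k ∣ a ↔ X ^ k ∣ b := by
  have hsX : s X ≠ 0 := by
    intro h0
    exact X_ne_zero (s.injective (h0.trans (map_zero s).symm))
  constructor
  · rintro ⟨r, rfl⟩
    have h1 : s b = r * s X ^ k := by
      have hX : (X : PowerSeries κ) ^ k ≠ 0 := pow_ne_zero _ X_ne_zero
      apply mul_right_cancel₀ hX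
      rw [← h]; ring
    refine ⟨s.symm r, ?_⟩
    apply s.injective
    rw [h1, map_mul, map_pow, s.apply_symm_apply, mul_comm]
  · rintro ⟨r, rfl⟩
    refine ⟨s r, ?_⟩
    apply mul_right_cancel₀ (pow_ne_zero k hsX)
    rw [h, map_mul, map_pow]; ring

end Regular

variable {κ : Type*} [Field κ] [CharP κ 2]

/-- `(s, H) ∈ Pr D` from a homomorphism `Φ(t,b) → Φ(t,1)`, `b = u³`, `s t = t/u`. -/
theorem exists_pr (D : FData κ)
    (Phi : PowerSeries κ → PowerSeries κ → FormalGroup (PowerSeries κ))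
    (hPhi : ∀ (f : PowerSeries κ →+* PowerSeries κ) (a b : PowerSeries κ),
      (Phi a b).map f = Phi (f a) (f b)) (hD : D.Φ = Phi X 1)
    (hsc : ∀ u a b : PowerSeries κ, IsUnit u → ∃ G, IsFGHom (Phi a b) (Phi (u * a) (u ^ 3 * b)) G ∧
      IsUnit (coeff 1 G))
    {b u v : PowerSeries κ} (hu3 : u ^ 3 = b) (huv : u * v = 1)
    (s : PowerSeries κ ≃ₐ[κ] PowerSeries κ) (hs : s X = X * v)
    {H : PowerSeries (PowerSeries κ)} (hH : IsFGHom (Phi X b) (Phi X 1) H)
    (hu : IsUnit (coeff 1 H)) : ∃ p : Pr D, p.s = s := by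
  have hvu : IsUnit v := IsUnit.of_mul_eq_one u (by rw [mul_comm]; exact huv)
  -- `Φ(t, b) → Φ(v t, v³ b) = Φ(t/u, 1)`
  obtain ⟨G, hG, hGu⟩ := hsc v X b hvu
  have e1 : v ^ 3 * b = 1 := by rw [← hu3, ← mul_pow, mul_comm v u, huv, one_pow]
  rw [e1] at hG
  have hsΦ : D.Φ.map (s : PowerSeries κ →+* PowerSeries κ) = Phi (v * X) 1 := by
    rw [hD, hPhi]
    congr 1
    · exact hs.trans (mul_comm _ _)
    · exact map_one s
  obtain ⟨H', hH', -, -, hH'u⟩ := R227.IsFGHom.exists_inv hH hu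
  have hcomp : IsFGHom D.Φ (D.Φ.map (s : PowerSeries κ →+* PowerSeries κ)) (subst H' G) := by
    rw [hsΦ, hD]
    exact R227.IsFGHom.comp hH' hG
  have hc1 : coeff 1 (subst H' G) = coeff 1 G * coeff 1 H' := by
    rw [coeff_one_subst hH'.1]
  obtain ⟨p, hp, -⟩ := Pr.ofHom D (s : PowerSeries κ →ₐ[κ] PowerSeries κ) hcomp
    (by rw [hc1]; exact hGu.mul hH'u)
  exact ⟨p, AlgEquiv.ext hp⟩

variable [IsAlgClosed κ] {L : Type*} [CommRing L]

/-- THE STEP `e ↦ e'_δ`. -/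
theorem step (A : ℕ → AddSubgroup L) (h1 : (1 : L) ∈ A 0)
    (hmul : ∀ (i j : ℕ) (a b : L), a ∈ A i → b ∈ A j → a * b ∈ A (i + j))
    (hint : DirectSum.IsInternal A) {A1 A3 : L} (hA1 : A1 ∈ A 1) (hA3 : A3 ∈ A 3)
    (D : FData κ) (Phi : PowerSeries κ → PowerSeries κ → FormalGroup (PowerSeries κ))
    (hPhi : ∀ (f : PowerSeries κ →+* PowerSeries κ) (a b : PowerSeries κ),
      (Phi a b).map f = Phi (f a) (f b)) (hD : D.Φ = Phi X 1)
    (hsc : ∀ u a b : PowerSeries κ, IsUnit u → ∃ G, IsFGHom (Phi a b) (Phi (u * a) (u ^ 3 * b)) G ∧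
      IsUnit (coeff 1 G))
    (ψ : L →+* PowerSeries κ) (hψ1 : ψ A1 = X) (hψ3 : IsUnit (ψ A3))
    {H : PowerSeries (PowerSeries κ)} (hH : IsFGHom (Phi (ψ A1) (ψ A3)) (Phi X 1) H)
    (hu : IsUnit (coeff 1 H)) :
    ∃ (p : Pr D) (e' : L →+* PowerSeries κ), e' A1 = X ∧ e' A3 = 1 ∧
      (∀ a ∈ A 0, ∀ c : κ, ψ a = C c → e' a = C c) ∧
      (∀ k, ∀ F ∈ A k, ψ F * p.s X ^ k = p.s (e' F) * X ^ k) := by
  obtain ⟨u, huu, hu3⟩ := ECore2.exists_cube_root hψ3
  obtain ⟨v, huv⟩ := huu.exists_right_inv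
  have hvu : IsUnit v := IsUnit.of_mul_eq_one u (by rw [mul_comm]; exact huv)
  obtain ⟨s, hs⟩ := ECore2.exists_aut hvu
  rw [hψ1] at hH
  obtain ⟨p, hp⟩ := exists_pr D Phi hPhi hD hsc hu3 huv s hs hH hu
  obtain ⟨χ, hχ⟩ := ECore2.exists_twist' A h1 hmul hint ψ v
  refine ⟨p, (s.symm : PowerSeries κ →+* PowerSeries κ).comp χ, ?_, ?_, ?_, ?_⟩
  · have : χ A1 = s X := by rw [hχ 1 A1 hA1, hψ1, hs, pow_one, mul_comm]
    change s.symm (χ A1) = X
    rw [this, s.symm_apply_apply]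
  · have : χ A3 = 1 := by
      rw [hχ 3 A3 hA3, ← hu3, ← mul_pow, mul_comm v u, huv, one_pow]
    change s.symm (χ A3) = 1
    rw [this, map_one]
  · intro a ha c hc
    change s.symm (χ a) = C c
    rw [hχ 0 a ha, pow_zero, one_mul, hc]
    exact s.symm.commutes c
  · intro k F hF
    have : s (s.symm (χ F)) = v ^ k * ψ F := by rw [s.apply_symm_apply, hχ k F hF]
    rw [hp]
    change ψ F * s X ^ k = s (s.symm (χ F)) * X ^ k
    rw [this, hs]; ring

end Crest.Agent.R007.EStep
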