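import Crest.Agent.R007.EL
import Crest.Agent.R007.EStep

/-!
Row 7, section E (helper853): `EIn`, the input of the assembly of section E.
-/

set_option autoImplicit false

namespace Crest.Agent.R007.EL

open UpperHalfPlane ModularForm CongruenceSubgroup Matrix Crest.LubinTate
open Crest.Agent.R007.Lat Crest.Agent.R007.Mix
open scoped MatrixGroups Manifold ModularForm

/-- `Δ = A₃³ (A₁³ - 27 A₃)` -/
def Disc (A1 A3 : X → ℂ) : X → ℂ := A3 ^ 3 * (A1 ^ 3 - 27 * A3)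

/-- the points `Pt₀`: `e : L → κ⟦t⟧` over `O → κ` with `e A₁ = t`, `e A₃ = 1`. -/
structure IsPt {O : Subring ℂ} {κ : Type*} [Field κ] (ρ : O →+* κ) (A1 A3 : LL O)
    (e : LL O →+* PowerSeries κ) : Prop where
  c : ∀ c : O, e (cst O c) = PowerSeries.C (ρ c)
  A1 : e A1 = PowerSeries.X
  A3 : e A3 = 1

/-- THE INPUT of the assembly of section E. -/
structure EIn (O : Subring ℂ) {κ : Type*} [Field κ] [CharP κ 2] (ρ : O →+* κ) where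
  ρ_surj : Function.Surjective ρ
  ρ_ker : ∀ c : O, ρ c = 0 ↔ ∃ d : O, c = 2 * d
  A1 : X → ℂ
  A3 : X → ℂ
  A1_mem : A1 ∈ Lk O 1
  A3_mem : A3 ∈ Lk O 3
  /-- HASSE at infinity -/
  hasse_inf : Two O (res A1 - 1)
  /-- HASSE -/
  hasse : ∀ δ ∈ G2, ∃ G ∈ Lk O 1, sl A1 δ = A1 + 2 * G
  /-- `A₃ ∥ δ` divides a power of `Δ` in `L` -/
  unit : ∀ δ ∈ G2, ∃ (j : ℕ) (G : X → ℂ), G ∈ LL O ∧ sl A3 δ * G = (Disc A1 A3) ^ j
  /-- level one modulo 2 -/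
  lev1 : ∀ (k : ℕ) (F : X → ℂ), F ∈ Lk O k → F ∈ MX 1 k → ∃ (c : ℕ → O) (G : X → ℂ), G ∈ Lk O k ∧
    F = ∑ i ∈ Finset.range (k / 12 + 1), (c i : ℂ) • ((Disc A1 A3) ^ i * A1 ^ (k - 12 * i)) + 2 * G
  /-- the `q`-expansion principle (section D) -/
  qprin : ∀ (k : ℕ) (F : X → ℂ), F ∈ Lk O k → Two O (res F) → ∃ G ∈ Lk O k, F = 2 * G
  /-- the formal group over `κ⟦t⟧` -/
  D : F.FData κ
  Phi : PowerSeries κ → PowerSeries κ → FormalGroup (PowerSeries κ)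
  Phi_map : ∀ (f : PowerSeries κ →+* PowerSeries κ) (a b : PowerSeries κ),
    (Phi a b).map f = Phi (f a) (f b)
  Phi_D : D.Φ = Phi PowerSeries.X 1
  Phi_sc : ∀ u a b : PowerSeries κ, IsUnit u →
    ∃ G, IsFGHom (Phi a b) (Phi (u * a) (u ^ 3 * b)) G ∧ IsUnit (PowerSeries.coeff 1 G)
  /-- 801: `H_δ` -/
  fg : ∀ e : LL O →+* PowerSeries κ, IsPt ρ (mkL O A1 A1_mem) (mkL O A3 A3_mem) e →
    ∀ (δ : GL(2, ℝ)⁺) (hδ : δ ∈ G2), ∃ H,
      IsFGHom (Phi (e (slL O δ hδ (mkL O A1 A1_mem))) (e (slL O δ hδ (mkL O A3 A3_mem))))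
        (Phi PowerSeries.X 1) H ∧ IsUnit (PowerSeries.coeff 1 H)
  /-- 938/879: existence of points -/
  exists_pt : ∃ e : LL O →+* PowerSeries κ, IsPt ρ (mkL O A1 A1_mem) (mkL O A3 A3_mem) e

end Crest.Agent.R007.EL
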