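import Crest.Agent.R007.ELev1
import Crest.Agent.R007.EHasse
import Crest.Agent.R007.EIn

/-!
R007/EInLev: the field `lev1` of `EIn`, in its exact form.
-/

set_option autoImplicit false

namespace Crest.Agent.R007.Lev1

open UpperHalfPlane ModularForm CongruenceSubgroup
open Crest.Agent.R007.Rat Crest.Agent.R007.Tc Crest.Agent.R007.Lat Crest.Agent.R007.Mix
open scoped MatrixGroups Manifold

noncomputable section

variable {O : Subring ℂ} {v : Fin 2 → ℤ}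

lemma lift_isR_mem (hO : OddRing O) (k : ℕ) (G : ℍ → ℂ) (h : IsR O 3 k G) :
    Lat.lift k G ∈ Mix.Lk O k := EH.isR_mem_Lk hO (by decide) h

lemma AX_mem (hO : OddRing O) (hv : NZ 3 v) : AX v ∈ Mix.Lk O 1 :=
  lift_isR_mem hO 1 _ (by exact_mod_cast isR_A1 hO hv)

lemma BX_mem (hO : OddRing O) (hv : NZ 3 v) : BX v ∈ Mix.Lk O 3 :=
  lift_isR_mem hO 3 _ (by exact_mod_cast isR_A3 hO hv)

lemma Disc_eq (hv : NZ 3 v) : EL.Disc (AX v) (BX v) = DX := (DX_eq hv).symm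

theorem lev1_EIn (hO : OddRing O) (hv : NZ 3 v) : ∀ (k : ℕ) (F : X → ℂ), F ∈ Mix.Lk O k →
    F ∈ MX 1 k → ∃ (c : ℕ → O) (G : X → ℂ), G ∈ Mix.Lk O k ∧
    F = ∑ i ∈ Finset.range (k / 12 + 1),
      (c i : ℂ) • ((EL.Disc (AX v) (BX v)) ^ i * AX v ^ (k - 12 * i)) + 2 * G := by
  intro k F hF h1
  obtain ⟨c, hc, G, hG, e⟩ := lev1_X hO hv (lift_isR_mem hO) hF h1
  refine ⟨fun i => ⟨c i, hc i⟩, G, hG, ?_⟩
  rw [Disc_eq hv, two_mul_eq_smul]
  exact e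

end

end Crest.Agent.R007.Lev1
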