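import Crest.Agent.R007.Mix1

/-!
Row 7, section E (helper853): the graded ring `L = ⨁ L_k` (all odd levels) and its subring of level `M`,
with the action of `SL(2,ℤ) ⧸ Γ(M)`; the reduced `q`-expansion.
-/

set_option autoImplicit false

namespace Crest.Agent.R007.EL

open UpperHalfPlane ModularForm CongruenceSubgroup Matrix
open Crest.Agent.R007.Lat Crest.Agent.R007.Mix
open scoped MatrixGroups Manifold ModularForm

/-! ### sums of a graded family -/

/-- a multiplicative family of pure weights -/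
structure Fam (B : ℕ → AddSubgroup (X → ℂ)) : Prop where
  one : (1 : X → ℂ) ∈ B 0
  mul : ∀ {i j : ℕ} {F G : X → ℂ}, F ∈ B i → G ∈ B j → F * G ∈ B (i + j)
  wt : ∀ {k : ℕ} {F : X → ℂ}, F ∈ B k → F ∈ Wt k

section SR

variable {B : ℕ → AddSubgroup (X → ℂ)} (hB : Fam B)

/-- finite sums of elements of the `B k` -/
def SR (hB : Fam B) : Subring (X → ℂ) where
  carrier := {F | ∃ (n : ℕ) (f : ℕ → X → ℂ), (∀ k, f k ∈ B k) ∧ F = ∑ k ∈ Finset.range n, f k}
  mul_mem' := by
    rintro F G ⟨n, f, hf, rfl⟩ ⟨m, g, hg, rfl⟩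
    refine ⟨n + m, fun k => ∑ p ∈ (Finset.range n ×ˢ Finset.range m) with p.1 + p.2 = k, f p.1 * g p.2,
      fun k => sum_mem fun p hp => ?_, ?_⟩
    · rw [Finset.mem_filter] at hp
      rw [← hp.2]
      exact hB.mul (hf _) (hg _)
    · rw [Finset.sum_mul_sum, ← Finset.sum_product']
      rw [Finset.sum_fiberwise_of_maps_to]
      intro p hp
      rw [Finset.mem_product, Finset.mem_range, Finset.mem_range] at hp
      rw [Finset.mem_range]
      omega
  one_mem' := by
    refine ⟨1, fun k => if k = 0 then 1 else 0, fun k => ?_, by simp⟩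
    show (if k = 0 then (1 : X → ℂ) else 0) ∈ B k
    split_ifs with hk
    · subst hk; exact hB.one
    · exact zero_mem _
  add_mem' := by
    rintro F G ⟨n, f, hf, rfl⟩ ⟨m, g, hg, rfl⟩
    refine ⟨max n m, fun k => (if k < n then f k else 0) + (if k < m then g k else 0), fun k => ?_, ?_⟩
    · refine add_mem ?_ ?_
      · split_ifs
        · exact hf k
        · exact zero_mem _
      · split_ifs
        · exact hg k
        · exact zero_mem _
    · rw [Finset.sum_add_distrib]
      congr 1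
      · rw [← Finset.sum_filter]
        congr 1
        ext k; simp only [Finset.mem_filter, Finset.mem_range]; omega
      · rw [← Finset.sum_filter]
        congr 1
        ext k; simp only [Finset.mem_filter, Finset.mem_range]; omega
  zero_mem' := ⟨0, fun _ => 0, fun k => zero_mem _, by simp⟩
  neg_mem' := by
    rintro F ⟨n, f, hf, rfl⟩
    exact ⟨n, fun k => - f k, fun k => neg_mem (hf k), by simp⟩

theorem mem_SR {F : X → ℂ} : F ∈ SR hB ↔
    ∃ (n : ℕ) (f : ℕ → X → ℂ), (∀ k, f k ∈ B k) ∧ F = ∑ k ∈ Finset.range n, f k := Iff.rfl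

theorem le_SR {k : ℕ} {F : X → ℂ} (hF : F ∈ B k) : F ∈ SR hB := by
  refine ⟨k + 1, fun j => if j = k then F else 0, fun j => ?_, by simp⟩
  show (if j = k then F else 0) ∈ B j
  split_ifs with h
  · subst h; exact hF
  · exact zero_mem _

/-- the piece of weight `k` -/
def pc (hB : Fam B) (k : ℕ) : AddSubgroup (SR hB) :=
  (B k).comap (SR hB).subtype.toAddMonoidHom

theorem mem_pc {k : ℕ} {x : SR hB} : x ∈ pc hB k ↔ (x : X → ℂ) ∈ B k := Iff.rfl

theorem pc_one : (1 : SR hB) ∈ pc hB 0 := hB.one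

theorem pc_mul (i j : ℕ) (a b : SR hB) (ha : a ∈ pc hB i) (hb : b ∈ pc hB j) :
    a * b ∈ pc hB (i + j) := hB.mul ha hb

theorem pc_internal : DirectSum.IsInternal (pc hB) := by
  classical
  constructor
  · rw [injective_iff_map_eq_zero]
    intro x hx
    ext k
    have h0 : ∑ i ∈ x.support, ((x i : SR hB) : X → ℂ) = 0 := by
      have h1 := congrArg (Subtype.val : SR hB → X → ℂ) hx
      rw [DirectSum.coeAddMonoidHom_eq_dfinsuppSum] at h1
      refine Eq.trans ?_ (h1.trans rfl)
      rw [DFinsupp.sum]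
      exact (map_sum (SR hB).subtype _ _).symm
    let n := x.support.sup id + 1 + k + 1
    have h2 : ∑ i ∈ Finset.range n, ((x i : SR hB) : X → ℂ) = 0 := by
      rw [← h0]
      symm
      apply Finset.sum_subset
      · intro i hi
        rw [Finset.mem_range]
        have := Finset.le_sup (f := id) hi
        simp only [id] at this
        omega
      · intro i _ hi
        rw [DFinsupp.notMem_support_iff] at hi
        rw [hi]; rfl
    have h3 := Wt_indep (n := n) (F := fun i => ((x i : SR hB) : X → ℂ))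
      (fun i => hB.wt (x i).2) h2 k (by omega)
    have h4 : (x k : SR hB) = 0 := Subtype.ext h3
    rw [h4]; rfl
  · rintro ⟨F, n, f, hf, rfl⟩
    refine ⟨∑ k ∈ Finset.range n, DirectSum.of (fun k => pc hB k) k ⟨⟨f k, le_SR hB (hf k)⟩, hf k⟩, ?_⟩
    rw [map_sum]
    apply Subtype.ext
    simp only [DirectSum.coeAddMonoidHom_of]
    exact map_sum (SR hB).subtype _ _

/-- the slash action on `SR` -/
noncomputable def slR (hB : Fam B) (g : GL(2, ℝ)⁺) (hg : ∀ k, ∀ F ∈ B k, sl F g ∈ B k) :
    SR hB →+* SR hB where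
  toFun x := ⟨sl x g, by
    obtain ⟨n, f, hf, h⟩ := x.2
    refine ⟨n, fun k => sl (f k) g, fun k => hg k _ (hf k), ?_⟩
    rw [h, sl_sum]⟩
  map_one' := rfl
  map_mul' _ _ := rfl
  map_zero' := rfl
  map_add' _ _ := rfl

@[simp] theorem slR_coe (g : GL(2, ℝ)⁺) (hg : ∀ k, ∀ F ∈ B k, sl F g ∈ B k) (x : SR hB) :
    ((slR hB g hg x : SR hB) : X → ℂ) = sl x g := rfl

end SR

/-! ### `L` -/

variable (O : Subring ℂ)

theorem famL : Fam (Lk O) := ⟨Lk_one, fun h h' => Lk_mul h h', fun h => MO_le_Wt h.1⟩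

/-- `L`, all odd levels -/
abbrev LL : Subring (X → ℂ) := SR (famL O)

/-- the piece of weight `k` of `L` -/
abbrev piece (k : ℕ) : AddSubgroup (LL O) := pc (famL O) k

/-- the slash action of `G2` on `L` -/
noncomputable abbrev slL (g : GL(2, ℝ)⁺) (hg : g ∈ G2) : LL O →+* LL O :=
  slR (famL O) g (fun _ _ hF => Lk_sl hF hg)

/-- elements of `L` from elements of `L_k` -/
def mkL {k : ℕ} (F : X → ℂ) (hF : F ∈ Lk O k) : LL O := ⟨F, le_SR (famL O) hF⟩

@[simp] theorem mkL_coe {k : ℕ} (F : X → ℂ) (hF : F ∈ Lk O k) : ((mkL O F hF : LL O) : X → ℂ) = F := rfl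

theorem mkL_mem {k : ℕ} (F : X → ℂ) (hF : F ∈ Lk O k) : mkL O F hF ∈ piece O k := hF

/-- constants -/
noncomputable def cst : O →+* LL O where
  toFun c := mkL O ((c : ℂ) • (1 : X → ℂ)) (Lk_smul Lk_one c.2)
  map_one' := Subtype.ext (by simp [mkL])
  map_mul' a b := Subtype.ext (by simp [mkL, smul_smul, mul_comm])
  map_zero' := Subtype.ext (by simp [mkL])
  map_add' a b := Subtype.ext (by simp [mkL, add_smul])

theorem cst_mem (c : O) : cst O c ∈ piece O 0 := Lk_smul Lk_one c.2

@[simp] theorem cst_coe (c : O) : ((cst O c : LL O) : X → ℂ) = (c : ℂ) • (1 : X → ℂ) := rfl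

end Crest.Agent.R007.EL
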