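import Crest.Agent.R007.Lev1
import Crest.Agent.R007.Tc3
import Crest.Agent.R007.Mix1

/-!
R007/ELev1: level one forms modulo 2 are polynomials in `A₁` and `Δ`.
-/

set_option autoImplicit false

namespace Crest.Agent.R007.Lev1

open UpperHalfPlane ModularForm CongruenceSubgroup
open Crest.Agent.R007.Rat Crest.Agent.R007.Tc
open scoped MatrixGroups Manifold

noncomputable section

variable {O : Subring ℂ}

/-- congruence modulo `2` between integral forms of level `Γ(M)` and weight `k` -/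
def Cg (O : Subring ℂ) (M : ℕ) (k : ℤ) (F F' : ℍ → ℂ) : Prop :=
  IsR O M k F' ∧ ∃ G, IsR O M k G ∧ F = F' + (2 : ℂ) • G

lemma two_mem (O : Subring ℂ) : (2 : ℂ) ∈ O := ofNat_mem O 2

lemma Cg.refl {M : ℕ} {k : ℤ} {F : ℍ → ℂ} (h : IsR O M k F) : Cg O M k F F :=
  ⟨h, 0, IsR.zero, by simp⟩

lemma Cg.isR {M : ℕ} [NeZero M] {k : ℤ} {F F' : ℍ → ℂ} (h : Cg O M k F F') : IsR O M k F := by
  obtain ⟨h1, G, hG, rfl⟩ := h
  exact h1.add (hG.smul (two_mem O))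

lemma Cg.mul {M : ℕ} [NeZero M] {k l : ℤ} {F F' H H' : ℍ → ℂ} (h : Cg O M k F F')
    (h' : Cg O M l H H') : Cg O M (k + l) (F * H) (F' * H') := by
  obtain ⟨h1, G, hG, rfl⟩ := h
  obtain ⟨h2, K, hK, rfl⟩ := h'
  refine ⟨h1.mul h2, F' * K + G * H' + (2 : ℂ) • (G * K),
    ((h1.mul hK).add (hG.mul h2)).add ((hG.mul hK).smul (two_mem O)), ?_⟩
  funext τ
  simp only [Pi.mul_apply, Pi.add_apply, Pi.smul_apply, smul_eq_mul]
  ring

lemma Cg.cast {M : ℕ} {k k' : ℤ} {F F' : ℍ → ℂ} (e : k = k') (h : Cg O M k F F') : Cg O M k' F F' :=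
  e ▸ h

lemma Cg.pow {M : ℕ} [NeZero M] {k : ℤ} {F F' : ℍ → ℂ} (h : Cg O M k F F') (n : ℕ) :
    Cg O M ((n : ℤ) * k) (F ^ n) (F' ^ n) := by
  induction n with
  | zero => simpa using Cg.refl (IsR.one (S := O) (M := M))
  | succ n ih =>
    rw [pow_succ, pow_succ]
    exact (ih.mul h).cast (by push_cast; ring)

variable {v : Fin 2 → ℤ}

lemma cg_E4 (hO : OddRing O) (hv : NZ 3 v) : Cg O 3 4 E4 (A1 v ^ 4) := by
  refine ⟨((isR_A1 hO hv).pow 4).cast (by norm_num), (-12 : ℂ) • (A1 v * A3 v),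
    (((isR_A1 hO hv).mul (isR_A3 hO hv)).smul (neg_mem (ofNat_mem O 12))).cast (by norm_num), ?_⟩
  funext τ
  have := E4_eq hv (τ := τ)
  simp only [Pi.mul_apply, Pi.add_apply, Pi.smul_apply, smul_eq_mul, Pi.pow_apply, E4]
  rw [this]
  ring

lemma cg_E6 (hO : OddRing O) (hv : NZ 3 v) : Cg O 3 6 E6 (A1 v ^ 6) := by
  refine ⟨((isR_A1 hO hv).pow 6).cast (by norm_num),
    (-18 : ℂ) • (A1 v ^ 3 * A3 v) + (108 : ℂ) • (A3 v ^ 2),
    (((((isR_A1 hO hv).pow 3).mul (isR_A3 hO hv)).smul (neg_mem (ofNat_mem O 18))).cast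
      (by norm_num)).add ((((isR_A3 hO hv).pow 2).smul (ofNat_mem O 108)).cast (by norm_num)), ?_⟩
  funext τ
  have := E6_eq hv (τ := τ)
  simp only [Pi.mul_apply, Pi.add_apply, Pi.smul_apply, smul_eq_mul, Pi.pow_apply, E6]
  rw [this]
  ring

lemma isR_Dl3 : IsR O 3 12 Dl := IsR.mono_level (one_dvd 3) isR_Dl

/-- statement for one form -/
def Lv (O : Subring ℂ) (v : Fin 2 → ℤ) (k : ℕ) (F : ℍ → ℂ) : Prop :=
  ∃ (c : ℕ → ℂ) (G : ℍ → ℂ), (∀ i, c i ∈ O) ∧ IsR O 3 k G ∧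
    F = ∑ i ∈ Finset.range (k / 12 + 1), c i • (Dl ^ i * A1 v ^ (k - 12 * i)) + (2 : ℂ) • G

lemma Lv.add {k : ℕ} {F F' : ℍ → ℂ} (h : Lv O v k F) (h' : Lv O v k F') : Lv O v k (F + F') := by
  obtain ⟨c, G, hc, hG, e⟩ := h
  obtain ⟨c', G', hc', hG', e'⟩ := h'
  refine ⟨c + c', G + G', fun i => add_mem (hc i) (hc' i), hG.add hG', ?_⟩
  rw [e, e']
  simp only [Pi.add_apply, _root_.add_smul, Finset.sum_add_distrib, _root_.smul_add]
  ring

lemma Lv.smul {k : ℕ} {F : ℍ → ℂ} (h : Lv O v k F) {a : ℂ} (ha : a ∈ O) : Lv O v k (a • F) := by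
  obtain ⟨c, G, hc, hG, e⟩ := h
  refine ⟨fun i => a * c i, a • G, fun i => mul_mem ha (hc i), hG.smul ha, ?_⟩
  rw [e, _root_.smul_add, Finset.smul_sum, smul_comm a (2 : ℂ) G]
  congr 1
  refine Finset.sum_congr rfl fun i _ => ?_
  rw [smul_smul]

lemma Lv.zero {k : ℕ} : Lv O v k 0 := ⟨0, 0, fun _ => zero_mem _, IsR.zero, by simp⟩

theorem lev1_fun (hO : OddRing O) (hv : NZ 3 v) {k : ℕ} {F : ℍ → ℂ} (hF : IsR O 1 k F) :
    Lv O v k F := by
  have h := mem_span hF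
  clear hF
  induction h using Submodule.span_induction with
  | zero => exact Lv.zero
  | add x y _ _ hx hy => exact hx.add hy
  | smul a x _ hx => exact hx.smul a.2
  | mem x hx =>
    obtain ⟨a, b, c, habc, rfl⟩ := hx
    have habc' : 4 * a + 6 * b + 12 * c = k := by exact_mod_cast habc
    have h1 : Cg O 3 ((a : ℤ) * 4 + (b : ℤ) * 6) (E4 ^ a * E6 ^ b) ((A1 v ^ 4) ^ a * (A1 v ^ 6) ^ b) :=
      ((cg_E4 hO hv).pow a).mul ((cg_E6 hO hv).pow b)
    obtain ⟨h2, G, hG, e⟩ := h1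
    have hcle : c ≤ k / 12 := by omega
    refine ⟨fun i => if i = c then 1 else 0, G * Dl ^ c, fun i => ?_, ?_, ?_⟩
    · show (if i = c then (1 : ℂ) else 0) ∈ O
      split_ifs
      · exact one_mem _
      · exact zero_mem _
    · exact (hG.mul (isR_Dl3.pow c)).cast (by rw [← habc']; push_cast; ring)
    · rw [Finset.sum_eq_single c]
      · simp only [if_true]
        rw [e, one_smul, add_mul, smul_mul_assoc]
        congr 1
        have h3 : k - 12 * c = 4 * a + 6 * b := by omega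
        rw [h3, pow_add, pow_mul, pow_mul]
        ring
      · intro i _ hi
        simp [hi]
      · intro hn
        exact absurd (Finset.mem_range.2 (by omega)) hn

/-! ### on `X` -/

open Crest.Agent.R007.Lat in
/-- `lift` of `A₁` -/
def AX (v : Fin 2 → ℤ) : X → ℂ := lift 1 (A1 v)

open Crest.Agent.R007.Lat in
/-- `lift` of `A₃` -/
def BX (v : Fin 2 → ℤ) : X → ℂ := lift 3 (A3 v)

open Crest.Agent.R007.Lat in
/-- `lift` of `Δ` -/
def DX : X → ℂ := lift 12 Dl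

open Crest.Agent.R007.Lat in
lemma lift_pow' (k n : ℕ) (f : ℍ → ℂ) : lift (k * n) (f ^ n) = lift k f ^ n := by
  induction n with
  | zero => simpa using lift_one
  | succ n ih => rw [pow_succ, pow_succ, ← ih, ← lift_mul]; rfl

open Crest.Agent.R007.Lat in
lemma DX_eq (hv : NZ 3 v) : DX = BX v ^ 3 * (AX v ^ 3 - 27 * BX v) := by
  funext x
  have h := disc_eq hv (τ := x.t)
  simp only [DX, BX, AX, Dl, Pi.mul_apply, Pi.pow_apply, Pi.sub_apply, lift_apply]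
  rw [h]
  simp only [Pi.ofNat_apply]
  ring

open Crest.Agent.R007.Lat in
lemma isR_res {k : ℕ} {F : X → ℂ} (hF : F ∈ Mix.Lk O k) (h1 : F ∈ MX 1 k) : IsR O 1 k (res F) := by
  rw [isR_one_iff]
  have h2 := h1
  rw [mem_MX] at h2
  obtain ⟨f, rfl⟩ := h2
  rw [res_lift]
  refine ⟨IsF.of_modularForm f, fun n => ?_⟩
  have h3 := (hF.2 1 (one_mem _))
  rw [sl_one_right, res_lift] at h3
  have h4 := h3.2 ((n : ℚ) / (1 : ℕ))
  have h5 : (f : ℍ → ℂ) ∈ PB ((1 : ℕ) : ℝ) := by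
    have := res_mem_PB h1
    rwa [res_lift] at this
  rw [qf_eq' 1 odd_one h5, emb_coeff] at h4
  exact h4

open Crest.Agent.R007.Lat in
/-- **lev1** (field of `EIn`) -/
theorem lev1_X (hO : OddRing O) (hv : NZ 3 v)
    (hL : ∀ (k : ℕ) (G : ℍ → ℂ), IsR O 3 k G → lift k G ∈ Mix.Lk O k) {k : ℕ} {F : X → ℂ}
    (hF : F ∈ Mix.Lk O k) (h1 : F ∈ MX 1 k) :
    ∃ c : ℕ → ℂ, (∀ i, c i ∈ O) ∧ ∃ G ∈ Mix.Lk O k,
      F = ∑ i ∈ Finset.range (k / 12 + 1), c i • (DX ^ i * AX v ^ (k - 12 * i)) + (2 : ℂ) • G := by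
  obtain ⟨c, G, hc, hG, e⟩ := lev1_fun hO hv (isR_res hF h1)
  refine ⟨c, hc, lift k G, hL k G hG, ?_⟩
  have hFw : F = lift k (res F) := (lift_res (MX_le_Wt h1)).symm
  rw [hFw, e, lift_add, lift_smul]
  congr 1
  funext x
  simp only [lift_apply, Finset.sum_apply, Pi.smul_apply, Pi.mul_apply, Pi.pow_apply, smul_eq_mul,
    DX, AX, Finset.mul_sum]
  refine Finset.sum_congr rfl fun i hi => ?_
  rw [Finset.mem_range] at hi
  have h12 : 12 * i ≤ k := by omega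
  have hk : k = 12 * i + (k - 12 * i) := by omega
  set r := k - 12 * i
  rw [hk]
  ring

end

end Crest.Agent.R007.Lev1
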