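import Mathlib
import Crest.Agent.R007.ECore1

/-!
Row 7 (S0007), section E: existence of the points `e : L →+* κ⟦t⟧`, abstract part.
-/

set_option autoImplicit false

namespace Crest.Agent.R007.EPt

open Polynomial

section sep

variable {Γ B Om I : Type*} [Group Γ] [CommRing B] [MulSemiringAction Γ B] [Field Om]
  [Fintype I] [MulAction Γ I]

theorem map_prod_inv (w : I → B) (hw : ∀ (g : Γ) i, w (g • i) = g • w i) (g : Γ) :
    (∏ i, (X - C (w i))).map (MulSemiringAction.toRingHom Γ B g) = ∏ i, (X - C (w i)) := by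
  simp only [Polynomial.map_prod, Polynomial.map_sub, map_X, map_C,
    MulSemiringAction.toRingHom_apply, ← hw]
  exact Fintype.prod_equiv (MulAction.toPerm g) _ _ fun i => rfl

theorem mem_of_sep [DecidableEq I] (e : B →+* Om) (K : Subfield Om)
    (hK : ∀ b : B, (∀ g : Γ, g • b = b) → e b ∈ K) (b w : I → B)
    (hb : ∀ (g : Γ) i, b (g • i) = g • b i) (hw : ∀ (g : Γ) i, w (g • i) = g • w i) (i0 : I)
    (hw0 : e (w i0) ∈ K) (hsep : ∀ i, i ≠ i0 → e (w i) ≠ e (w i0)) : e (b i0) ∈ K := by
  classical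
  have key : ∀ b : I → B, (∀ (g : Γ) i, b (g • i) = g • b i) →
      e (b i0) * ∏ j ∈ Finset.univ.erase i0, (e (w i0) - e (w j)) ∈ K := by
    intro b hb
    let T : B[X] := ∑ i : I, C (b i) * ∏ j ∈ Finset.univ.erase i, (X - C (w j))
    have hinv : ∀ k : Γ, T.map (MulSemiringAction.toRingHom Γ B k) = T := by
      intro k
      simp only [T, Polynomial.map_sum, Polynomial.map_mul, Polynomial.map_prod, Polynomial.map_sub,
        map_X, map_C, MulSemiringAction.toRingHom_apply, ← hb, ← hw]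
      refine Fintype.sum_equiv (MulAction.toPerm k) _ _ ?_
      intro i
      simp only [MulAction.toPerm_apply]
      congr 1
      refine Finset.prod_bij' (fun h _ => k • h) (fun h _ => k⁻¹ • h) ?_ ?_ ?_ ?_ ?_
      · intro h hh
        rw [Finset.mem_erase] at hh ⊢
        exact ⟨fun heq => hh.1 (MulAction.injective k heq), Finset.mem_univ _⟩
      · intro h hh
        rw [Finset.mem_erase] at hh ⊢
        refine ⟨fun heq => hh.1 ?_, Finset.mem_univ _⟩
        rw [← heq]; simp
      · intro h _; simp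
      · intro h _; simp
      · intro h _; rfl
    have hcoef : ∀ j, e (T.coeff j) ∈ K := by
      intro j
      apply hK
      intro g
      have := congrArg (fun P => Polynomial.coeff P j) (hinv g)
      simpa [Polynomial.coeff_map] using this
    have heval : e (T.eval (w i0)) ∈ K := by
      rw [Polynomial.eval_eq_sum_range, map_sum]
      apply sum_mem
      intro j _
      rw [map_mul, map_pow]
      exact mul_mem (hcoef j) (pow_mem hw0 j)
    have hT : T.eval (w i0) = b i0 * ∏ j ∈ Finset.univ.erase i0, (w i0 - w j) := by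
      simp only [T, eval_finsetSum, eval_mul, eval_C, eval_prod, eval_sub, eval_X]
      rw [Finset.sum_eq_single i0]
      · intro i _ hi
        have h1 : ∏ h ∈ Finset.univ.erase i, (w i0 - w h) = 0 := by
          apply Finset.prod_eq_zero (i := i0)
          · rw [Finset.mem_erase]; exact ⟨Ne.symm hi, Finset.mem_univ _⟩
          · rw [sub_self]
        rw [h1, mul_zero]
      · intro h; exact absurd (Finset.mem_univ _) h
    rw [hT, map_mul, map_prod] at heval
    simp only [map_sub] at heval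
    exact heval
  have h1 := key b hb
  have h2 := key (fun _ => 1) (fun g _ => (smul_one g).symm)
  rw [map_one, one_mul] at h2
  have h3 : ∏ j ∈ Finset.univ.erase i0, (e (w i0) - e (w j)) ≠ 0 := by
    rw [Finset.prod_ne_zero_iff]
    intro h hh
    rw [Finset.mem_erase] at hh
    exact sub_ne_zero.mpr (Ne.symm (hsep h hh.1))
  have h4 := mul_mem h1 (inv_mem h2)
  rwa [mul_assoc, mul_inv_cancel₀ h3, mul_one] at h4

theorem exists_sep {O κ J : Type*} [CommRing O] [Field κ] [Infinite κ] [Fintype J]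
    (e : B →+* Om) (K : Subfield Om) (r : O →+* κ) (hr : Function.Surjective r)
    (ι : κ →+* Om) (hι : ∀ c, ι c ∈ K) (cst : O →+* B) (hcinv : ∀ (g : Γ) c, g • cst c = cst c)
    (hcomp : ∀ c : O, e (cst c) = ι (r c)) (i0 : I) (θ : J → I → B)
    (hθe : ∀ j (g : Γ) i, θ j (g • i) = g • θ j i) (hθ : ∀ j, e (θ j i0) ∈ K)
    (hsep : ∀ i, i ≠ i0 → ∃ j, e (θ j i) ≠ e (θ j i0)) :
    ∃ w : I → B, (∀ (g : Γ) i, w (g • i) = g • w i) ∧ e (w i0) ∈ K ∧
      ∀ i, i ≠ i0 → e (w i) ≠ e (w i0) := by
  classical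
  let _ : Algebra κ Om := ι.toAlgebra
  let v : I → J → Om := fun i j => e (θ j i) - e (θ j i0)
  let ℓ : I → ((J → κ) →ₗ[κ] Om) := fun i =>
    { toFun := fun lam => ∑ j, ι (lam j) * v i j
      map_add' := by
        intro a b
        simp only [Pi.add_apply, map_add, add_mul, Finset.sum_add_distrib]
      map_smul' := by
        intro c a
        simp only [Pi.smul_apply, smul_eq_mul, map_mul, mul_assoc, ← Finset.mul_sum,
          RingHom.id_apply, Algebra.smul_def, RingHom.algebraMap_toAlgebra] }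
  have hcov : ⋃ i : {i : I // i ≠ i0}, ((LinearMap.ker (ℓ i.1) : Submodule κ (J → κ)) : Set (J → κ))
      ≠ Set.univ := by
    intro hcov
    obtain ⟨i, hi⟩ := Subspace.exists_eq_top_of_iUnion_eq_univ hcov
    obtain ⟨j, hj⟩ := hsep i.1 i.2
    have h1 : Pi.single j (1 : κ) ∈ LinearMap.ker (ℓ i.1) := by rw [hi]; trivial
    rw [LinearMap.mem_ker] at h1
    change ∑ j', ι ((Pi.single j (1 : κ) : J → κ) j') * v i.1 j' = 0 at h1
    rw [Finset.sum_eq_single j] at h1
    · rw [Pi.single_eq_same, map_one, one_mul] at h1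
      exact hj (sub_eq_zero.mp h1)
    · intro j' _ hj'
      rw [Pi.single_eq_of_ne hj', map_zero, zero_mul]
    · intro h; exact absurd (Finset.mem_univ _) h
  rw [Set.ne_univ_iff_exists_notMem] at hcov
  obtain ⟨lam, hlam⟩ := hcov
  rw [Set.mem_iUnion, not_exists] at hlam
  choose c hc using fun j => hr (lam j)
  refine ⟨fun i => ∑ j, cst (c j) * θ j i, ?_, ?_, ?_⟩
  · intro g i
    rw [Finset.smul_sum]
    refine Finset.sum_congr rfl fun j _ => ?_
    rw [smul_mul', hcinv, hθe]
  · rw [map_sum]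
    apply sum_mem
    intro j _
    rw [map_mul, hcomp]
    exact mul_mem (hι _) (hθ j)
  · intro i hi heq
    apply hlam ⟨i, hi⟩
    rw [SetLike.mem_coe, LinearMap.mem_ker]
    change ∑ j, ι (lam j) * v i j = 0
    rw [map_sum, map_sum, ← sub_eq_zero, ← Finset.sum_sub_distrib] at heq
    rw [← heq]
    apply Finset.sum_congr rfl
    intro j _
    simp only [v]
    rw [map_mul, map_mul, hcomp, hc, mul_sub]

end sep

/-- the data coming from the values `P_v` of level `M` -/
structure Pd (Γ : Type*) {L : Type*} [Group Γ] [CommRing L] [MulSemiringAction Γ L]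
    (A1 A3 : L) (I : Type*) [MulAction Γ I] where
  i0 : I
  d : I → I → L
  d_sub : ∀ i j k, d i k - d j k = d i j
  d_smul : ∀ (g : Γ) i j, d (g • i) (g • j) = g • d i j
  d_unit : ∀ i j, i ≠ j → ∃ (G : L) (n : ℕ), d i j * G = (A3 ^ 3 * (A1 ^ 3 - 27 * A3)) ^ n
  T : Set I
  T_smul : ∀ (g : Γ) i, i ∈ T → g • i ∈ T
  i0_mem : i0 ∈ T
  q : I → L
  q_smul : ∀ (g : Γ), ∀ i ∈ T, q (g • i) = g • q i
  q_zero : q i0 = A3 ^ 2
  q_eq : ∀ i ∈ T, q i = 4 * d i i0 ^ 3 + (A1 * d i i0 + A3) ^ 2

namespace Pd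

variable {Γ L : Type*} [Group Γ] [CommRing L] [MulSemiringAction Γ L] {A1 A3 : L} {I : Type*}
  [MulAction Γ I] (D : Pd Γ A1 A3 I)

theorem d_self (i : I) : D.d i i = 0 := by
  have := D.d_sub i i i
  rwa [sub_self, eq_comm] at this

end Pd

section main

variable {Γ L O κ I Om : Type*} [Group Γ] [CommRing L] [MulSemiringAction Γ L] [CommRing O]
  [Field κ] [IsAlgClosed κ] [CharP κ 2] {A1 A3 : L} [Finite I] [MulAction Γ I]
  [Field Om] [Algebra (PowerSeries κ) Om] [Algebra (LaurentSeries κ) Om]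
  [IsScalarTower (PowerSeries κ) (LaurentSeries κ) Om]

omit [CharP κ 2] [IsAlgClosed κ] in
theorem algMap_inj : Function.Injective (algebraMap (PowerSeries κ) Om) := by
  rw [IsScalarTower.algebraMap_eq (PowerSeries κ) (LaurentSeries κ) Om]
  exact (algebraMap (LaurentSeries κ) Om).injective.comp
    (IsFractionRing.injective (PowerSeries κ) (LaurentSeries κ))

theorem two_Om (κ Om : Type*) [Field κ] [CharP κ 2] [Field Om] [Algebra (PowerSeries κ) Om] :
    (2 : Om) = 0 := by
  have h : algebraMap (PowerSeries κ) Om (PowerSeries.C (2 : κ)) = 2 := by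
    rw [map_ofNat, map_ofNat]
  rw [← h, CharTwo.two_eq_zero, map_zero, map_zero]

omit [IsAlgClosed κ] in
theorem disc_unit : IsUnit ((PowerSeries.X : PowerSeries κ) ^ 3 - 27) := by
  rw [PowerSeries.isUnit_iff_constantCoeff, map_sub, map_pow, PowerSeries.constantCoeff_X]
  have h27 : PowerSeries.constantCoeff (27 : PowerSeries κ) = 1 := by
    rw [map_ofNat]
    have h2 : (2 : κ) = 0 := CharTwo.two_eq_zero
    linear_combination (13 : κ) * h2
  rw [h27]
  simp

theorem mem_K_of_Pd (D : Pd Γ A1 A3 I) (ρ : O →+* κ) (hρ : Function.Surjective ρ)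
    (e : L →+* Om) (hA1 : e A1 = algebraMap (PowerSeries κ) Om PowerSeries.X) (hA3 : e A3 = 1)
    (hinv : ∀ b : L, (∀ g : Γ, g • b = b) → ∃ r : PowerSeries κ, e b = algebraMap _ Om r)
    (hint : ∀ b : L, IsIntegral (PowerSeries κ) (e b)) (cst : O →+* L)
    (hcinv : ∀ (g : Γ) c, g • cst c = cst c)
    (hcst : ∀ c, e (cst c) = algebraMap (PowerSeries κ) Om (PowerSeries.C (ρ c))) (b : L)
    (hb : ∀ g : Γ, (∀ i : I, g • i = i) → g • b = b) :
    e b ∈ (algebraMap (LaurentSeries κ) Om).fieldRange := by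
  classical
  have : Fintype I := Fintype.ofFinite I
  set K := (algebraMap (LaurentSeries κ) Om).fieldRange with hKdef
  have hR : ∀ r : PowerSeries κ, algebraMap (PowerSeries κ) Om r ∈ K := fun r =>
    ⟨algebraMap _ _ r, by rw [← IsScalarTower.algebraMap_apply]⟩
  have hKinv : ∀ b : L, (∀ g : Γ, g • b = b) → e b ∈ K := by
    intro b hb
    obtain ⟨r, hr⟩ := hinv b hb
    rw [hr]; exact hR r
  have hX : algebraMap (PowerSeries κ) Om PowerSeries.X ≠ 0 := by
    rw [Ne, map_eq_zero_iff _ algMap_inj]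
    exact PowerSeries.X_ne_zero
  have h2 : (2 : Om) = 0 := two_Om κ Om
  have hdu : ∀ i j, i ≠ j → ∃ c : Om, IsIntegral (PowerSeries κ) c ∧ e (D.d i j) * c = 1 := by
    intro i j hij
    obtain ⟨G, n, hG⟩ := D.d_unit i j hij
    obtain ⟨u, hu⟩ := disc_unit (κ := κ)
    refine ⟨e G * algebraMap (PowerSeries κ) Om ((u⁻¹ : (PowerSeries κ)ˣ) : PowerSeries κ) ^ n,
      (hint G).mul (isIntegral_algebraMap.pow n), ?_⟩
    have h := congrArg e hG
    rw [map_mul, map_pow, map_mul, map_pow, hA3, map_sub, map_pow, hA1, map_mul, hA3, map_ofNat] at h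
    have h' : (1 ^ 3 * (algebraMap (PowerSeries κ) Om PowerSeries.X ^ 3 - 27 * 1)) =
        algebraMap (PowerSeries κ) Om (u : PowerSeries κ) := by
      rw [hu, map_sub, map_pow, map_ofNat]; ring
    rw [h'] at h
    rw [← mul_assoc, h, ← mul_pow, ← map_mul, Units.mul_inv, map_one, one_pow]
  have hdne : ∀ i j, i ≠ j → e (D.d i j) ≠ 0 := by
    intro i j hij h0
    obtain ⟨c, _, hc⟩ := hdu i j hij
    rw [h0, zero_mul] at hc
    exact zero_ne_one hc
  have hqne : ∀ i ∈ D.T, i ≠ D.i0 → e (D.q i) ≠ e (D.q D.i0) := by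
    intro i hi hne heq
    rw [D.q_zero, D.q_eq i hi, map_add, map_mul, map_pow, map_pow, map_add, map_mul, hA1, hA3,
      map_ofNat, map_pow, hA3] at heq
    have h3 : (algebraMap (PowerSeries κ) Om PowerSeries.X * e (D.d i D.i0)) ^ 2 = 0 := by
      linear_combination heq - (2 * e (D.d i D.i0) ^ 3 +
        algebraMap (PowerSeries κ) Om PowerSeries.X * e (D.d i D.i0)) * h2
    exact (mul_ne_zero hX (hdne i D.i0 hne)) (pow_eq_zero_iff (two_ne_zero) |>.1 h3)
  -- Step 1
  let T' := {i : I // i ∈ D.T}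
  let _ : MulAction Γ T' :=
    { smul := fun g i => ⟨g • i.1, D.T_smul g i.1 i.2⟩
      one_smul := fun i => Subtype.ext (one_smul _ _)
      mul_smul := fun g h i => Subtype.ext (mul_smul _ _ _) }
  have hsm : ∀ (g : Γ) (i : T'), (g • i).1 = g • i.1 := fun _ _ => rfl
  let f : I → L[X] := fun i => ∏ j : I, (X - C (D.d j i))
  have hf : ∀ (g : Γ) i, f (g • i) = (f i).map (MulSemiringAction.toRingHom Γ L g) := by
    intro g i
    simp only [f, Polynomial.map_prod, Polynomial.map_sub, map_X, map_C,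
      MulSemiringAction.toRingHom_apply, ← D.d_smul]
    exact (Fintype.prod_equiv (MulAction.toPerm g) _ _ fun i => rfl).symm
  have hcoefK : ∀ n, e ((f D.i0).coeff n) ∈ K := by
    intro n
    refine mem_of_sep (Γ := Γ) (I := T') e K hKinv (fun i => (f i.1).coeff n) (fun i => D.q i.1)
      ?_ ?_ ⟨D.i0, D.i0_mem⟩ ?_ ?_
    · intro g i
      simp only [hsm]
      rw [hf, Polynomial.coeff_map]
      rfl
    · intro g i
      exact D.q_smul g i.1 i.2
    · change e (D.q D.i0) ∈ K
      rw [D.q_zero, map_pow, hA3, one_pow]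
      exact one_mem _
    · intro i hi
      exact hqne i.1 i.2 fun h => hi (Subtype.ext h)
  have hcoefR : ∀ n, ∃ r : PowerSeries κ, algebraMap (PowerSeries κ) Om r = e ((f D.i0).coeff n) := by
    intro n
    obtain ⟨x, hx⟩ := hcoefK n
    have := ECore.mem_of_integral_of_laurent (Om := Om) x (by rw [hx]; exact hint _)
    rw [hx] at this
    exact this
  have hlift : (f D.i0).map e ∈ Polynomial.lifts (algebraMap (PowerSeries κ) Om) := by
    rw [Polynomial.lifts_iff_coeff_lifts]
    intro n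
    rw [Polynomial.coeff_map]
    exact hcoefR n
  have hmon : ((f D.i0).map e).Monic := (monic_prod_of_monic _ _ fun j _ => monic_X_sub_C _).map e
  obtain ⟨F, hF, -, hFm⟩ := Polynomial.lifts_and_natDegree_eq_and_monic hlift hmon
  have hθ : ∀ i, ∃ r : PowerSeries κ, algebraMap (PowerSeries κ) Om r = e (D.d i D.i0) := by
    refine ECore.roots_mem (algMap_inj (κ := κ)) F hFm (fun i => e (D.d i D.i0)) ?_ ?_
    · rw [hF]
      simp only [f, Polynomial.map_prod, Polynomial.map_sub, map_X, map_C]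
    · intro i j hij
      obtain ⟨c, hc, h1⟩ := hdu i j hij
      refine ⟨c, hc, ?_⟩
      rw [← map_sub, D.d_sub]
      exact h1
  -- Step 2
  let N : Subgroup Γ := (MulAction.toPermHom Γ I).ker
  have hN : ∀ g : Γ, g ∈ N ↔ ∀ i : I, g • i = i := by
    intro g
    rw [MonoidHom.mem_ker]
    constructor
    · intro h i
      have := congrArg (fun p : Equiv.Perm I => p i) h
      simpa using this
    · intro h
      ext i
      simpa using h i
  have : Finite (Γ ⧸ N) := by
    have hinj : Function.Injective (QuotientGroup.kerLift (MulAction.toPermHom Γ I)) :=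
      QuotientGroup.kerLift_injective _
    exact Finite.of_injective _ hinj
  have : Fintype (Γ ⧸ N) := Fintype.ofFinite _
  -- equivariant extension of an `N`-fixed element
  have hwd : ∀ b : L, (∀ g : Γ, (∀ i : I, g • i = i) → g • b = b) →
      ∃ β : Γ ⧸ N → L, (∀ g : Γ, β (g : Γ ⧸ N) = g • b) := by
    intro b hb
    refine ⟨Quotient.lift (fun g : Γ => g • b) ?_, fun g => rfl⟩
    intro g h hgh
    have hgh' : g⁻¹ * h ∈ N := QuotientGroup.leftRel_apply.1 hgh
    have := hb _ ((hN _).1 hgh')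
    change g • b = h • b
    rw [mul_smul, inv_smul_eq_iff] at this
    exact this.symm
  have heq : ∀ (b : L) (β : Γ ⧸ N → L), (∀ g : Γ, β (g : Γ ⧸ N) = g • b) →
      ∀ (g : Γ) (x : Γ ⧸ N), β (g • x) = g • β x := by
    intro b β hβ g x
    obtain ⟨h, rfl⟩ := QuotientGroup.mk_surjective x
    have : g • (h : Γ ⧸ N) = ((g * h : Γ) : Γ ⧸ N) := rfl
    rw [this, hβ, hβ, mul_smul]
  let θ0 : Option I → L := fun j => match j with
    | none => D.q D.i0
    | some i => D.d i D.i0
  have hθ0 : ∀ j, ∀ g : Γ, (∀ i : I, g • i = i) → g • θ0 j = θ0 j := by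
    intro j g hg
    match j with
    | none => 
      change g • D.q D.i0 = D.q D.i0
      rw [← D.q_smul g _ D.i0_mem, hg]
    | some i => 
      change g • D.d i D.i0 = D.d i D.i0
      rw [← D.d_smul, hg, hg]
  choose θ hθβ using fun j => hwd (θ0 j) (hθ0 j)
  obtain ⟨β, hβ⟩ := hwd b hb
  have hone : ∀ (b : L) (β : Γ ⧸ N → L), (∀ g : Γ, β (g : Γ ⧸ N) = g • b) → 
      β ((1 : Γ) : Γ ⧸ N) = b := by
    intro b β hβ
    rw [hβ, one_smul]
  let ι : κ →+* Om := (algebraMap (PowerSeries κ) Om).comp PowerSeries.C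
  have hinf : Infinite κ := IsAlgClosed.instInfinite
  obtain ⟨w, hw1, hw2, hw3⟩ := exists_sep (Γ := Γ) (I := Γ ⧸ N) e K ρ hρ ι (fun c => hR _) cst hcinv
    hcst ((1 : Γ) : Γ ⧸ N) θ (fun j => heq _ _ (hθβ j)) (by
      intro j
      rw [hone _ _ (hθβ j)]
      match j with
      | none => 
        change e (D.q D.i0) ∈ K
        rw [D.q_zero, map_pow, hA3, one_pow]
        exact one_mem _
      | some i => 
        obtain ⟨r, hr⟩ := hθ i
        change e (D.d i D.i0) ∈ K
        rw [← hr]; exact hR r) (by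
      intro x hx
      obtain ⟨g, rfl⟩ := QuotientGroup.mk_surjective x
      have hgN : g ∉ N := by
        intro hg
        apply hx
        exact (QuotientGroup.eq_one_iff g).2 hg
      simp only [hone _ _ (hθβ _), hθβ]
      by_cases h0 : g • D.i0 = D.i0
      · rw [hN] at hgN
        push Not at hgN
        obtain ⟨i, hi⟩ := hgN
        refine ⟨some i, fun h => ?_⟩
        change e (g • D.d i D.i0) = e (D.d i D.i0) at h
        rw [← D.d_smul, h0, ← sub_eq_zero, ← map_sub, D.d_sub] at h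
        exact hdne _ _ hi h
      · refine ⟨none, ?_⟩
        change e (g • D.q D.i0) ≠ e (D.q D.i0)
        rw [← D.q_smul g _ D.i0_mem]
        exact hqne _ (D.T_smul g _ D.i0_mem) h0)
  have := mem_of_sep (Γ := Γ) (I := Γ ⧸ N) e K hKinv β w (heq _ _ hβ) hw1 _ hw2 hw3
  rwa [hone _ _ hβ] at this

end main

section exist

variable {Γ L O κ : Type*} [Group Γ] [CommRing L] [MulSemiringAction Γ L] [CommRing O]
  [Field κ] [IsAlgClosed κ] [CharP κ 2] {A1 A3 : L}

theorem exists_monic (S : Subring L) (hS : ∀ b : L, (∀ g : Γ, g • b = b) → b ∈ S) (b : L)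
    (hb : (MulAction.orbit Γ b).Finite) : ∃ p : S[X], p.Monic ∧ (p.map S.subtype).eval b = 0 := by
  classical
  have : Fintype (MulAction.orbit Γ b) := hb.fintype
  let P : L[X] := ∏ i : MulAction.orbit Γ b, (X - C (i : L))
  have hP : ∀ g : Γ, P.map (MulSemiringAction.toRingHom Γ L g) = P :=
    map_prod_inv (fun i : MulAction.orbit Γ b => (i : L)) (fun g i => rfl)
  have hcoef : ∀ n, P.coeff n ∈ S := by
    intro n
    apply hS
    intro g
    have := congrArg (fun Q => Polynomial.coeff Q n) (hP g)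
    simpa [Polynomial.coeff_map] using this
  have hlift : P ∈ Polynomial.lifts S.subtype := by
    rw [Polynomial.lifts_iff_coeff_lifts]
    intro n
    exact ⟨⟨_, hcoef n⟩, rfl⟩
  have hmon : P.Monic := monic_prod_of_monic _ _ fun j _ => monic_X_sub_C _
  obtain ⟨p, hp, -, hpm⟩ := Polynomial.lifts_and_natDegree_eq_and_monic hlift hmon
  refine ⟨p, hpm, ?_⟩
  rw [hp, Polynomial.eval_prod]
  apply Finset.prod_eq_zero (Finset.mem_univ (⟨b, MulAction.mem_orbit_self b⟩ : MulAction.orbit Γ b))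
  simp

/-- **existence of points** -/
theorem exists_point (ρ : O →+* κ) (hρ : Function.Surjective ρ) (cst : O →+* L)
    (hcinv : ∀ (g : Γ) c, g • cst c = cst c) (S : Subring L)
    (hS : ∀ b : L, (∀ g : Γ, g • b = b) → b ∈ S) (hcS : ∀ c, cst c ∈ S) (hA1 : A1 ∈ S)
    (hA3 : A3 ∈ S) (φ : S →+* PowerSeries κ) (hφ1 : φ ⟨A1, hA1⟩ = PowerSeries.X)
    (hφ3 : φ ⟨A3, hA3⟩ = 1) (hφc : ∀ c, φ ⟨cst c, hcS c⟩ = PowerSeries.C (ρ c))
    (horb : ∀ b : L, (MulAction.orbit Γ b).Finite)
    (hgen : ∀ b : L, b ∈ AddSubgroup.closure {b : L |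
      ∃ (b' : L) (I : Type) (_ : Finite I) (_ : MulAction Γ I) (_ : Pd Γ A1 A3 I),
        (b' = b ∨ b' = A1 * b) ∧ ∀ g : Γ, (∀ i : I, g • i = i) → g • b' = b'}) :
    ∃ e : L →+* PowerSeries κ, (∀ c, e (cst c) = PowerSeries.C (ρ c)) ∧ e A1 = PowerSeries.X ∧
      e A3 = 1 := by
  classical
  let Om := AlgebraicClosure (LaurentSeries κ)
  have hint : Algebra.IsIntegral S L := by
    constructor
    intro b
    obtain ⟨p, hp, h⟩ := exists_monic (Γ := Γ) S hS b (horb b)
    refine ⟨p, hp, ?_⟩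
    rw [← Polynomial.eval_map]
    exact h
  obtain ⟨e, he⟩ := ECore.exists_extension (A := S) (B := L) (Om := Om) Subtype.val_injective
    ((algebraMap (PowerSeries κ) Om).comp φ)
  have he' : ∀ a (ha : a ∈ S), e a = algebraMap (PowerSeries κ) Om (φ ⟨a, ha⟩) := fun a ha =>
    he ⟨a, ha⟩
  have heint : ∀ b, IsIntegral (PowerSeries κ) (e b) := by
    intro b
    obtain ⟨p, hp, h⟩ := exists_monic (Γ := Γ) S hS b (horb b)
    refine ⟨p.map φ, hp.map _, ?_⟩
    rw [eval₂_map]
    have h1 : (algebraMap (PowerSeries κ) Om).comp φ = e.comp S.subtype := by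
      ext a
      exact (he a).symm
    rw [h1, ← Polynomial.eval₂_map, Polynomial.eval₂_at_apply, h, map_zero]
  have e1 : e A1 = algebraMap (PowerSeries κ) Om PowerSeries.X := by rw [he' _ hA1, hφ1]
  have e3 : e A3 = 1 := by rw [he' _ hA3, hφ3, map_one]
  have ec : ∀ c, e (cst c) = algebraMap (PowerSeries κ) Om (PowerSeries.C (ρ c)) := fun c => by
    rw [he' _ (hcS c), hφc]
  have hX : algebraMap (PowerSeries κ) Om PowerSeries.X ≠ 0 := by
    rw [Ne, map_eq_zero_iff _ algMap_inj]
    exact PowerSeries.X_ne_zero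
  have hK : ∀ b, e b ∈ (algebraMap (LaurentSeries κ) Om).fieldRange := by
    intro b
    refine AddSubgroup.closure_induction (p := fun b _ => e b ∈
      (algebraMap (LaurentSeries κ) Om).fieldRange) ?_ ?_ ?_ ?_ (hgen b)
    · rintro b ⟨b', I, hI, hIa, D, hb', hfix⟩
      have h := mem_K_of_Pd D ρ hρ e e1 e3 (fun b hb => ⟨_, he' b (hS b hb)⟩) heint cst hcinv ec b'
        hfix
      rcases hb' with rfl | rfl
      · exact h
      · rw [map_mul, e1] at h
        have h2 : algebraMap (PowerSeries κ) Om PowerSeries.X ∈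
            (algebraMap (LaurentSeries κ) Om).fieldRange :=
          ⟨algebraMap _ _ PowerSeries.X,
            (IsScalarTower.algebraMap_apply (PowerSeries κ) (LaurentSeries κ) Om _).symm⟩
        have h3 := mul_mem (inv_mem h2) h
        rwa [inv_mul_cancel_left₀ hX] at h3
    · rw [map_zero]; exact zero_mem _
    · intro x y _ _ hx hy
      rw [map_add]; exact add_mem hx hy
    · intro x _ hx
      rw [map_neg]; exact neg_mem hx
  have hR : ∀ b, e b ∈ (algebraMap (PowerSeries κ) Om).range := by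
    intro b
    obtain ⟨x, hx⟩ := hK b
    have := ECore.mem_of_integral_of_laurent (Om := Om) x (by rw [hx]; exact heint _)
    rw [hx] at this
    exact this
  let eR : L →+* (algebraMap (PowerSeries κ) Om).range := e.codRestrict _ hR
  let ε := RingEquiv.ofBijective (algebraMap (PowerSeries κ) Om).rangeRestrict
    ⟨fun a b h => algMap_inj (congrArg Subtype.val h), RingHom.rangeRestrict_surjective _⟩
  have key : ∀ b r, e b = algebraMap (PowerSeries κ) Om r → ε.symm (eR b) = r := by
    intro b r h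
    rw [RingEquiv.symm_apply_eq]
    exact Subtype.ext h
  refine ⟨(ε.symm : _ →+* PowerSeries κ).comp eR, fun c => key _ _ (ec c), key _ _ e1,
    key _ _ (by rw [e3, map_one])⟩

end exist

end Crest.Agent.R007.EPt
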