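import Crest.Agent.R007.Wp6

/-!
R007/Wp8: leading coefficients of `Q_v` and `P_v - P_w` are units.
-/

set_option autoImplicit false

namespace Crest.Agent.R007.Wp

open UpperHalfPlane hiding I
open Complex PeriodPair ModularForm Matrix Function Filter CongruenceSubgroup
open scoped MatrixGroups Real PeriodPair Nat Topology Manifold

noncomputable section

section units

variable {O : Subring ℂ} {M : ℕ}

lemma zeta_zpow_mem_sub (hM : M ≠ 0) (hz : zeta M ∈ O) (b : ℤ) : zeta M ^ b ∈ O := by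
  have h1 : zeta M ^ b = zeta M ^ (b % M) := by
    rw [zeta_zpow_eq_iff hM]
    rw [ZMod.intCast_eq_intCast_iff]
    exact (Int.mod_modEq b M).symm
  have h2 : 0 ≤ b % M := Int.emod_nonneg _ (by exact_mod_cast hM)
  obtain ⟨k, hk⟩ := Int.eq_ofNat_of_zero_le h2
  rw [h1, hk, zpow_natCast]
  exact pow_mem hz k

lemma inv_one_sub_mem (hM : M ≠ 0) (hz : zeta M ∈ O) (hi : ((M : ℂ))⁻¹ ∈ O) {b : ℤ}
    (hb : (b : ZMod M) ≠ 0) : (1 - zeta M ^ b)⁻¹ ∈ O := by
  obtain ⟨n, rfl⟩ : ∃ n, M = n + 1 := ⟨M - 1, by omega⟩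
  have hp := (isPrimitiveRoot_zeta hM).prod_one_sub_pow_eq_order
  set r : ℤ := b % ((n + 1 : ℕ) : ℤ) with hr
  have hr0 : 0 ≤ r := Int.emod_nonneg _ (by exact_mod_cast hM)
  have hr1 : r < ((n + 1 : ℕ) : ℤ) := Int.emod_lt_of_pos _ (by positivity)
  obtain ⟨k, hk⟩ := Int.eq_ofNat_of_zero_le hr0
  have hbr : zeta (n + 1) ^ b = zeta (n + 1) ^ k := by
    rw [← zpow_natCast, zeta_zpow_eq_iff hM]
    rw [ZMod.intCast_eq_intCast_iff]
    have : ((k : ℕ) : ℤ) = r := by simpa using hk.symm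
    rw [this]
    exact (Int.mod_modEq b _).symm
  have hk0 : k ≠ 0 := by
    rintro rfl
    have h1 : zeta (n + 1) ^ b = zeta (n + 1) ^ (0 : ℤ) := by rw [hbr]; simp
    rw [zeta_zpow_eq_iff hM] at h1
    exact hb (by simpa using h1)
  have hkn : k - 1 ∈ Finset.range n := by
    rw [Finset.mem_range]
    have h7 : (k : ℤ) < (n + 1 : ℕ) := by
      have h8 : ((k : ℕ) : ℤ) = r := by simpa using hk.symm
      rw [h8]; exact hr1
    have h9 : k < n + 1 := by exact_mod_cast h7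
    omega
  rw [← Finset.mul_prod_erase _ _ hkn] at hp
  have hk1 : k - 1 + 1 = k := by omega
  rw [hk1] at hp
  have hne : (1 - zeta (n + 1) ^ k) ≠ 0 := by
    rw [← hbr]; exact zeta_zpow_ne_one hM hb
  have hn : ((n + 1 : ℕ) : ℂ) ≠ 0 := by exact_mod_cast hM
  have key : (1 - zeta (n + 1) ^ b)⁻¹ = (((n + 1 : ℕ) : ℂ))⁻¹ *
      ∏ x ∈ (Finset.range n).erase (k - 1), (1 - zeta (n + 1) ^ (x + 1)) := by
    rw [hbr]
    rw [eq_inv_mul_iff_mul_eq₀ hn]
    push_cast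
    rw [← hp]
    field_simp
  rw [key]
  exact mul_mem hi (prod_mem fun x _ => sub_mem (one_mem _) (pow_mem hz _))

end units

/-- divisor sum -/
def SS (M s : ℕ) (a b : ℤ) (n : ℕ) : ℂ := ∑ p ∈ n.divisorsAntidiagonal, chi M s a b p.2 p.1

/-- `|a|` mod `M`. -/
def mu (M : ℕ) (a : ℤ) : ℕ := (a : ZMod M).valMinAbs.natAbs

lemma mu_eq_zero {M : ℕ} {a : ℤ} : mu M a = 0 ↔ (a : ZMod M) = 0 := by
  rw [mu, Int.natAbs_eq_zero, ZMod.valMinAbs_eq_zero]

lemma mu_le {M : ℕ} (hM : M ≠ 0) (a : ℤ) : mu M a ≤ M / 2 := by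
  have : NeZero M := ⟨hM⟩
  exact ZMod.natAbs_valMinAbs_le _

lemma mu_of_eq {M : ℕ} (hM : M ≠ 0) {a : ℤ} {e : ℕ} (he : e ≤ M / 2)
    (h : (e : ZMod M) = a ∨ (e : ZMod M) = -a) : e = mu M a := by
  have : NeZero M := ⟨hM⟩
  have h1 : ((e : ZMod M)).valMinAbs = e := ZMod.valMinAbs_natCast_of_le_half he
  have h2 := (ZMod.natAbs_valMinAbs_eq_natAbs_valMinAbs (a := (e : ZMod M)) (b := (a : ZMod M))).2 h
  rw [h1] at h2
  simpa [mu] using h2

lemma eq_or_of_mu {M : ℕ} (hM : M ≠ 0) (a : ℤ) :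
    ((mu M a : ℕ) : ZMod M) = a ∨ ((mu M a : ℕ) : ZMod M) = -a := by
  have : NeZero M := ⟨hM⟩
  have h := ZMod.coe_valMinAbs (a : ZMod M)
  rcases Int.natAbs_eq (a : ZMod M).valMinAbs with h1 | h1
  · left
    rw [← h, mu]
    conv_rhs => rw [h1]
    simp
  · right
    rw [← h, mu]
    conv_rhs => rw [h1]
    simp

lemma chi_eq_zero {M s : ℕ} {a b : ℤ} {d e : ℕ} (h1 : (e : ZMod M) ≠ a) (h2 : (e : ZMod M) ≠ -a) :
    chi M s a b d e = 0 := by
  have h3 : ¬ (-(e : ZMod M) = a) := by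
    intro h
    apply h2
    rw [← h]; simp
  simp [chi, h1, h3]

lemma SS_zero {M s : ℕ} {a b : ℤ} {n : ℕ}
    (h : ∀ e : ℕ, 0 < e → e ≤ n → (e : ZMod M) ≠ a ∧ (e : ZMod M) ≠ -a) : SS M s a b n = 0 := by
  rw [SS]
  apply Finset.sum_eq_zero
  rintro ⟨e, d⟩ hp
  rw [Nat.mem_divisorsAntidiagonal] at hp
  obtain ⟨hp, hn⟩ := hp
  simp only at hp ⊢
  have he : 0 < e := by
    rcases Nat.eq_zero_or_pos e with h0 | h0
    · rw [h0] at hp; simp at hp; omega
    · exact h0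
  have hle : e ≤ n := Nat.le_of_dvd (Nat.pos_of_ne_zero hn) ⟨d, hp.symm⟩
  exact chi_eq_zero (h e he hle).1 (h e he hle).2

lemma SS_zero_of_lt {M s : ℕ} (hM : M ≠ 0) {a b : ℤ} {n : ℕ} (hn : n ≤ M / 2)
    (h : n < mu M a ∨ mu M a = 0) : SS M s a b n = 0 := by
  apply SS_zero
  intro e he hen
  have he2 : e ≤ M / 2 := hen.trans hn
  constructor
  · intro hcon
    have := mu_of_eq hM he2 (Or.inl hcon)
    omega
  · intro hcon
    have := mu_of_eq hM he2 (Or.inr hcon)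
    omega

/-- the exponent of the leading coefficient -/
def beta (M : ℕ) (a b : ℤ) : ℤ := if ((mu M a : ℕ) : ZMod M) = a then b else -b

/-- the sign of the leading coefficient -/
def sgn (M s : ℕ) (a : ℤ) : ℂ := if ((mu M a : ℕ) : ZMod M) = a then 1 else (-1) ^ (s + 1)

lemma two_ne {M : ℕ} (hM : Odd M) {a : ℤ} (ha : (a : ZMod M) ≠ 0) : (a : ZMod M) ≠ -a := by
  intro h
  apply ha
  have h2 : ((2 * a : ℤ) : ZMod M) = 0 := by
    push_cast
    linear_combination h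
  rw [ZMod.intCast_zmod_eq_zero_iff_dvd] at h2 ⊢
  have hco : IsCoprime (M : ℤ) 2 := by
    rw [Int.isCoprime_iff_gcd_eq_one]
    have := Nat.coprime_two_right.2 hM
    exact_mod_cast this
  exact hco.dvd_of_dvd_mul_left h2

lemma SS_self {M s : ℕ} (hM : Odd M) {a b : ℤ} (ha : (a : ZMod M) ≠ 0) :
    SS M s a b (mu M a) = sgn M s a * zeta M ^ (beta M a b) := by
  have hM0 : M ≠ 0 := by rintro rfl; simp at hM
  have hmu0 : mu M a ≠ 0 := fun h => ha (mu_eq_zero.1 h)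
  rw [SS, Finset.sum_eq_single (mu M a, 1)]
  · simp only [chi, sgn, beta, Nat.cast_one, one_pow, pow_one, one_mul, Int.cast_natCast,
      Int.cast_neg]
    rcases eq_or_of_mu hM0 a with h | h
    · have h2 : ¬ (-((mu M a : ℕ) : ZMod M) = a) := by
        intro h3
        rw [h] at h3
        exact two_ne hM ha h3.symm
      simp [h, h2]
      intro h3
      exact absurd h3.symm (two_ne hM ha)
    · have h2 : ¬ (((mu M a : ℕ) : ZMod M) = a) := by
        intro h3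
        rw [h] at h3
        exact two_ne hM ha h3.symm
      have h3 : -((mu M a : ℕ) : ZMod M) = a := by rw [h]; simp
      rw [if_neg h2, if_pos h3, if_neg h2, if_neg h2]
      ring
  · rintro ⟨e, d⟩ hp hne
    rw [Nat.mem_divisorsAntidiagonal] at hp
    obtain ⟨hp, hn⟩ := hp
    simp only at hp ⊢
    have hle : e ≤ mu M a := Nat.le_of_dvd (Nat.pos_of_ne_zero hn) ⟨d, hp.symm⟩
    have hle2 : e ≤ M / 2 := hle.trans (mu_le hM0 a)
    have hkey : ¬ (e = mu M a) := by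
      intro h1
      apply hne
      rw [h1] at hp
      have : d = 1 := by
        have h3 : mu M a * d = mu M a * 1 := by rw [hp, mul_one]
        exact Nat.eq_of_mul_eq_mul_left (Nat.pos_of_ne_zero hmu0) h3
      rw [h1, this]
    exact chi_eq_zero (fun h => hkey (mu_of_eq hM0 hle2 (Or.inl h)))
      (fun h => hkey (mu_of_eq hM0 hle2 (Or.inr h)))
  · intro h
    exact absurd (Nat.mem_divisorsAntidiagonal.2 ⟨mul_one _, hmu0⟩) h

lemma cQ_pos {M : ℕ} {v : Fin 2 → ℤ} {n : ℕ} (hn : n ≠ 0) :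
    cQ M v n = SS M 2 (v 0) (v 1) n := by
  rw [cQ, if_neg hn, zero_add, SS]

lemma cP_sub_pos {M : ℕ} {v w : Fin 2 → ℤ} {n : ℕ} (hn : n ≠ 0) :
    cP M v n - cP M w n = SS M 1 (v 0) (v 1) n - SS M 1 (w 0) (w 1) n := by
  rw [cP, cP, if_neg hn, if_neg hn, Finset.sum_sub_distrib, Finset.sum_sub_distrib, SS, SS]
  ring

theorem lead_Q {M : ℕ} (hM : Odd M) {O : Subring ℂ} (hz : zeta M ∈ O) (hi : ((M : ℂ))⁻¹ ∈ O)
    {v : Fin 2 → ℤ} (hv : (v 0 : ZMod M) ≠ 0 ∨ (v 1 : ZMod M) ≠ 0) :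
    ∃ n ≤ M, (∀ m < n, cQ M v m = 0) ∧ cQ M v n ≠ 0 ∧ (cQ M v n)⁻¹ ∈ O := by
  have hM0 : M ≠ 0 := by rintro rfl; simp at hM
  have hzz := zeta_zpow_mem_sub hM0 hz
  have hzne : ∀ b : ℤ, zeta M ^ b ≠ 0 := fun b => zpow_ne_zero _ (zeta_ne_zero M)
  by_cases h0 : (v 0 : ZMod M) = 0
  · have hv1 : (v 1 : ZMod M) ≠ 0 := by tauto
    refine ⟨0, Nat.zero_le _, by simp, ?_⟩
    rw [cQ_zero, cQ0_eq hM0 hv, if_pos h0]
    have h1 : 1 - zeta M ^ (v 1) ≠ 0 := zeta_zpow_ne_one hM0 hv1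
    have h2v : ((v 1 + v 1 : ℤ) : ZMod M) ≠ 0 := by
      intro h
      apply two_ne hM hv1
      push_cast at h
      linear_combination h
    have h2 : 1 - zeta M ^ (v 1 + v 1) ≠ 0 := zeta_zpow_ne_one hM0 h2v
    have h3 : (1 + zeta M ^ (v 1)) = (1 - zeta M ^ (v 1 + v 1)) * (1 - zeta M ^ (v 1))⁻¹ := by
      rw [zpow_add₀ (zeta_ne_zero M)]
      field_simp
      ring
    have h4 : (1 + zeta M ^ (v 1)) ≠ 0 := by
      rw [h3]; exact mul_ne_zero h2 (inv_ne_zero h1)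
    have h5 : (1 + zeta M ^ (v 1))⁻¹ ∈ O := by
      rw [h3, mul_inv, inv_inv]
      exact mul_mem (inv_one_sub_mem hM0 hz hi h2v) (sub_mem (one_mem _) (hzz _))
    refine ⟨div_ne_zero (mul_ne_zero (hzne _) h4) (pow_ne_zero _ h1), ?_⟩
    rw [inv_div, div_eq_mul_inv, mul_inv]
    refine mul_mem (pow_mem (sub_mem (one_mem _) (hzz _)) _) (mul_mem ?_ h5)
    rw [← _root_.zpow_neg]
    exact hzz _
  · have hmu : mu M (v 0) ≠ 0 := fun h => h0 (mu_eq_zero.1 h)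
    refine ⟨mu M (v 0), (mu_le hM0 _).trans (Nat.div_le_self _ _), fun m hm => ?_, ?_, ?_⟩
    · rcases Nat.eq_zero_or_pos m with rfl | hm0
      · rw [cQ_zero, cQ0_eq hM0 hv, if_neg h0]
      · rw [cQ_pos hm0.ne']
        exact SS_zero_of_lt hM0 (hm.le.trans (mu_le hM0 _)) (Or.inl hm)
    · rw [cQ_pos hmu, SS_self hM h0]
      refine mul_ne_zero ?_ (hzne _)
      rw [sgn]; split_ifs <;> norm_num
    · rw [cQ_pos hmu, SS_self hM h0, mul_inv]
      refine mul_mem ?_ ?_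
      · rw [sgn]; split_ifs
        · simp
        · norm_num
      · rw [← _root_.zpow_neg]
        exact hzz _

lemma sub_unit {M : ℕ} (hM : M ≠ 0) {O : Subring ℂ} (hz : zeta M ∈ O) (hi : ((M : ℂ))⁻¹ ∈ O)
    {b c : ℤ} (h : (b : ZMod M) ≠ c) :
    zeta M ^ b - zeta M ^ c ≠ 0 ∧ (zeta M ^ b - zeta M ^ c)⁻¹ ∈ O := by
  have hbc : ((c - b : ℤ) : ZMod M) ≠ 0 := by
    push_cast
    intro h2
    apply h
    linear_combination -h2
  have e1 : zeta M ^ b - zeta M ^ c = zeta M ^ b * (1 - zeta M ^ (c - b)) := by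
    rw [zpow_sub₀ (zeta_ne_zero M)]
    have := zpow_ne_zero b (zeta_ne_zero M)
    field_simp
  rw [e1]
  refine ⟨mul_ne_zero (zpow_ne_zero _ (zeta_ne_zero M)) (zeta_zpow_ne_one hM hbc), ?_⟩
  rw [mul_inv, ← _root_.zpow_neg]
  exact mul_mem (zeta_zpow_mem_sub hM hz _) (inv_one_sub_mem hM hz hi hbc)

lemma f_unit {M : ℕ} (hM : M ≠ 0) {O : Subring ℂ} (hz : zeta M ∈ O) {b : ℤ}
    (hb : (b : ZMod M) ≠ 0) :
    zeta M ^ b / (1 - zeta M ^ b) ^ 2 ≠ 0 ∧ (zeta M ^ b / (1 - zeta M ^ b) ^ 2)⁻¹ ∈ O := by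
  refine ⟨div_ne_zero (zpow_ne_zero _ (zeta_ne_zero M)) (pow_ne_zero _ (zeta_zpow_ne_one hM hb)), ?_⟩
  rw [inv_div, div_eq_mul_inv, ← _root_.zpow_neg]
  exact mul_mem (pow_mem (sub_mem (one_mem _) (zeta_zpow_mem_sub hM hz _)) _)
    (zeta_zpow_mem_sub hM hz _)

lemma unit_neg {O : Subring ℂ} {x : ℂ} (h : x ≠ 0 ∧ x⁻¹ ∈ O) : -x ≠ 0 ∧ (-x)⁻¹ ∈ O :=
  ⟨neg_ne_zero.2 h.1, by rw [inv_neg]; exact neg_mem h.2⟩

lemma sgn_one (M : ℕ) (a : ℤ) : sgn M 1 a = 1 := by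
  rw [sgn]; split_ifs <;> norm_num

theorem lead_PP {M : ℕ} (hM : Odd M) {O : Subring ℂ} (hz : zeta M ∈ O) (hi : ((M : ℂ))⁻¹ ∈ O)
    {v w : Fin 2 → ℤ} (hv : (v 0 : ZMod M) ≠ 0 ∨ (v 1 : ZMod M) ≠ 0)
    (hw : (w 0 : ZMod M) ≠ 0 ∨ (w 1 : ZMod M) ≠ 0)
    (h1 : ¬ ∀ i, (v i : ZMod M) = w i) (h2 : ¬ ∀ i, (v i : ZMod M) = -(w i : ZMod M)) :
    ∃ n ≤ M, (∀ m < n, cP M v m - cP M w m = 0) ∧ cP M v n - cP M w n ≠ 0 ∧
      (cP M v n - cP M w n)⁻¹ ∈ O := by
  have hM0 : M ≠ 0 := by rintro rfl; simp at hM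
  rw [Fin.forall_fin_two] at h1 h2
  have hc0 : cP M v 0 - cP M w 0 = (if (v 0 : ZMod M) = 0 then
      zeta M ^ (v 1) / (1 - zeta M ^ (v 1)) ^ 2 else 0) - (if (w 0 : ZMod M) = 0 then
      zeta M ^ (w 1) / (1 - zeta M ^ (w 1)) ^ 2 else 0) := by
    rw [cP_zero, cP_zero, cP0_eq hM0 hv, cP0_eq hM0 hw]
    ring
  by_cases hv0 : (v 0 : ZMod M) = 0
  · have hv1 : (v 1 : ZMod M) ≠ 0 := by tauto
    refine ⟨0, Nat.zero_le _, by simp, ?_⟩
    rw [hc0, if_pos hv0]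
    by_cases hw0 : (w 0 : ZMod M) = 0
    · have hw1 : (w 1 : ZMod M) ≠ 0 := by tauto
      rw [if_pos hw0]
      have a1 := zeta_zpow_ne_one hM0 hv1
      have a2 := zeta_zpow_ne_one hM0 hw1
      have hne : (v 1 : ZMod M) ≠ w 1 := by
        intro h; exact h1 ⟨by rw [hv0, hw0], h⟩
      have hne2 : ((v 1 + w 1 : ℤ) : ZMod M) ≠ 0 := by
        intro h; apply h2
        refine ⟨by rw [hv0, hw0]; simp, ?_⟩
        push_cast at h
        linear_combination h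
      obtain ⟨b1, b2⟩ := sub_unit hM0 hz hi hne
      have c1 := zeta_zpow_ne_one hM0 hne2
      have c2 := inv_one_sub_mem hM0 hz hi hne2
      have e1 : zeta M ^ (v 1) / (1 - zeta M ^ (v 1)) ^ 2 - zeta M ^ (w 1) / (1 - zeta M ^ (w 1)) ^ 2
          = (zeta M ^ (v 1) - zeta M ^ (w 1)) * (1 - zeta M ^ (v 1 + w 1)) /
            ((1 - zeta M ^ (v 1)) ^ 2 * (1 - zeta M ^ (w 1)) ^ 2) := by
        rw [zpow_add₀ (zeta_ne_zero M)]
        field_simp
        ring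
      rw [e1]
      refine ⟨div_ne_zero (mul_ne_zero b1 c1) (mul_ne_zero (pow_ne_zero _ a1) (pow_ne_zero _ a2)), ?_⟩
      rw [inv_div, div_eq_mul_inv, mul_inv]
      exact mul_mem (mul_mem (pow_mem (sub_mem (one_mem _) (zeta_zpow_mem_sub hM0 hz _)) _)
        (pow_mem (sub_mem (one_mem _) (zeta_zpow_mem_sub hM0 hz _)) _)) (mul_mem b2 c2)
    · rw [if_neg hw0, sub_zero]
      exact f_unit hM0 hz hv1
  · by_cases hw0 : (w 0 : ZMod M) = 0
    · have hw1 : (w 1 : ZMod M) ≠ 0 := by tauto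
      refine ⟨0, Nat.zero_le _, by simp, ?_⟩
      rw [hc0, if_neg hv0, if_pos hw0, zero_sub]
      exact unit_neg (f_unit hM0 hz hw1)
    · -- both first components nonzero
      have hmv : mu M (v 0) ≠ 0 := fun h => hv0 (mu_eq_zero.1 h)
      have hmw : mu M (w 0) ≠ 0 := fun h => hw0 (mu_eq_zero.1 h)
      have hzero : ∀ m, m < mu M (v 0) → m < mu M (w 0) → cP M v m - cP M w m = 0 := by
        intro m hm1 hm2
        rcases Nat.eq_zero_or_pos m with rfl | hm0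
        · rw [hc0, if_neg hv0, if_neg hw0, sub_zero]
        · rw [cP_sub_pos hm0.ne', SS_zero_of_lt hM0 (hm1.le.trans (mu_le hM0 _)) (Or.inl hm1),
            SS_zero_of_lt hM0 (hm2.le.trans (mu_le hM0 _)) (Or.inl hm2), sub_zero]
      rcases lt_trichotomy (mu M (v 0)) (mu M (w 0)) with hlt | heq | hgt
      · refine ⟨mu M (v 0), (mu_le hM0 _).trans (Nat.div_le_self _ _),
          fun m hm => hzero m hm (hm.trans hlt), ?_⟩
        rw [cP_sub_pos hmv, SS_self hM hv0, SS_zero_of_lt hM0 (mu_le hM0 _) (Or.inl hlt), sub_zero,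
          sgn_one, one_mul]
        refine ⟨zpow_ne_zero _ (zeta_ne_zero M), ?_⟩
        rw [← _root_.zpow_neg]
        exact zeta_zpow_mem_sub hM0 hz _
      · refine ⟨mu M (v 0), (mu_le hM0 _).trans (Nat.div_le_self _ _),
          fun m hm => hzero m hm (heq ▸ hm), ?_⟩
        rw [cP_sub_pos hmv, SS_self hM hv0]
        rw [show SS M 1 (w 0) (w 1) (mu M (v 0)) = SS M 1 (w 0) (w 1) (mu M (w 0)) by rw [heq],
          SS_self hM hw0, sgn_one, sgn_one, one_mul, one_mul]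
        apply sub_unit hM0 hz hi
        intro hcon
        rw [beta, beta] at hcon
        rcases eq_or_of_mu hM0 (v 0) with e1 | e1 <;> rcases eq_or_of_mu hM0 (w 0) with e2 | e2
        · rw [if_pos e1, if_pos e2] at hcon
          exact h1 ⟨by rw [← e1, ← e2, heq], hcon⟩
        · have e3 : ¬ ((mu M (w 0) : ℕ) : ZMod M) = w 0 := by
            intro h; rw [e2] at h; exact two_ne hM hw0 h.symm
          rw [if_pos e1, if_neg e3] at hcon
          exact h2 ⟨by rw [← e1, ← e2, heq], by simpa using hcon⟩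
        · have e3 : ¬ ((mu M (v 0) : ℕ) : ZMod M) = v 0 := by
            intro h; rw [e1] at h; exact two_ne hM hv0 h.symm
          rw [if_neg e3, if_pos e2] at hcon
          refine h2 ⟨?_, ?_⟩
          · rw [heq, e2] at e1
            rw [e1]; simp
          · push_cast at hcon
            linear_combination -hcon
        · have e3 : ¬ ((mu M (v 0) : ℕ) : ZMod M) = v 0 := by
            intro h; rw [e1] at h; exact two_ne hM hv0 h.symm
          have e4 : ¬ ((mu M (w 0) : ℕ) : ZMod M) = w 0 := by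
            intro h; rw [e2] at h; exact two_ne hM hw0 h.symm
          rw [if_neg e3, if_neg e4] at hcon
          refine h1 ⟨?_, ?_⟩
          · rw [heq, e2] at e1
            linear_combination e1
          · push_cast at hcon
            linear_combination -hcon
      · refine ⟨mu M (w 0), (mu_le hM0 _).trans (Nat.div_le_self _ _),
          fun m hm => hzero m (hm.trans hgt) hm, ?_⟩
        rw [cP_sub_pos hmw, SS_self hM hw0, SS_zero_of_lt hM0 (mu_le hM0 _) (Or.inl hgt), zero_sub,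
          sgn_one, one_mul]
        apply unit_neg
        refine ⟨zpow_ne_zero _ (zeta_ne_zero M), ?_⟩
        rw [← _root_.zpow_neg]
        exact zeta_zpow_mem_sub hM0 hz _

end

end Crest.Agent.R007.Wp
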