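import Crest.Agent.R007.Tc3
import Crest.Agent.R007.Wp8
import Crest.Agent.R007.RatL1

/-!
Row 7, section E: units of `L[1/Δ]`: a form without zeros on `ℍ` whose expansions have unit leading
coefficients divides the discriminant integrally. Applications: `Q_v`, `P_v - P_w`, `A₃`.
-/

set_option autoImplicit false

namespace Crest.Agent.R007.EUnit

open Crest.Agent.R007.Wp Crest.Agent.R007.Rat Crest.Agent.R007.WpId Crest.Agent.R007.Tc
open UpperHalfPlane hiding I
open Complex PeriodPair ModularForm Matrix Function Filter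
open scoped MatrixGroups Real PeriodPair Manifold Topology

noncomputable section

section zeros

variable {M : ℕ}

lemma mem_of_zero (hM : M ≠ 0) {v : Fin 2 → ℤ} (hv : ∀ i, (v i : ZMod M) = 0) (τ : ℍ) :
    pt M v τ ∈ (PP τ).lattice := by
  obtain ⟨m, hm⟩ := (ZMod.intCast_zmod_eq_zero_iff_dvd (v 0) M).mp (hv 0)
  obtain ⟨n, hn⟩ := (ZMod.intCast_zmod_eq_zero_iff_dvd (v 1) M).mp (hv 1)
  rw [mem_PP]
  refine ⟨m, n, ?_⟩
  have hM' : (M : ℂ) ≠ 0 := by exact_mod_cast hM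
  rw [pt, hm, hn]
  push_cast
  field_simp

lemma mem_iff_zero (hM : M ≠ 0) (v : Fin 2 → ℤ) (τ : ℍ) :
    pt M v τ ∈ (PP τ).lattice ↔ ∀ i, (v i : ZMod M) = 0 := by
  refine ⟨fun h => ?_, fun h => mem_of_zero hM h τ⟩
  by_contra hcon
  refine pt_notMem hM (v := v) ?_ τ h
  by_contra h2
  push Not at h2
  exact hcon (fun i => by fin_cases i; exacts [h2.1, h2.2])

lemma two_pt_mem_iff (hM : M ≠ 0) (v : Fin 2 → ℤ) (τ : ℍ) :
    2 * pt M v τ ∈ (PP τ).lattice ↔ ∀ i, ((2 * v i : ℤ) : ZMod M) = 0 := by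
  have h1 := mem_iff_zero hM ((2 : ℤ) • v) τ
  have h2 : pt M ((2 : ℤ) • v) τ = 2 * pt M v τ := by
    simp only [pt, Pi.smul_apply, smul_eq_mul]
    push_cast
    ring
  rw [h2] at h1
  simpa using h1

/-- `Q_v` has no zero on `ℍ` unless `2 v ≡ 0`. -/
theorem Q_ne_zero (hM : M ≠ 0) {v : Fin 2 → ℤ} (hv : NZ M v)
    (h2 : ¬ ∀ i, ((2 * v i : ℤ) : ZMod M) = 0) (τ : ℍ) : Q M v τ ≠ 0 := by
  rw [Q]
  refine mul_ne_zero (inv_ne_zero (pow_ne_zero 3 two_pi_I_ne)) ?_
  intro h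
  rw [dwp_eq_zero_iff (PP τ) (pt_notMem hM hv τ), two_pt_mem_iff hM] at h
  exact h2 h

/-- `Q_v` has no zero on `ℍ` for odd level. -/
theorem Q_ne_zero_of_odd (hM : Odd M) {v : Fin 2 → ℤ} (hv : NZ M v) (τ : ℍ) :
    Q M v τ ≠ 0 := by
  refine Q_ne_zero hM.pos.ne' hv (fun h => ?_) τ
  have h2 : IsUnit ((2 : ℕ) : ZMod M) :=
    (ZMod.isUnit_iff_coprime 2 M).mpr ((Nat.coprime_two_left).mpr hM)
  have h3 : ∀ i, (v i : ZMod M) = 0 := by
    intro i
    have h4 := h i
    push_cast at h4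
    have h5 : ((2 : ℕ) : ZMod M) * (v i : ZMod M) = ((2 : ℕ) : ZMod M) * 0 := by
      rw [mul_zero]; push_cast; exact h4
    exact h2.mul_left_cancel h5
  rcases hv with h6 | h6
  · exact h6 (h3 0)
  · exact h6 (h3 1)

/-- `P_v ≠ P_w` on `ℍ` unless `v ≡ ± w`. -/
theorem P_ne (hM : M ≠ 0) {v w : Fin 2 → ℤ} (hv : NZ M v) (hw : NZ M w)
    (h1 : ¬ ∀ i, (v i : ZMod M) = w i) (h2 : ¬ ∀ i, (v i : ZMod M) = -(w i : ZMod M))
    (τ : ℍ) : P M v τ ≠ P M w τ := by
  intro h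
  rw [P, P] at h
  have h3 := mul_left_cancel₀ (inv_ne_zero (pow_ne_zero 2 two_pi_I_ne)) h
  rw [wp_eq_iff (PP τ) (pt_notMem hM hv τ) (pt_notMem hM hw τ)] at h3
  rcases h3 with h3 | h3
  · have h4 : pt M (v - w) τ ∈ (PP τ).lattice := by
      have : pt M (v - w) τ = pt M v τ - pt M w τ := by
        simp only [pt, Pi.sub_apply]; push_cast; ring
      rwa [this]
    rw [mem_iff_zero hM] at h4
    apply h1
    intro i
    have := h4 i
    simp only [Pi.sub_apply] at this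
    push_cast at this
    exact sub_eq_zero.mp this
  · have h4 : pt M (v + w) τ ∈ (PP τ).lattice := by
      have : pt M (v + w) τ = pt M v τ + pt M w τ := by
        simp only [pt, Pi.add_apply]; push_cast; ring
      rwa [this]
    rw [mem_iff_zero hM] at h4
    apply h2
    intro i
    have := h4 i
    simp only [Pi.add_apply] at this
    push_cast at this
    exact eq_neg_of_add_eq_zero_left this

end zeros

section limit

variable {M : ℕ} [NeZero M] {k : ℤ} {f : ℍ → ℂ}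

/-- leading term at infinity. -/
theorem tendsto_div (hf : IsF M k f) {n : ℕ}
    (hc : ∀ m < n, PowerSeries.coeff m (qe M f) = 0) :
    Tendsto (fun τ : ℍ => f τ / Periodic.qParam (M : ℝ) τ ^ n) atImInfty
      (𝓝 (PowerSeries.coeff n (qe M f))) := by
  set c : ℕ → ℂ := fun m => PowerSeries.coeff (m + n) (qe M f) with hcdef
  have hsum : ∀ τ : ℍ, HasSum (fun m => c m * Periodic.qParam (M : ℝ) τ ^ m)
      (f τ / Periodic.qParam (M : ℝ) τ ^ n) := by
    intro τ
    have h1 := hasSum_qExpansion (h := (M : ℝ)) Mpos hf.periodic hf.holo hf.bdd_infty τ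
    rw [← hasSum_nat_add_iff' n] at h1
    have h2 : ∑ i ∈ Finset.range n, (PowerSeries.coeff i (qExpansion (M : ℝ) f)) •
        Periodic.qParam (M : ℝ) (τ : ℂ) ^ i = 0 := by
      refine Finset.sum_eq_zero fun i hi => ?_
      have := hc i (Finset.mem_range.mp hi)
      rw [qe] at this
      rw [this, zero_smul]
    rw [h2, sub_zero] at h1
    have h3 := h1.div_const (Periodic.qParam (M : ℝ) (τ : ℂ) ^ n)
    have hq : Periodic.qParam (M : ℝ) (τ : ℂ) ≠ 0 := by
      rw [Periodic.qParam]; exact Complex.exp_ne_zero _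
    have h4 : (fun m => c m * Periodic.qParam (M : ℝ) (τ : ℂ) ^ m) =
        fun m => (PowerSeries.coeff (m + n) (qExpansion (M : ℝ) f)) •
          Periodic.qParam (M : ℝ) (τ : ℂ) ^ (m + n) / Periodic.qParam (M : ℝ) (τ : ℂ) ^ n := by
      funext m
      have hcm : c m = PowerSeries.coeff (m + n) (qExpansion (M : ℝ) f) := rfl
      rw [hcm, smul_eq_mul, pow_add]
      field_simp
    rw [h4]
    exact h3
  have hb := (hasFPowerSeries_of_hasSum (Mpos (M := M)) hsum)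
  have hcont : ContinuousAt (fun q : ℂ => ∑' m, c m * q ^ m) 0 :=
    hb.hasFPowerSeriesAt.continuousAt
  have h0 : (∑' m, c m * (0 : ℂ) ^ m) = PowerSeries.coeff n (qe M f) := by
    rw [tsum_eq_single 0]
    · simp [hcdef]
    · intro m hm
      rw [zero_pow hm, mul_zero]
  have hlim := hcont.tendsto.comp (qParam_tendsto_atImInfty (h := (M : ℝ)) Mpos)
  rw [h0] at hlim
  refine hlim.congr fun τ => ?_
  exact (hsum τ).tsum_eq

end limit

section series

variable {O : Subring ℂ}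

/-- division by a series with unit leading coefficient. -/
lemma coeffIn_of_mul {c H D : PowerSeries ℂ} (hc : CoeffIn O c) (hD : CoeffIn O D)
    (h : c * H = D) {n : ℕ} (h0 : ∀ m < n, PowerSeries.coeff m c = 0)
    (hn : PowerSeries.coeff n c ≠ 0) (hi : (PowerSeries.coeff n c)⁻¹ ∈ O) : CoeffIn O H := by
  set B' : PowerSeries O := PowerSeries.mk fun j => ⟨PowerSeries.coeff (j + n) c, hc _⟩ with hB'
  set B : PowerSeries ℂ := PowerSeries.map O.subtype B' with hB
  have hcB : c = PowerSeries.X ^ n * B := by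
    ext m
    rw [PowerSeries.coeff_X_pow_mul']
    split_ifs with hm
    · rw [hB, PowerSeries.coeff_map, hB', PowerSeries.coeff_mk]
      simp only [Subring.subtype_apply]
      rw [Nat.sub_add_cancel hm]
    · exact h0 m (by omega)
  have hu : IsUnit B' := by
    rw [PowerSeries.isUnit_iff_constantCoeff]
    rw [← PowerSeries.coeff_zero_eq_constantCoeff_apply, hB', PowerSeries.coeff_mk]
    refine IsUnit.of_mul_eq_one ⟨(PowerSeries.coeff n c)⁻¹, hi⟩ ?_
    apply Subtype.ext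
    simp only [zero_add]
    exact mul_inv_cancel₀ hn
  obtain ⟨u, hu⟩ := hu
  have hinv : PowerSeries.map O.subtype (↑u⁻¹ : PowerSeries O) * B = 1 := by
    rw [hB, ← map_mul, ← hu, Units.inv_mul, map_one]
  set W : PowerSeries ℂ := PowerSeries.mk fun j => PowerSeries.coeff (j + n) D with hW
  have hBH : B * H = W := by
    ext j
    rw [hW, PowerSeries.coeff_mk, ← h, hcB, mul_assoc, PowerSeries.coeff_X_pow_mul]
  have hH : H = PowerSeries.map O.subtype (↑u⁻¹ : PowerSeries O) * W := by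
    rw [← hBH, ← mul_assoc, hinv, one_mul]
  rw [hH]
  refine CoeffIn.mul (fun m => ?_) (fun m => ?_)
  · rw [PowerSeries.coeff_map]; exact Subtype.property _
  · rw [hW, PowerSeries.coeff_mk]; exact hD _

end series

section unit

variable {O : Subring ℂ} {M : ℕ} [NeZero M] {k : ℤ} {F : ℍ → ℂ}

/-- unit leading coefficient of index at most `M`. -/
def Lead (O : Subring ℂ) (M : ℕ) (f : ℍ → ℂ) : Prop :=
  ∃ n ≤ M, (∀ m < n, PowerSeries.coeff m (qe M f) = 0) ∧ PowerSeries.coeff n (qe M f) ≠ 0 ∧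
    (PowerSeries.coeff n (qe M f))⁻¹ ∈ O

lemma dl_slash (g : SL(2, ℤ)) : dl ∣[(12 : ℤ)] g = dl := isF_dl.slash_one_level g

lemma qe_dl_low : ∀ m < M, PowerSeries.coeff m (qe M dl) = 0 := by
  intro m hm
  have h1 := qe_mul_level (M := 1) isF_dl M m
  rw [one_mul] at h1
  rw [h1]
  split_ifs with hd
  · have : m = 0 := Nat.eq_zero_of_dvd_of_lt hd hm
    rw [this, Nat.zero_div]
    exact coeff_zero_dl
  · rfl

lemma coeffIn_qe_dl : CoeffIn O (qe M dl) := by
  intro m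
  have h1 := qe_mul_level (M := 1) isF_dl M m
  rw [one_mul] at h1
  rw [h1]
  split_ifs with hd
  · exact coeffIn_dl _
  · exact O.zero_mem

/-- **General unit lemma.** -/
theorem isR_div (hF : IsR O M k F) (h0 : ∀ τ, F τ ≠ 0)
    (hl : ∀ g : SL(2, ℤ), Lead O M (F ∣[k] g)) :
    IsR O M (12 - k) (dl / F) ∧ F * (dl / F) = dl := by
  have hslash : ∀ g : SL(2, ℤ), (dl / F) ∣[(12 - k : ℤ)] g = dl / (F ∣[k] g) := by
    intro g
    rw [div_slash_SL2, dl_slash]
  have hne : ∀ (g : SL(2, ℤ)) (τ : ℍ), (F ∣[k] g) τ ≠ 0 := by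
    intro g τ
    rw [SL_slash_apply]
    exact mul_ne_zero (h0 _) (zpow_ne_zero _ (denom_ne_zero _ _))
  have hbdd : ∀ g : SL(2, ℤ), IsBoundedAtImInfty (dl / (F ∣[k] g)) := by
    intro g
    obtain ⟨n, hn, hlow, hnz, -⟩ := hl g
    have t1 := tendsto_div (hF.isF.slash_SL g) hlow
    have hdl : IsF M 12 dl := isF_dl.mono (one_dvd M)
    have t2 := tendsto_div hdl (qe_dl_low (M := M))
    have t3 : Tendsto (fun τ : ℍ => Periodic.qParam (M : ℝ) τ ^ (M - n)) atImInfty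
        (𝓝 ((0 : ℂ) ^ (M - n))) :=
      (qParam_tendsto_atImInfty (h := (M : ℝ)) Mpos).pow _
    have t4 := (t3.mul t2).div t1 hnz
    have t5 : Tendsto (dl / (F ∣[k] g)) atImInfty
        (𝓝 ((0 : ℂ) ^ (M - n) * PowerSeries.coeff M (qe M dl) /
          PowerSeries.coeff n (qe M (F ∣[k] g)))) := by
      refine t4.congr fun τ => ?_
      have hq : Periodic.qParam (M : ℝ) (τ : ℂ) ≠ 0 := by
        rw [Periodic.qParam]; exact Complex.exp_ne_zero _
      have hp : Periodic.qParam (M : ℝ) (τ : ℂ) ^ M =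
          Periodic.qParam (M : ℝ) (τ : ℂ) ^ (M - n) * Periodic.qParam (M : ℝ) (τ : ℂ) ^ n := by
        rw [← pow_add, Nat.sub_add_cancel hn]
      have hne' := hne g τ
      simp only [Pi.div_apply]
      rw [hp]
      have hq1 := pow_ne_zero (M - n) hq
      have hq2 := pow_ne_zero n hq
      field_simp
    exact t5.isBigO_one ℝ
  have hisF : IsF M (12 - k) (dl / F) := by
    refine ⟨fun γ hγ => ?_, ?_, fun g => ?_⟩
    · rw [hslash, hF.isF.slash γ hγ]
    · have hD := (isF_dl).holo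
      have hFh := hF.isF.holo
      rw [UpperHalfPlane.mdifferentiable_iff] at hD hFh ⊢
      have h2 : DifferentiableOn ℂ (fun z => (dl ∘ ofComplex) z / (F ∘ ofComplex) z)
          {z | 0 < z.im} := DifferentiableOn.div hD hFh (fun z _ => h0 _)
      exact h2
    · rw [hslash]; exact hbdd g
  refine ⟨⟨hisF, fun g => ?_⟩, ?_⟩
  · obtain ⟨n, hn, hlow, hnz, hinv⟩ := hl g
    have hprod : (F ∣[k] g) * ((dl / F) ∣[(12 - k : ℤ)] g) = dl := by
      rw [hslash]
      funext τ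
      simp only [Pi.mul_apply, Pi.div_apply]
      exact mul_div_cancel₀ _ (hne g τ)
    have hqe := qe_mul (hF.isF.slash_SL g) (hisF.slash_SL g)
    rw [hprod] at hqe
    exact coeffIn_of_mul (hF.coeff g) coeffIn_qe_dl hqe.symm hlow hnz hinv
  · funext τ
    simp only [Pi.mul_apply, Pi.div_apply]
    exact mul_div_cancel₀ _ (h0 τ)

end unit

section applications

variable {O : Subring ℂ} (hO : OddRing O) {M : ℕ} (hM : Odd M) {v w : Fin 2 → ℤ}
include hO hM

/-- `Q_v` divides the discriminant. -/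
theorem unit_Q (hv : NZ M v) :
    IsR O M (12 - 3) (dl / Q M v) ∧ Q M v * (dl / Q M v) = dl := by
  have : NeZero M := ⟨hM.pos.ne'⟩
  refine isR_div (isR_Q hO hM hv) (Q_ne_zero_of_odd hM hv) fun g => ?_
  obtain ⟨n, hn, h1, h2, h3⟩ := lead_Q hM (hO.zeta_mem M hM) (hO.inv_mem M hM) (hv.vecMul g)
  refine ⟨n, hn, ?_, ?_, ?_⟩ <;> rw [Q_slash, qe_Q] <;> simpa [PowerSeries.coeff_mk] using by assumption

/-- `P_v - P_w` is integral. -/
theorem isR_P_sub (hv : NZ M v) (hw : NZ M w) : IsR O M 2 (P M v - P M w) := by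
  have : NeZero M := ⟨hM.pos.ne'⟩
  refine ⟨(isF_P hM.pos.ne' v).sub (isF_P hM.pos.ne' w), fun g => ?_⟩
  have e : (P M v - P M w) ∣[(2 : ℤ)] g = P M (v ᵥ* (g : Matrix (Fin 2) (Fin 2) ℤ)) -
      P M (w ᵥ* (g : Matrix (Fin 2) (Fin 2) ℤ)) := by
    rw [sub_eq_add_neg, SlashAction.add_slash, SlashAction.neg_slash, P_slash, P_slash,
      ← sub_eq_add_neg]
  have e2 : qe M (P M (v ᵥ* (g : Matrix (Fin 2) (Fin 2) ℤ)) -
      P M (w ᵥ* (g : Matrix (Fin 2) (Fin 2) ℤ))) =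
      sP M (v ᵥ* (g : Matrix (Fin 2) (Fin 2) ℤ)) - sP M (w ᵥ* (g : Matrix (Fin 2) (Fin 2) ℤ)) := by
    rw [sub_eq_add_neg, ← neg_one_smul ℂ (P M (w ᵥ* (g : Matrix (Fin 2) (Fin 2) ℤ))),
      qe_add (isF_P hM.pos.ne' _) ((isF_P hM.pos.ne' _).smul _),
      qe_smul (isF_P hM.pos.ne' _), qe_P, qe_P, neg_one_smul, ← sub_eq_add_neg]
    rfl
  rw [e, e2]
  exact sP_sub_coeffIn hO hM (hv.vecMul g) (hw.vecMul g)

/-- `P_v - P_w` divides the discriminant for `v ≢ ± w`. -/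
theorem unit_P_sub (hv : NZ M v) (hw : NZ M w) (h1 : ¬ ∀ i, (v i : ZMod M) = w i)
    (h2 : ¬ ∀ i, (v i : ZMod M) = -(w i : ZMod M)) :
    IsR O M (12 - 2) (dl / (P M v - P M w)) ∧ (P M v - P M w) * (dl / (P M v - P M w)) = dl := by
  have : NeZero M := ⟨hM.pos.ne'⟩
  refine isR_div (isR_P_sub hO hM hv hw)
    (fun τ => sub_ne_zero.mpr (P_ne hM.pos.ne' hv hw h1 h2 τ)) fun g => ?_
  have key : ∀ u : Fin 2 → ℤ, (¬ ∀ i, (u i : ZMod M) = 0) →
      ¬ ∀ i, ((u ᵥ* (g : Matrix (Fin 2) (Fin 2) ℤ)) i : ZMod M) = 0 := by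
    intro u hu h
    have hu' : NZ M u := by
      by_contra h3
      rw [NZ] at h3
      push Not at h3
      exact hu (fun i => by fin_cases i; exacts [h3.1, h3.2])
    rcases hu'.vecMul g with h4 | h4
    · exact h4 (h 0)
    · exact h4 (h 1)
  have h1' : ¬ ∀ i, ((v ᵥ* (g : Matrix (Fin 2) (Fin 2) ℤ)) i : ZMod M) =
      (w ᵥ* (g : Matrix (Fin 2) (Fin 2) ℤ)) i := by
    intro h
    refine key (v - w) (fun h3 => h1 fun i => ?_) fun i => ?_
    · have := h3 i
      simp only [Pi.sub_apply] at this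
      push_cast at this
      exact sub_eq_zero.mp this
    · rw [Matrix.sub_vecMul]
      simp only [Pi.sub_apply]
      push_cast
      rw [h i, sub_self]
  have h2' : ¬ ∀ i, ((v ᵥ* (g : Matrix (Fin 2) (Fin 2) ℤ)) i : ZMod M) =
      -((w ᵥ* (g : Matrix (Fin 2) (Fin 2) ℤ)) i : ZMod M) := by
    intro h
    refine key (v + w) (fun h3 => h2 fun i => ?_) fun i => ?_
    · have := h3 i
      simp only [Pi.add_apply] at this
      push_cast at this
      exact eq_neg_of_add_eq_zero_left this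
    · rw [Matrix.add_vecMul]
      simp only [Pi.add_apply]
      push_cast
      rw [h i, neg_add_cancel]
  obtain ⟨n, hn, g1, g2, g3⟩ := lead_PP hM (hO.zeta_mem M hM) (hO.inv_mem M hM)
    (hv.vecMul g) (hw.vecMul g) h1' h2'
  have e : (P M v - P M w) ∣[(2 : ℤ)] g = P M (v ᵥ* (g : Matrix (Fin 2) (Fin 2) ℤ)) -
      P M (w ᵥ* (g : Matrix (Fin 2) (Fin 2) ℤ)) := by
    rw [sub_eq_add_neg, SlashAction.add_slash, SlashAction.neg_slash, P_slash, P_slash,
      ← sub_eq_add_neg]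
  have e2 : ∀ m, PowerSeries.coeff m (qe M (P M (v ᵥ* (g : Matrix (Fin 2) (Fin 2) ℤ)) -
      P M (w ᵥ* (g : Matrix (Fin 2) (Fin 2) ℤ)))) =
      cP M (v ᵥ* (g : Matrix (Fin 2) (Fin 2) ℤ)) m -
        cP M (w ᵥ* (g : Matrix (Fin 2) (Fin 2) ℤ)) m := by
    intro m
    rw [sub_eq_add_neg, ← neg_one_smul ℂ (P M (w ᵥ* (g : Matrix (Fin 2) (Fin 2) ℤ))),
      qe_add (isF_P hM.pos.ne' _) ((isF_P hM.pos.ne' _).smul _),
      qe_smul (isF_P hM.pos.ne' _), qe_P, qe_P, neg_one_smul, ← sub_eq_add_neg, map_sub,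
      PowerSeries.coeff_mk, PowerSeries.coeff_mk]
  refine ⟨n, hn, ?_, ?_, ?_⟩
  · intro m hm; rw [e, e2]; exact g1 m hm
  · rw [e, e2]; exact g2
  · rw [e, e2]; exact g3

end applications

/-- `A₃` divides the discriminant. -/
theorem unit_A3 {O : Subring ℂ} (hO : OddRing O) {v : Fin 2 → ℤ} (hv : NZ 3 v) :
    IsR O 3 (12 - 3) (dl / A3 v) ∧ A3 v * (dl / A3 v) = dl :=
  unit_Q hO (by decide) hv

end

end Crest.Agent.R007.EUnit
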