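import Crest.Agent.R007.EPt1
import Crest.Agent.R007.EIn
import Crest.Agent.R007.EUnit
import Crest.Agent.R007.ELev1
import Crest.Agent.R007.EHasse

/-!
Row 7 (S0007), section E: existence of the points, concrete part 1: the action of `SL(2,ℤ)` on `L`,
invariants = polynomials in `A₁`, `A₃`, algebraic independence.
-/

set_option autoImplicit false

namespace Crest.Agent.R007.EPt

open UpperHalfPlane ModularForm CongruenceSubgroup Matrix
open Crest.Agent.R007.Lat Crest.Agent.R007.Mix Crest.Agent.R007.EL Crest.Agent.R007.Tc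
open scoped MatrixGroups Manifold ModularForm

variable (O : Subring ℂ)

/-- `SL(2,ℤ)` acts on `L` -/
@[reducible] noncomputable def slAct : MulSemiringAction SL(2, ℤ) (LL O) where
  smul g x := slL O (sG g⁻¹) (sG_mem_G2 _) x
  one_smul x := Subtype.ext (by
    change sl _ (sG 1⁻¹) = _
    rw [inv_one, sG_one, sl_one_right])
  mul_smul g h x := Subtype.ext (by
    change sl _ (sG (g * h)⁻¹) = sl (sl _ (sG h⁻¹)) (sG g⁻¹)
    rw [_root_.mul_inv_rev, sG_mul, sl_mul_right])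
  smul_zero g := map_zero _
  smul_add g x y := map_add _ _ _
  smul_one g := map_one _
  smul_mul g x y := map_mul _ _ _

attribute [local instance] slAct

theorem smul_coe (g : SL(2, ℤ)) (x : LL O) : ((g • x : LL O) : X → ℂ) = sl x (sG g⁻¹) := rfl

theorem exists_level (x : LL O) : ∃ M : ℕ, Odd M ∧ 3 ∣ M ∧ ∃ (n : ℕ) (f : ℕ → X → ℂ),
    (∀ k, f k ∈ Lk O k) ∧ (∀ k, k < n → f k ∈ MX M k) ∧
    (x : X → ℂ) = ∑ k ∈ Finset.range n, f k := by
  obtain ⟨n, f, hf, hx⟩ := x.2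
  choose m hm1 hm2 using fun k => (hf k).1
  have hne : ∀ k, m k ≠ 0 := fun k => (hm1 k).pos.ne'
  refine ⟨3 * ∏ k ∈ Finset.range n, m k, ?_, dvd_mul_right _ _, n, f, hf, ?_, hx⟩
  · refine Odd.mul (by decide) ?_
    refine Finset.prod_induction _ Odd (fun a b ha hb => ha.mul hb) odd_one fun k _ => hm1 k
  · intro k hk
    have i1 : NeZero (m k) := ⟨hne k⟩
    have i2 : NeZero (3 * ∏ k ∈ Finset.range n, m k) :=
      ⟨mul_ne_zero (by norm_num) (Finset.prod_ne_zero_iff.2 fun k _ => hne k)⟩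
    exact MX_mono ((Finset.dvd_prod_of_mem m (Finset.mem_range.2 hk)).mul_left 3) (hm2 k)

theorem MX_fix {M k : ℕ} [NeZero M] {F : X → ℂ} (hF : F ∈ MX M k) {γ : SL(2, ℤ)}
    (hγ : γ ∈ Gamma M) : sl F (sG γ) = F := (mem_MX_iff.1 hF).2.1 γ hγ

theorem orbit_finite (x : LL O) : (MulAction.orbit SL(2, ℤ) x).Finite := by
  obtain ⟨M, hM, -, n, f, -, hfM, hx⟩ := exists_level O x
  have : NeZero M := ⟨hM.pos.ne'⟩
  have hle : Gamma M ≤ MulAction.stabilizer SL(2, ℤ) x := by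
    intro γ hγ
    rw [MulAction.mem_stabilizer_iff]
    apply Subtype.ext
    rw [smul_coe, hx, sl_sum]
    refine Finset.sum_congr rfl fun k hk => ?_
    exact MX_fix (hfM k (Finset.mem_range.1 hk)) (inv_mem hγ)
  have hfi : (MulAction.stabilizer SL(2, ℤ) x).FiniteIndex := Subgroup.finiteIndex_of_le hle
  have : Finite (SL(2, ℤ) ⧸ MulAction.stabilizer SL(2, ℤ) x) := Subgroup.finite_quotient_of_finiteIndex
  have : Finite (MulAction.orbit SL(2, ℤ) x) :=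
    Finite.of_equiv _ (MulAction.orbitEquivQuotientStabilizer SL(2, ℤ) x).symm
  exact Set.toFinite _

theorem invariant_comp (x : LL O) (hx : ∀ g : SL(2, ℤ), g • x = x) : ∃ (n : ℕ) (f : ℕ → X → ℂ),
    (∀ k, k < n → f k ∈ Lk O k ∧ f k ∈ MX 1 k) ∧ (x : X → ℂ) = ∑ k ∈ Finset.range n, f k := by
  obtain ⟨M, hM, -, n, f, hf, hfM, hx'⟩ := exists_level O x
  have : NeZero M := ⟨hM.pos.ne'⟩
  refine ⟨n, f, fun k hk => ⟨hf k, ?_⟩, hx'⟩
  have h1 := mem_MX_iff.1 (hfM k hk)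
  rw [mem_MX_iff]
  refine ⟨h1.1, fun γ _ => ?_, h1.2.2⟩
  have h2 := congrArg (Subtype.val : LL O → X → ℂ) (hx γ⁻¹)
  rw [smul_coe, inv_inv, hx', sl_sum] at h2
  exact Wt_unique (F := fun k => sl (f k) (sG γ)) (G := f) (n := n)
    (fun k => Wt_sl (MO_le_Wt (hf k).1) _) (fun k => MO_le_Wt (hf k).1) h2 k hk

/-! ### polynomials in `A₁`, `A₃` -/

section poly

variable {O} (hO : OddRing O) {v : Fin 2 → ℤ} (hv : NZ 3 v)

/-- `A₁` in `L` -/
noncomputable abbrev a1 : LL O := mkL O (lift 1 (A1 v)) (EH.A1_mem_Lk hO hv)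

/-- `A₃` in `L` -/
noncomputable abbrev a3 : LL O := mkL O (lift 3 (A3 v)) (EH.A3_mem_Lk hO hv)

/-- `O[Y][X] → L`, `Y ↦ A₃`, `X ↦ A₁` -/
noncomputable def Psi : Polynomial (Polynomial O) →+* LL O :=
  Polynomial.eval₂RingHom (Polynomial.eval₂RingHom (cst O) (a3 hO hv)) (a1 hO hv)

theorem Psi_C (c : O) : Psi hO hv (Polynomial.C (Polynomial.C c)) = cst O c := by
  simp [Psi]

theorem Psi_X : Psi hO hv Polynomial.X = a1 hO hv := by simp [Psi]

theorem Psi_Y : Psi hO hv (Polynomial.C Polynomial.X) = a3 hO hv := by simp [Psi]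

/-- the subring `O[A₁, A₃]` of `L` -/
noncomputable def PsiR : Subring (LL O) :=
  RingHom.range (R := Polynomial (Polynomial O)) (S := LL O) (Psi hO hv)

theorem mem_PsiR {s : LL O} : s ∈ PsiR hO hv ↔ ∃ p, Psi hO hv p = s := Iff.rfl

theorem cst_mem_range (c : O) : cst O c ∈ PsiR hO hv := ⟨_, Psi_C hO hv c⟩
theorem a1_mem_range : a1 hO hv ∈ PsiR hO hv := ⟨_, Psi_X hO hv⟩
theorem a3_mem_range : a3 hO hv ∈ PsiR hO hv := ⟨_, Psi_Y hO hv⟩

theorem E4_mem : ∃ s : LL O, s ∈ PsiR hO hv ∧ (s : X → ℂ) = lift 4 Lev1.E4 := by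
  refine ⟨a1 hO hv ^ 4 - 24 * (a1 hO hv * a3 hO hv), ?_, ?_⟩
  · have h24 : (24 : LL O) ∈ PsiR hO hv := ofNat_mem _ 24
    exact sub_mem (pow_mem (a1_mem_range hO hv) 4) (mul_mem h24 (mul_mem (a1_mem_range hO hv)
      (a3_mem_range hO hv)))
  · funext x
    have h := E4_eq hv (τ := x.t)
    change (lift 1 (A1 v) x) ^ 4 - 24 * (lift 1 (A1 v) x * lift 3 (A3 v) x) = lift 4 Lev1.E4 x
    simp only [lift_apply, Lev1.E4]
    rw [h]
    ring

theorem E6_mem : ∃ s : LL O, s ∈ PsiR hO hv ∧ (s : X → ℂ) = lift 6 Lev1.E6 := by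
  refine ⟨a1 hO hv ^ 6 - 36 * (a1 hO hv ^ 3 * a3 hO hv) + 216 * a3 hO hv ^ 2, ?_, ?_⟩
  · have h36 : (36 : LL O) ∈ PsiR hO hv := ofNat_mem _ 36
    have h216 : (216 : LL O) ∈ PsiR hO hv := ofNat_mem _ 216
    exact add_mem (sub_mem (pow_mem (a1_mem_range hO hv) 6) (mul_mem h36
      (mul_mem (pow_mem (a1_mem_range hO hv) 3) (a3_mem_range hO hv))))
      (mul_mem h216 (pow_mem (a3_mem_range hO hv) 2))
  · funext x
    have h := E6_eq hv (τ := x.t)
    change (lift 1 (A1 v) x) ^ 6 - 36 * ((lift 1 (A1 v) x) ^ 3 * lift 3 (A3 v) x) +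
      216 * (lift 3 (A3 v) x) ^ 2 = lift 6 Lev1.E6 x
    simp only [lift_apply, Lev1.E6]
    rw [h]
    ring

theorem Dl_mem : ∃ s : LL O, s ∈ PsiR hO hv ∧ (s : X → ℂ) = lift 12 Lev1.Dl := by
  refine ⟨a3 hO hv ^ 3 * (a1 hO hv ^ 3 - 27 * a3 hO hv), ?_, ?_⟩
  · have h27 : (27 : LL O) ∈ PsiR hO hv := ofNat_mem _ 27
    exact mul_mem (pow_mem (a3_mem_range hO hv) 3) (sub_mem (pow_mem (a1_mem_range hO hv) 3)
      (mul_mem h27 (a3_mem_range hO hv)))
  · exact (Lev1.DX_eq hv).symm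

theorem lev1_mem {k : ℕ} {F : X → ℂ} (hF : F ∈ Lk O k) (h1 : F ∈ MX 1 k) :
    ∃ s : LL O, s ∈ PsiR hO hv ∧ (s : X → ℂ) = F := by
  have h := Lev1.mem_span (Lev1.isR_res hF h1)
  have key : ∀ f ∈ Submodule.span O (Lev1.mons (k : ℤ)), ∃ s : LL O, s ∈ PsiR hO hv ∧
      (s : X → ℂ) = lift k f := by
    intro f hf
    induction hf using Submodule.span_induction with
    | zero => exact ⟨0, zero_mem _, (lift_zero k).symm⟩
    | add x y _ _ hx hy =>
      obtain ⟨s, hs, e⟩ := hx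
      obtain ⟨t, ht, e'⟩ := hy
      exact ⟨s + t, add_mem hs ht, by rw [lift_add, ← e, ← e']; rfl⟩
    | smul c x _ hx =>
      obtain ⟨s, hs, e⟩ := hx
      refine ⟨cst O c * s, mul_mem (cst_mem_range hO hv c) hs, ?_⟩
      change ((c : ℂ) • (1 : X → ℂ)) * (s : X → ℂ) = lift k ((c : ℂ) • x)
      rw [e, lift_smul, smul_mul_assoc, one_mul]
    | mem x hx =>
      obtain ⟨a, b, c, habc, rfl⟩ := hx
      obtain ⟨s4, h4, e4⟩ := E4_mem hO hv
      obtain ⟨s6, h6, e6⟩ := E6_mem hO hv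
      obtain ⟨sD, hD, eD⟩ := Dl_mem hO hv
      refine ⟨s4 ^ a * s6 ^ b * sD ^ c, mul_mem (mul_mem (pow_mem h4 a) (pow_mem h6 b))
        (pow_mem hD c), ?_⟩
      change (s4 : X → ℂ) ^ a * (s6 : X → ℂ) ^ b * (sD : X → ℂ) ^ c = _
      have hk : k = 4 * a + 6 * b + 12 * c := by
        have : (k : ℤ) = ((4 * a + 6 * b + 12 * c : ℕ) : ℤ) := by push_cast; linarith
        exact_mod_cast this
      rw [e4, e6, eD, hk, lift_mul, lift_mul, Lev1.lift_pow', Lev1.lift_pow', Lev1.lift_pow']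
  obtain ⟨s, hs, e⟩ := key _ h
  exact ⟨s, hs, by rw [e, lift_res (MX_le_Wt h1)]⟩

theorem invariant_mem (x : LL O) (hx : ∀ g : SL(2, ℤ), g • x = x) : x ∈ PsiR hO hv := by
  obtain ⟨n, f, hf, e⟩ := invariant_comp O x hx
  have h : ∀ k, ∃ s : LL O, s ∈ PsiR hO hv ∧ (k < n → (s : X → ℂ) = f k) := by
    intro k
    by_cases hk : k < n
    · obtain ⟨s, hs, e⟩ := lev1_mem hO hv (hf k hk).1 (hf k hk).2
      exact ⟨s, hs, fun _ => e⟩
    · exact ⟨0, zero_mem _, fun h => absurd h hk⟩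
  choose s hs hs' using h
  have : x = ∑ k ∈ Finset.range n, s k := by
    apply Subtype.ext
    rw [e]
    refine Eq.trans ?_ (map_sum (LL O).subtype _ _).symm
    exact Finset.sum_congr rfl fun k hk => (hs' k (Finset.mem_range.1 hk)).symm
  rw [this]
  exact sum_mem fun k _ => hs k

end poly

end Crest.Agent.R007.EPt
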