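import Crest.Agent.R007.EPt2

/-!
Row 7 (S0007), section E: existence of the points, concrete part 2: `A₁`, `A₃` are algebraically
independent.
-/

set_option autoImplicit false

namespace Crest.Agent.R007.EPt

open UpperHalfPlane ModularForm CongruenceSubgroup Matrix
open Crest.Agent.R007.Lat Crest.Agent.R007.Mix Crest.Agent.R007.EL Crest.Agent.R007.Tc
open Crest.Agent.R007.Wp Crest.Agent.R007.Rat
open Filter
open scoped MatrixGroups Manifold ModularForm Topology

section lim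

variable {v : Fin 2 → ℤ} (hv : NZ 3 v) (h0 : (v 0 : ZMod 3) ≠ 0)
include hv h0

theorem tendsto_A1 : ∃ c : ℂ, c ≠ 0 ∧ Tendsto (A1 v) atImInfty (𝓝 c) := by
  refine ⟨PowerSeries.coeff 0 (qe 3 (A1 v)), ?_, ?_⟩
  · intro hc
    have h1 := congrArg (PowerSeries.coeff 0) (qe_A1_sq hv)
    rw [PowerSeries.coeff_zero_eq_constantCoeff_apply, map_pow,
      ← PowerSeries.coeff_zero_eq_constantCoeff_apply, hc, zero_pow two_ne_zero] at h1
    rw [PowerSeries.coeff_smul, sP, PowerSeries.coeff_mk, cP] at h1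
    simp only [if_true, Nat.divisorsAntidiagonal_zero, Finset.sum_empty, add_zero, smul_eq_mul] at h1
    rw [cP0_three hv, if_neg h0] at h1
    exact zero_ne_one h1
  · have := EUnit.tendsto_div (M := 3) (isF_A1 hv) (n := 0) (fun m hm => absurd hm (Nat.not_lt_zero m))
    simpa using this

omit h0 in
theorem coeff_zero_A3 (h0 : (v 0 : ZMod 3) ≠ 0) : PowerSeries.coeff 0 (qe 3 (A3 v)) = 0 := by
  rw [A3, qe_Q, PowerSeries.coeff_mk, cQ_zero, cQ0_eq (by norm_num) hv, if_neg h0]

theorem tendsto_A3 : Tendsto (A3 v) atImInfty (𝓝 0) := by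
  have := EUnit.tendsto_div (M := 3) (isF_A3 v) (n := 0) (fun m hm => absurd hm (Nat.not_lt_zero m))
  rw [coeff_zero_A3 hv h0] at this
  simpa using this

theorem ratio_infinite : (Set.range fun τ : ℍ => A1 v τ ^ 3 / A3 v τ).Infinite := by
  intro hfin
  obtain ⟨B, hB⟩ := (hfin.image (fun z : ℂ => ‖z‖)).bddAbove
  obtain ⟨c, hc, h1⟩ := tendsto_A1 hv h0
  have h3 := tendsto_A3 hv h0
  have hle : ∀ τ : ℍ, ‖A1 v τ ^ 3‖ ≤ B * ‖A3 v τ‖ := by
    intro τ
    have h := hB ⟨_, ⟨τ, rfl⟩, rfl⟩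
    simp only [norm_div] at h
    rwa [div_le_iff₀ (norm_pos_iff.2 (A3_ne_zero hv τ))] at h
  have t1 : Tendsto (fun τ : ℍ => ‖A1 v τ ^ 3‖) atImInfty (𝓝 ‖c ^ 3‖) := (h1.pow 3).norm
  have t2 : Tendsto (fun τ : ℍ => B * ‖A3 v τ‖) atImInfty (𝓝 (B * ‖(0 : ℂ)‖)) :=
    h3.norm.const_mul B
  have := le_of_tendsto_of_tendsto' t1 t2 hle
  rw [norm_zero, mul_zero] at this
  exact (pow_ne_zero 3 hc) (norm_le_zero_iff.1 this)

end lim

section inj

variable {O : Subring ℂ} (hO : OddRing O) {v : Fin 2 → ℤ} (hv : NZ 3 v)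

/-- evaluation at a point of `X` -/
noncomputable def evX (O : Subring ℂ) (x : X) : LL O →+* ℂ :=
  (Pi.evalRingHom (fun _ : X => ℂ) x).comp (LL O).subtype

theorem evX_Psi (x : X) (p : Polynomial (Polynomial O)) : evX O x (Psi hO hv p) =
    (p.map (Polynomial.eval₂RingHom O.subtype (lift 3 (A3 v) x))).eval (lift 1 (A1 v) x) := by
  have h : (evX O x).comp (Psi hO hv) =
      (Polynomial.evalRingHom (lift 1 (A1 v) x)).comp
        (Polynomial.mapRingHom (Polynomial.eval₂RingHom O.subtype (lift 3 (A3 v) x))) := by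
    apply Polynomial.ringHom_ext'
    · apply Polynomial.ringHom_ext'
      · ext c
        simp only [RingHom.comp_apply, Psi_C]
        simp [evX]
      · simp only [RingHom.comp_apply, Psi_Y]
        simp [evX]
    · simp only [RingHom.comp_apply, Psi_X]
      simp [evX]
  exact congrArg (fun f => f p) h

theorem Psi_injective (h0 : (v 0 : ZMod 3) ≠ 0) : Function.Injective (Psi hO hv) := by
  rw [injective_iff_map_eq_zero]
  intro p hp
  have key : ∀ β : ℂ, β ≠ 0 → p.map (Polynomial.eval₂RingHom O.subtype β) = 0 := by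
    intro β hβ
    apply Polynomial.eq_zero_of_infinite_isRoot
    apply Set.Infinite.of_image (fun a => a ^ 3 / β)
    refine (ratio_infinite hv h0).mono ?_
    rintro _ ⟨τ, rfl⟩
    have h3 := A3_ne_zero hv τ
    obtain ⟨w, hw⟩ := IsAlgClosed.exists_pow_nat_eq (A3 v τ / β) (n := 3) (by norm_num)
    have hw0 : w ≠ 0 := by
      rintro rfl
      rw [zero_pow (by norm_num)] at hw
      exact (div_ne_zero h3 hβ) hw.symm
    let x : X := ⟨τ, Units.mk0 w hw0⟩
    have e3 : lift 3 (A3 v) x = β := by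
      rw [lift_apply]
      change ((((Units.mk0 w hw0)⁻¹ : ℂˣ) : ℂ)) ^ 3 * A3 v τ = β
      rw [Units.val_inv_eq_inv_val, Units.val_mk0, inv_pow, hw]
      field_simp
    have e1 : lift 1 (A1 v) x = w⁻¹ * A1 v τ := by
      rw [lift_apply]
      change ((((Units.mk0 w hw0)⁻¹ : ℂˣ) : ℂ)) ^ 1 * A1 v τ = _
      rw [Units.val_inv_eq_inv_val, Units.val_mk0, pow_one]
    refine ⟨w⁻¹ * A1 v τ, ?_, ?_⟩
    · have h := evX_Psi hO hv x p
      rw [hp, map_zero, e3, e1] at h
      exact h.symm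
    · change (w⁻¹ * A1 v τ) ^ 3 / β = _
      rw [mul_pow, inv_pow, hw]
      field_simp
  ext1 n
  rw [Polynomial.coeff_zero]
  have h2 : (p.coeff n).map O.subtype = 0 := by
    apply Polynomial.eq_zero_of_infinite_isRoot
    refine Set.Infinite.mono (s := {β : ℂ | β ≠ 0}) ?_ ?_
    · intro β hβ
      have h := congrArg (fun q => Polynomial.coeff q n) (key β hβ)
      rw [Polynomial.coeff_map] at h
      change Polynomial.IsRoot _ _
      rw [Polynomial.IsRoot, Polynomial.eval_map]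
      exact h
    · have : ({β : ℂ | β ≠ 0}) = ({0} : Set ℂ)ᶜ := rfl
      rw [this]
      exact (Set.finite_singleton (0 : ℂ)).infinite_compl
  exact (Polynomial.map_eq_zero_iff Subtype.val_injective).1 h2

/-- the hom `O[A₁, A₃] → κ⟦t⟧`, `A₁ ↦ t`, `A₃ ↦ 1` -/
theorem exists_phi (h0 : (v 0 : ZMod 3) ≠ 0) {κ : Type*} [Field κ] (ρ : O →+* κ) :
    ∃ φ : PsiR hO hv →+* PowerSeries κ, φ ⟨a1 hO hv, a1_mem_range hO hv⟩ = PowerSeries.X ∧
      φ ⟨a3 hO hv, a3_mem_range hO hv⟩ = 1 ∧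
      ∀ c, φ ⟨cst O c, cst_mem_range hO hv c⟩ = PowerSeries.C (ρ c) := by
  let f : Polynomial (Polynomial O) →+* PsiR hO hv :=
    RingHom.codRestrict (R := Polynomial (Polynomial O)) (S := LL O) (Psi hO hv) (PsiR hO hv)
      fun p => ⟨p, rfl⟩
  have hf : Function.Bijective f := by
    constructor
    · intro p q h
      exact Psi_injective hO hv h0 (congrArg Subtype.val h)
    · rintro ⟨_, p, rfl⟩
      exact ⟨p, rfl⟩
  let ε : Polynomial (Polynomial O) ≃+* PsiR hO hv := RingEquiv.ofBijective f hf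
  let g : Polynomial (Polynomial O) →+* PowerSeries κ :=
    Polynomial.eval₂RingHom (Polynomial.eval₂RingHom ((PowerSeries.C).comp ρ) 1) PowerSeries.X
  have key : ∀ (s : PsiR hO hv) (p : Polynomial (Polynomial O)), Psi hO hv p = s →
      (g.comp (ε.symm : PsiR hO hv →+* Polynomial (Polynomial O))) s = g p := by
    intro s p h
    rw [RingHom.comp_apply]
    congr 1
    change ε.symm s = p
    rw [RingEquiv.symm_apply_eq]
    exact Subtype.ext h.symm
  refine ⟨g.comp (ε.symm : PsiR hO hv →+* Polynomial (Polynomial O)), ?_, ?_, ?_⟩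
  · rw [key _ _ (Psi_X hO hv)]
    simp [g]
  · rw [key _ _ (Psi_Y hO hv)]
    simp [g]
  · intro c
    rw [key _ _ (Psi_C hO hv c)]
    simp [g]

end inj

end Crest.Agent.R007.EPt
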