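import Crest.Agent.R007.EPt3

/-!
Row 7 (S0007), section E: existence of the points, concrete part 3: the `SL(2,ℤ)`-sets `{P_v}`,
and the theorem `exists_pt`.
-/

set_option autoImplicit false

namespace Crest.Agent.R007.EPt

open UpperHalfPlane ModularForm CongruenceSubgroup Matrix
open Crest.Agent.R007.Lat Crest.Agent.R007.Mix Crest.Agent.R007.EL Crest.Agent.R007.Tc
open Crest.Agent.R007.Wp Crest.Agent.R007.Rat
open Filter
open scoped MatrixGroups Manifold ModularForm Topology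

attribute [local instance] slAct

/-! ### the set `{P_v}` -/

/-- `P_v` on `X` -/
noncomputable def PX (M : ℕ) (v : Fin 2 → ℤ) : X → ℂ := lift 2 (P M v)

/-- `SL(2,ℤ)` acts on functions on `X` -/
@[reducible] noncomputable def fnAct : MulAction SL(2, ℤ) (X → ℂ) where
  smul g F := sl F (sG g⁻¹)
  one_smul F := by
    change sl _ (sG 1⁻¹) = _
    rw [inv_one, sG_one, sl_one_right]
  mul_smul g h F := by
    change sl _ (sG (g * h)⁻¹) = sl (sl _ (sG h⁻¹)) (sG g⁻¹)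
    rw [_root_.mul_inv_rev, sG_mul, sl_mul_right]

theorem sl_PX (M : ℕ) (v : Fin 2 → ℤ) (g : SL(2, ℤ)) :
    sl (PX M v) (sG g) = PX M (v ᵥ* (g : Matrix (Fin 2) (Fin 2) ℤ)) := by
  rw [PX, sl_lift_SL]
  exact congrArg (lift 2) (P_slash (γ := g) M v)

/-- the set `{P_v}` -/
def IM (M : ℕ) : Type := {F : X → ℂ // ∃ v, NZ M v ∧ F = PX M v}

noncomputable instance actIM (M : ℕ) : MulAction SL(2, ℤ) (IM M) where
  smul g F := ⟨sl F.1 (sG g⁻¹), by
    obtain ⟨v, hv, e⟩ := F.2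
    exact ⟨_, hv.vecMul g⁻¹, by rw [e, sl_PX]⟩⟩
  one_smul F := Subtype.ext (by
    change sl _ (sG 1⁻¹) = _
    rw [inv_one, sG_one, sl_one_right])
  mul_smul g h F := Subtype.ext (by
    change sl _ (sG (g * h)⁻¹) = sl (sl _ (sG h⁻¹)) (sG g⁻¹)
    rw [_root_.mul_inv_rev, sG_mul, sl_mul_right])

theorem smul_IM {M : ℕ} (g : SL(2, ℤ)) (F : IM M) : (g • F).1 = sl F.1 (sG g⁻¹) := rfl

theorem finite_IM {M : ℕ} (hM : M ≠ 0) : Finite (IM M) := by
  have : NeZero M := ⟨hM⟩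
  have hr : (Set.range fun u : Fin 2 → ZMod M => PX M (fun i => (u i).val)).Finite :=
    Set.finite_range _
  have : Finite {F : X → ℂ // F ∈ Set.range fun u : Fin 2 → ZMod M => PX M (fun i => (u i).val)} :=
    hr.to_subtype
  refine Finite.of_injective (β := {F : X → ℂ // F ∈ Set.range fun u : Fin 2 → ZMod M =>
    PX M (fun i => (u i).val)}) (fun F : IM M => ⟨F.1, ?_⟩) ?_
  swap
  · intro F G h
    exact Subtype.ext (Subtype.mk.inj h)
  obtain ⟨v, hv, e⟩ := F.2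
  refine ⟨fun i => (v i : ZMod M), ?_⟩
  simp only
  rw [e, PX, PX]
  congr 1
  apply P_congr hM
  intro i
  simp

section

variable {O : Subring ℂ} (hO : OddRing O) {M : ℕ} (hM : Odd M) {v : Fin 2 → ℤ} (hv : NZ 3 v)
include hO hM

theorem sub_mem_Lk (F G : IM M) : F.1 - G.1 ∈ Lk O 2 := by
  obtain ⟨v, hv, e⟩ := F.2
  obtain ⟨w, hw, e'⟩ := G.2
  rw [e, e', PX, PX, ← lift_sub]
  exact EH.isR_mem_Lk hO hM (EUnit.isR_P_sub hO hM hv hw)

/-- the difference -/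
noncomputable def dI (F G : IM M) : LL O := mkL O (F.1 - G.1) (sub_mem_Lk hO hM F G)

theorem dI_unit (F G : IM M) (h : F ≠ G) : ∃ (H : LL O) (n : ℕ),
    dI hO hM F G * H = (a3 hO hv ^ 3 * (a1 hO hv ^ 3 - 27 * a3 hO hv)) ^ n := by
  obtain ⟨v', hv', e⟩ := F.2
  obtain ⟨w, hw, e'⟩ := G.2
  have h1 : ¬ ∀ i, (v' i : ZMod M) = w i := by
    intro hc
    apply h
    apply Subtype.ext
    rw [e, e', PX, PX, P_congr hM.pos.ne' hc]
  have h2 : ¬ ∀ i, (v' i : ZMod M) = -(w i : ZMod M) := by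
    intro hc
    apply h
    apply Subtype.ext
    rw [e, e', PX, PX, ← P_neg M w]
    congr 1
    apply P_congr hM.pos.ne'
    intro i
    rw [hc i]
    simp
  obtain ⟨g1, g2⟩ := EUnit.unit_P_sub hO hM hv' hw h1 h2
  refine ⟨mkL O (k := 10) (lift 10 (dl / (P M v' - P M w))) (EH.isR_mem_Lk hO hM (g1.cast (by
    norm_num))), 1, ?_⟩
  rw [pow_one]
  apply Subtype.ext
  change (F.1 - G.1) * lift 10 (dl / (P M v' - P M w)) =
    Lev1.BX v ^ 3 * (Lev1.AX v ^ 3 - 27 * Lev1.BX v)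
  rw [← Lev1.DX_eq hv, e, e', PX, PX, ← lift_sub, ← lift_mul, g2]
  rfl

end

/-- `P_v` in level `3` and `M` -/
theorem PX_three {M : ℕ} (h3 : 3 ∣ M) (hM : M ≠ 0) (v : Fin 2 → ℤ) :
    PX M (fun i => ((M / 3 : ℕ) : ℤ) * v i) = PX 3 v := by
  obtain ⟨c, rfl⟩ := h3
  have hc : (c : ℂ) ≠ 0 := by
    intro h
    have : c = 0 := by exact_mod_cast h
    rw [this] at hM; simp at hM
  rw [Nat.mul_div_cancel_left c (by norm_num), PX, PX]
  congr 1
  funext τ
  rw [P, P]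
  congr 2
  rw [pt, pt]
  push_cast
  field_simp

theorem NZ_three {M : ℕ} (h3 : 3 ∣ M) (hM : M ≠ 0) {v : Fin 2 → ℤ} (hv : NZ 3 v) :
    NZ M (fun i => ((M / 3 : ℕ) : ℤ) * v i) := by
  obtain ⟨c, rfl⟩ := h3
  have hc : (c : ℤ) ≠ 0 := by
    intro h
    have : c = 0 := by exact_mod_cast h
    rw [this] at hM; simp at hM
  have key : ∀ z : ℤ, (z : ZMod 3) ≠ 0 → ((((3 * c / 3 : ℕ) : ℤ) * z : ℤ) : ZMod (3 * c)) ≠ 0 := by
    intro z hz h
    apply hz
    rw [ZMod.intCast_zmod_eq_zero_iff_dvd] at h ⊢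
    rw [Nat.mul_div_cancel_left c (by norm_num)] at h
    obtain ⟨t, ht⟩ := h
    refine ⟨t, ?_⟩
    push_cast at ht ⊢
    apply mul_left_cancel₀ hc
    rw [ht]; ring
  rcases hv with h | h
  · exact Or.inl (key _ h)
  · exact Or.inr (key _ h)

/-- the relation at a point of order three -/
theorem Q_sq_eq {M : ℕ} (hM : M ≠ 0) {v w : Fin 2 → ℤ} (hv : NZ 3 v) (hw : NZ M w) (τ : ℍ) :
    Q M w τ ^ 2 = 4 * (P M w τ - P 3 v τ) ^ 3 + (A1 v τ * (P M w τ - P 3 v τ) + A3 v τ) ^ 2 := by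
  have h1 := Q_sq hM hw τ
  have h2 := A1_sq hv τ
  have h3 := E4_eq hv τ
  have h4 := E6_eq hv τ
  rw [h3, h4] at h1
  rw [h1]
  have h5 : P 3 v τ = A1 v τ ^ 2 / 12 := by rw [h2]; ring
  rw [h5]
  ring

theorem qX_eq {v w : Fin 2 → ℤ} (hv : NZ 3 v) (hw : NZ 3 w) :
    lift 6 (Q 3 w ^ 2) = 4 * (PX 3 w - PX 3 v) ^ 3 +
      (lift 1 (A1 v) * (PX 3 w - PX 3 v) + lift 3 (A3 v)) ^ 2 := by
  funext x
  have h := Q_sq_eq (M := 3) (by norm_num) hv hw x.t
  simp only [PX, Pi.add_apply, Pi.mul_apply, Pi.sub_apply, Pi.pow_apply, lift_apply]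
  rw [h]
  simp only [Pi.ofNat_apply]
  ring

theorem qX_sl (w : Fin 2 → ℤ) (g : SL(2, ℤ)) :
    sl (lift 6 (Q 3 w ^ 2)) (sG g) = lift 6 (Q 3 (w ᵥ* (g : Matrix (Fin 2) (Fin 2) ℤ)) ^ 2) := by
  have h1 : ∀ f : ℍ → ℂ, lift 6 (f ^ 2) = lift 3 f ^ 2 := fun f => Lev1.lift_pow' 3 2 f
  have h2 : sl (lift 3 (Q 3 w) ^ 2) (sG g) = (sl (lift 3 (Q 3 w)) (sG g)) ^ 2 := rfl
  rw [h1, h1, h2, sl_lift_SL]
  congr 2
  exact Q_slash (γ := g) 3 w

section

variable {O : Subring ℂ} (hO : OddRing O) {M : ℕ} (hM : Odd M) (h3 : 3 ∣ M) {v : Fin 2 → ℤ}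
  (hv : NZ 3 v)

/-- the base point -/
noncomputable def i0 : IM M := ⟨PX 3 v, _, NZ_three h3 hM.pos.ne' hv, (PX_three h3 hM.pos.ne' v).symm⟩

/-- the points of order three -/
def TM (M : ℕ) : Set (IM M) := {F | ∃ w, NZ 3 w ∧ F.1 = PX 3 w}

/-- the data -/
noncomputable def PdM : Pd SL(2, ℤ) (a1 hO hv) (a3 hO hv) (IM M) where
  i0 := i0 hM h3 hv
  d := dI hO hM
  d_sub i j k := Subtype.ext (by
    change (i.1 - k.1) - (j.1 - k.1) = i.1 - j.1
    abel)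
  d_smul g i j := Subtype.ext rfl
  d_unit i j h := dI_unit hO hM hv i j h
  T := TM M
  T_smul g i hi := by
    obtain ⟨w, hw, e⟩ := hi
    exact ⟨_, hw.vecMul g⁻¹, by rw [smul_IM, e, sl_PX]⟩
  i0_mem := ⟨v, hv, rfl⟩
  q i := 4 * dI hO hM i (i0 hM h3 hv) ^ 3 +
    (a1 hO hv * dI hO hM i (i0 hM h3 hv) + a3 hO hv) ^ 2
  q_smul g i hi := by
    obtain ⟨w, hw, e⟩ := hi
    have h1 : ∀ (j : IM M) (u : Fin 2 → ℤ), NZ 3 u → j.1 = PX 3 u →
        ((4 * dI hO hM j (i0 hM h3 hv) ^ 3 +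
        (a1 hO hv * dI hO hM j (i0 hM h3 hv) + a3 hO hv) ^ 2 : LL O) : X → ℂ) =
        lift 6 (Q 3 u ^ 2) := by
      intro j u hu hj
      rw [qX_eq hv hu, ← hj]
      rfl
    apply Subtype.ext
    rw [h1 (g • i) _ (hw.vecMul g⁻¹) (by rw [smul_IM, e, sl_PX]), smul_coe, h1 i w hw e, qX_sl]
  q_zero := by
    have : dI hO hM (i0 hM h3 hv) (i0 hM h3 hv) = 0 := Subtype.ext (sub_self _)
    rw [this]
    ring
  q_eq i _ := rfl

end

/-! ### fixers -/

/-- an element of `SL(2,ℤ)` fixing all `P_v` is `≡ ± 1 mod M` -/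
theorem fix_aux {M : ℕ} (hM : Odd M) {v w : Fin 2 → ℤ} (hv : NZ M v) (hw : NZ M w)
    (h : PX M v = PX M w) : (∀ i, (v i : ZMod M) = w i) ∨ (∀ i, (v i : ZMod M) = -(w i : ZMod M)) := by
  by_contra hc
  push Not at hc
  have hne := EUnit.P_ne (M := M) hM.pos.ne' hv hw (fun h => by
    obtain ⟨i, hi⟩ := hc.1; exact hi (h i)) (fun h => by obtain ⟨i, hi⟩ := hc.2; exact hi (h i))
    UpperHalfPlane.I
  exact hne (congrFun (lift_inj h) _)

theorem fix_pm {M : ℕ} (hM : Odd M) (h3 : 3 ∣ M) (g : SL(2, ℤ))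
    (h : ∀ F : IM M, sl F.1 (sG g) = F.1) : g ∈ Gamma M ∨ -g ∈ Gamma M := by
  have hM0 := hM.pos.ne'
  have hM3 : 3 ≤ M := Nat.le_of_dvd hM.pos h3
  have one_ne : ((1 : ℤ) : ZMod M) ≠ 0 := by
    rw [Ne, ZMod.intCast_zmod_eq_zero_iff_dvd]
    intro hd
    have := Int.le_of_dvd one_pos hd
    omega
  have key : ∀ v : Fin 2 → ℤ, NZ M v →
      (∀ i, ((v ᵥ* (g : Matrix (Fin 2) (Fin 2) ℤ)) i : ZMod M) = v i) ∨
      (∀ i, ((v ᵥ* (g : Matrix (Fin 2) (Fin 2) ℤ)) i : ZMod M) = -(v i : ZMod M)) := by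
    intro v hv
    apply fix_aux hM (hv.vecMul g) hv
    rw [← sl_PX]
    exact h ⟨PX M v, v, hv, rfl⟩
  have n1 : NZ M ![1, 0] := Or.inl (by simpa using one_ne)
  have n2 : NZ M ![0, 1] := Or.inr (by simpa using one_ne)
  have n3 : NZ M ![1, 1] := Or.inl (by simpa using one_ne)
  have k1 := key _ n1
  have k2 := key _ n2
  have k3 := key _ n3
  have two_ne : ((2 : ℤ) : ZMod M) ≠ 0 := by
    rw [Ne, ZMod.intCast_zmod_eq_zero_iff_dvd]
    intro hd
    have := Int.le_of_dvd two_pos hd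
    omega
  simp only [Fin.forall_fin_two, Matrix.vecMul, dotProduct, Fin.sum_univ_two, cons_val_zero,
    cons_val_one, one_mul, zero_mul, add_zero, zero_add, Int.cast_one, Int.cast_zero, neg_zero,
    Int.cast_add, Matrix.cons_val_fin_one] at k1 k2 k3
  simp only [Gamma_mem, Matrix.SpecialLinearGroup.coe_neg, Matrix.neg_apply, Int.cast_neg]
  rcases k1 with ⟨a, b⟩ | ⟨a, b⟩ <;> rcases k2 with ⟨c, d⟩ | ⟨c, d⟩
  · left; exact ⟨a, b, c, d⟩
  · exfalso
    rw [a, b, c, d] at k3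
    rcases k3 with ⟨e, f⟩ | ⟨e, f⟩
    · apply two_ne; push_cast; linear_combination -f
    · apply two_ne; push_cast; linear_combination e
  · exfalso
    rw [a, b, c, d] at k3
    rcases k3 with ⟨e, f⟩ | ⟨e, f⟩
    · apply two_ne; push_cast; linear_combination -e
    · apply two_ne; push_cast; linear_combination f
  · right
    rw [a, b, c, d]
    simp

theorem sG_neg_one : sG (-1) = iG (sc (-1)) (by rw [sc_det]; norm_num) := by
  rw [sG]
  apply iG_congr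
  ext i j
  fin_cases i <;> fin_cases j <;> simp [sc]

theorem sl_neg_one {k : ℕ} (hk : Even k) {F : X → ℂ} (hF : F ∈ Wt k) : sl F (sG (-1)) = F := by
  rw [sG_neg_one, sl_scalar hF]
  have : (((-1 : ℤ) : ℂ)⁻¹) ^ k = 1 := by
    push_cast
    rw [inv_neg, inv_one]
    exact hk.neg_one_pow
  rw [this, one_smul]

theorem fix_of_even {M : ℕ} (hM : Odd M) (h3 : 3 ∣ M) {k : ℕ} (hk : Even k) {F : X → ℂ}
    (hF : F ∈ MX M k) (g : SL(2, ℤ)) (h : ∀ F : IM M, sl F.1 (sG g) = F.1) : sl F (sG g) = F := by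
  have : NeZero M := ⟨hM.pos.ne'⟩
  rcases fix_pm hM h3 g h with h | h
  · exact MX_fix hF h
  · have e : g = (-1) * (-g) := by simp
    rw [e, sG_mul, sl_mul_right, sl_neg_one hk (MX_le_Wt hF)]
    exact MX_fix hF h

/-- **existence of points** (field `exists_pt` of `EIn`) -/
theorem exists_pt {O : Subring ℂ} (hO : OddRing O) {v : Fin 2 → ℤ} (hv : NZ 3 v)
    (h0 : (v 0 : ZMod 3) ≠ 0) {κ : Type*} [Field κ] [IsAlgClosed κ] [CharP κ 2] (ρ : O →+* κ)
    (hρ : Function.Surjective ρ) :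
    ∃ e : LL O →+* PowerSeries κ, IsPt ρ (a1 hO hv) (a3 hO hv) e := by
  obtain ⟨φ, hφ1, hφ3, hφc⟩ := exists_phi hO hv h0 ρ
  obtain ⟨e, hec, he1, he3⟩ := exists_point (Γ := SL(2, ℤ)) (L := LL O) (A1 := a1 hO hv)
    (A3 := a3 hO hv) ρ hρ (cst O) (fun g c => Subtype.ext (by
      rw [smul_coe, cst_coe, sl_smul, sl_one])) (PsiR hO hv) (invariant_mem hO hv)
    (cst_mem_range hO hv) (a1_mem_range hO hv) (a3_mem_range hO hv) φ hφ1 hφ3 hφc
    (orbit_finite O) (by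
      intro b
      obtain ⟨M, hM, h3, n, f, hf, hfM, hb⟩ := exists_level O b
      have hne : NeZero M := ⟨hM.pos.ne'⟩
      have hfin : Finite (IM M) := finite_IM hM.pos.ne'
      have hb' : b = ∑ k ∈ Finset.range n, mkL O (f k) (hf k) := by
        apply Subtype.ext
        rw [hb]
        exact (map_sum (LL O).subtype (fun k => mkL O (f k) (hf k)) (Finset.range n)).symm
      rw [hb']
      refine sum_mem fun k hk => AddSubgroup.subset_closure ?_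
      have hk' := hfM k (Finset.mem_range.1 hk)
      rcases Nat.even_or_odd k with he | ho
      · refine ⟨mkL O (f k) (hf k), IM M, hfin, actIM M, PdM hO hM h3 hv, Or.inl rfl, ?_⟩
        intro g hg
        apply Subtype.ext
        rw [smul_coe]
        exact fix_of_even hM h3 he hk' _ fun F => congrArg Subtype.val (hg F)
      · refine ⟨a1 hO hv * mkL O (f k) (hf k), IM M, hfin, actIM M, PdM hO hM h3 hv, Or.inr rfl, ?_⟩
        intro g hg
        apply Subtype.ext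
        rw [smul_coe]
        have h1 : lift 1 (A1 v) ∈ MX M 1 := MX_mono h3 (EH.isF_mem_MX (M := 3) (isF_A1 hv))
        have h2 : lift 1 (A1 v) * f k ∈ MX M (1 + k) := MX_mul h1 hk'
        exact fix_of_even hM h3 (odd_one.add_odd ho) h2 _ fun F =>
          congrArg Subtype.val (hg F))
  exact ⟨e, hec, he1, he3⟩

end Crest.Agent.R007.EPt
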