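import Crest.Agent.R007.EUnit
import Crest.Agent.R007.EHasse
import Crest.Agent.R007.EIn

/-!
Row 7, section E: units, lifted forms. For `δ ∈ G2`, `A₃ ∥ δ` divides a power of `Δ` in `L`.
-/

set_option autoImplicit false

namespace Crest.Agent.R007.EUnit

open Crest.Agent.R007.Wp hiding ee
open Crest.Agent.R007.Rat Crest.Agent.R007.WpId Crest.Agent.R007.Tc
open Crest.Agent.R007.Lat Crest.Agent.R007.Mix Crest.Agent.R007.EH Crest.Agent.R007.EL
open UpperHalfPlane hiding I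
open Complex PeriodPair ModularForm Matrix Function Filter
open scoped MatrixGroups Real PeriodPair Manifold Topology

noncomputable section

section gen

variable {O : Subring ℂ} {M : ℕ} [NeZero M] {k l : ℤ} {F D : ℍ → ℂ}

/-- **General division lemma.** -/
theorem isR_div_gen (hF : IsR O M k F) (hD : IsR O M l D) (h0 : ∀ τ, F τ ≠ 0)
    (hl : ∀ g : SL(2, ℤ), ∃ n, (∀ m < n, PowerSeries.coeff m (qe M (F ∣[k] g)) = 0) ∧
      PowerSeries.coeff n (qe M (F ∣[k] g)) ≠ 0 ∧ (PowerSeries.coeff n (qe M (F ∣[k] g)))⁻¹ ∈ O ∧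
      (∀ m < n, PowerSeries.coeff m (qe M (D ∣[l] g)) = 0)) :
    IsR O M (l - k) (D / F) ∧ F * (D / F) = D := by
  have hslash : ∀ g : SL(2, ℤ), (D / F) ∣[(l - k : ℤ)] g = (D ∣[l] g) / (F ∣[k] g) := by
    intro g
    rw [div_slash_SL2]
  have hne : ∀ (g : SL(2, ℤ)) (τ : ℍ), (F ∣[k] g) τ ≠ 0 := by
    intro g τ
    rw [SL_slash_apply]
    exact mul_ne_zero (h0 _) (zpow_ne_zero _ (denom_ne_zero _ _))
  have hbdd : ∀ g : SL(2, ℤ), IsBoundedAtImInfty ((D ∣[l] g) / (F ∣[k] g)) := by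
    intro g
    obtain ⟨n, hlow, hnz, -, hlow'⟩ := hl g
    have t1 := tendsto_div (hF.isF.slash_SL g) hlow
    have t2 := tendsto_div (hD.isF.slash_SL g) hlow'
    have t4 := t2.div t1 hnz
    have t5 : Tendsto ((D ∣[l] g) / (F ∣[k] g)) atImInfty
        (𝓝 (PowerSeries.coeff n (qe M (D ∣[l] g)) /
          PowerSeries.coeff n (qe M (F ∣[k] g)))) := by
      refine t4.congr fun τ => ?_
      have hq : Periodic.qParam (M : ℝ) (τ : ℂ) ≠ 0 := by
        rw [Periodic.qParam]; exact Complex.exp_ne_zero _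
      have hne' := hne g τ
      simp only [Pi.div_apply]
      have hq2 := pow_ne_zero n hq
      field_simp
    exact t5.isBigO_one ℝ
  have hisF : IsF M (l - k) (D / F) := by
    refine ⟨fun γ hγ => ?_, ?_, fun g => ?_⟩
    · rw [hslash, hF.isF.slash γ hγ, hD.isF.slash γ hγ]
    · have hDh := hD.isF.holo
      have hFh := hF.isF.holo
      rw [UpperHalfPlane.mdifferentiable_iff] at hDh hFh ⊢
      have h2 : DifferentiableOn ℂ (fun z => (D ∘ ofComplex) z / (F ∘ ofComplex) z)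
          {z | 0 < z.im} := DifferentiableOn.div hDh hFh (fun z _ => h0 _)
      exact h2
    · rw [hslash]; exact hbdd g
  refine ⟨⟨hisF, fun g => ?_⟩, ?_⟩
  · obtain ⟨n, hlow, hnz, hinv, -⟩ := hl g
    have hprod : (F ∣[k] g) * ((D / F) ∣[(l - k : ℤ)] g) = D ∣[l] g := by
      rw [hslash]
      funext τ
      simp only [Pi.mul_apply, Pi.div_apply]
      exact mul_div_cancel₀ _ (hne g τ)
    have hqe := qe_mul (hF.isF.slash_SL g) (hisF.slash_SL g)
    rw [hprod] at hqe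
    exact coeffIn_of_mul (hF.coeff g) (hD.coeff g) hqe.symm hlow hnz hinv
  · funext τ
    simp only [Pi.mul_apply, Pi.div_apply]
    exact mul_div_cancel₀ _ (h0 τ)

lemma isR_dl_pow (j : ℕ) : IsR O M ((j : ℤ) * 12) (dl ^ j) := by
  have h : IsR O M 12 dl := ⟨isF_dl.mono (one_dvd M), fun g => by rw [dl_slash]; exact coeffIn_qe_dl⟩
  exact h.pow j

lemma qe_dl_pow_low (j : ℕ) (m : ℕ) (hm : m < j * M) : PowerSeries.coeff m (qe M (dl ^ j)) = 0 := by
  have hdl : IsF M 12 dl := isF_dl.mono (one_dvd M)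
  rw [Rat.qe_pow hdl]
  have h1 : (PowerSeries.X : PowerSeries ℂ) ^ M ∣ qe M dl :=
    PowerSeries.X_pow_dvd_iff.2 (qe_dl_low (M := M))
  have h2 := pow_dvd_pow_of_dvd h1 j
  rw [← pow_mul] at h2
  exact PowerSeries.X_pow_dvd_iff.1 h2 m (by rw [mul_comm]; exact hm)

lemma dl_pow_slash (j : ℕ) (g : SL(2, ℤ)) : (dl ^ j) ∣[((j : ℤ) * 12 : ℤ)] g = dl ^ j := by
  rw [pow_slash', dl_slash]

end gen

section lead

/-- the lifted discriminant -/
def DX : X → ℂ := lift 12 dl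

lemma DX_sG (γ : SL(2, ℤ)) : sl DX (sG γ) = DX := by
  rw [DX, sl_lift_SL]
  congr 1
  exact dl_slash γ

lemma DX_mem : DX ∈ MX 1 12 := isF_mem_MX (M := 1) (k := 12) isF_dl

lemma dl_PB : dl ∈ PB ((1 : ℕ) : ℝ) := isF_mem_PB (M := 1) isF_dl

lemma dl_PO : dl ∈ PO := ⟨1, odd_one, dl_PB⟩

lemma qf_dl_low {s : ℚ} (hs : s < 1) : (qf dl).coeff s = 0 := by
  by_cases h : ∃ n : ℕ, (n : ℚ) / ((1 : ℕ) : ℚ) = s
  · obtain ⟨n, rfl⟩ := h
    rw [qf_eq' 1 odd_one dl_PB, emb_coeff]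
    have hn : n = 0 := by
      rw [Nat.cast_one, div_one] at hs
      have : n < 1 := by exact_mod_cast hs
      omega
    subst hn
    exact coeff_zero_dl
  · push Not at h
    exact qf_coeff_of_notMem odd_one dl_PB h

lemma qf_dl_one : (qf dl).coeff 1 = 1 := by
  have e : (1 : ℚ) = ((1 : ℕ) : ℚ) / ((1 : ℕ) : ℚ) := by norm_num
  rw [e, qf_eq' 1 odd_one dl_PB, emb_coeff]
  exact coeff_one_dl

variable {O : Subring ℂ}

/-- leading coefficients of `Δ ∥ A`. -/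
theorem lead_iG (hO : OddRing O) (A : Matrix (Fin 2) (Fin 2) ℤ) (hA : 0 < A.det) (ho : Odd A.det) :
    ∃ r : ℚ, r ≤ A.det ∧ (∀ s < r, (qf (res (sl DX (iG A hA)))).coeff s = 0) ∧
      (qf (res (sl DX (iG A hA)))).coeff r ≠ 0 ∧ ((qf (res (sl DX (iG A hA)))).coeff r)⁻¹ ∈ O := by
  obtain ⟨γ, a, b, d, ha, hd, had, hAe⟩ := EH.exists_hermite' A hA
  have hodd : Odd (a * d) := by
    have : Odd ((a * d : ℕ) : ℤ) := by rw [had]; exact ho
    exact_mod_cast this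
  have hao : Odd a := Nat.Odd.of_mul_left hodd
  have hdo : Odd d := Nat.Odd.of_mul_right hodd
  have hut : 0 < (ut a b d).det := by rw [ut_det]; exact_mod_cast Nat.mul_pos ha hd
  have ha0 : (a : ℚ) ≠ 0 := by exact_mod_cast ha.ne'
  have hd0 : (d : ℚ) ≠ 0 := by exact_mod_cast hd.ne'
  have e3 : iG A hA = sG γ * iG (ut a b d) hut := by
    rw [sG, ← iG_mul _ _ _ _ (by rw [← hAe]; exact hA)]
    exact iG_congr hAe hA
  have e4 : res (sl DX (iG A hA)) =
      (((d : ℤ) : ℂ)⁻¹) ^ 12 • (fun τ => dl (iG (ut a b d) hut • τ)) := by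
    rw [e3, sl_mul_right, DX_sG]
    funext τ
    have h := res_sl_ut (lift_mem 12 dl) hut τ
    rw [res_lift] at h
    exact h
  have hPO : (fun τ => dl (iG (ut a b d) hut • τ)) ∈ PO :=
    ⟨1 * d, odd_one.mul hdo, PB_comp_ut dl_PB hd hut⟩
  have key : ∀ s : ℚ, (qf (res (sl DX (iG A hA)))).coeff (s * a / d) =
      (((d : ℤ) : ℂ)⁻¹) ^ 12 * (ee (s * b / d) * (qf dl).coeff s) := by
    intro s
    rw [e4, qf_smul _ hPO, HahnSeries.coeff_smul, smul_eq_mul, qf_comp_ut dl_PO hao hdo hut]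
  have hdC : (((d : ℤ) : ℂ)) ≠ 0 := by exact_mod_cast hd.ne'
  refine ⟨(a : ℚ) / d, ?_, ?_, ?_, ?_⟩
  · have h1 : (A.det : ℚ) = (a : ℚ) * d := by rw [← had]; push_cast; ring
    rw [h1, div_le_iff₀ (by exact_mod_cast hd)]
    have h2 : (1 : ℚ) ≤ d := by exact_mod_cast hd
    have h3 : (0 : ℚ) < a := by exact_mod_cast ha
    nlinarith [mul_pos h3 (by linarith : (0:ℚ) < d), mul_le_mul_of_nonneg_left h2 h3.le]
  · intro s hs
    have e : s = (s * d / a) * a / d := by field_simp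
    rw [e, key, qf_dl_low, mul_zero, mul_zero]
    rw [div_lt_one (by exact_mod_cast ha)]
    rwa [lt_div_iff₀ (by exact_mod_cast hd)] at hs
  · have e : (a : ℚ) / d = 1 * a / d := by ring
    rw [e, key, qf_dl_one, mul_one]
    exact mul_ne_zero (pow_ne_zero _ (inv_ne_zero hdC)) (Complex.exp_ne_zero _)
  · have e : (a : ℚ) / d = 1 * a / d := by ring
    rw [e, key, qf_dl_one, mul_one, mul_inv, inv_pow, inv_inv]
    refine mul_mem (pow_mem (by rw [Int.cast_natCast]; exact natCast_mem O d) _) ?_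
    have hee : (ee (1 * b / d))⁻¹ = ee (-(1 * b / d)) := by
      rw [inv_eq_iff_eq_inv, eq_comm]
      apply inv_eq_of_mul_eq_one_left
      rw [← ee_add, add_neg_cancel]
      simp [ee]
    rw [hee]
    apply root_mem_of_oddRing hO
    have h2 : (-(1 * (b : ℚ) / (d : ℚ))).den ∣ d := by
      rw [Rat.den_neg_eq_den]
      have h3 := Rat.den_dvd (b : ℤ) (d : ℤ)
      rw [Rat.divInt_eq_div, Int.cast_natCast, Int.cast_natCast] at h3
      rw [one_mul]
      exact Int.natCast_dvd_natCast.1 h3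
    exact hdo.of_dvd_nat h2

/-- `Δ ∥ A` has no zeros. -/
lemma sl_DX_ne_zero (g : GL(2, ℝ)⁺) (x : X) : sl DX g x ≠ 0 := by
  rw [sl_apply, DX, lift_apply]
  refine mul_ne_zero (pow_ne_zero _ (Units.ne_zero _)) ?_
  exact discriminant_ne_zero _

/-- `Δ ∥ A` divides a power of `Δ`. -/
theorem unit_iG (hO : OddRing O) (A : Matrix (Fin 2) (Fin 2) ℤ) (hA : 0 < A.det) (ho : Odd A.det) :
    ∃ (j k : ℕ) (G : X → ℂ), G ∈ Lk O k ∧ sl DX (iG A hA) * G = DX ^ j := by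
  set j : ℕ := A.det.natAbs with hj
  have hjA : (j : ℤ) = A.det := by rw [hj]; exact Int.natAbs_of_nonneg hA.le
  have hj0 : 0 < j := by omega
  have hjo : Odd j := by
    have : Odd (j : ℤ) := by rw [hjA]; exact ho
    exact_mod_cast this
  have : NeZero j := ⟨hj0.ne'⟩
  set E : X → ℂ := sl DX (iG A hA) with hE
  have hEM : E ∈ MX j 12 := by
    have := MX_sl_iG DX_mem A hA
    rwa [one_mul] at this
  have hDL : DX ∈ Lk O 12 := isR_mem_Lk hO odd_one (k := 12) isR_dl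
  have hEL : E ∈ Lk O 12 := Lk_sl hDL (iG_mem_G2 A hA ho)
  obtain ⟨f, hf⟩ := hEM
  have hfE : (f : ℍ → ℂ) = res E := by rw [hf, res_lift]
  have hF : IsF j 12 (res E) := by
    rw [← hfE]; exact IsF.of_modularForm f
  have hlift : lift 12 (res E) = E := by rw [hf, res_lift]
  -- slashes
  have hdet : ∀ g : SL(2, ℤ), 0 < (A * g.1).det := fun g => by simpa using hA
  have hsl : ∀ g : SL(2, ℤ), (res E) ∣[(12 : ℤ)] g = res (sl DX (iG (A * g.1) (hdet g))) := by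
    intro g
    have h1 := slash_SL_eq_res 12 (res E) g
    rw [hlift] at h1
    have h2 : (res E) ∣[(12 : ℤ)] g = res (sl E (sG g)) := h1
    rw [h2, hE, ← sl_mul_right]
    congr 2
    rw [sG, ← iG_mul A g.1 _ _ (hdet g)]
  have hcoef : ∀ (g : SL(2, ℤ)) (m : ℕ), PowerSeries.coeff m (qe j ((res E) ∣[(12 : ℤ)] g)) =
      (qf (res (sl DX (iG (A * g.1) (hdet g))))).coeff ((m : ℚ) / j) := by
    intro g m
    rw [← hsl g, qf_eq' j hjo (isF_mem_PB (hF.slash_SL g)), emb_coeff]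
    rfl
  have hR : IsR O j 12 (res E) := by
    refine ⟨hF, fun g m => ?_⟩
    rw [hcoef]
    exact (hDL.2 _ (iG_mem_G2 _ (hdet g) (by simpa using ho))).2 _
  have hjq : (0 : ℚ) < j := by exact_mod_cast hj0
  have hne : ∀ τ, res E τ ≠ 0 := fun τ => sl_DX_ne_zero _ _
  obtain ⟨hG, hmul⟩ := isR_div_gen hR (isR_dl_pow (O := O) (M := j) j) hne (by
    intro g
    obtain ⟨r, hr, hlow, hnz, hinv⟩ := lead_iG hO (A * g.1) (hdet g) (by simpa using ho)
    have hex : ∃ n : ℕ, (n : ℚ) / j = r := by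
      by_contra hcon
      push Not at hcon
      apply hnz
      rw [← hsl g]
      exact qf_coeff_of_notMem hjo (isF_mem_PB (hF.slash_SL g)) hcon
    obtain ⟨n, rfl⟩ := hex
    refine ⟨n, fun m hm => ?_, ?_, ?_, fun m hm => ?_⟩
    · rw [hcoef]
      apply hlow
      rw [div_lt_div_iff_of_pos_right hjq]
      exact_mod_cast hm
    · rw [hcoef]; exact hnz
    · rw [hcoef]; exact hinv
    · rw [dl_pow_slash]
      apply qe_dl_pow_low
      have h1 : (((A * g.1).det : ℤ) : ℚ) = j := by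
        have : (A * g.1).det = j := by rw [hjA]; simp
        rw [this]; simp
      rw [h1, div_le_iff₀ hjq] at hr
      have h2 : n ≤ j * j := by exact_mod_cast hr
      exact lt_of_lt_of_le hm h2)
  have hcast : ((j : ℤ) * 12 - 12) = ((12 * (j - 1) : ℕ) : ℤ) := by
    push_cast [Nat.cast_sub hj0]
    ring
  refine ⟨j, 12 * (j - 1), lift (12 * (j - 1)) (dl ^ j / res E),
    isR_mem_Lk hO hjo (hG.cast hcast), ?_⟩
  have h3 : E * lift (12 * (j - 1)) (dl ^ j / res E) = lift (12 + 12 * (j - 1)) (dl ^ j) := by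
    rw [← hmul, lift_mul, hlift, hmul]
  rw [h3]
  have h4 : ∀ i : ℕ, lift (12 * i) (dl ^ i) = DX ^ i := by
    intro i
    induction i with
    | zero => simp [lift_one]
    | succ i ih => rw [Nat.mul_succ, pow_succ, lift_mul, ih, pow_succ, DX]
  have h5 : 12 + 12 * (j - 1) = 12 * j := by omega
  rw [h5, h4]

/-- `Δ ∥ δ` divides a power of `Δ`, for all `δ ∈ G2`. -/
theorem unit_DX (hO : OddRing O) {δ : GL(2, ℝ)⁺} (hδ : δ ∈ G2) :
    ∃ (j k : ℕ) (G : X → ℂ), G ∈ Lk O k ∧ sl DX δ * G = DX ^ j := by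
  obtain ⟨n, A, hn, hA, h1, h2, e1, -⟩ := G2_exists hδ
  obtain ⟨j, k, G, hG, e⟩ := unit_iG hO A h1 hA
  -- `sl DX (iG A) = n^{-12} sl DX δ`
  have h3 : sl (sl DX (iG (sc n) h2)) δ = sl DX (iG A h1) := by rw [← sl_mul_right, e1]
  rw [sl_scalar (F := DX) (lift_mem 12 dl) n h2, sl_smul] at h3
  refine ⟨j, k, ((((n : ℤ) : ℂ))⁻¹) ^ 12 • G, Lk_smul hG (pow_mem ?_ _), ?_⟩
  · rw [Int.cast_natCast]; exact hO.inv_mem n hn
  · rw [← e, ← h3, mul_smul_comm, smul_mul_assoc]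

/-- division of the discriminant by a lifted form. -/
theorem unit_lift (hO : OddRing O) {M : ℕ} (hM : Odd M) {k l : ℕ} (hkl : k + l = 12) {F : ℍ → ℂ}
    (h : IsR O M (12 - (k : ℤ)) (dl / F) ∧ F * (dl / F) = dl) :
    ∃ G ∈ Lk O l, lift k F * G = lift 12 dl := by
  refine ⟨lift l (dl / F), isR_mem_Lk hO hM (h.1.cast (by omega)), ?_⟩
  rw [← lift_mul, h.2, hkl]

/-- `Q_v` divides the discriminant. -/
theorem unit_Q_lift (hO : OddRing O) {M : ℕ} (hM : Odd M) {v : Fin 2 → ℤ} (hv : NZ M v) :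
    ∃ G ∈ Lk O 9, lift 3 (Q M v) * G = lift 12 dl :=
  unit_lift hO hM (by norm_num) (unit_Q hO hM hv)

/-- `P_v - P_w` divides the discriminant. -/
theorem unit_P_sub_lift (hO : OddRing O) {M : ℕ} (hM : Odd M) {v w : Fin 2 → ℤ} (hv : NZ M v)
    (hw : NZ M w) (h1 : ¬ ∀ i, (v i : ZMod M) = w i) (h2 : ¬ ∀ i, (v i : ZMod M) = - w i) :
    ∃ G ∈ Lk O 10, lift 2 (P M v - P M w) * G = lift 12 dl :=
  unit_lift hO hM (by norm_num) (unit_P_sub hO hM hv hw h1 h2)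

/-- `A₃` divides the discriminant. -/
theorem unit_A3_lift (hO : OddRing O) {v : Fin 2 → ℤ} (hv : NZ 3 v) :
    ∃ G ∈ Lk O 9, lift 3 (A3 v) * G = lift 12 dl :=
  unit_lift hO (by decide) (by norm_num) (unit_A3 hO hv)

lemma Disc_eq {v : Fin 2 → ℤ} (hv : NZ 3 v) :
    Disc (lift 1 (A1 v)) (lift 3 (A3 v)) = lift 12 dl := by
  funext x
  have h := disc_eq hv x.t
  simp only [Disc, Pi.mul_apply, Pi.pow_apply, Pi.sub_apply, lift_apply]
  rw [show dl x.t = ModularForm.discriminant x.t from rfl, h]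
  simp only [Pi.ofNat_apply]
  ring

/-- THE FIELD `unit` OF `EIn`. -/
theorem unit_field (hO : OddRing O) {v : Fin 2 → ℤ} (hv : NZ 3 v) :
    ∀ δ ∈ G2, ∃ (j : ℕ) (G : X → ℂ), G ∈ LL O ∧
      sl (lift 3 (A3 v)) δ * G = (Disc (lift 1 (A1 v)) (lift 3 (A3 v))) ^ j := by
  intro δ hδ
  obtain ⟨G0, hG0, e0⟩ := unit_A3_lift hO hv
  obtain ⟨j, k, G, hG, e⟩ := unit_DX hO hδ
  refine ⟨j, sl G0 δ * G, le_SR (famL O) (Lk_mul (Lk_sl hG0 hδ) hG), ?_⟩
  rw [Disc_eq hv, ← mul_assoc, ← sl_mul, e0]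
  exact e

end lead

end

end Crest.Agent.R007.EUnit
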