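import Crest.Agent.R227.FG2

/-!
Row 7, section F: FROZEN definitions (helper360, with helper2; note 13120).

`κ` a field of characteristic 2, `R = κ⟦t⟧` (`PowerSeries κ`, `t = X`), `Φ` a commutative formal
group law over `R` with `[2]_Φ(z) = g(z²)`, `g = t w + u w² + …`, `u` a unit, and `Φ₀ = Φ mod t`
defined over `𝔽₂`.
`Pr D` = the group `𝒢` of pairs `(s, H)`, `s` a `κ`-automorphism of `R`, `H : Φ → s Φ` an isomorphism.
-/

set_option autoImplicit false

open PowerSeries Crest.LubinTate

namespace Crest.Agent.R007.F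

structure FData (κ : Type*) [Field κ] [CharP κ 2] where
  /-- the formal group law over `κ⟦t⟧` -/
  Φ : FormalGroup (PowerSeries κ)
  comm : Φ.IsComm
  /-- `[2](z) = g(z²)` -/
  g : PowerSeries (PowerSeries κ)
  two : R227.fadd Φ (X : PowerSeries (PowerSeries κ)) X = PowerSeries.expand 2 two_ne_zero g
  g_zero : constantCoeff g = 0
  g_one : coeff 1 g = X
  g_two : IsUnit (coeff 2 g)
  /-- `Φ₀` is defined over `𝔽₂` -/
  frob : (Φ.map (constantCoeff (R := κ))).map (frobenius κ 2) = Φ.map (constantCoeff (R := κ))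

variable {κ : Type*} [Field κ] [CharP κ 2]

/-- reduction modulo `t` -/
noncomputable def FData.Φ0 (D : FData κ) : FormalGroup κ := D.Φ.map (constantCoeff (R := κ))

/-- elements of the group `𝒢` -/
@[ext]
structure Pr (D : FData κ) where
  s : PowerSeries κ ≃ₐ[κ] PowerSeries κ
  H : PowerSeries (PowerSeries κ)
  hom : IsFGHom D.Φ (D.Φ.map (s : PowerSeries κ →+* PowerSeries κ)) H
  unit : IsUnit (coeff 1 H)

/-- reduction of `H` modulo `t` -/
noncomputable def Pr.red {D : FData κ} (p : Pr D) : PowerSeries κ := p.H.map (constantCoeff (R := κ))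

end Crest.Agent.R007.F
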