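import Crest.Agent.R007.Fg4
import Crest.Agent.R007.FDefs

/-!
# Row 7, E-FG, file 5: the duplication series and the instance `FData`
-/

set_option autoImplicit false

noncomputable section

namespace Crest.Agent.R007.Fg

open PowerSeries Crest.LubinTate

section Kalg

variable {K : Type*} [CommRing K] [Algebra ℚ K]

/-- duplication series -/
def D2 {A : Type*} [CommRing A] (a b : A) : PowerSeries A := mulSeries (Phi a b) 2

theorem D2_eq {A : Type*} [CommRing A] (a b : A) :
    D2 a b = R227.fadd (Phi a b) (X : PowerSeries A) X := by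
  have h1 : mulSeries (Phi a b) 1 = X := by
    rw [R227.mulSeries_succ]
    exact R227.zero_fadd _ _ R227.mvConstantCoeff_X
  rw [D2, R227.mulSeries_succ, h1]

theorem map_D2 {A B : Type*} [CommRing A] [CommRing B] (f : A →+* B) (a b : A) :
    (D2 a b).map f = D2 (f a) (f b) := by
  rw [D2, R227.mulSeries_map, Phi_map, D2]

theorem constantCoeff_D2 {A : Type*} [CommRing A] (a b : A) : constantCoeff (D2 a b) = 0 :=
  R227.constantCoeff_mulSeries _ _

omit [Algebra ℚ K] in
theorem mulSeries_Ga : mulSeries (FormalGroup.𝔾ₐ : FormalGroup K) 2 = C 2 * X := by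
  rw [R227.mulSeries_succ, R227.mulSeries_succ]
  have hX : MvPowerSeries.constantCoeff (X : PowerSeries K) = 0 := R227.mvConstantCoeff_X
  have key : ∀ p q : PowerSeries K, MvPowerSeries.constantCoeff p = 0 →
      MvPowerSeries.constantCoeff q = 0 →
      R227.fadd (FormalGroup.𝔾ₐ : FormalGroup K) p q = p + q := by
    intro p q hp hq
    change MvPowerSeries.subst ![p, q] (MvPowerSeries.X 0 + MvPowerSeries.X 1) = _
    have h := R227.hasSubst_pair hp hq
    rw [MvPowerSeries.subst_add h, MvPowerSeries.subst_X h, MvPowerSeries.subst_X h]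
    rfl
  have h0 : mulSeries (FormalGroup.𝔾ₐ : FormalGroup K) 0 = 0 := rfl
  rw [h0]
  have e1 := key 0 X (map_zero _) hX
  rw [e1]
  have e2 := key (0 + X) X (by rw [zero_add]; exact hX) hX
  rw [e2]
  have : (C (2 : K) : PowerSeries K) = 2 := by rw [map_ofNat]
  rw [this]
  ring

theorem D2_zs (a b : K) : (D2 a b).subst (zs a b) = rescale 2 (zs a b) := by
  have h := R227.IsFGHom.comm_mulSeries (isFGHom_zs a b) 2
  rw [mulSeries_Ga] at h
  rw [rescale_eq_subst, PowerSeries.smul_eq_C_mul]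
  exact h.symm

theorem subst_zs_injective (a b : K) {f g : PowerSeries K}
    (h : f.subst (zs a b) = (g.subst (zs a b) : PowerSeries K)) : f = g := by
  have h1 := congrArg (PowerSeries.subst (lg a b)) h
  rw [R227.psubst_psubst (constantCoeff_zs a b) (constantCoeff_lg a b), zs_lg,
    R227.psubst_psubst (constantCoeff_zs a b) (constantCoeff_lg a b), zs_lg,
    PowerSeries.X_subst, PowerSeries.X_subst] at h1
  exact h1

theorem D2_deriv_K (a b : K) :
    d⁄dX K (D2 a b) * (1 - C a * X - 2 * C b * Ws a b) =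
      2 * (1 - C a * D2 a b - 2 * C b * (Ws a b).subst (D2 a b)) := by
  apply subst_zs_injective a b
  have hz : HasSubst (zs a b) := HasSubst.of_constantCoeff_zero' (constantCoeff_zs a b)
  have hD : HasSubst (D2 a b) := HasSubst.of_constantCoeff_zero' (constantCoeff_D2 a b)
  have h1 := congrArg (d⁄dX K) (D2_zs a b)
  rw [PowerSeries.derivative_subst hz, deriv_rescale, dzs] at h1
  have e2 : (2 : PowerSeries K) = C 2 := by rw [map_ofNat]
  have e1 : (1 : PowerSeries K) = C 1 := by rw [map_one]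
  have hC : ∀ x : K, PowerSeries.subst (zs a b) (C x) = (C x : PowerSeries K) := fun x =>
    PowerSeries.subst_C x
  have hCr : ∀ x : K, rescale (2 : K) (C x) = C x := by
    intro x
    ext n
    rw [coeff_rescale, coeff_C]
    split_ifs with hn
    · simp [hn]
    · simp
  have hsub : ∀ f : PowerSeries K, PowerSeries.subst (zs a b) (1 - C a * X - 2 * C b * f) =
      (1 - C a * zs a b - 2 * C b * PowerSeries.subst (zs a b) f : PowerSeries K) := by
    intro f
    rw [subst_sub hz, subst_sub hz, subst_mul hz, subst_mul hz, subst_mul hz, subst_X hz, e2, e1,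
      hC, hC, hC, hC]
  have hW2 : (Ws a b).subst (rescale (2 : K) (zs a b)) = rescale (2 : K) (ss a b) := by
    rw [← Ws_subst, rescale_eq_subst, rescale_eq_subst]
    have h2X : HasSubst ((2 : K) • (X : PowerSeries K)) := HasSubst.smul_X' 2
    rw [subst_comp_subst_apply hz h2X]
  rw [subst_mul hz, hsub, Ws_subst, h1, subst_mul hz, subst_sub hz, subst_sub hz, subst_mul hz,
    subst_mul hz, subst_mul hz, subst_comp_subst_apply hD hz, D2_zs, hW2, e2, hC, hC, hC]
  have e1' : PowerSeries.subst (zs a b) (1 : PowerSeries K) = (1 : PowerSeries K) := by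
    rw [e1, hC]
  rw [e1']
  simp only [map_sub, map_mul, map_one, hCr]

end Kalg

section univ

/-- the equation for the duplication series over `ℤ[a,b]` -/
theorem D2_deriv_A : let a : A0 := MvPolynomial.X 0; let b : A0 := MvPolynomial.X 1
    d⁄dX A0 (D2 a b) * (1 - C a * X - 2 * C b * Ws a b) =
      2 * (1 - C a * D2 a b - 2 * C b * (Ws a b).subst (D2 a b)) := by
  intro a b
  apply pmap_injective iotaAK_injective
  have h := D2_deriv_K (K := K0) (MvPolynomial.X 0) (MvPolynomial.X 1)
  have hD : HasSubst (D2 a b) := HasSubst.of_constantCoeff_zero' (constantCoeff_D2 a b)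
  have e : PowerSeries.map iotaAK ((Ws a b).subst (D2 a b)) =
      (Ws (iotaAK a) (iotaAK b)).subst (D2 (iotaAK a) (iotaAK b)) := by
    have := PowerSeries.map_subst (τ := Unit) (h := iotaAK) hD (Ws a b)
    rw [map_Ws] at this
    refine Eq.trans this ?_
    congr 1
    exact map_D2 iotaAK a b
  simp only [map_mul, map_sub, map_one, map_ofNat, map_C, map_X, map_Ws, map_D2, map_deriv, e]
  rw [iotaAK_X, iotaAK_X]
  exact h

theorem coeff_Ws_lt {A : Type*} [CommRing A] (a b : A) :
    coeff 0 (Ws a b) = 0 ∧ coeff 1 (Ws a b) = 0 ∧ coeff 2 (Ws a b) = 0 ∧ coeff 3 (Ws a b) = 1 := by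
  have h0 := wf_zero a b
  have h1 : wf a b 1 = 0 := by rw [wf_succ]; simp [h0]
  have h2 : wf a b 2 = 0 := by rw [wf_succ]; simp [h1, Fin.sum_univ_succ]
  have h3 : wf a b 3 = 1 := by rw [wf_succ]; simp [h1, h2, Fin.sum_univ_succ]
  simp [Ws, h0, h1, h2, h3]

theorem coeff_Ws_D2 {A : Type*} [CommRing A] (a b : A) (D : PowerSeries A)
    (hD : constantCoeff D = 0) :
    coeff 0 ((Ws a b).subst D) = 0 ∧ coeff 1 ((Ws a b).subst D) = 0 ∧
      coeff 2 ((Ws a b).subst D) = 0 ∧ coeff 3 ((Ws a b).subst D) = coeff 1 D ^ 3 := by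
  have hs : HasSubst D := HasSubst.of_constantCoeff_zero' hD
  obtain ⟨V, hV⟩ : (X : PowerSeries A) ^ 3 ∣ Ws a b := by
    rw [X_pow_dvd_iff]
    intro m hm
    have := coeff_Ws_lt a b
    interval_cases m
    · exact this.1
    · exact this.2.1
    · exact this.2.2.1
  have hV0 : constantCoeff V = 1 := by
    have h3 := (coeff_Ws_lt a b).2.2.2
    rw [hV] at h3
    have : coeff (0 + 3) ((X : PowerSeries A) ^ 3 * V) = coeff 0 V := coeff_X_pow_mul V 3 0
    rw [zero_add] at this
    rw [this] at h3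
    simpa using h3
  obtain ⟨E, hE⟩ : (X : PowerSeries A) ∣ D := by
    rw [X_dvd_iff]; exact hD
  have hE1 : coeff 1 D = constantCoeff E := by
    rw [hE]
    have := coeff_succ_X_mul 0 E
    rw [zero_add] at this
    rw [this]
    simp
  have hsub : (Ws a b).subst D = X ^ 3 * (E ^ 3 * V.subst D) := by
    rw [hV, subst_mul hs, subst_pow hs, subst_X hs]
    rw [hE]
    ring
  have hc : constantCoeff (V.subst D : PowerSeries A) = 1 := by
    have h2 : V = C 1 + (V - C 1) := by ring
    have h3 : constantCoeff ((V - C 1).subst D : PowerSeries A) = 0 :=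
      PowerSeries.constantCoeff_subst_eq_zero hD _ (by simp [hV0])
    have h4 : (V.subst D : PowerSeries A) = C 1 + (V - C 1).subst D := by
      conv_lhs => rw [h2]
      rw [subst_add hs]
      congr 1
      exact PowerSeries.subst_C (1 : A)
    rw [h4, map_add, h3]
    simp
  rw [hsub]
  refine ⟨?_, ?_, ?_, ?_⟩
  · rw [coeff_X_pow_mul']; simp
  · rw [coeff_X_pow_mul']; simp
  · rw [coeff_X_pow_mul']; simp
  · rw [coeff_X_pow_mul', hE1]; simp [hc]

theorem coeff_mul_three {A : Type*} [CommRing A] (f g : PowerSeries A) :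
    coeff 1 (f * g) = coeff 0 f * coeff 1 g + coeff 1 f * coeff 0 g ∧
    coeff 2 (f * g) = coeff 0 f * coeff 2 g + coeff 1 f * coeff 1 g + coeff 2 f * coeff 0 g ∧
    coeff 3 (f * g) = coeff 0 f * coeff 3 g + coeff 1 f * coeff 2 g + coeff 2 f * coeff 1 g +
      coeff 3 f * coeff 0 g := by
  refine ⟨?_, ?_, ?_⟩
  · rw [coeff_mul, Finset.Nat.sum_antidiagonal_eq_sum_range_succ
      (fun i j => coeff i f * coeff j g)]
    simp [Finset.sum_range_succ]
  · rw [coeff_mul, Finset.Nat.sum_antidiagonal_eq_sum_range_succ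
      (fun i j => coeff i f * coeff j g)]
    simp [Finset.sum_range_succ]
  · rw [coeff_mul, Finset.Nat.sum_antidiagonal_eq_sum_range_succ
      (fun i j => coeff i f * coeff j g)]
    simp [Finset.sum_range_succ]

/-- coefficients of the duplication series over `ℤ[a,b]` -/
theorem coeff_D2_A : let a : A0 := MvPolynomial.X 0; let b : A0 := MvPolynomial.X 1
    coeff 1 (D2 a b) = 2 ∧ coeff 2 (D2 a b) = -a ∧ coeff 3 (D2 a b) = 0 ∧
      coeff 4 (D2 a b) = -7 * b := by
  intro a b
  have h := D2_deriv_A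
  simp only at h
  have h1 : coeff 1 (D2 a b) = 2 := by
    rw [D2, R227.coeff_one_mulSeries]; norm_num
  obtain ⟨w0, w1, w2, w3⟩ := coeff_Ws_lt a b
  obtain ⟨v0, v1, v2, v3⟩ := coeff_Ws_D2 a b (D2 a b) (constantCoeff_D2 a b)
  have d0 : coeff 0 (D2 a b) = 0 := by
    rw [coeff_zero_eq_constantCoeff_apply]; exact constantCoeff_D2 a b
  have e2 : ∀ f : PowerSeries A0, 2 * C b * f = C (2 * b) * f := by
    intro f; rw [map_mul, map_ofNat]
  have e2' : ∀ f : PowerSeries A0, 2 * f = C 2 * f := by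
    intro f; rw [map_ofNat]
  rw [e2, e2, e2'] at h
  set P : PowerSeries A0 := 1 - C a * X - C (2 * b) * Ws a b with hP
  set Q : PowerSeries A0 := 1 - C a * D2 a b - C (2 * b) * (Ws a b).subst (D2 a b) with hQ
  have P0 : coeff 0 P = 1 := by
    rw [hP]; simp only [map_sub, coeff_C_mul, w0, coeff_one, coeff_zero_X]; simp
  have P1 : coeff 1 P = -a := by
    rw [hP]; simp only [map_sub, coeff_C_mul, w1, coeff_one, coeff_one_X]; simp
  have P2 : coeff 2 P = 0 := by
    rw [hP]; simp only [map_sub, coeff_C_mul, w2, coeff_one, coeff_X]; simp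
  have P3 : coeff 3 P = - (2 * b) := by
    rw [hP]; simp only [map_sub, coeff_C_mul, w3, coeff_one, coeff_X]; simp
  have Q1 : coeff 1 Q = - (a * 2) := by
    rw [hQ]; simp only [map_sub, coeff_C_mul, v1, coeff_one, h1]; simp
  have Q2 : coeff 2 Q = - (a * coeff 2 (D2 a b)) := by
    rw [hQ]; simp only [map_sub, coeff_C_mul, v2, coeff_one]; simp
  have Q3 : coeff 3 Q = - (a * coeff 3 (D2 a b)) - 2 * b * 2 ^ 3 := by
    rw [hQ]; simp only [map_sub, coeff_C_mul, v3, coeff_one, h1]; simp
  obtain ⟨m1, m2, m3⟩ := coeff_mul_three (d⁄dX A0 (D2 a b)) P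
  have g0 : coeff 0 (d⁄dX A0 (D2 a b)) = 2 := by
    rw [coeff_derivative]; simp [h1]
  have g1 : coeff 1 (d⁄dX A0 (D2 a b)) = coeff 2 (D2 a b) * 2 := by
    rw [coeff_derivative]; norm_num
  have g2 : coeff 2 (d⁄dX A0 (D2 a b)) = coeff 3 (D2 a b) * 3 := by
    rw [coeff_derivative]; norm_num
  have g3 : coeff 3 (d⁄dX A0 (D2 a b)) = coeff 4 (D2 a b) * 4 := by
    rw [coeff_derivative]; norm_num
  rw [h, coeff_C_mul, g0, g1, P0, P1, Q1] at m1
  rw [h, coeff_C_mul, g0, g1, g2, P0, P1, P2, Q2] at m2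
  rw [h, coeff_C_mul, g0, g1, g2, g3, P0, P1, P2, P3, Q3] at m3
  have r2 : coeff 2 (D2 a b) = -a := by
    apply mul_left_cancel₀ (two_ne_zero : (2 : A0) ≠ 0)
    linear_combination -m1
  have r3 : coeff 3 (D2 a b) = 0 := by
    have h3 : (3 : A0) ≠ 0 := by
      have : ((3 : ℕ) : A0) ≠ 0 := Nat.cast_ne_zero.2 (by norm_num)
      exact_mod_cast this
    apply mul_left_cancel₀ h3
    rw [r2] at m2
    linear_combination -m2
  have r4 : coeff 4 (D2 a b) = -7 * b := by
    have h4 : (4 : A0) ≠ 0 := by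
      have : ((4 : ℕ) : A0) ≠ 0 := Nat.cast_ne_zero.2 (by norm_num)
      exact_mod_cast this
    apply mul_left_cancel₀ h4
    rw [r2, r3] at m3
    linear_combination -m3
  exact ⟨h1, r2, r3, r4⟩

theorem coeff_D2 {A : Type*} [CommRing A] (a b : A) :
    coeff 1 (D2 a b) = 2 ∧ coeff 2 (D2 a b) = -a ∧ coeff 3 (D2 a b) = 0 ∧
      coeff 4 (D2 a b) = -7 * b := by
  obtain ⟨h1, h2, h3, h4⟩ := coeff_D2_A
  have e := map_D2 (evA a b) (MvPolynomial.X 0) (MvPolynomial.X 1)
  rw [evA_X0, evA_X1] at e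
  rw [← e]
  simp only [PowerSeries.coeff_map, h1, h2, h3, h4]
  refine ⟨map_ofNat _ 2, by rw [map_neg, evA_X0], map_zero _, ?_⟩
  rw [map_mul, evA_X1, map_neg, map_ofNat]

end univ

section two

variable {A : Type*} [CommRing A] [CharP A 2]

/-- in characteristic two the duplication series is `g(z²)` with `g = a w + b w² + …` -/
theorem exists_g (a b : A) : ∃ g : PowerSeries A,
    R227.fadd (Phi a b) (X : PowerSeries A) X = PowerSeries.expand 2 two_ne_zero g ∧
    constantCoeff g = 0 ∧ coeff 1 g = a ∧ coeff 2 g = b := by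
  have : Fact (Nat.Prime 2) := ⟨Nat.prime_two⟩
  obtain ⟨h1, h2, -, h4⟩ := coeff_D2 a b
  have h1' : coeff 1 (D2 a b) = 0 := by rw [h1]; exact CharTwo.two_eq_zero
  obtain ⟨g, hg, he⟩ := R227.IsFGHom.exists_frob (p := 2)
    (R227.IsFGHom.mulSeries (Phi a b) 2) h1'
  have he' : D2 a b = PowerSeries.expand 2 two_ne_zero g := by
    rw [expand_apply]; exact he
  refine ⟨g, ?_, hg.1, ?_, ?_⟩
  · rw [← D2_eq, he']
  · have := coeff_expand_mul 2 two_ne_zero g 1
    rw [← he', mul_one, h2] at this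
    rw [← this, CharTwo.neg_eq]
  · have := coeff_expand_mul 2 two_ne_zero g 2
    rw [← he', show 2 * 2 = 4 by norm_num, h4] at this
    rw [← this]
    have h7 : (-7 : A) = 1 := by
      have h2 : (2 : A) = 0 := CharTwo.two_eq_zero
      linear_combination (-4) * h2
    rw [h7, one_mul]

end two

/-! ## the instance -/

section inst

variable (κ : Type*) [Field κ] [CharP κ 2]

instance charP_ps : CharP (PowerSeries κ) 2 :=
  charP_of_injective_ringHom (f := (C : κ →+* PowerSeries κ)) C_injective 2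

/-- the formal group of `y² + t x y + y = x³` over `κ⟦t⟧` -/
def fdata : F.FData κ where
  Φ := Phi (X : PowerSeries κ) 1
  comm := Phi_isComm _ _
  g := (exists_g (X : PowerSeries κ) 1).choose
  two := (exists_g (X : PowerSeries κ) 1).choose_spec.1
  g_zero := (exists_g (X : PowerSeries κ) 1).choose_spec.2.1
  g_one := (exists_g (X : PowerSeries κ) 1).choose_spec.2.2.1
  g_two := by
    rw [(exists_g (X : PowerSeries κ) 1).choose_spec.2.2.2]
    exact isUnit_one
  frob := by
    rw [Phi_map, Phi_map]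
    simp

@[simp] theorem fdata_Φ : (fdata κ).Φ = Phi (X : PowerSeries κ) 1 := rfl

end inst

end Crest.Agent.R007.Fg
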