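import Crest.Agent.R007.Fz6
import Crest.Agent.R007.Fg5

/-!
Row 7, section E-FG (helper360): scaling and `HasW` for helper801's `Fg.Phi`; comparison
`Fg.Phi = Fz.Phi`.
-/

set_option autoImplicit false

noncomputable section

open PowerSeries Crest.LubinTate

namespace Crest.Agent.R007.Fg

section cmp

variable {K : Type*} [CommRing K] [Algebra ℚ K] (a b : K)

theorem zs_eq : zs a b = Fz.exS a b :=
  (Fz.ode_unique a b (isSol_zs a b).z0 (isSol_zs a b).s0 (isSol_zs a b).dz (isSol_zs a b).ds).1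

theorem Phi_eqQ : Phi a b = Fz.Phi a b := by
  have h1 := isFGHom_zs a b
  rw [zs_eq] at h1
  exact R227.IsFGHom.target_unique h1 (Fz.hom_exS a b) (Fz.isUnit_exS a b)

end cmp

variable {A : Type*} [CommRing A]

/-- the two constructions agree -/
theorem Phi_eq (a b : A) : Phi a b = Fz.Phi a b := by
  have h1 : Phi (MvPolynomial.X 0 : MvPolynomial (Fin 2) ℤ) (MvPolynomial.X 1) =
      Fz.Phi (MvPolynomial.X 0) (MvPolynomial.X 1) := by
    apply FormalGroup.ext
    apply Fz.mv_map_injective (Fz.iU_inj 2)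
    change ((Phi _ _).map (Fz.iU 2)).toPowerSeries = ((Fz.Phi _ _).map (Fz.iU 2)).toPowerSeries
    rw [Phi_map, Fz.Phi_map, Phi_eqQ]
  have h2 := congrArg (fun F => FormalGroup.map F
    (MvPolynomial.eval₂Hom (Int.castRingHom A) ![a, b])) h1
  simp only [Phi_map, Fz.Phi_map] at h2
  simpa using h2

/-- SCALING, over every ring: `z ↦ c z : Φ_{c a, c³ b} → Φ_{a, b}` -/
theorem scale (c a b : A) : IsFGHom (Phi (c * a) (c ^ 3 * b)) (Phi a b) (C c * X) := by
  rw [Phi_eq, Phi_eq]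
  exact Fz.scale c a b

section inst

variable {κ : Type*} [Field κ] [CharP κ 2]

theorem fdata_Φ0 : (fdata κ).Φ0 = Phi (0 : κ) 1 := by
  rw [F.FData.Φ0, fdata_Φ, Phi_map, PowerSeries.constantCoeff_X, map_one]

theorem hasW {w : κ} (hw : w ^ 2 + w + 1 = 0) : F.HasW (fdata κ).Φ0 w := by
  refine ⟨hw, ?_⟩
  have h := scale w (0 : κ) 1
  have h3 : w ^ 3 * 1 = 1 := by linear_combination (w - 1) * hw
  rw [mul_zero, h3] at h
  rw [fdata_Φ0]
  exact h

end inst

end Crest.Agent.R007.Fg
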