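import Mathlib

set_option autoImplicit false

/-!
Lemma M of note 13347: the family `j ↦ (1-3^j)(-B_j/2j) E_j` is an (even) measure of odd total mass.
-/

namespace Crest.Agent.R007.KumM

open Polynomial

/-- multiplication theorem for Bernoulli polynomials, factor 3 -/
theorem bernoulli_mul_three (n : ℕ) (x : ℚ) :
    3 ^ n * ((Polynomial.bernoulli n).eval x + (Polynomial.bernoulli n).eval (x + 1 / 3)
      + (Polynomial.bernoulli n).eval (x + 2 / 3)) = 3 * (Polynomial.bernoulli n).eval (3 * x) := by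
  -- the defect polynomial
  let M : ℕ → ℚ[X] := fun n => C (3 ^ n) * (Polynomial.bernoulli n + (Polynomial.bernoulli n).comp (X + C (1 / 3))
      + (Polynomial.bernoulli n).comp (X + C (2 / 3))) - C 3 * (Polynomial.bernoulli n).comp (C 3 * X)
  have hMeval : ∀ n x, (M n).eval x = 3 ^ n * ((Polynomial.bernoulli n).eval x + (Polynomial.bernoulli n).eval (x + 1 / 3)
      + (Polynomial.bernoulli n).eval (x + 2 / 3)) - 3 * (Polynomial.bernoulli n).eval (3 * x) := by
    intro n x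
    simp only [M, eval_sub, eval_mul, eval_C, eval_add, eval_comp, eval_X]
  -- periodicity
  have hper : ∀ n x, (M n).eval (x + 1 / 3) = (M n).eval x := by
    intro n x
    rw [hMeval, hMeval]
    have e1 : x + 1 / 3 + 1 / 3 = x + 2 / 3 := by ring
    have e2 : x + 1 / 3 + 2 / 3 = 1 + x := by ring
    have e3 : 3 * (x + 1 / 3) = 1 + 3 * x := by ring
    rw [e1, e2, e3, Polynomial.bernoulli_eval_one_add, Polynomial.bernoulli_eval_one_add]
    rcases n with _ | n
    · simp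
    · simp only [Nat.add_sub_cancel]
      push_cast
      ring
  have hconst : ∀ n, M n = C ((M n).eval 0) := by
    intro n
    have hk : ∀ k : ℕ, (M n).eval ((k : ℚ) / 3) = (M n).eval 0 := by
      intro k
      induction k with
      | zero => simp
      | succ k ih =>
        rw [← ih, ← hper n ((k : ℚ) / 3)]
        congr 1
        push_cast
        ring
    apply Polynomial.eq_of_infinite_eval_eq
    refine Set.Infinite.mono (s := Set.range (fun k : ℕ => (k : ℚ) / 3)) ?_ ?_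
    · rintro _ ⟨k, rfl⟩
      simp only [Set.mem_ofPred_eq, eval_C]
      exact hk k
    · apply Set.infinite_range_of_injective
      intro a b hab
      have : (a : ℚ) = b := by
        have h3 : (3 : ℚ) ≠ 0 := by norm_num
        field_simp at hab
        exact hab
      exact_mod_cast this
  have hder : ∀ n, derivative (M (n + 1)) = C (3 * (n + 1 : ℚ)) * M n := by
    intro n
    simp only [M, derivative_sub, derivative_mul, derivative_add, derivative_comp, derivative_C, derivative_X,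
      Polynomial.derivative_bernoulli_add_one, zero_mul, zero_add, add_zero, one_mul, mul_one]
    rw [mul_comp, mul_comp, mul_comp]
    simp only [map_mul, map_add, map_one, map_pow, map_natCast, natCast_comp, add_comp, one_comp]
    ring
  have hzero : ∀ n, M n = 0 := by
    intro n
    have h1 := hder n
    rw [hconst (n + 1), derivative_C] at h1
    have h2 : (C (3 * (n + 1 : ℚ)) : ℚ[X]) ≠ 0 := by
      rw [Ne, C_eq_zero]; positivity
    rcases mul_eq_zero.mp h1.symm with h | h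
    · exact absurd h h2
    · exact h
  have := hMeval n x
  rw [hzero n, eval_zero] at this
  linarith

/-- division by `1 + E + E^2` (`= 3 + 3Δ + Δ²`) on polynomial functions -/
lemma solve_three {K : Type*} [Field K] (I : AddSubgroup K) (h3 : ∀ x : K, 3 * x ∈ I → x ∈ I) :
    ∀ (n : ℕ) (G : ℤ → K), (fwdDiff (1 : ℤ))^[n] G = 0 →
      (∀ s, G s + G (s + 1) + G (s + 2) ∈ I) → ∀ s, G s ∈ I := by
  intro n
  induction n with
  | zero =>
    intro G hG _ s
    simp only [Function.iterate_zero, id_eq] at hG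
    rw [hG]; exact I.zero_mem
  | succ n ih =>
    intro G hG hs s
    rw [Function.iterate_succ_apply] at hG
    have h1 : ∀ s, fwdDiff (1 : ℤ) G s ∈ I := by
      apply ih _ hG
      intro s
      have := I.sub_mem (hs (s + 1)) (hs s)
      simp only [fwdDiff]
      have e : G (s + 1) + G (s + 1 + 1) + G (s + 1 + 2) - (G s + G (s + 1) + G (s + 2))
        = G (s + 1) - G s + (G (s + 1 + 1) - G (s + 1)) + (G (s + 2 + 1) - G (s + 2)) := by
        have a1 : s + 1 + 1 = s + 2 := by ring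
        have a2 : s + 1 + 2 = s + 2 + 1 := by ring
        rw [a1, a2]; ring
      rw [← e]; exact this
    have h2 : G (s + 1) - G s ∈ I := h1 s
    have h2' : G (s + 1 + 1) - G (s + 1) ∈ I := h1 (s + 1)
    apply h3
    have e : 3 * G s = (G s + G (s + 1) + G (s + 2)) - (G (s + 1) - G s) - (G (s + 1) - G s) - (G (s + 1 + 1) - G (s + 1)) := by
      have a1 : s + 1 + 1 = s + 2 := by ring
      rw [a1]; ring
    rw [e]
    exact I.sub_mem (I.sub_mem (I.sub_mem (hs s) h2) h2) h2'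

lemma fwd_cast {K : Type*} [Field K] (P : K[X]) (n : ℕ) :
    (fwdDiff (1 : ℤ))^[n] (fun s : ℤ => P.eval (s : K)) = fun s : ℤ => ((fwdDiff (1 : K))^[n] P.eval) (s : K) := by
  induction n with
  | zero => rfl
  | succ n ih =>
    rw [Function.iterate_succ_apply', ih, Function.iterate_succ_apply']
    funext s
    simp only [fwdDiff]
    push_cast
    rfl

lemma fwd_poly {K : Type*} [Field K] (P : K[X]) :
    (fwdDiff (1 : ℤ))^[P.natDegree + 1] (fun s : ℤ => P.eval (s : K)) = 0 := by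
  rw [fwd_cast, Polynomial.fwdDiff_iter_eq_zero_of_degree_lt (Nat.lt_succ_self _)]
  rfl

/-- the polynomial `F_j(s) = (B_j(s) - 3^j B_j(s/3))/j - s^(j-1)` -/
noncomputable def Fp (j : ℕ) : ℚ[X] :=
  C ((j : ℚ)⁻¹) * (Polynomial.bernoulli j - C (3 ^ j) * (Polynomial.bernoulli j).comp (C (1 / 3) * X)) - X ^ (j - 1)

lemma Fp_eval (j : ℕ) (s : ℚ) : (Fp j).eval s =
    (j : ℚ)⁻¹ * ((Polynomial.bernoulli j).eval s - 3 ^ j * (Polynomial.bernoulli j).eval (1 / 3 * s)) - s ^ (j - 1) := by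
  simp only [Fp, eval_sub, eval_mul, eval_C, eval_comp, eval_X, eval_pow]

lemma Fp_sum {j : ℕ} (hj : 1 ≤ j) (s : ℚ) :
    (Fp j).eval s + (Fp j).eval (s + 1) + (Fp j).eval (s + 2) = s ^ (j - 1) - (s + 2) ^ (j - 1) := by
  have hj0 : (j : ℚ) ≠ 0 := by exact_mod_cast (by omega : j ≠ 0)
  rw [Fp_eval, Fp_eval, Fp_eval]
  have h := bernoulli_mul_three j (1 / 3 * s)
  have e1 : 1 / 3 * (s + 1) = 1 / 3 * s + 1 / 3 := by ring
  have e2 : 1 / 3 * (s + 2) = 1 / 3 * s + 2 / 3 := by ring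
  have e3 : 3 * (1 / 3 * s) = s := by ring
  rw [e3] at h
  rw [e1, e2]
  have b1 : (Polynomial.bernoulli j).eval (s + 1) = (Polynomial.bernoulli j).eval s + j * s ^ (j - 1) := by
    rw [add_comm s 1, Polynomial.bernoulli_eval_one_add]
  have b2 : (Polynomial.bernoulli j).eval (s + 2) = (Polynomial.bernoulli j).eval s + j * s ^ (j - 1) + j * (s + 1) ^ (j - 1) := by
    have : s + 2 = 1 + (s + 1) := by ring
    rw [this, Polynomial.bernoulli_eval_one_add, b1]
  rw [b1, b2]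
  generalize (Polynomial.bernoulli j).eval (1 / 3 * s) = u at h ⊢
  generalize (Polynomial.bernoulli j).eval (1 / 3 * s + 1 / 3) = v at h ⊢
  generalize (Polynomial.bernoulli j).eval (1 / 3 * s + 2 / 3) = w at h ⊢
  generalize (Polynomial.bernoulli j).eval s = z at h ⊢
  have h2 : z + (z + ↑j * s ^ (j - 1)) + (z + ↑j * s ^ (j - 1) + ↑j * (s + 1) ^ (j - 1)) - 3 ^ j * (u + v + w)
      = (j : ℚ) * (2 * s ^ (j - 1) + (s + 1) ^ (j - 1)) := by
    rw [h]; ring
  have h3 : (j : ℚ)⁻¹ * (z - 3 ^ j * u) + (j : ℚ)⁻¹ * (z + ↑j * s ^ (j - 1) - 3 ^ j * v)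
      + (j : ℚ)⁻¹ * (z + ↑j * s ^ (j - 1) + ↑j * (s + 1) ^ (j - 1) - 3 ^ j * w) = 2 * s ^ (j - 1) + (s + 1) ^ (j - 1) := by
    have : (j : ℚ)⁻¹ * (z - 3 ^ j * u) + (j : ℚ)⁻¹ * (z + ↑j * s ^ (j - 1) - 3 ^ j * v)
      + (j : ℚ)⁻¹ * (z + ↑j * s ^ (j - 1) + ↑j * (s + 1) ^ (j - 1) - 3 ^ j * w)
      = (j : ℚ)⁻¹ * (z + (z + ↑j * s ^ (j - 1)) + (z + ↑j * s ^ (j - 1) + ↑j * (s + 1) ^ (j - 1)) - 3 ^ j * (u + v + w)) := by
      ring
    rw [this, h2, ← mul_assoc, inv_mul_cancel₀ hj0, one_mul]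
  linear_combination h3

lemma Fp_neg {j : ℕ} (hj : 1 ≤ j) (he : Even j) (s : ℚ) : (Fp j).eval (-s) = (Fp j).eval s := by
  have hj0 : (j : ℚ) ≠ 0 := by exact_mod_cast (by omega : j ≠ 0)
  have ho : Odd (j - 1) := by
    obtain ⟨k, hk⟩ := he
    exact ⟨k - 1, by omega⟩
  rw [Fp_eval, Fp_eval]
  have e1 : 1 / 3 * (-s) = -(1 / 3 * s) := by ring
  rw [e1, Polynomial.bernoulli_eval_neg, Polynomial.bernoulli_eval_neg, he.neg_one_pow, ho.neg_pow, mul_pow]
  have e3 : (3 : ℚ) ^ j = 3 * 3 ^ (j - 1) := by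
    rw [← pow_succ']; congr 1; omega
  have e4 : (3 : ℚ) ^ (j - 1) * (1 / 3) ^ (j - 1) = 1 := by
    rw [← mul_pow]; norm_num
  generalize (Polynomial.bernoulli j).eval (1 / 3 * s) = u
  generalize (Polynomial.bernoulli j).eval s = z
  have e5 : (j : ℚ)⁻¹ * j = 1 := inv_mul_cancel₀ hj0
  rw [e3]
  linear_combination (s ^ (j - 1) - 3 * ((3 : ℚ) ^ (j - 1) * (1 / 3) ^ (j - 1)) * s ^ (j - 1)) * e5 - 3 * s ^ (j - 1) * e4

section main

variable {K : Type*} [Field K] [CharZero K] (O : Subring K)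

/-- `2 O` as an additive subgroup -/
def twoO : AddSubgroup K := O.toAddSubgroup.map (AddMonoidHom.mulLeft (2 : K))

variable {O}
set_option linter.unusedSectionVars false

lemma mem_twoO {x : K} : x ∈ twoO O ↔ ∃ y ∈ O, x = 2 * y := by
  simp only [twoO, AddSubgroup.mem_map, Subring.mem_toAddSubgroup, AddMonoidHom.coe_mulLeft]
  constructor
  · rintro ⟨y, hy, rfl⟩; exact ⟨y, hy, rfl⟩
  · rintro ⟨y, hy, rfl⟩; exact ⟨y, hy, rfl⟩

lemma twoO_le {x : K} (h : x ∈ twoO O) : x ∈ O := by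
  obtain ⟨y, hy, rfl⟩ := mem_twoO.mp h
  rw [two_mul]; exact O.add_mem hy hy

lemma mul_mem_twoO {x y : K} (hx : x ∈ O) (hy : y ∈ twoO O) : x * y ∈ twoO O := by
  obtain ⟨z, hz, rfl⟩ := mem_twoO.mp hy
  exact mem_twoO.mpr ⟨x * z, O.mul_mem hx hz, by ring⟩

variable (hodd : ∀ n : ℕ, Odd n → ((n : K))⁻¹ ∈ O)

include hodd in
lemma three_div {x : K} (h : 3 * x ∈ twoO O) : x ∈ twoO O := by
  have h3 : ((3 : ℕ) : K)⁻¹ ∈ O := hodd 3 (by decide)
  have := mul_mem_twoO h3 h
  have e : ((3 : ℕ) : K)⁻¹ * (3 * x) = x := by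
    push_cast
    field_simp
  rwa [e] at this

/-- the hypotheses of Lemma M -/
structure MData (O : Subring K) (s : Finset ℕ) (α : ℕ → K) (r : ℕ) : Prop where
  even : ∀ j ∈ s, Even j
  large : ∀ j ∈ s, r + 2 ≤ j
  den : ∀ j ∈ s, 2 ^ r * α j ∈ O
  int : ∀ c : ℕ, Odd c → ∑ j ∈ s, α j * (c : K) ^ j ∈ O
  cong : ∀ c : ℕ, Odd c → ∑ j ∈ s, α j * (c : K) ^ j - ∑ j ∈ s, α j ∈ twoO O

variable {s : Finset ℕ} {α : ℕ → K} {r : ℕ}

lemma even_term (h : MData O s α r) {d : ℕ} (hd : Even d) {j : ℕ} (hj : j ∈ s) :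
    α j * (d : K) ^ (j - 1) ∈ twoO O := by
  obtain ⟨t, rfl⟩ := hd
  have hl := h.large j hj
  have e : α j * ((t + t : ℕ) : K) ^ (j - 1) = (2 ^ (j - 2 - r) * (t : K) ^ (j - 1)) * (2 * (2 ^ r * α j)) := by
    have h1 : ((t + t : ℕ) : K) = 2 * t := by push_cast; ring
    have h2 : j - 1 = (j - 2 - r) + r + 1 := by omega
    rw [h1, mul_pow]
    rw [h2]
    ring
  rw [e]
  apply mul_mem_twoO
  · apply O.mul_mem
    · exact O.pow_mem (by exact_mod_cast (natCast_mem O 2)) _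
    · exact O.pow_mem (natCast_mem O t) _
  · exact mem_twoO.mpr ⟨_, h.den j hj, rfl⟩

include hodd in
/-- values of the odd polynomial at odd natural numbers -/
lemma odd_val (h : MData O s α r) {c : ℕ} (hc : Odd c) :
    ∑ j ∈ s, α j * (c : K) ^ (j - 1) - ∑ j ∈ s, α j ∈ twoO O := by
  have hc0 : (c : K) ≠ 0 := by
    have : c ≠ 0 := by rintro rfl; exact absurd hc (by decide)
    exact_mod_cast this
  have e1 : ∑ j ∈ s, α j * (c : K) ^ j = c * ∑ j ∈ s, α j * (c : K) ^ (j - 1) := by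
    rw [Finset.mul_sum]
    apply Finset.sum_congr rfl
    intro j hj
    have hl := h.large j hj
    have : (c : K) ^ j = c * c ^ (j - 1) := by rw [← pow_succ']; congr 1; omega
    rw [this]; ring
  set p := ∑ j ∈ s, α j * (c : K) ^ (j - 1)
  have h1 := h.int c hc
  have h2 := h.cong c hc
  rw [e1] at h1 h2
  have hinv := hodd c hc
  have hp : p ∈ O := by
    have := O.mul_mem hinv h1
    rwa [← mul_assoc, inv_mul_cancel₀ hc0, one_mul] at this
  obtain ⟨t, ht⟩ := hc
  have e2 : p - ∑ j ∈ s, α j = (c * p - ∑ j ∈ s, α j) - (t : K) * (2 * p) := by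
    have : (c : K) = 2 * t + 1 := by rw [ht]; push_cast; ring
    rw [this]; ring
  rw [e2]
  exact (twoO O).sub_mem h2 (mul_mem_twoO (natCast_mem O t) (mem_twoO.mpr ⟨p, hp, rfl⟩))

include hodd in
/-- positive coefficients -/
theorem lemmaM_pos (h : MData O s α r) (n : ℕ) :
    ∑ j ∈ s, α j * ((1 - 3 ^ j) * ∑ d ∈ n.divisors, (d : K) ^ (j - 1)) ∈ twoO O := by
  have e : ∑ j ∈ s, α j * ((1 - 3 ^ j) * ∑ d ∈ n.divisors, (d : K) ^ (j - 1))
      = ∑ d ∈ n.divisors, ∑ j ∈ s, α j * ((1 - 3 ^ j) * (d : K) ^ (j - 1)) := by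
    rw [Finset.sum_comm]
    apply Finset.sum_congr rfl
    intro j _
    rw [Finset.mul_sum, Finset.mul_sum]
  rw [e]
  apply AddSubgroup.sum_mem
  intro d hd
  have hd0 : d ≠ 0 := Nat.ne_of_gt (Nat.pos_of_mem_divisors hd)
  rcases Nat.even_or_odd d with hev | hod
  · apply AddSubgroup.sum_mem
    intro j hj
    have : α j * ((1 - 3 ^ j) * (d : K) ^ (j - 1)) = (1 - 3 ^ j) * (α j * (d : K) ^ (j - 1)) := by ring
    rw [this]
    apply mul_mem_twoO _ (even_term h hev hj)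
    exact O.sub_mem O.one_mem (O.pow_mem (by exact_mod_cast (natCast_mem O 3)) _)
  · have hodd3 : Odd (3 * d) := (by decide : Odd 3).mul hod
    have e2 : ∑ j ∈ s, α j * ((1 - 3 ^ j) * (d : K) ^ (j - 1))
        = (∑ j ∈ s, α j * (d : K) ^ (j - 1) - ∑ j ∈ s, α j) - 3 * (∑ j ∈ s, α j * ((3 * d : ℕ) : K) ^ (j - 1) - ∑ j ∈ s, α j)
          - 2 * ∑ j ∈ s, α j := by
      have e3 : ∑ j ∈ s, α j * ((1 - 3 ^ j) * (d : K) ^ (j - 1))
          = ∑ j ∈ s, α j * (d : K) ^ (j - 1) - 3 * ∑ j ∈ s, α j * ((3 * d : ℕ) : K) ^ (j - 1) := by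
        rw [Finset.mul_sum, ← Finset.sum_sub_distrib]
        apply Finset.sum_congr rfl
        intro j hj
        have hl := h.large j hj
        have : (3 : K) ^ j = 3 * 3 ^ (j - 1) := by rw [← pow_succ']; congr 1; omega
        push_cast
        rw [this, mul_pow]; ring
      rw [e3]; ring
    rw [e2]
    apply (twoO O).sub_mem
    · apply (twoO O).sub_mem (odd_val hodd h hod)
      exact mul_mem_twoO (by exact_mod_cast (natCast_mem O 3)) (odd_val hodd h hodd3)
    · refine mem_twoO.mpr ⟨_, ?_, rfl⟩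
      have := h.int 1 (by decide)
      simpa using this

lemma pz_neg (h : MData O s α r) (z : ℤ) :
    ∑ j ∈ s, α j * ((-z : ℤ) : K) ^ (j - 1) = -∑ j ∈ s, α j * (z : K) ^ (j - 1) := by
  rw [← Finset.sum_neg_distrib]
  apply Finset.sum_congr rfl
  intro j hj
  have ho : Odd (j - 1) := by
    obtain ⟨k, hk⟩ := h.even j hj
    have := h.large j hj
    exact ⟨k - 1, by omega⟩
  push_cast
  rw [ho.neg_pow]; ring

lemma pz_even (h : MData O s α r) {z : ℤ} (hz : Even z) : ∑ j ∈ s, α j * (z : K) ^ (j - 1) ∈ twoO O := by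
  have key : ∀ n : ℕ, Even n → ∑ j ∈ s, α j * (((n : ℕ) : ℤ) : K) ^ (j - 1) ∈ twoO O := by
    intro n hn
    apply AddSubgroup.sum_mem
    intro j hj
    have := even_term h hn hj
    simpa using this
  rcases Int.natAbs_eq z with hz' | hz'
  · rw [hz']; exact key _ (by exact Int.natAbs_even.mpr hz)
  · rw [hz', pz_neg h]; exact (twoO O).neg_mem (key _ (by exact Int.natAbs_even.mpr hz))

include hodd in
lemma pz_odd (h : MData O s α r) {z : ℤ} (hz : Odd z) :
    ∑ j ∈ s, α j * (z : K) ^ (j - 1) - ∑ j ∈ s, α j ∈ twoO O := by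
  have hA : ∑ j ∈ s, α j ∈ O := by
    have := h.int 1 (by decide)
    simpa using this
  have key : ∀ n : ℕ, Odd n → ∑ j ∈ s, α j * (((n : ℕ) : ℤ) : K) ^ (j - 1) - ∑ j ∈ s, α j ∈ twoO O := by
    intro n hn
    have := odd_val hodd h hn
    simpa using this
  rcases Int.natAbs_eq z with hz' | hz'
  · rw [hz']; exact key _ (Int.natAbs_odd.mpr hz)
  · rw [hz', pz_neg h]
    have h1 := key _ (Int.natAbs_odd.mpr hz)
    have e : -∑ j ∈ s, α j * (((z.natAbs : ℕ) : ℤ) : K) ^ (j - 1) - ∑ j ∈ s, α j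
      = -(∑ j ∈ s, α j * (((z.natAbs : ℕ) : ℤ) : K) ^ (j - 1) - ∑ j ∈ s, α j) - 2 * ∑ j ∈ s, α j := by ring
    rw [e]
    exact (twoO O).sub_mem ((twoO O).neg_mem h1) (mem_twoO.mpr ⟨_, hA, rfl⟩)

include hodd in
/-- constant coefficient -/
theorem lemmaM_zero (h : MData O s α r) :
    ∑ j ∈ s, α j * ((1 - 3 ^ j) * (-((_root_.bernoulli j : ℚ) : K) / (2 * j))) - ∑ j ∈ s, α j ∈ twoO O := by
  have hA : ∑ j ∈ s, α j ∈ O := by
    have := h.int 1 (by decide)
    simpa using this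
  have hj1 : ∀ j ∈ s, 1 ≤ j := fun j hj => by have := h.large j hj; omega
  let G : ℤ → K := fun z => ∑ j ∈ s, α j * (((Fp j).eval (z : ℚ) : ℚ) : K)
  -- polynomiality
  let P : K[X] := ∑ j ∈ s, C (α j) * (Fp j).map (algebraMap ℚ K)
  have hGP : G = fun z : ℤ => P.eval (z : K) := by
    funext z
    simp only [G, P, eval_finsetSum, eval_mul, eval_C]
    apply Finset.sum_congr rfl
    intro j _
    congr 1
    have e : (z : K) = algebraMap ℚ K (z : ℚ) := by simp
    rw [e, Polynomial.eval_map, Polynomial.eval₂_at_apply]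
    simp
  have hnil : (fwdDiff (1 : ℤ))^[P.natDegree + 1] G = 0 := by
    rw [hGP]; exact fwd_poly P
  have hsum : ∀ z : ℤ, G z + G (z + 1) + G (z + 2) =
      ∑ j ∈ s, α j * (z : K) ^ (j - 1) - ∑ j ∈ s, α j * ((z + 2 : ℤ) : K) ^ (j - 1) := by
    intro z
    simp only [G]
    rw [← Finset.sum_add_distrib, ← Finset.sum_add_distrib, ← Finset.sum_sub_distrib]
    apply Finset.sum_congr rfl
    intro j hj
    have := Fp_sum (hj1 j hj) (z : ℚ)
    have h2 := congrArg (Rat.cast : ℚ → K) this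
    push_cast at h2 ⊢
    linear_combination (α j) * h2
  have hI : ∀ z : ℤ, G z + G (z + 1) + G (z + 2) ∈ twoO O := by
    intro z
    rw [hsum]
    rcases Int.even_or_odd z with hz | hz
    · exact (twoO O).sub_mem (pz_even h hz) (pz_even h (hz.add (by decide)))
    · have h1 := pz_odd hodd h hz
      have h2 := pz_odd hodd h (z := z + 2) (hz.add_even (by decide))
      have := (twoO O).sub_mem h1 h2
      have e : ∑ j ∈ s, α j * (z : K) ^ (j - 1) - ∑ j ∈ s, α j * ((z + 2 : ℤ) : K) ^ (j - 1)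
        = (∑ j ∈ s, α j * (z : K) ^ (j - 1) - ∑ j ∈ s, α j) - (∑ j ∈ s, α j * ((z + 2 : ℤ) : K) ^ (j - 1) - ∑ j ∈ s, α j) := by ring
      rw [e]; exact this
  have hG := solve_three (twoO O) (fun x => three_div hodd) _ G hnil hI
  have hGneg : G (-1) = G 1 := by
    simp only [G]
    apply Finset.sum_congr rfl
    intro j hj
    have := Fp_neg (hj1 j hj) (h.even j hj) 1
    push_cast
    rw [this]
  have h0 := hsum (-1)
  have e1 : (-1 : ℤ) + 1 = 0 := by ring
  have e2 : (-1 : ℤ) + 2 = 1 := by ring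
  rw [e1, e2, hGneg, pz_neg h 1] at h0
  simp only [Int.cast_one, one_pow, mul_one] at h0
  -- G 0
  have hG0 : G 0 = ∑ j ∈ s, α j * ((1 - 3 ^ j) * ((_root_.bernoulli j : ℚ) : K) / j) := by
    simp only [G]
    apply Finset.sum_congr rfl
    intro j hj
    have hl := h.large j hj
    congr 1
    rw [Fp_eval]
    have : j - 1 ≠ 0 := by omega
    simp only [Int.cast_zero, mul_zero, Polynomial.bernoulli_eval_zero, zero_pow this, sub_zero]
    push_cast
    field_simp
  have hfin : ∑ j ∈ s, α j * ((1 - 3 ^ j) * (-((_root_.bernoulli j : ℚ) : K) / (2 * j))) = -(G 0) / 2 := by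
    rw [hG0, neg_div, Finset.sum_div, ← Finset.sum_neg_distrib]
    apply Finset.sum_congr rfl
    intro j hj
    ring
  rw [hfin]
  have e3 : -(G 0) / 2 - ∑ j ∈ s, α j = G 1 := by
    have : G 0 = -2 * ∑ j ∈ s, α j - 2 * G 1 := by linear_combination h0
    rw [this]; ring
  rw [e3]
  exact hG 1

end main

end Crest.Agent.R007.KumM
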