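import Crest.Agent.R007.CoefO
import Crest.Agent.R007.EHasse
import Crest.Agent.R007.KumM
import Crest.Agent.R007.DInt

/-! Row 7: the facts about `Coef.OO` in the forms used by the other sections. -/

set_option autoImplicit false

namespace Crest.Agent.R007.OOI

open Crest.Agent.R007.Coef Crest.Agent.R007.Lat

lemma zeta_pow {M : ℕ} (hM : M ≠ 0) : Wp.zeta M ^ M = 1 := by
  rw [Wp.zeta, ← Complex.exp_nat_mul]
  have hM' : (M : ℂ) ≠ 0 := by exact_mod_cast hM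
  rw [mul_div_cancel₀ _ hM']
  exact Complex.exp_two_pi_mul_I

theorem oddRing_OO : Tc.OddRing OO where
  zeta_mem M hM := root_mem hM (zeta_pow hM.pos.ne')
  inv_mem _ hn := inv_nat_mem hn

theorem hodd : ∀ n : ℕ, Odd n → (n : ℂ)⁻¹ ∈ OO := fun _ hn => inv_nat_mem hn

theorem hroot : ∀ x : ℚ, Odd x.den → ee x ∈ OO := fun x hx => EH.root_mem_of_oddRing oddRing_OO x hx

lemma two_dvd_iff {c : OO} : (2 : OO) ∣ c ↔ ∃ y ∈ OO, (c : ℂ) = 2 * y := by
  constructor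
  · rintro ⟨d, hd⟩
    exact ⟨d, d.2, congrArg (Subtype.val : OO → ℂ) hd⟩
  · rintro ⟨y, hy, h⟩
    exact ⟨⟨y, hy⟩, Subtype.ext h⟩

theorem prime_val {a b : ℂ} (ha : a ∈ OO) (hb : b ∈ OO) (h : ∃ y ∈ OO, a * b = 2 * y) :
    (∃ y ∈ OO, a = 2 * y) ∨ (∃ y ∈ OO, b = 2 * y) := by
  have h1 : (2 : OO) ∣ (⟨a, ha⟩ : OO) * ⟨b, hb⟩ := two_dvd_iff.2 h
  rcases prime_two.dvd_or_dvd h1 with h2 | h2
  · exact Or.inl (two_dvd_iff.1 h2)
  · exact Or.inr (two_dvd_iff.1 h2)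

theorem one_ne {y : ℂ} (hy : y ∈ OO) : (1 : ℂ) ≠ 2 * y := by
  intro h
  have h1 : (2 : OO) ∣ (1 : OO) := two_dvd_iff.2 ⟨y, hy, h⟩
  exact two_not_isUnit (isUnit_of_dvd_one h1)

theorem hprime_Kum : ∀ a ∈ OO, ∀ b ∈ OO, a * b ∈ KumM.twoO OO → a ∈ KumM.twoO OO ∨ b ∈ KumM.twoO OO := by
  intro a ha b hb h
  rw [KumM.mem_twoO] at h ⊢
  rw [KumM.mem_twoO]
  exact prime_val ha hb h

theorem hprime_D : ∀ a ∈ OO, ∀ b ∈ OO, a * b ∈ Dsec.twO OO → a ∈ Dsec.twO OO ∨ b ∈ Dsec.twO OO := by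
  intro a ha b hb h
  rw [Dsec.mem_twO] at h ⊢
  rw [Dsec.mem_twO]
  exact prime_val ha hb h

theorem one_notMem_Kum : (1 : ℂ) ∉ KumM.twoO OO := by
  rw [KumM.mem_twoO]
  rintro ⟨y, hy, h⟩
  exact one_ne hy h

theorem one_notMem_D : (1 : ℂ) ∉ Dsec.twO OO := by
  rw [Dsec.mem_twO]
  rintro ⟨y, hy, h⟩
  exact one_ne hy h

theorem rho_surj : Function.Surjective Coef.res := res_surjective

theorem rho_ker : ∀ c : OO, Coef.res c = 0 ↔ ∃ d : OO, c = 2 * d := by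
  intro c
  rw [res_eq_zero_iff]
  rfl

/-- existence of a primitive cube root of unity in `kappa` -/
theorem exists_omega : ∃ w : kappa, w ^ 2 + w + 1 = 0 := by
  obtain ⟨w, hw⟩ := IsAlgClosed.exists_root (Polynomial.X ^ 2 + Polynomial.X + 1 : Polynomial kappa)
    (by
      have : (Polynomial.X ^ 2 + Polynomial.X + 1 : Polynomial kappa).natDegree = 2 := by
        compute_degree!
      intro h
      have := Polynomial.natDegree_eq_zero_iff_degree_le_zero.2 (le_of_eq h)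
      omega)
  refine ⟨w, ?_⟩
  simpa [Polynomial.IsRoot] using hw

end Crest.Agent.R007.OOI
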