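import Crest.Agent.R007.Main1
import Crest.Agent.R007.EIn
import Crest.Agent.R007.EInLev
import Crest.Agent.R007.EUnit2
import Crest.Agent.R007.DThm
import Crest.Agent.R007.OOInst
import Crest.Agent.R007.FgW

/-!
# Row 7 (S0007): MAIN assembly, part 2 (helper720): the instance `EIn` for `Coef.OO`.
-/

set_option autoImplicit false

open scoped MatrixGroups
open Crest.LubinTate

namespace Crest.Agent.R007.Main

open Lat

theorem hypM (M : ℕ) [NeZero M] (hM : 3 ∣ M) : Link.Hyp Coef.OO M AA where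
  qp := Dsec.qp
  A_mem := AA_mem
  A_M := AA_MX hM
  A_one := AA_Cong
  one_ne := one_ne

/-- scaling of the formal group -/
theorem phi_sc {A : Type*} [CommRing A] (u a b : A) (hu : IsUnit u) :
    ∃ G, IsFGHom (Fg.Phi a b) (Fg.Phi (u * a) (u ^ 3 * b)) G ∧
      IsUnit (PowerSeries.coeff 1 G) := by
  obtain ⟨v, rfl⟩ := hu
  refine ⟨PowerSeries.C ((v⁻¹ : Aˣ) : A) * PowerSeries.X, ?_, ?_⟩
  · have h := Fg.scale ((v⁻¹ : Aˣ) : A) ((v : A) * a) ((v : A) ^ 3 * b)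
    have e1 : ((v⁻¹ : Aˣ) : A) * ((v : A) * a) = a := by
      rw [← mul_assoc, Units.inv_mul, one_mul]
    have e2 : ((v⁻¹ : Aˣ) : A) ^ 3 * ((v : A) ^ 3 * b) = b := by
      rw [← mul_assoc, ← mul_pow, Units.inv_mul, one_pow, one_mul]
    rwa [e1, e2] at h
  · have : PowerSeries.coeff 1 (PowerSeries.C ((v⁻¹ : Aˣ) : A) * PowerSeries.X) =
        ((v⁻¹ : Aˣ) : A) := by
      rw [PowerSeries.coeff_C_mul, PowerSeries.coeff_one_X, mul_one]
    rw [this]
    exact Units.isUnit _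

/-- the statement of E-FG -/
def FG : Prop :=
  ∀ e : EL.LL Coef.OO →+* PowerSeries Coef.kappa,
    EL.IsPt Coef.res (EL.mkL Coef.OO AA AA_mem) (EL.mkL Coef.OO BB BB_mem) e →
    ∀ (δ : GL(2, ℝ)⁺) (hδ : δ ∈ G2), ∃ H,
      IsFGHom (Fg.Phi (e (EL.slL Coef.OO δ hδ (EL.mkL Coef.OO AA AA_mem)))
          (e (EL.slL Coef.OO δ hδ (EL.mkL Coef.OO BB BB_mem))))
        (Fg.Phi PowerSeries.X 1) H ∧ IsUnit (PowerSeries.coeff 1 H)

/-- the statement of existence of points -/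
def PT : Prop :=
  ∃ e : EL.LL Coef.OO →+* PowerSeries Coef.kappa,
    EL.IsPt Coef.res (EL.mkL Coef.OO AA AA_mem) (EL.mkL Coef.OO BB BB_mem) e

/-- **The input of section E.** -/
noncomputable def eIn (hfg : FG) (hpt : PT) : EL.EIn Coef.OO Coef.res where
  ρ_surj := OOI.rho_surj
  ρ_ker := OOI.rho_ker
  A1 := AA
  A3 := BB
  A1_mem := AA_mem
  A3_mem := BB_mem
  hasse_inf := EH.hasse_inf oddRing nz_v0
  hasse := fun _ hδ => EH.hasse_diff oddRing nz_v0 hδ
  unit := EUnit.unit_field oddRing nz_v0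
  lev1 := Lev1.lev1_EIn oddRing nz_v0
  qprin := fun _ _ hF h => Dsec.D_OO_half hF h
  D := Fg.fdata Coef.kappa
  Phi := Fg.Phi
  Phi_map := Fg.Phi_map
  Phi_D := rfl
  Phi_sc := fun u a b hu => phi_sc u a b hu
  fg := hfg
  exists_pt := hpt

end Crest.Agent.R007.Main
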