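import Crest.Agent.R007.EPt4
import Crest.Agent.R007.Main2

/-!
Row 7 (S0007), section E: `Main.PT` (existence of the points for `Coef.OO`, `v₀ = ![1, 0]`).
-/

set_option autoImplicit false

namespace Crest.Agent.R007.EPt

open Crest.Agent.R007.Lat Crest.Agent.R007.EL Crest.Agent.R007.Tc

/-- **existence of points** -/
theorem pt : Main.PT := by
  obtain ⟨e, he⟩ := exists_pt (O := Coef.OO) (κ := Coef.kappa) Main.oddRing Main.nz_v0
    (by decide) Coef.res OOI.rho_surj
  exact ⟨e, he⟩

end Crest.Agent.R007.EPt
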