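import Mathlib

/-!
# Row 7, PART H (abstract theorem): FROZEN definitions and node statements (helper775, note 13096).

Everything is on the discrete side: `P` is a vector space over a finite field `F` of characteristic 2
(`F = ZMod 2` in the application), `ρ : U →* Module.End F P` a smooth admissible action of a filtered
group `U = Γ 0 ≥ Γ 1 ≥ ...`, `τ : T →+* Module.End F P` a commuting action of a commutative ring `T`,
`φ i : Module.Dual F P →+ T` finitely many `T`-linear maps whose images generate `T`.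
Result (`HTop.lean`): `T` is Noetherian and `ringKrullDim T ≤ min d 2`.
-/

set_option autoImplicit false

open Module

namespace Crest.Agent.R007.H

/-- filtered group: (h1), (h2), (h3) of note 13096. `U` need not be complete. -/
structure FiltGroup {U : Type*} [Group U] (Γ : ℕ → Subgroup U) (d : ℕ) (u : Fin d → U) : Prop where
  zero : Γ 0 = ⊤
  anti : Antitone Γ
  normal : ∀ k, (Γ k).Normal
  finiteIndex : ∀ k, (Γ k).FiniteIndex
  sq_mem : ∀ k, ∀ g ∈ Γ k, g ^ 2 ∈ Γ (k + 1)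
  sqrt : ∀ k n, ∀ g ∈ Γ (k + 1), ∃ h ∈ Γ k, g⁻¹ * h ^ 2 ∈ Γ n
  gen : ∀ n, ∀ g : U, ∃ w ∈ Subgroup.closure (Set.range u), g⁻¹ * w ∈ Γ n
  comm : ∀ i j, ∀ a ∈ Γ i, ∀ b ∈ Γ j, a * b * a⁻¹ * b⁻¹ ∈ Γ (i + j + 2)

/-- (h4): the closure of the commutator subgroup of every `Γ k` contains some `Γ n`. -/
def H4 {U : Type*} [Group U] (Γ : ℕ → Subgroup U) : Prop :=
  ∀ k, ∃ n, ∀ N, ∀ g ∈ Γ n,
    ∃ w ∈ Subgroup.closure {c : U | ∃ a ∈ Γ k, ∃ b ∈ Γ k, a * b * a⁻¹ * b⁻¹ = c}, g⁻¹ * w ∈ Γ N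

section Rep

variable {F P U : Type*} [Field F] [AddCommGroup P] [Module F P] [Group U]

/-- `{v | ρ g v - v ∈ N for all g}` (for a `U`-stable subspace `N` this is the preimage of the
invariants of `P/N`). -/
def step (ρ : U →* Module.End F P) (N : Submodule F P) : Submodule F P where
  carrier := {v | ∀ g, ρ g v - v ∈ N}
  add_mem' := by
    intro a b ha hb g
    have : ρ g (a + b) - (a + b) = (ρ g a - a) + (ρ g b - b) := by rw [map_add]; abel
    rw [this]
    exact N.add_mem (ha g) (hb g)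
  zero_mem' := by intro g; simp
  smul_mem' := by
    intro c a ha g
    have : ρ g (c • a) - c • a = c • (ρ g a - a) := by rw [map_smul, smul_sub]
    rw [this]
    exact N.smul_mem c (ha g)

/-- `Π_n`: the vectors killed by the `n`-th power of the augmentation ideal. -/
def fil (ρ : U →* Module.End F P) : ℕ → Submodule F P
  | 0 => ⊥
  | n + 1 => step ρ (fil ρ n)

/-- `U`-stable subspaces -/
def St (ρ : U →* Module.End F P) (N : Submodule F P) : Prop := ∀ g, ∀ v ∈ N, ρ g v ∈ N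

/-- growth `O(n^e)` -/
def Gr (ρ : U →* Module.End F P) (N : Submodule F P) (e : ℕ) : Prop :=
  ∃ C : ℕ, ∀ n, finrank F ↥(N ⊓ fil ρ n) ≤ C * (n + 1) ^ e

/-- smooth and admissible -/
structure Smooth (Γ : ℕ → Subgroup U) (ρ : U →* Module.End F P) : Prop where
  smooth : ∀ v, ∃ N, ∀ g ∈ Γ N, ρ g v = v
  adm : FiniteDimensional F ↥(fil ρ 1)

/-! ### Node statements. In all of them: `[Field F] [Finite F] [CharP F 2]`,
`(hΓ : FiltGroup Γ d u) (hρ : Smooth Γ ρ)`. -/

/-- NODE 1a (997) -/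
def Exh (ρ : U →* Module.End F P) : Prop := ∀ v, ∃ n, v ∈ fil ρ n

/-- NODE 1b (997) -/
def FinDim (ρ : U →* Module.End F P) : Prop := ∀ n, FiniteDimensional F ↥(fil ρ n)

/-- NODE 1c (997): invariants of open subgroups are small -/
def OpenInv (Γ : ℕ → Subgroup U) (ρ : U →* Module.End F P) : Prop :=
  ∀ n, ∃ m, ∀ v, (∀ g ∈ Γ n, ρ g v = v) → v ∈ fil ρ m

/-- NODE 1d (997): `DimBd ρ d := Gr ρ ⊤ d` -/
def DimBd (ρ : U →* Module.End F P) (d : ℕ) : Prop := Gr ρ ⊤ d

/-- NODE 2a (997): descending chain condition for `U`-stable subspaces, in the form of minimal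
elements -/
def Dcc (ρ : U →* Module.End F P) : Prop :=
  ∀ S : Set (Submodule F P), S.Nonempty → (∀ N ∈ S, St ρ N) →
    ∃ N ∈ S, ∀ N' ∈ S, N' ≤ N → N' = N

/-- NODE 2b (997): dual Artin-Rees + growth drop -/
def Drop (ρ : U →* Module.End F P) : Prop :=
  ∀ x : Module.End F P, (∀ g, Commute x (ρ g)) → ∀ N : Submodule F P, St ρ N → N.map x = N →
    (Gr ρ N 0 → N ⊓ LinearMap.ker x = ⊥) ∧
      ∀ e, Gr ρ N (e + 1) → Gr ρ (N ⊓ LinearMap.ker x) e

/-- NODE 5 (425): the finite image lemma (uses `H4 Γ`) -/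
def FinImage (Γ : ℕ → Subgroup U) (ρ : U →* Module.End F P) : Prop :=
  ∀ x : Module.End F P, (∀ g, Commute x (ρ g)) → ∀ Z : Submodule F P, St ρ Z → Z.map x = Z →
    (∀ v ∈ Z, ∃ n : ℕ, (x ^ n) v = 0) → FiniteDimensional F ↥(Z ⊓ LinearMap.ker x) →
    ∃ n, ∀ g ∈ Γ n, ∀ v ∈ Z, ρ g v = v

end Rep

section Ring

variable {F P U T : Type*} [Field F] [AddCommGroup P] [Module F P] [Group U] [CommRing T]

/-- the `T`-action commutes with `U` and finitely many `T`-linear maps `Hom(P,F) → T` have images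
generating `T` (this is `W₀ → P^r` injective, `T = Hom(W₀,F)`). -/
structure GenData (ρ : U →* Module.End F P) (τ : T →+* Module.End F P) {ι : Type*} [Fintype ι]
    (φ : ι → (Module.Dual F P →+ T)) : Prop where
  comm : ∀ t g, Commute (τ t) (ρ g)
  smul : ∀ i t (m : Module.Dual F P), φ i (m ∘ₗ τ t) = t * φ i m
  one : ∃ m : ι → Module.Dual F P, ∑ i, φ i (m i) = 1

/-- `NODE 3+4` (853), from NODES 1, 2, 5: `T` Noetherian, `ringKrullDim T ≤ d`, and
`ringKrullDim T ≤ 2` if `d = 3` and the finite image lemma holds. -/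
def Concl (T : Type*) [CommRing T] (d : ℕ) : Prop :=
  IsNoetherianRing T ∧ ringKrullDim T ≤ d

end Ring

end Crest.Agent.R007.H
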