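import Crest.Agent.R007.Filt3
import Crest.Agent.R007.HDefs

/-! Row 7, part H, hypotheses (h1)-(h4): (h4), finite index, and the final export
`Crest.Agent.R007.Filt.main` in the form of `HDefs.FiltGroup`, `HDefs.H4`. -/

set_option autoImplicit false

open scoped commutatorElement

namespace Crest.Agent.R007.Filt

variable {G O : Type*} [Group G] [Ring O] {ι : G →* O}

/-- `1 + 2^M z` is approximated modulo `2^(M+e+1)` by elements of the commutator subgroup -/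
def CApprox (ι : G →* O) (H : Subgroup G) (e M : ℕ) (z : O) : Prop :=
  ∃ h ∈ ⁅H, H⁆, ∃ w : O, ι h = 1 + ((2 : ℤ) ^ M) • z + ((2 : ℤ) ^ (M + e + 1)) • w

theorem CApprox.add {H : Subgroup G} {e M : ℕ} (hM : e + 1 ≤ M) {z z' : O}
    (h1 : CApprox ι H e M z) (h2 : CApprox ι H e M z') : CApprox ι H e M (z + z') := by
  obtain ⟨h, hh, w, hw⟩ := h1
  obtain ⟨h', hh', w', hw'⟩ := h2
  obtain ⟨l, rfl⟩ := Nat.exists_eq_add_of_le hM
  refine ⟨h * h', Subgroup.mul_mem _ hh hh', w + w' + ((2 : ℤ) ^ l) •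
    ((z + ((2 : ℤ) ^ (e + 1)) • w) * (z' + ((2 : ℤ) ^ (e + 1)) • w')), ?_⟩
  rw [map_mul, hw, hw']
  simp only [add_mul, mul_add, smul_mul_assoc, mul_smul_comm, mul_one, one_mul, pow_succ,
    pow_add]
  module

theorem CApprox.zero {H : Subgroup G} {e M : ℕ} : CApprox ι H e M 0 :=
  ⟨1, Subgroup.one_mem _, 0, by simp⟩

theorem capprox_comm {k0 : ℕ} (hs : Stab ι k0)
    (hfull : ∀ v : O ⧸ N0 O, v ∈ Lsub ι ⊤ k0 (by have := hs.1; omega))
    {a0 a b e : ℕ} (ha0 : a0 ≤ a) (hb0 : a0 ≤ b) (hak : k0 ≤ a) (hbk : k0 ≤ b)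
    (hae : e + 1 ≤ a) (hbe : e + 1 ≤ b) (x y : O) :
    CApprox ι (F ι a0) e (a + b) (x * y - y * x) := by
  obtain ⟨g, c, hc, w1, hg⟩ := approx hs hfull a hak x (e + 1)
  obtain ⟨h, c', hc', w2, hh⟩ := approx hs hfull b hbk y (e + 1)
  have hga : g ∈ F ι a := by
    rw [mem_F']
    exact ⟨c, hc, c • x + ((2 : ℤ) ^ (e + 1)) • w1, by rw [hg, pow_add]; module⟩
  have hhb : h ∈ F ι b := by
    rw [mem_F']
    exact ⟨c', hc', c' • y + ((2 : ℤ) ^ (e + 1)) • w2, by rw [hh, pow_add]; module⟩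
  obtain ⟨a', rfl⟩ := Nat.exists_eq_add_of_le hae
  obtain ⟨b', rfl⟩ := Nat.exists_eq_add_of_le hbe
  set t : O := ι g⁻¹ * ι h⁻¹ with ht
  have h1 : ι h * ι g * t = 1 := by
    rw [ht, ← map_mul, ← map_mul, ← map_mul]
    have : h * g * (g⁻¹ * h⁻¹) = 1 := by group
    rw [this, map_one]
  -- `cc' t = 1 - 2^(e+1) s t`
  obtain ⟨s, hsdef⟩ : ∃ s : O, ι h * ι g = (c * c') • (1 : O) + ((2 : ℤ) ^ (e + 1)) • s := by
    refine ⟨(c' * c * 2 ^ a') • x + ((2 : ℤ) ^ (a' + (e + 1)) * c') • w1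
      + (c * c' * 2 ^ b') • y + ((2 : ℤ) ^ (b' + (e + 1)) * c) • w2
      + ((2 : ℤ) ^ (a' + b' + (e + 1))) • ((c' • y + ((2 : ℤ) ^ (e + 1)) • w2) *
        (c • x + ((2 : ℤ) ^ (e + 1)) • w1)), ?_⟩
    rw [hg, hh]
    simp only [add_mul, mul_add, smul_mul_assoc, mul_smul_comm, mul_one, one_mul, pow_succ,
      pow_add]
    module
  have h2 : (c * c') • t = 1 - ((2 : ℤ) ^ (e + 1)) • (s * t) := by
    rw [← h1, hsdef, add_mul, smul_mul_assoc, one_mul, smul_mul_assoc]; abel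
  -- the commutator
  set X : O := c • x + ((2 : ℤ) ^ (e + 1)) • w1 with hX
  set Y : O := c' • y + ((2 : ℤ) ^ (e + 1)) • w2 with hY
  have h3 : ι g * ι h - ι h * ι g =
      ((2 : ℤ) ^ (e + 1 + a' + (e + 1 + b'))) • (X * Y - Y * X) := by
    have e1 : ι g = c • (1 : O) + ((2 : ℤ) ^ (e + 1 + a')) • X := by
      rw [hg, hX, pow_add _ (e + 1 + a')]; module
    have e2 : ι h = c' • (1 : O) + ((2 : ℤ) ^ (e + 1 + b')) • Y := by
      rw [hh, hY, pow_add _ (e + 1 + b')]; module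
    rw [e1, e2, pow_add _ (e + 1 + a')]
    simp only [add_mul, mul_add, smul_mul_assoc, mul_smul_comm, mul_one, one_mul]
    module
  set R : O := c • (x * w2 - w2 * x) + c' • (w1 * y - y * w1)
      + ((2 : ℤ) ^ (e + 1)) • (w1 * w2 - w2 * w1) with hR
  have h4 : X * Y - Y * X = (c * c') • (x * y - y * x) + ((2 : ℤ) ^ (e + 1)) • R := by
    rw [hX, hY, hR]
    simp only [add_mul, mul_add, smul_mul_assoc, mul_smul_comm, mul_one, one_mul]
    module
  refine ⟨⁅g, h⁆, Subgroup.commutator_mem_commutator (F_antitone ι ha0 hga)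
    (F_antitone ι hb0 hhb), R * t - (x * y - y * x) * (s * t), ?_⟩
  rw [comm_eq, h3, h4, smul_mul_assoc, add_mul, smul_mul_assoc, ← mul_smul_comm, h2]
  simp only [smul_mul_assoc, mul_smul_comm, mul_sub, mul_one, sub_mul, pow_add, pow_succ]
  module

/-- (h4) in ambient form, one step -/
theorem h4_step {k0 : ℕ} (hs : Stab ι k0)
    (hfull : ∀ v : O ⧸ N0 O, v ∈ Lsub ι ⊤ k0 (by have := hs.1; omega)) {e : ℕ}
    (hQ : ∀ z : O, ∃ c : ℤ, ∃ l : List (O × O), ∃ w : O,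
      2 ^ e * z = c + (l.map fun p => p.1 * p.2 - p.2 * p.1).sum + 2 ^ (e + 1) * w)
    {a0 A : ℕ} (h1 : a0 ≤ A) (h2 : k0 ≤ A) (h3 : e + 1 ≤ A) {n : ℕ} (hn : 2 * A + e ≤ n)
    {g : G} (hg : g ∈ F ι n) : ∃ w ∈ ⁅F ι a0, F ι a0⁆, w⁻¹ * g ∈ F ι (n + 1) := by
  obtain ⟨z, hz⟩ := Filt.exists_lead hg
  obtain ⟨c, l, w, hl⟩ := hQ z
  obtain ⟨b, rfl⟩ : ∃ b, n = A + b + e := ⟨n - A - e, by omega⟩
  have hb : A ≤ b := by omega
  have hsum : CApprox ι (F ι a0) e (A + b) (l.map fun p => p.1 * p.2 - p.2 * p.1).sum := by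
    clear hl
    induction l with
    | nil => simpa using CApprox.zero
    | cons p l ih =>
      rw [List.map_cons, List.sum_cons]
      exact CApprox.add (by omega) (capprox_comm hs hfull h1 (by omega) h2 (by omega) h3
        (by omega) p.1 p.2) ih
  obtain ⟨h, hh, w', hw'⟩ := hsum
  have hl' : (l.map fun p => p.1 * p.2 - p.2 * p.1).sum =
      ((2 : ℤ) ^ e) • z - c • (1 : O) - ((2 : ℤ) ^ (e + 1)) • w := by
    rw [two_pow_mul, two_pow_mul, intCast_eq] at hl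
    rw [hl]; abel
  have hlead : Lead ι (A + b + e) h z := by
    refine ⟨1 - 2 ^ (A + b) * c, ?_, w' - w, ?_⟩
    · refine Odd.sub_even odd_one ?_
      obtain ⟨A', rfl⟩ : ∃ A', A = A' + 1 := ⟨A - 1, by omega⟩
      exact ⟨2 ^ (A' + b) * c, by ring⟩
    · rw [hw', hl']
      simp only [pow_succ, pow_add]
      module
  exact ⟨h, hh, div_mem_succ (by omega) hz hlead rfl⟩

theorem h4_amb {k0 : ℕ} (hs : Stab ι k0)
    (hfull : ∀ v : O ⧸ N0 O, v ∈ Lsub ι ⊤ k0 (by have := hs.1; omega)) {e : ℕ}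
    (hQ : ∀ z : O, ∃ c : ℤ, ∃ l : List (O × O), ∃ w : O,
      2 ^ e * z = c + (l.map fun p => p.1 * p.2 - p.2 * p.1).sum + 2 ^ (e + 1) * w)
    (a0 : ℕ) : ∃ n, ∀ N, ∀ g ∈ F ι n, ∃ w ∈ ⁅F ι a0, F ι a0⁆, g⁻¹ * w ∈ F ι N := by
  set A := max a0 (max k0 (e + 1)) with hA
  refine ⟨2 * A + e, ?_⟩
  have h1 : a0 ≤ A := le_max_left _ _
  have h2 : k0 ≤ A := (le_max_left _ _).trans (le_max_right _ _)
  have h3 : e + 1 ≤ A := (le_max_right _ _).trans (le_max_right _ _)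
  have key : ∀ j, ∀ g ∈ F ι (2 * A + e), ∃ w ∈ ⁅F ι a0, F ι a0⁆,
      w⁻¹ * g ∈ F ι (2 * A + e + j) := by
    intro j
    induction j with
    | zero => intro g hg; exact ⟨1, Subgroup.one_mem _, by simpa using hg⟩
    | succ j ih =>
      intro g hg
      obtain ⟨w, hw, hr⟩ := ih g hg
      obtain ⟨w', hw', hr'⟩ := h4_step hs hfull hQ h1 h2 h3 (by omega) hr
      refine ⟨w * w', Subgroup.mul_mem _ hw hw', ?_⟩
      rw [show (w * w')⁻¹ * g = w'⁻¹ * (w⁻¹ * g) by group]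
      exact hr'
  intro N g hg
  obtain ⟨w, hw, hr⟩ := key N g hg
  refine ⟨w, hw, ?_⟩
  have := Subgroup.inv_mem _ hr
  rw [show g⁻¹ * w = (w⁻¹ * g)⁻¹ by group]
  exact F_antitone ι (by omega) this

/-- finite sets of representatives modulo `2^n` -/
theorem exists_reps (hfin : ∃ s : Finset O, s.card ≤ 16 ∧ ∀ x : O, ∃ y ∈ s, ∃ z : O, x = y + 2 * z)
    (n : ℕ) : ∃ s : Set O, s.Finite ∧ ∀ x : O, ∃ y ∈ s, ∃ z : O, x = y + 2 ^ n * z := by
  obtain ⟨s, -, h⟩ := hfin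
  induction n with
  | zero => exact ⟨{0}, Set.finite_singleton _, fun x => ⟨0, rfl, x, by simp⟩⟩
  | succ n ih =>
    obtain ⟨s', hs', h'⟩ := ih
    refine ⟨(fun p : O × O => p.1 + 2 ^ n * p.2) '' (s' ×ˢ (s : Set O)),
      (hs'.prod s.finite_toSet).image _, ?_⟩
    intro x
    obtain ⟨y, hy, z, hz⟩ := h' x
    obtain ⟨y', hy', z', hz'⟩ := h z
    refine ⟨y + 2 ^ n * y', ⟨(y, y'), ⟨hy, hy'⟩, rfl⟩, z', ?_⟩
    rw [hz, hz', pow_succ]; noncomm_ring

theorem finiteIndex (ι : G →* O)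
    (hfin : ∃ s : Finset O, s.card ≤ 16 ∧ ∀ x : O, ∃ y ∈ s, ∃ z : O, x = y + 2 * z)
    (n : ℕ) : (F ι n).FiniteIndex := by
  obtain ⟨s, hs, h⟩ := exists_reps hfin n
  choose r hr z hz using h
  haveI : Finite s := hs
  -- the map `G/F n → s`
  have hfinq : Finite (G ⧸ F ι n) := by
    have hsurj : ∀ q : G ⧸ F ι n, ∃ g : G, (g : G ⧸ F ι n) = q := fun q =>
      QuotientGroup.mk_surjective q
    choose f hf using hsurj
    refine Finite.of_injective (fun q : G ⧸ F ι n => (⟨r (ι (f q)), hr _⟩ : s)) ?_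
    intro q q' hqq
    have h0 : r (ι (f q)) = r (ι (f q')) := congrArg Subtype.val hqq
    rw [← hf q, ← hf q', QuotientGroup.eq, mem_F]
    have e1 : ι (f q') = ι (f q) + 2 ^ n * (z (ι (f q')) - z (ι (f q))) := by
      conv_lhs => rw [hz (ι (f q'))]
      conv_rhs => arg 1; rw [hz (ι (f q))]
      rw [h0]; noncomm_ring
    generalize z (ι (f q')) - z (ι (f q)) = Z at e1
    refine ⟨1, odd_one, ι (f q)⁻¹ * Z, ?_⟩
    rw [map_mul, e1, mul_add, ← map_mul, inv_mul_cancel, map_one, two_pow_mul, two_pow_mul,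
      mul_smul_comm]
    simp
  exact Subgroup.finiteIndex_of_finite_quotient

/-- **Main export**: (h1)-(h4) for every group with a monoid hom into a ring `O` with
`#O/2O ≤ 16`, `1 ∉ 2O`, and commutators of finite index modulo `ℤ`. -/
theorem main (ι : G →* O) (hone : ∀ x : O, (1 : O) ≠ 2 * x)
    (hfin : ∃ s : Finset O, s.card ≤ 16 ∧ ∀ x : O, ∃ y ∈ s, ∃ z : O, x = y + 2 * z)
    (hQ : ∃ e : ℕ, ∀ z : O, ∃ c : ℤ, ∃ l : List (O × O), ∃ w : O,
      2 ^ e * z = c + (l.map fun p => p.1 * p.2 - p.2 * p.1).sum + 2 ^ (e + 1) * w) :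
    ∃ k0 : ℕ, 2 ≤ k0 ∧ ∃ d : ℕ, d ≤ 3 ∧ ∃ u : Fin d → F ι k0,
      H.FiltGroup (fun j => (F ι (k0 + j)).subgroupOf (F ι k0)) d u ∧
      (d = 3 → H.H4 (fun j => (F ι (k0 + j)).subgroupOf (F ι k0))) ∧
      (F ι k0).FiniteIndex := by
  classical
  obtain ⟨k0, hs⟩ : ∃ k0, Stab ι k0 := exists_stab ι hfin
  have hk2 := hs.1
  haveI := finite_V hfin
  haveI : Module.Finite (ZMod 2) (O ⧸ N0 O) := Module.Finite.of_finite
  set L : Submodule (ZMod 2) (O ⧸ N0 O) :=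
    (AddSubgroup.toZModSubmodule 2) (Lsub ι ⊤ k0 (by omega)) with hL
  have hd : Module.finrank (ZMod 2) L ≤ Module.finrank (ZMod 2) (O ⧸ N0 O) := L.finrank_le
  have hV := finrank_V hone hfin
  let b := Module.finBasis (ZMod 2) L
  have hb : ∀ i, ∃ g : G, ∃ y : O, Lead ι k0 g y ∧ ((y : O ⧸ N0 O)) = (b i : O ⧸ N0 O) := by
    intro i
    have : ((b i : L) : O ⧸ N0 O) ∈ L := (b i).2
    obtain ⟨g, -, y, hy, he⟩ := this
    exact ⟨g, y, hy, he⟩
  choose u0 y hy he using hb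
  have hspan : Submodule.span (ZMod 2) (Set.range fun i => ((y i : O) : O ⧸ N0 O)) = L := by
    have h1 : (Set.range fun i => ((y i : O) : O ⧸ N0 O)) = L.subtype '' (Set.range b) := by
      ext v
      simp only [Set.mem_range, Set.mem_image, exists_exists_eq_and]
      constructor
      · rintro ⟨i, rfl⟩; exact ⟨i, (he i).symm⟩
      · rintro ⟨i, rfl⟩; exact ⟨i, he i⟩
    rw [h1, Submodule.span_image, b.span_eq, Submodule.map_top, Submodule.range_subtype]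
  refine ⟨k0, hk2, Module.finrank (ZMod 2) L, by omega, fun i => ⟨u0 i, (hy i).mem⟩, ?_, ?_,
    finiteIndex ι hfin k0⟩
  · refine
      { zero := ?_, anti := ?_, normal := ?_, finiteIndex := ?_, sq_mem := ?_, sqrt := ?_,
        gen := ?_, comm := ?_ }
    · simp
    · intro i j hij x hx
      rw [Subgroup.mem_subgroupOf] at *
      exact F_antitone ι (by omega) hx
    · intro k
      haveI := F_normal ι (k0 + k)
      infer_instance
    · intro k
      haveI := finiteIndex ι hfin (k0 + k)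
      infer_instance
    · intro k g hg
      rw [Subgroup.mem_subgroupOf] at *
      have h1 := sq_mem (ι := ι) (n := k0 + k) (by omega) hg
      exact h1
    · intro k n g hg
      rw [Subgroup.mem_subgroupOf] at hg
      obtain ⟨h, hh, hr⟩ := sqrt_amb hs k n hg
      refine ⟨⟨h, F_antitone ι (by omega) hh⟩, ?_, ?_⟩
      · rw [Subgroup.mem_subgroupOf]; exact hh
      · rw [Subgroup.mem_subgroupOf]; exact hr
    · intro n g
      obtain ⟨w, hw, hr⟩ := gen_amb hs hy hspan n g.2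
      have hcl : Subgroup.closure (Set.range u0) =
          (Subgroup.closure (Set.range fun i => (⟨u0 i, (hy i).mem⟩ : F ι k0))).map
            (F ι k0).subtype := by
        rw [MonoidHom.map_closure]
        congr 1
        ext x
        simp only [Set.mem_range, Set.mem_image, exists_exists_eq_and]
        rfl
      rw [hcl] at hw
      obtain ⟨w', hw', rfl⟩ := hw
      refine ⟨w', hw', ?_⟩
      rw [Subgroup.mem_subgroupOf]; exact hr
    · intro i j a ha b hb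
      rw [Subgroup.mem_subgroupOf] at *
      have h1 := comm_le ι (k0 + i) (k0 + j) (Subgroup.commutator_mem_commutator ha hb)
      rw [commutatorElement_def] at h1
      exact F_antitone ι (by omega) h1
  · intro hd3 k
    have htop : L = ⊤ := by
      apply Submodule.eq_top_of_finrank_eq
      omega
    have hfull : ∀ v : O ⧸ N0 O, v ∈ Lsub ι ⊤ k0 (by omega) := by
      intro v
      have : v ∈ L := by rw [htop]; trivial
      exact this
    obtain ⟨e, hQ⟩ := hQ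
    obtain ⟨n, hn⟩ := h4_amb hs hfull hQ (k0 + k)
    refine ⟨n, fun N g hg => ?_⟩
    rw [Subgroup.mem_subgroupOf] at hg
    obtain ⟨w, hw, hr⟩ := hn (k0 + N) g.1 (F_antitone ι (by omega) hg)
    have hcl : ⁅F ι (k0 + k), F ι (k0 + k)⁆ ≤
        (Subgroup.closure {c : F ι k0 | ∃ a ∈ (F ι (k0 + k)).subgroupOf (F ι k0),
          ∃ b ∈ (F ι (k0 + k)).subgroupOf (F ι k0), a * b * a⁻¹ * b⁻¹ = c}).map
            (F ι k0).subtype := by
      rw [Subgroup.commutator_le]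
      intro a ha b hb
      refine ⟨⟨a, F_antitone ι (by omega) ha⟩ * ⟨b, F_antitone ι (by omega) hb⟩ *
        ⟨a, F_antitone ι (by omega) ha⟩⁻¹ * ⟨b, F_antitone ι (by omega) hb⟩⁻¹, ?_, ?_⟩
      · apply Subgroup.subset_closure
        exact ⟨⟨a, F_antitone ι (by omega) ha⟩, ha, ⟨b, F_antitone ι (by omega) hb⟩, hb, rfl⟩
      · rw [commutatorElement_def]; rfl
    obtain ⟨w', hw', rfl⟩ := hcl hw
    refine ⟨w', hw', ?_⟩
    rw [Subgroup.mem_subgroupOf]; exact hr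

end Crest.Agent.R007.Filt
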