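import Crest.Agent.R007.FCen
import Crest.Agent.R007.FGrp
import Crest.Agent.R007.Filt4

/-!
Row 7, section F (helper507): assembly.  From the endomorphism ring of `Φ₀` (`EndData`, exported by
`FEnd`) we get the congruence filtration of `𝒢 = Pr D`, its smooth action on `K / R`, and the
filtered group `U = Gam 0` for part H.
-/

set_option autoImplicit false

open PowerSeries Crest.LubinTate

namespace Crest.Agent.R007.F

variable {κ : Type*} [Field κ] [CharP κ 2]

/-- what is needed from the ring `O` of endomorphisms of `Φ₀` -/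
structure EndData (D : FData κ) (O : Type*) [Ring O] where
  /-- reduction of the pairs -/
  io : Pr D →* O
  hone : ∀ x : O, (1 : O) ≠ 2 * x
  hfin : ∃ s : Finset O, s.card ≤ 16 ∧ ∀ x : O, ∃ y ∈ s, ∃ z : O, x = y + 2 * z
  hQ : ∃ e : ℕ, ∀ z : O, ∃ c : ℤ, ∃ l : List (O × O), ∃ w : O,
      2 ^ e * z = c + (l.map fun p => p.1 * p.2 - p.2 * p.1).sum + 2 ^ (e + 1) * w
  near : ∀ (p : Pr D) (c : ℕ), Odd c → ∀ n, 1 ≤ n → ∀ y : O, io p = (c : O) + 2 ^ n * y →
    ∀ i < 4 ^ n, coeff i p.red = coeff i (mulSeries D.Φ0 c)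

variable {D : FData κ} {O : Type*} [Ring O]

/-- an odd integer may be replaced by an odd natural number modulo `2^n`, `n ≥ 1` -/
theorem exists_nat_odd {n : ℕ} (hn : 1 ≤ n) {x : O} (h : Filt.OddMod n x) :
    ∃ c : ℕ, Odd c ∧ ∃ y : O, x = (c : O) + 2 ^ n * y := by
  obtain ⟨c, hc, y, hy⟩ := h
  set N : ℤ := 2 ^ n * |c| with hN
  have h2 : (1 : ℤ) ≤ 2 ^ n := one_le_pow₀ (by norm_num)
  have hpos : 0 ≤ c + N := by
    have h1 : -c ≤ |c| := neg_le_abs c
    have h3 : |c| ≤ N := by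
      rw [hN]
      exact le_mul_of_one_le_left (abs_nonneg c) h2
    linarith
  obtain ⟨m, hm⟩ := Int.eq_ofNat_of_zero_le hpos
  refine ⟨m, ?_, y - ((|c| : ℤ) : O), ?_⟩
  · have hodd : Odd (c + N) := by
      refine Odd.add_even hc ?_
      obtain ⟨k, rfl⟩ : ∃ k, n = k + 1 := ⟨n - 1, by omega⟩
      exact ⟨2 ^ k * |c|, by rw [hN]; ring⟩
    rw [hm] at hodd
    exact_mod_cast hodd
  · have h3 : ((m : ℤ) : O) = (c : O) + 2 ^ n * ((|c| : ℤ) : O) := by
      have : (m : ℤ) = c + N := hm.symm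
      rw [this, hN]
      push_cast
      ring_nf
    rw [Int.cast_natCast] at h3
    rw [h3, hy, mul_sub]
    abel

/-- smoothness of the filtration: elements of the `n`-th congruence subgroup act trivially modulo
`t^{2n+1}` -/
theorem dvd_of_mem (E : EndData D O) {n : ℕ} (hn : 1 ≤ n) {g : Pr D} (hg : g ∈ Filt.F E.io n)
    (a : PowerSeries κ) : X ^ (2 * n + 1) ∣ g.s a - a := by
  obtain ⟨c, hc, y, hy⟩ := exists_nat_odd hn ((Filt.mem_F E.io).1 hg)
  refine dvd_of_cong D g hc (by omega) (fun i hi => ?_) a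
  refine E.near g c hc n hn y hy i ?_
  rwa [pow_mul] at hi

/-- the action of `𝒢 = Pr D` on `V = K / R`, linear over a subfield `k` of `κ` -/
noncomputable def act (k : Type*) [Field k] [Algebra k κ] (D : FData κ) :
    Pr D →* Module.End k (KR κ) :=
  ((endRestrict k (KR κ)).comp actKR).comp (Pr.sHom D)

@[simp] theorem act_apply (k : Type*) [Field k] [Algebra k κ] (g : Pr D) (v : KR κ) :
    act k D g v = actKR g.s v := rfl

/-- **Output of section F**: congruence subgroups `Gam n` of `𝒢 = Pr D` acting smoothly on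
`V = K/R`, with `U = Gam 0` a filtered group of rank `d ≤ 3`. -/
theorem sectionF (k : Type*) [Field k] [Algebra k κ] (E : EndData D O) :
    ∃ (Gam : ℕ → Subgroup (Pr D)) (d : ℕ) (u : Fin d → Gam 0), d ≤ 3 ∧
      (∀ n, (Gam n).Normal) ∧ (∀ n, (Gam n).FiniteIndex) ∧
      (∀ n, ∀ g ∈ Gam 0, ∃ m : ℕ, g ^ (2 ^ m) ∈ Gam n) ∧ Antitone Gam ∧
      (∀ v : KR κ, ∃ n, ∀ g ∈ Gam n, act k D g v = v) ∧
      H.FiltGroup (fun j => (Gam j).subgroupOf (Gam 0)) d u ∧
      (d = 3 → H.H4 (fun j => (Gam j).subgroupOf (Gam 0))) := by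
  obtain ⟨k0, hk0, d, hd, u, h1, h2, -⟩ := Filt.main E.io E.hone E.hfin E.hQ
  refine ⟨fun n => Filt.F E.io (k0 + n), d, u, hd, fun n => Filt.F_normal _ _,
    fun n => Filt.finiteIndex _ E.hfin _, ?_, ?_, ?_, h1, h2⟩
  · intro n g hg
    refine ⟨n, ?_⟩
    induction n with
    | zero => simpa using hg
    | succ n ih =>
      have := Filt.sq_mem (ι := E.io) (n := k0 + n) (by omega) ih
      rwa [← pow_mul, ← pow_succ] at this
  · intro i j hij
    exact Filt.F_antitone E.io (by omega)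
  · intro v
    obtain ⟨M₀, hM⟩ := actKR_smooth v
    refine ⟨M₀, fun g hg => ?_⟩
    rw [act_apply]
    exact hM (2 * (k0 + M₀) + 1) (by omega) g.s (dvd_of_mem E (by omega) hg)

end Crest.Agent.R007.F
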