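import Mathlib

/-!
# Row 7, section G: fixed points of smooth actions of 2-groups on 2-torsion groups
-/

set_option autoImplicit false
set_option linter.dupNamespace false

namespace Crest.Agent.R007.G

theorem exists_fixed {GG A : Type*} [Group GG] [AddCommGroup A] (h2 : ∀ x : A, 2 • x = 0)
    (act : GG →* AddMonoid.End A) (Q : AddSubgroup A) (hQ : ∀ g, ∀ x ∈ Q, act g x ∈ Q)
    (U N : Subgroup GG) (hNn : N.Normal) (hNf : N.FiniteIndex)
    (hp : ∀ g ∈ U, ∃ k : ℕ, g ^ (2 ^ k) ∈ N) (v : A) (hv : v ∈ Q) (hv0 : v ≠ 0)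
    (hN : ∀ g ∈ N, act g v = v) : ∃ x ∈ Q, x ≠ 0 ∧ ∀ g ∈ U, act g x = x := by
  letI : Module (ZMod 2) A := AddCommGroup.zmodModule h2
  let O : Set A := Set.range fun g => act g v
  have hOfin : O.Finite := by
    have : Finite (GG ⧸ N) := inferInstance
    refine (Set.finite_range fun q : GG ⧸ N => act q.out v).subset ?_
    rintro _ ⟨g, rfl⟩
    obtain ⟨u, hu⟩ := QuotientGroup.mk_out_eq_mul N g
    refine ⟨(g : GG ⧸ N), ?_⟩
    simp only
    rw [hu, map_mul]
    change act g (act u v) = act g v
    rw [hN u u.2]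
  let S : Submodule (ZMod 2) A := Submodule.span (ZMod 2) O
  haveI : Module.Finite (ZMod 2) S := FiniteDimensional.span_of_finite (ZMod 2) hOfin
  haveI : Finite S := Module.finite_of_finite (ZMod 2)
  have hvS : v ∈ S := Submodule.subset_span ⟨1, by simp⟩
  have hstab : ∀ g, ∀ x ∈ S, act g x ∈ S := by
    intro g x hx
    induction hx using Submodule.span_induction with
    | mem x hx =>
      obtain ⟨g', rfl⟩ := hx
      refine Submodule.subset_span ⟨g * g', ?_⟩
      simp
    | zero => simp
    | add x y _ _ hx hy => rw [map_add]; exact S.add_mem hx hy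
    | smul c x _ hx =>
      rw [ZMod.map_smul]
      exact S.smul_mem c hx
  have hSQ : ∀ x ∈ S, x ∈ Q := by
    intro x hx
    induction hx using Submodule.span_induction with
    | mem x hx =>
      obtain ⟨g', rfl⟩ := hx
      exact hQ g' v hv
    | zero => exact Q.zero_mem
    | add x y _ _ hx hy => exact Q.add_mem hx hy
    | smul c x _ hx =>
      have h3 : c • x = (ZMod.cast c : ℤ) • x := by
        rw [← Int.cast_smul_eq_zsmul (ZMod 2)]
        simp
      rw [h3]
      exact Q.zsmul_mem hx _
  have hNS : ∀ g ∈ N, ∀ x ∈ S, act g x = x := by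
    intro g hg x hx
    induction hx using Submodule.span_induction with
    | mem x hx =>
      obtain ⟨g', rfl⟩ := hx
      have h4 : g'⁻¹ * g * g' ∈ N := by
        have := hNn.conj_mem g hg g'⁻¹
        simpa using this
      have h5 : g * g' = g' * (g'⁻¹ * g * g') := by group
      have h6 : act g (act g' v) = act (g * g') v := by rw [map_mul]; rfl
      have h7 : act (g' * (g'⁻¹ * g * g')) v = act g' (act (g'⁻¹ * g * g') v) := by
        rw [map_mul]; rfl
      rw [h6, h5, h7, hN _ h4]
    | zero => simp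
    | add x y _ _ hx hy => rw [map_add, hx, hy]
    | smul c x _ hx => rw [ZMod.map_smul, hx]
  letI : MulAction U S :=
    { smul := fun u s => ⟨act (u : GG) (s : A), hstab u s s.2⟩
      one_smul := fun s => by
        apply Subtype.ext
        change act ((1 : U) : GG) (s : A) = s
        simp
      mul_smul := fun u u' s => by
        apply Subtype.ext
        change act ((u * u' : U) : GG) (s : A) = act (u : GG) (act (u' : GG) (s : A))
        simp }
  have hsm : ∀ (u : U) (s : S), ((u • s : S) : A) = act (u : GG) (s : A) := fun _ _ => rfl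
  let G := (MulAction.toPermHom U S).range
  have hG : IsPGroup 2 G := by
    rintro ⟨_, u, rfl⟩
    obtain ⟨k, hk⟩ := hp u u.2
    refine ⟨k, ?_⟩
    apply Subtype.ext
    change (MulAction.toPermHom U S u) ^ (2 ^ k) = 1
    rw [← map_pow]
    ext s
    rw [MulAction.toPermHom_apply, MulAction.toPerm_apply, hsm]
    have : act ((u ^ 2 ^ k : U) : GG) (s : A) = s := hNS _ (by simpa using hk) s s.2
    rw [this]
    rfl
  have hcard : 2 ∣ Nat.card S := by
    rw [Module.natCard_eq_pow_finrank (K := ZMod 2)]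
    haveI : Nontrivial S := ⟨⟨⟨v, hvS⟩, 0, fun h => hv0 (congrArg Subtype.val h)⟩⟩
    have hpos : 0 < Module.finrank (ZMod 2) S := Module.finrank_pos
    rw [Nat.card_zmod]
    exact dvd_pow_self 2 hpos.ne'
  have h0 : (0 : S) ∈ MulAction.fixedPoints G S := by
    rintro ⟨_, u, rfl⟩
    apply Subtype.ext
    change act (u : GG) ((0 : S) : A) = 0
    simp
  obtain ⟨b, hb, hb0⟩ := hG.exists_fixed_point_of_prime_dvd_card_of_fixed_point S hcard h0
  refine ⟨b, hSQ b b.2, fun h => hb0 (Subtype.ext h.symm), fun g hg => ?_⟩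
  have := hb ⟨MulAction.toPermHom U S ⟨g, hg⟩, ⟨⟨g, hg⟩, rfl⟩⟩
  exact congrArg Subtype.val this

end Crest.Agent.R007.G
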