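import Crest.Agent.R007.GBim
import Crest.Agent.R007.GFix
import Crest.Agent.R007.HDefs

/-!
# Row 7, section G: final statement

`GData.exists_genData`: the bimodule `Pi` satisfies the input conditions of part H.
-/

set_option autoImplicit false
set_option linter.dupNamespace false

open scoped TensorProduct

namespace Crest.Agent.R007.G

namespace GData

variable {F T0 W V GG P I : Type*} [Field F] [CommRing T0] [Algebra F T0]
    [AddCommGroup W] [Module F W] [Module T0 W] [IsScalarTower F T0 W]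
    [AddCommGroup V] [Module F V] [Group GG]
    (D : GData F T0 W V GG P I)

/-- annihilator of the invariants -/
def J : Ideal T0 := Module.annihilator T0 D.Inv

theorem smul_Inv {t : T0} (ht : t ∈ D.J) {v : D.Pi} (hv : v ∈ D.Inv) : t • v = 0 := by
  have := Module.mem_annihilator.1 ht ⟨v, hv⟩
  exact congrArg Subtype.val this

theorem J_finite [Finite P] : Module.Finite F (T0 ⧸ D.J) := by
  have h1 := D.Inv_finite
  let L : (T0 ⧸ D.J) →ₐ[F] Module.End F D.Inv :=
    Ideal.Quotient.liftₐ D.J (Algebra.lsmul F F D.Inv) (by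
      intro t ht
      ext v
      have := Module.mem_annihilator.1 ht v
      exact congrArg Subtype.val this)
  refine Module.Finite.of_injective L.toLinearMap ?_
  rw [injective_iff_map_eq_zero]
  intro x hx
  obtain ⟨t, rfl⟩ := Ideal.Quotient.mk_surjective x
  rw [Ideal.Quotient.eq_zero_iff_mem]
  refine Module.mem_annihilator.2 fun v => ?_
  exact congrArg (fun f : Module.End F D.Inv => f v) hx

/-- the vectors killed by `J` -/
def WJ : Submodule F W where
  carrier := {w | ∀ t ∈ D.J, t • w = 0}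
  add_mem' := by
    intro x y hx hy t ht
    rw [smul_add, hx t ht, hy t ht, add_zero]
  zero_mem' := by intro t _; simp
  smul_mem' := by
    intro c x hx t ht
    rw [smul_comm, hx t ht, smul_zero]

theorem sep {w : W} (h : ∀ t : T0, D.a (t • w) = 0) : w = 0 := by
  rw [← Module.forall_dual_apply_eq_zero_iff F w]
  intro f
  obtain ⟨t, ht⟩ := D.dual_surj f
  rw [ht, h]

theorem WJ_finite [Finite P] : Module.Finite F D.WJ := by
  have h1 := D.J_finite
  obtain ⟨n, s, hs⟩ := Module.Finite.exists_fin (R := F) (M := T0 ⧸ D.J)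
  choose t ht using fun i => Ideal.Quotient.mk_surjective (s i)
  let r : D.WJ →ₗ[F] (Fin n → F) :=
    { toFun := fun w i => D.a (t i • (w : W))
      map_add' := by
        intro x y
        ext i
        simp
      map_smul' := by
        intro c x
        ext i
        simp only [SetLike.val_smul, RingHom.id_apply, Pi.smul_apply]
        rw [smul_comm, map_smul] }
  refine Module.Finite.of_injective r ?_
  rw [injective_iff_map_eq_zero]
  intro w hw
  apply Subtype.ext
  apply D.sep
  intro x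
  have hx : (Ideal.Quotient.mk D.J x) ∈ Submodule.span F (Set.range s) := by
    rw [hs]; trivial
  obtain ⟨c, hc⟩ := (Submodule.mem_span_range_iff_exists_fun F).1 hx
  have h2 : x - ∑ i, c i • t i ∈ D.J := by
    rw [← Ideal.Quotient.eq, ← hc, map_sum]
    refine Finset.sum_congr rfl fun i _ => ?_
    rw [← ht i]
    rfl
  have h3 : x • (w : W) = ∑ i, c i • (t i • (w : W)) := by
    have h4 := w.2 _ h2
    rw [sub_smul, sub_eq_zero] at h4
    rw [h4, Finset.sum_smul]
    refine Finset.sum_congr rfl fun i _ => ?_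
    rw [smul_assoc]
  rw [h3, map_sum]
  refine Finset.sum_eq_zero fun i _ => ?_
  rw [map_smul]
  have : D.a (t i • (w : W)) = 0 := congrFun hw i
  rw [this, smul_zero]

/-- `w ↦ φ_{Ξ,w}` -/
def jm (Xi : Module.Dual F V) : W →ₗ[T0] D.Pi where
  toFun w := Submodule.Quotient.mk (w ⊗ₜ[F] Xi)
  map_add' x y := by rw [TensorProduct.add_tmul]; rfl
  map_smul' t x := by rw [← TensorProduct.smul_tmul']; rfl

theorem PhiBar_jm (Xi : Module.Dual F V) (w : W) (g : GG) (e : P) :
    D.PhiBar (D.jm Xi w) g e = Xi (D.act g (D.E e w)) := by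
  change D.PhiBar (Submodule.Quotient.mk (w ⊗ₜ[F] Xi)) g e = _
  rw [PhiBar_mk, Phi_tmul]

theorem jm_sep {w : W} (h : ∀ Xi, D.jm Xi w = 0) : w = 0 := by
  apply D.E_inj
  intro e
  rw [← Module.forall_dual_apply_eq_zero_iff F (D.E e w)]
  intro Xi
  have h1 := D.PhiBar_jm Xi w 1 e
  rw [h Xi] at h1
  simpa using h1.symm

theorem exists_inv [CharP F 2] [Finite P] (w : W) (Xi : Module.Dual F V) (h : D.jm Xi w ≠ 0) :
    ∃ v ∈ D.Inv, v ≠ 0 ∧ ∀ t : T0, t • w = 0 → t • v = 0 := by
  let Q : AddSubgroup D.Pi :=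
    { carrier := {v | ∀ t : T0, t • w = 0 → t • v = 0}
      add_mem' := by
        intro x y hx hy t ht
        rw [smul_add, hx t ht, hy t ht, add_zero]
      zero_mem' := by intro t _; simp
      neg_mem' := by
        intro x hx t ht
        rw [smul_neg, hx t ht, neg_zero] }
  let ac : GG →* AddMonoid.End D.Pi :=
    { toFun := fun g => (D.rho g).toAddMonoidHom
      map_one' := by rw [map_one]; rfl
      map_mul' := by intro g h; rw [map_mul]; rfl }
  obtain ⟨n, hn⟩ := D.rho_smooth (D.jm Xi w)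
  obtain ⟨x, hxQ, hx0, hx⟩ := exists_fixed (GG := GG) (A := D.Pi) (by
      intro x
      have h2 : (2 : F) = 0 := CharP.cast_eq_zero F 2
      have : (2 : ℕ) • x = (2 : F) • x := by
        rw [← Nat.cast_smul_eq_nsmul F]; norm_num
      rw [this, h2, zero_smul]) ac Q (by
      intro g x hx t ht
      change t • D.rho g x = 0
      rw [← map_smul, hx t ht, map_zero]) (D.Gam 0) (D.Gam n) (D.normal n) (D.finidx n)
      (D.pgrp n) (D.jm Xi w) (by
      intro t ht
      rw [← map_smul, ht, map_zero]) h hn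
  exact ⟨x, hx, hx0, hxQ⟩

/-- every nonzero `T0`-submodule contains a nonzero vector killed by `J` -/
theorem exists_WJ [CharP F 2] [Finite P] (w0 : W) (hw0 : w0 ≠ 0) :
    ∃ w ∈ Submodule.span T0 {w0}, w ≠ 0 ∧ w ∈ D.WJ := by
  classical
  have hex : ∃ n : ℕ, ∃ w ∈ Submodule.span T0 {w0}, w ≠ 0 ∧
      Module.finrank F (Submodule.span T0 {w}) = n :=
    ⟨_, w0, Submodule.mem_span_singleton_self w0, hw0, rfl⟩
  obtain ⟨w, hw, hwne, hwn⟩ := Nat.find_spec hex
  have hmin : ∀ w' ∈ Submodule.span T0 {w}, w' ≠ 0 → ∃ s : T0, s • w' = w := by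
    intro w' hw' hw'0
    have h1 : Submodule.span T0 {w'} ≤ Submodule.span T0 {w} := by
      rw [Submodule.span_singleton_le_iff_mem]; exact hw'
    have h2 : Submodule.span T0 {w} ≤ Submodule.span T0 {w0} := by
      rw [Submodule.span_singleton_le_iff_mem]; exact hw
    have h3 : Nat.find hex ≤ Module.finrank F (Submodule.span T0 {w'}) :=
      Nat.find_min' hex ⟨w', h2 hw', hw'0, rfl⟩
    rw [← hwn] at h3
    have hf : FiniteDimensional F ↥(Submodule.restrictScalars F (Submodule.span T0 {w})) :=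
      D.locfin w
    have h4 : (Submodule.span T0 {w'}).restrictScalars F = (Submodule.span T0 {w}).restrictScalars F :=
      Submodule.eq_of_le_of_finrank_le (fun x hx => h1 hx) h3
    have h5 : w ∈ (Submodule.span T0 {w'}).restrictScalars F := by
      rw [h4]; exact Submodule.mem_span_singleton_self w
    exact Submodule.mem_span_singleton.1 h5
  refine ⟨w, hw, hwne, fun t ht => ?_⟩
  by_contra htw
  obtain ⟨Xi, hXi⟩ : ∃ Xi, D.jm Xi w ≠ 0 := by
    by_contra hcon
    push Not at hcon
    exact hwne (D.jm_sep hcon)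
  obtain ⟨v, hv, hv0, hvt⟩ := D.exists_inv w Xi hXi
  obtain ⟨s, hs⟩ := hmin (t • w) (Submodule.mem_span_singleton.2 ⟨t, rfl⟩) htw
  have h1 : (1 - s * t) • w = 0 := by
    rw [sub_smul, one_smul, mul_smul, hs, sub_self]
  have h2 := hvt _ h1
  rw [sub_smul, one_smul, mul_smul, D.smul_Inv ht hv, smul_zero, sub_zero] at h2
  exact hv0 h2

/-- vectors killed by `J` and by finitely many `φ_Ξ` -/
def kerJ (s : Finset (Module.Dual F V)) : Submodule F W where
  carrier := {w | w ∈ D.WJ ∧ ∀ Xi ∈ s, D.jm Xi w = 0}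
  add_mem' := by
    rintro x y ⟨hx, hx'⟩ ⟨hy, hy'⟩
    exact ⟨D.WJ.add_mem hx hy, fun Xi h => by rw [map_add, hx' Xi h, hy' Xi h, add_zero]⟩
  zero_mem' := ⟨D.WJ.zero_mem, fun Xi _ => map_zero _⟩
  smul_mem' := by
    rintro c x ⟨hx, hx'⟩
    refine ⟨D.WJ.smul_mem c hx, fun Xi h => ?_⟩
    rw [← algebraMap_smul T0 c x, map_smul, hx' Xi h, smul_zero]

theorem exists_finset [CharP F 2] [Finite P] :
    ∃ s : Finset (Module.Dual F V), ∀ w, (∀ Xi ∈ s, D.jm Xi w = 0) → w = 0 := by
  classical
  have hfin := D.WJ_finite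
  have hle : ∀ s, D.kerJ s ≤ D.WJ := fun s x hx => hx.1
  have hfs : ∀ s, FiniteDimensional F (D.kerJ s) := fun s =>
    Submodule.finiteDimensional_of_le (hle s)
  have hex : ∃ n : ℕ, ∃ s, Module.finrank F (D.kerJ s) = n := ⟨_, ∅, rfl⟩
  obtain ⟨s, hs⟩ := Nat.find_spec hex
  have hbot : ∀ w, w ∈ D.kerJ s → w = 0 := by
    intro w hw
    by_contra hw0
    obtain ⟨Xi, hXi⟩ : ∃ Xi, D.jm Xi w ≠ 0 := by
      by_contra hcon
      push Not at hcon
      exact hw0 (D.jm_sep hcon)
    have hlt : D.kerJ (insert Xi s) < D.kerJ s := by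
      refine lt_of_le_of_ne (fun x hx => ⟨hx.1, fun Y hY => hx.2 Y (Finset.mem_insert_of_mem hY)⟩) ?_
      intro heq
      rw [← heq] at hw
      exact hXi (hw.2 Xi (Finset.mem_insert_self _ _))
    have h1 := Submodule.finrank_lt_finrank_of_lt hlt
    rw [hs] at h1
    exact Nat.find_min hex h1 ⟨insert Xi s, rfl⟩
  refine ⟨s, fun w hw => ?_⟩
  by_contra hw0
  obtain ⟨w', hw', hw'0, hw'J⟩ := D.exists_WJ w hw0
  obtain ⟨t, rfl⟩ := Submodule.mem_span_singleton.1 hw'
  exact hw'0 (hbot _ ⟨hw'J, fun Xi h => by rw [map_smul, hw Xi h, smul_zero]⟩)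

/-- the element of `T0` representing a functional -/
noncomputable def tOf (f : W →ₗ[F] F) : T0 := (D.dual_surj f).choose

theorem tOf_spec (f : W →ₗ[F] F) (w : W) : D.a (D.tOf f • w) = f w :=
  ((D.dual_surj f).choose_spec w).symm

theorem tOf_unique (f : W →ₗ[F] F) (t : T0) (h : ∀ w, D.a (t • w) = f w) : D.tOf f = t := by
  rw [← sub_eq_zero]
  apply D.dual_inj
  intro w
  rw [sub_smul, map_sub, D.tOf_spec, h, sub_self]

/-- `jm` as an `F`-linear map -/
def jmF (Xi : Module.Dual F V) : W →ₗ[F] D.Pi := (D.jm Xi).restrictScalars F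

@[simp] theorem jmF_apply (Xi : Module.Dual F V) (w : W) : D.jmF Xi w = D.jm Xi w := rfl

/-- action of `T0` on `Pi` by `F`-linear endomorphisms -/
def tau : T0 →+* Module.End F D.Pi := (Algebra.lsmul F F D.Pi).toRingHom

@[simp] theorem tau_apply (t : T0) (v : D.Pi) : D.tau t v = t • v := rfl

/-- action of `GG` on `Pi` by `F`-linear endomorphisms -/
def rhoF : GG →* Module.End F D.Pi where
  toFun g := (D.rho g).restrictScalars F
  map_one' := by rw [map_one]; rfl
  map_mul' g h := by rw [map_mul]; rfl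

@[simp] theorem rhoF_apply (g : GG) (v : D.Pi) : D.rhoF g v = D.rho g v := rfl

/-- the maps `Hom(Pi, F) → T0` -/
noncomputable def ph (Xi : Module.Dual F V) : Module.Dual F D.Pi →+ T0 where
  toFun m := D.tOf (m ∘ₗ D.jmF Xi)
  map_zero' := by
    apply D.tOf_unique
    intro w
    simp
  map_add' m m' := by
    apply D.tOf_unique
    intro w
    rw [add_smul, map_add, D.tOf_spec, D.tOf_spec]
    rfl

theorem ph_smul (Xi : Module.Dual F V) (t : T0) (m : Module.Dual F D.Pi) :
    D.ph Xi (m ∘ₗ D.tau t) = t * D.ph Xi m := by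
  apply D.tOf_unique
  intro w
  change D.a ((t * D.tOf (m ∘ₗ D.jmF Xi)) • w) = _
  rw [mul_comm, mul_smul, D.tOf_spec]
  simp

theorem ph_one [CharP F 2] [Finite P] (s : Finset (Module.Dual F V))
    (hs : ∀ w, (∀ Xi ∈ s, D.jm Xi w = 0) → w = 0) :
    ∃ m : s → Module.Dual F D.Pi, ∑ i, D.ph i.1 (m i) = 1 := by
  classical
  let f : W →ₗ[F] (s → D.Pi) := LinearMap.pi fun i => D.jmF i.1
  have hf : LinearMap.ker f = ⊥ := by
    rw [LinearMap.ker_eq_bot']
    intro w hw
    exact hs w fun Xi h => congrFun hw ⟨Xi, h⟩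
  obtain ⟨g, hg⟩ := f.exists_leftInverse_of_injective hf
  refine ⟨fun i => D.a ∘ₗ g ∘ₗ LinearMap.single F (fun _ : s => D.Pi) i, ?_⟩
  rw [← sub_eq_zero]
  apply D.dual_inj
  intro w
  rw [sub_smul, one_smul, Finset.sum_smul, map_sub, map_sum, sub_eq_zero]
  have h1 : ∀ i : s, D.a (D.ph i.1 (D.a ∘ₗ g ∘ₗ LinearMap.single F (fun _ : s => D.Pi) i) • w) =
      D.a (g (LinearMap.single F (fun _ : s => D.Pi) i (D.jm i.1 w))) := fun i =>
    D.tOf_spec _ _
  rw [Finset.sum_congr rfl fun i _ => h1 i, ← map_sum, ← map_sum]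
  have h2 : ∑ i : s, LinearMap.single F (fun _ : s => D.Pi) i (D.jm i.1 w) = f w := by
    ext i
    simp [f]
  rw [h2]
  have h3 := congrArg (fun l : W →ₗ[F] W => l w) hg
  simp only [LinearMap.comp_apply, LinearMap.id_apply] at h3
  rw [h3]

/-! ### output in the language of part H -/

/-- the group `Gam 0` acting -/
def rho0 : (D.Gam 0) →* Module.End F D.Pi := D.rhoF.comp (D.Gam 0).subtype

/-- the filtration of `Gam 0` -/
def Gam0 (n : ℕ) : Subgroup (D.Gam 0) := (D.Gam n).subgroupOf (D.Gam 0)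

theorem smooth0 [Finite P] : H.Smooth D.Gam0 D.rho0 where
  smooth v := by
    obtain ⟨n, hn⟩ := D.rho_smooth v
    exact ⟨n, fun g hg => hn g hg⟩
  adm := by
    have h1 := D.Inv_finite
    have h2 : H.fil D.rho0 1 = D.Inv.restrictScalars F := by
      ext v
      change (∀ g : D.Gam 0, D.rho0 g v - v ∈ (⊥ : Submodule F D.Pi)) ↔ v ∈ D.Inv
      constructor
      · intro h b hb
        have := h ⟨b, hb⟩
        rw [Submodule.mem_bot, sub_eq_zero] at this
        exact this
      · intro h b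
        rw [Submodule.mem_bot, sub_eq_zero]
        exact h b b.2
    rw [h2]
    exact h1

theorem comm0 (t : T0) (g : D.Gam 0) : Commute (D.tau t) (D.rho0 g) := by
  have h : D.tau t * D.rho0 g = D.rho0 g * D.tau t :=
    LinearMap.ext fun v => ((D.rho g).map_smul t v).symm
  exact h

/-- **Section G.** The bimodule satisfies the hypotheses of part H. -/
theorem exists_genData [CharP F 2] [Finite P] :
    ∃ s : Finset (Module.Dual F V),
      H.GenData (U := D.Gam 0) (T := T0) D.rho0 D.tau (ι := s) (fun i => D.ph i.1) := by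
  obtain ⟨s, hs⟩ := D.exists_finset
  exact ⟨s, D.comm0, fun i t m => D.ph_smul i.1 t m, D.ph_one s hs⟩

end GData

end Crest.Agent.R007.G
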