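import Crest.Agent.R007.HFinImageA

set_option autoImplicit false

open Finset

namespace Crest.Agent.R007.H.FI

variable {F : Type*} [Field F]

theorem tf_matrix (h : ℕ) : TF F (Matrix (Fin h) (Fin h) (PowerSeries F)) := by
  intro n y hy
  refine Matrix.ext fun i j => ?_
  have h1 := congrFun (congrFun hy i) j
  rw [Matrix.smul_apply, smul_eq_mul, Matrix.zero_apply] at h1
  rcases mul_eq_zero.1 h1 with h2 | h2
  · exact absurd h2 (pow_ne_zero _ PowerSeries.X_ne_zero)
  · exact h2

theorem sep_matrix (h : ℕ) : Sep F (Matrix (Fin h) (Fin h) (PowerSeries F)) := by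
  intro y hy
  ext i j m
  obtain ⟨z, hz⟩ := hy (m + 1)
  have h1 : y i j = (PowerSeries.X : PowerSeries F) ^ (m + 1) * z i j := by
    rw [hz, Matrix.smul_apply, smul_eq_mul]
  have h2 : (PowerSeries.X : PowerSeries F) ^ (m + 1) ∣ y i j := ⟨_, h1⟩
  rw [PowerSeries.X_pow_dvd_iff] at h2
  rw [h2 m (Nat.lt_succ_self m)]
  simp

theorem dv_matrix {h m : ℕ} {y : Matrix (Fin h) (Fin h) (PowerSeries F)}
    (hy : ∀ i j, ∀ n < m, PowerSeries.coeff n (y i j) = 0) : Dv F m y := by
  have h1 : ∀ i j, ∃ z, y i j = (PowerSeries.X : PowerSeries F) ^ m * z := by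
    intro i j
    exact PowerSeries.X_pow_dvd_iff.2 (hy i j)
  choose z hz using h1
  refine ⟨Matrix.of z, Matrix.ext fun i j => ?_⟩
  rw [Matrix.smul_apply, smul_eq_mul, Matrix.of_apply, hz i j]

theorem exists_rel {h : ℕ} (a : Matrix (Fin h) (Fin h) (PowerSeries F)) :
    ∃ c k0 K, Rel F a (h * h) c k0 K := by
  classical
  have hli : ¬ LinearIndependent (PowerSeries F)
      (fun k : Fin (h * h + 1) => a ^ 2 ^ (k : ℕ)) := by
    intro hli
    have h1 := hli.fintype_card_le_finrank
    rw [Fintype.card_fin, Module.finrank_matrix, Fintype.card_fin, Module.finrank_self] at h1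
    omega
  rw [Fintype.not_linearIndependent_iff] at hli
  obtain ⟨g, hg, i0, hi0⟩ := hli
  let c : ℕ → PowerSeries F := fun k => if hk : k < h * h + 1 then g ⟨k, hk⟩ else 0
  have hc : ∑ k ∈ range (h * h + 1), c k • a ^ 2 ^ k = 0 := by
    rw [Finset.sum_range, ← hg]
    refine Finset.sum_congr rfl fun k _ => ?_
    have hck : c k = g k := dif_pos k.2
    rw [hck]
  have hex : ∃ k, c k ≠ 0 := ⟨i0, by
    have hck : c i0 = g i0 := dif_pos i0.2
    rw [hck]; exact hi0⟩
  have hk0 := Nat.find_spec hex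
  have hmin : ∀ k < Nat.find hex, c k = 0 := fun k hk => not_not.1 (Nat.find_min hex hk)
  set k0 := Nat.find hex with hk0def
  have hle : k0 ≤ h * h := by
    by_contra hcon
    exact hk0 (by simp [c]; intro h1; omega)
  obtain ⟨K, u, hu⟩ := IsDiscreteValuationRing.eq_unit_mul_pow_irreducible hk0
    (PowerSeries.X_irreducible (R := F))
  refine ⟨fun k => (↑u⁻¹ : PowerSeries F) * c k, k0, K, ?_, hle, ?_, ?_⟩
  · have : ∑ k ∈ range (h * h + 1), ((↑u⁻¹ : PowerSeries F) * c k) • a ^ 2 ^ k
        = (↑u⁻¹ : PowerSeries F) • ∑ k ∈ range (h * h + 1), c k • a ^ 2 ^ k := by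
      rw [Finset.smul_sum]
      exact Finset.sum_congr rfl fun k _ => by rw [smul_smul]
    rw [this, hc, smul_zero]
  · intro k hk
    simp only [hmin k hk, mul_zero]
  · simp only [hu]
    rw [← mul_assoc, Units.inv_mul, one_mul]

theorem core_matrix [CharP F 2] {h : ℕ} {a b : Matrix (Fin h) (Fin h) (PowerSeries F)}
    (hdiv : ∀ k l, Dv F (2 ^ (k + l)) (Cm a b k l)) :
    Commute (a ^ 2 ^ (h * h)) (b ^ 2 ^ (h * h)) := by
  obtain ⟨c, k0, K, hr⟩ := exists_rel a
  obtain ⟨c', k0', K', hr'⟩ := exists_rel b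
  exact core (tf_matrix h) (sep_matrix h) hr hr' hdiv

/-! ### Endomorphisms of a divisible locally nilpotent `F[x]`-module as matrices -/

section Phi

open Module

variable {V : Type*} [AddCommGroup V] [Module F V]

/-- the data of a section -/
structure Sec (x σ : Module.End F V) : Prop where
  sec : ∀ v, x (σ v) = v
  nil : ∀ v, ∃ n : ℕ, (x ^ n) v = 0

/-- projection to `ker x` -/
def eps {x σ : Module.End F V} (hs : Sec x σ) : V →ₗ[F] LinearMap.ker x :=
  LinearMap.codRestrict (LinearMap.ker x) (LinearMap.id - σ * x) (by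
    intro v
    simp [hs.sec])

theorem eps_coe {x σ : Module.End F V} (hs : Sec x σ) (v : V) :
    ((eps hs v : LinearMap.ker x) : V) = v - σ (x v) := by
  simp [eps]

theorem expand {x σ : Module.End F V} (hs : Sec x σ) (m : ℕ) :
    ∀ v : V, (x ^ m) v = 0 → v = ∑ i ∈ range m, (σ ^ i) (eps hs ((x ^ i) v)) := by
  induction m with
  | zero => intro v hv; simpa using hv
  | succ m ih =>
    intro v hv
    have h1 : (x ^ m) (x v) = 0 := by
      rw [pow_succ] at hv
      exact hv
    have h2 := ih (x v) h1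
    rw [Finset.sum_range_succ']
    have h3 : ∑ i ∈ range m, (σ ^ (i + 1)) ((eps hs ((x ^ (i + 1)) v) : LinearMap.ker x) : V)
        = σ (x v) := by
      conv_rhs => rw [h2]
      rw [map_sum]
      refine Finset.sum_congr rfl fun i _ => ?_
      rw [pow_succ' σ, Module.End.mul_apply, pow_succ x, Module.End.mul_apply]
    rw [h3, eps_coe]
    simp

theorem x_pow_sig {x σ : Module.End F V} (hs : Sec x σ) (i : ℕ) : ∀ n v, i ≤ n →
    (x ^ i) ((σ ^ n) v) = (σ ^ (n - i)) v := by
  induction i with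
  | zero => intro n v _; simp
  | succ i ih =>
    intro n v hn
    obtain ⟨n, rfl⟩ : ∃ n', n = n' + 1 := ⟨n - 1, by omega⟩
    rw [pow_succ x, Module.End.mul_apply, pow_succ' σ, Module.End.mul_apply, hs.sec,
      ih n v (by omega)]
    congr 2
    omega

/-- the coefficients -/
def co {x σ : Module.End F V} (hs : Sec x σ) (A : Module.End F V) (n : ℕ) :
    LinearMap.ker x →ₗ[F] LinearMap.ker x :=
  eps hs ∘ₗ A ∘ₗ (σ ^ n) ∘ₗ (LinearMap.ker x).subtype

theorem co_apply {x σ : Module.End F V} (hs : Sec x σ) (A : Module.End F V) (n : ℕ)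
    (e : LinearMap.ker x) : co hs A n e = eps hs (A ((σ ^ n) e)) := rfl

theorem pow_succ_sig {x σ : Module.End F V} (hs : Sec x σ) (n : ℕ) (e : LinearMap.ker x) :
    (x ^ (n + 1)) ((σ ^ n) (e : V)) = 0 := by
  rw [pow_succ', Module.End.mul_apply, x_pow_sig hs n n _ le_rfl]
  simp

theorem comm_pow {x A : Module.End F V} (hA : Commute x A) (n : ℕ) (v : V) :
    (x ^ n) (A v) = A ((x ^ n) v) := by
  have h1 : x ^ n * A = A * x ^ n := (hA.pow_left n).eq
  exact LinearMap.congr_fun h1 v

theorem A_sig {x σ : Module.End F V} (hs : Sec x σ) {A : Module.End F V} (hA : Commute x A)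
    (n : ℕ) (e : LinearMap.ker x) :
    A ((σ ^ n) (e : V)) = ∑ i ∈ range (n + 1), (σ ^ i) ((co hs A (n - i) e : LinearMap.ker x) : V) := by
  have h0 : (x ^ (n + 1)) (A ((σ ^ n) (e : V))) = 0 := by
    rw [comm_pow hA, pow_succ_sig hs, map_zero]
  rw [expand hs (n + 1) _ h0]
  refine Finset.sum_congr rfl fun i hi => ?_
  rw [co_apply, comm_pow hA, x_pow_sig hs i n _ (by simpa [Nat.lt_succ_iff] using hi)]

theorem co_mul {x σ : Module.End F V} (hs : Sec x σ) {A B : Module.End F V} (hB : Commute x B)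
    (n : ℕ) : co hs (A * B) n = ∑ i ∈ range (n + 1), co hs A i ∘ₗ co hs B (n - i) := by
  ext e : 1
  rw [co_apply, Module.End.mul_apply, A_sig hs hB, map_sum, map_sum, LinearMap.sum_apply]
  rfl

theorem eq_zero_of_co {x σ : Module.End F V} (hs : Sec x σ) {A : Module.End F V}
    (hA : Commute x A) (h : ∀ n, co hs A n = 0) : A = 0 := by
  ext v
  obtain ⟨m, hm⟩ := hs.nil v
  rw [expand hs m v hm, map_sum]
  refine Finset.sum_eq_zero fun i _ => ?_
  rw [A_sig hs hA]
  refine Finset.sum_eq_zero fun j _ => ?_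
  rw [h]
  simp

theorem co_eq_zero_of_kills {x σ : Module.End F V} (hs : Sec x σ) {A : Module.End F V} {m : ℕ}
    (h : ∀ v, (x ^ m) v = 0 → A v = 0) {n : ℕ} (hn : n < m) : co hs A n = 0 := by
  ext e : 1
  rw [co_apply, h, map_zero, LinearMap.zero_apply]
  obtain ⟨k, rfl⟩ := Nat.exists_eq_add_of_lt hn
  have : n + k + 1 = k + (n + 1) := by ring
  rw [this, pow_add, Module.End.mul_apply, pow_succ_sig hs, map_zero]

theorem co_sub {x σ : Module.End F V} (hs : Sec x σ) (A B : Module.End F V) (n : ℕ) :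
    co hs (A - B) n = co hs A n - co hs B n := by
  ext e : 1
  simp [co_apply]

theorem co_one {x σ : Module.End F V} (hs : Sec x σ) (n : ℕ) :
    co hs 1 n = if n = 0 then LinearMap.id else 0 := by
  ext e : 2
  rw [co_apply, eps_coe]
  split_ifs with h
  · subst h; simp
  · obtain ⟨n, rfl⟩ := Nat.exists_eq_succ_of_ne_zero h
    rw [Module.End.one_apply, Nat.succ_eq_add_one, pow_succ' σ, Module.End.mul_apply, hs.sec]
    simp

variable {h : ℕ}

/-- the matrix of `A` over `F⟦X⟧` -/
noncomputable def Phi {x σ : Module.End F V} (hs : Sec x σ)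
    (b : Basis (Fin h) F (LinearMap.ker x)) (A : Module.End F V) :
    Matrix (Fin h) (Fin h) (PowerSeries F) :=
  Matrix.of fun i j => PowerSeries.mk fun n => LinearMap.toMatrix b b (co hs A n) i j

theorem coeff_Phi {x σ : Module.End F V} (hs : Sec x σ)
    (b : Basis (Fin h) F (LinearMap.ker x)) (A : Module.End F V) (i j : Fin h) (n : ℕ) :
    PowerSeries.coeff n (Phi hs b A i j) = LinearMap.toMatrix b b (co hs A n) i j := by
  simp [Phi]

theorem Phi_mul {x σ : Module.End F V} (hs : Sec x σ)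
    (b : Basis (Fin h) F (LinearMap.ker x)) {A B : Module.End F V} (hB : Commute x B) :
    Phi hs b (A * B) = Phi hs b A * Phi hs b B := by
  ext i j n
  have h1 : LinearMap.toMatrix b b (∑ i ∈ range (n + 1), co hs A i ∘ₗ co hs B (n - i)) i j
      = ∑ p ∈ range (n + 1), ∑ k, LinearMap.toMatrix b b (co hs A p) i k *
          LinearMap.toMatrix b b (co hs B (n - p)) k j := by
    rw [map_sum]
    refine (Matrix.sum_apply _ _ _ _).trans ?_
    refine Finset.sum_congr rfl fun p _ => ?_
    rw [LinearMap.toMatrix_comp b b b, Matrix.mul_apply]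
  rw [coeff_Phi, co_mul hs hB, h1, Matrix.mul_apply, map_sum, Finset.sum_comm]
  refine Finset.sum_congr rfl fun k _ => ?_
  rw [PowerSeries.coeff_mul, Finset.Nat.sum_antidiagonal_eq_sum_range_succ_mk]
  refine Finset.sum_congr rfl fun p _ => ?_
  rw [coeff_Phi, coeff_Phi]

theorem Phi_sub {x σ : Module.End F V} (hs : Sec x σ)
    (b : Basis (Fin h) F (LinearMap.ker x)) (A B : Module.End F V) :
    Phi hs b (A - B) = Phi hs b A - Phi hs b B := by
  ext i j n
  rw [Matrix.sub_apply, map_sub, coeff_Phi, coeff_Phi, coeff_Phi, co_sub, map_sub, Matrix.sub_apply]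

theorem Phi_one {x σ : Module.End F V} (hs : Sec x σ)
    (b : Basis (Fin h) F (LinearMap.ker x)) : Phi hs b 1 = 1 := by
  ext i j n
  rw [coeff_Phi, co_one]
  split_ifs with hn
  · subst hn
    rw [LinearMap.toMatrix_id]
    by_cases hij : i = j
    · subst hij; simp
    · simp [Matrix.one_apply_ne hij]
  · rw [map_zero, Matrix.zero_apply]
    by_cases hij : i = j
    · subst hij; simp [PowerSeries.coeff_one, hn]
    · simp [Matrix.one_apply_ne hij]

theorem Phi_pow {x σ : Module.End F V} (hs : Sec x σ)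
    (b : Basis (Fin h) F (LinearMap.ker x)) {A : Module.End F V} (hA : Commute x A) (n : ℕ) :
    Phi hs b (A ^ n) = Phi hs b A ^ n := by
  induction n with
  | zero => rw [pow_zero, pow_zero, Phi_one]
  | succ n ih => rw [pow_succ, pow_succ, Phi_mul hs b hA, ih]

theorem Phi_dv {x σ : Module.End F V} (hs : Sec x σ)
    (b : Basis (Fin h) F (LinearMap.ker x)) {A : Module.End F V} {m : ℕ}
    (hA : ∀ v, (x ^ m) v = 0 → A v = 0) : Dv F m (Phi hs b A) := by
  refine dv_matrix fun i j n hn => ?_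
  rw [coeff_Phi, co_eq_zero_of_kills hs hA hn, map_zero, Matrix.zero_apply]

theorem Phi_inj {x σ : Module.End F V} (hs : Sec x σ)
    (b : Basis (Fin h) F (LinearMap.ker x)) {A : Module.End F V} (hA : Commute x A)
    (h0 : Phi hs b A = 0) : A = 0 := by
  refine eq_zero_of_co hs hA fun n => ?_
  apply (LinearMap.toMatrix b b).injective
  ext i j
  rw [← coeff_Phi hs b, h0, map_zero]
  simp

/-- core lemma for endomorphisms -/
theorem core_end [CharP F 2] {x : Module.End F V} (hsurj : Function.Surjective x)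
    (hnil : ∀ v, ∃ n : ℕ, (x ^ n) v = 0) [FiniteDimensional F (LinearMap.ker x)]
    {A B : Module.End F V} (hA : Commute x A) (hB : Commute x B)
    (hdiv : ∀ k l v, (x ^ 2 ^ (k + l)) v = 0 →
      (A ^ 2 ^ k * B ^ 2 ^ l - B ^ 2 ^ l * A ^ 2 ^ k) v = 0) :
    Commute (A ^ 2 ^ (finrank F (LinearMap.ker x) * finrank F (LinearMap.ker x)))
      (B ^ 2 ^ (finrank F (LinearMap.ker x) * finrank F (LinearMap.ker x))) := by
  obtain ⟨σ, hσ⟩ := LinearMap.exists_rightInverse_of_surjective x (LinearMap.range_eq_top.2 hsurj)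
  have hs : Sec x σ := ⟨fun v => LinearMap.congr_fun hσ v, hnil⟩
  let b := Module.finBasis F (LinearMap.ker x)
  have h1 := core_matrix (a := Phi hs b A) (b := Phi hs b B) (by
    intro k l
    have h2 := Phi_dv hs b (A := A ^ 2 ^ k * B ^ 2 ^ l - B ^ 2 ^ l * A ^ 2 ^ k) (hdiv k l)
    rw [Phi_sub, Phi_mul hs b (hB.pow_right _), Phi_mul hs b (hA.pow_right _), Phi_pow hs b hA,
      Phi_pow hs b hB] at h2
    exact h2)
  rw [← Phi_pow hs b hA, ← Phi_pow hs b hB] at h1
  have h3 : Phi hs b (A ^ 2 ^ (finrank F (LinearMap.ker x) * finrank F (LinearMap.ker x)) *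
      B ^ 2 ^ (finrank F (LinearMap.ker x) * finrank F (LinearMap.ker x)) -
      B ^ 2 ^ (finrank F (LinearMap.ker x) * finrank F (LinearMap.ker x)) *
      A ^ 2 ^ (finrank F (LinearMap.ker x) * finrank F (LinearMap.ker x))) = 0 := by
    rw [Phi_sub, Phi_mul hs b (hB.pow_right _), Phi_mul hs b (hA.pow_right _)]
    exact sub_eq_zero.2 h1.eq
  have hc : Commute x (A ^ 2 ^ (finrank F (LinearMap.ker x) * finrank F (LinearMap.ker x)) *
      B ^ 2 ^ (finrank F (LinearMap.ker x) * finrank F (LinearMap.ker x)) -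
      B ^ 2 ^ (finrank F (LinearMap.ker x) * finrank F (LinearMap.ker x)) *
      A ^ 2 ^ (finrank F (LinearMap.ker x) * finrank F (LinearMap.ker x))) :=
    (((hA.pow_right _).mul_right (hB.pow_right _)).sub_right
      ((hB.pow_right _).mul_right (hA.pow_right _)))
  exact sub_eq_zero.1 (Phi_inj hs b hc h3)

end Phi

end Crest.Agent.R007.H.FI
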