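import Crest.Agent.R007.HDefs
import Crest.Agent.R007.HFinImageB

/-!
# Row 7, part H, node 5: the finite image lemma `finImage`.
-/

set_option autoImplicit false

open Module

namespace Crest.Agent.R007.H

section Group

variable {U : Type*} [Group U] {Γ : ℕ → Subgroup U} {d : ℕ} {u : Fin d → U}

/-- elements of `Γ (s + k)` are `2 ^ k`-th powers of elements of `Γ s` modulo every `Γ n` -/
theorem FiltGroup.root (hΓ : FiltGroup Γ d u) (k : ℕ) : ∀ s n, ∀ g ∈ Γ (s + k),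
    ∃ h ∈ Γ s, g⁻¹ * h ^ 2 ^ k ∈ Γ n := by
  induction k with
  | zero => exact fun s n g hg => ⟨g, hg, by simp [(Γ n).one_mem]⟩
  | succ k ih =>
    intro s n g hg
    obtain ⟨h1, hh1, hg1⟩ := hΓ.sqrt (s + k) n g hg
    obtain ⟨h, hh, hh2⟩ := ih s n h1 hh1
    refine ⟨h, hh, ?_⟩
    have hn := hΓ.normal n
    have e1 : g⁻¹ * h ^ 2 ^ (k + 1)
        = (g⁻¹ * h1 ^ 2) * (h1⁻¹ * (h1⁻¹ * h ^ 2 ^ k) * h1⁻¹⁻¹) * (h1⁻¹ * h ^ 2 ^ k) := by
      rw [pow_succ 2 k, pow_mul h, pow_two (h ^ 2 ^ k), pow_two h1]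
      group
    rw [e1]
    exact (Γ n).mul_mem ((Γ n).mul_mem hg1 (hn.conj_mem _ hh2 _)) hh2

theorem FiltGroup.pow_mem (hΓ : FiltGroup Γ d u) (k : ℕ) : ∀ s, ∀ g ∈ Γ s,
    g ^ 2 ^ k ∈ Γ (s + k) := by
  induction k with
  | zero => intro s g hg; simpa using hg
  | succ k ih =>
    intro s g hg
    rw [pow_succ, pow_mul]
    exact hΓ.sq_mem (s + k) _ (ih s g hg)

end Group

section Abs

variable {F V U : Type*} [Field F] [CharP F 2] [AddCommGroup V] [Module F V] [Group U]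
  {Γ : ℕ → Subgroup U} {d : ℕ} {u : Fin d → U}

omit [CharP F 2] in
theorem pow_kills {x A : Module.End F V} (hA : Commute x A) (hk : ∀ v, x v = 0 → A v = 0)
    (m : ℕ) : ∀ v, (x ^ m) v = 0 → (A ^ m) v = 0 := by
  induction m with
  | zero => intro v hv; simpa using hv
  | succ m ih =>
    intro v hv
    rw [pow_succ, Module.End.mul_apply]
    apply ih
    rw [FI.comm_pow hA]
    apply hk
    rw [← Module.End.mul_apply, ← pow_succ']
    exact hv

/-- the finite image lemma, for a representation on the whole space -/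
theorem finImage_abs (hΓ : FiltGroup Γ d u) (h4 : H4 Γ) (ρ : U →* Module.End F V)
    (hsm : ∀ v, ∃ N, ∀ g ∈ Γ N, ρ g v = v) (x : Module.End F V) (hx : ∀ g, Commute x (ρ g))
    (hsurj : Function.Surjective x) (hnil : ∀ v, ∃ n : ℕ, (x ^ n) v = 0)
    (hfd : FiniteDimensional F (LinearMap.ker x)) : ∃ n, ∀ g ∈ Γ n, ∀ v, ρ g v = v := by
  classical
  -- an open subgroup acting trivially on `ker x`
  obtain ⟨s, hs⟩ : ∃ s, ∀ g ∈ Γ s, ∀ v, x v = 0 → ρ g v = v := by
    let b := Module.finBasis F (LinearMap.ker x)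
    choose N hN using fun i => hsm (b i : V)
    refine ⟨Finset.univ.sup N, fun g hg v hv => ?_⟩
    have h1 : ∀ i, ρ g (b i : V) = (b i : V) := fun i =>
      hN i g (hΓ.anti (Finset.le_sup (Finset.mem_univ i)) hg)
    have h2 : (ρ g) ∘ₗ (LinearMap.ker x).subtype = (LinearMap.ker x).subtype :=
      b.ext fun i => h1 i
    exact LinearMap.congr_fun h2 ⟨v, hv⟩
  -- the operators `A = ρ g - 1`
  have hchar : CharP (Module.End F V) 2 ∨ Subsingleton (Module.End F V) := by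
    rcases subsingleton_or_nontrivial (Module.End F V) with h | h
    · exact Or.inr h
    · exact Or.inl (charP_of_injective_algebraMap (algebraMap F (Module.End F V)).injective 2)
  have hpow : ∀ (g : U) (k : ℕ), ρ g ^ 2 ^ k = 1 + (ρ g - 1) ^ 2 ^ k := by
    intro g k
    rcases hchar with h | h
    · haveI : Fact (Nat.Prime 2) := ⟨Nat.prime_two⟩
      have h1 := add_pow_char_pow_of_commute (p := 2) (n := k) (Commute.one_left (ρ g - 1))
      rw [one_pow, add_sub_cancel] at h1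
      exact h1
    · exact Subsingleton.elim _ _
  have hcA : ∀ g, Commute x (ρ g - 1) := fun g => (hx g).sub_right (Commute.one_right x)
  -- (W)
  have hW : ∀ k, ∀ g ∈ Γ (s + k), ∀ v, (x ^ 2 ^ k) v = 0 → ρ g v = v := by
    intro k g hg v hv
    obtain ⟨N, hN⟩ := hsm v
    obtain ⟨h, hh, hgh⟩ := hΓ.root k s N g hg
    have h1 : ρ g v = ρ (h ^ 2 ^ k) v := by
      have : h ^ 2 ^ k = g * (g⁻¹ * h ^ 2 ^ k) := by group
      rw [this, map_mul, Module.End.mul_apply, hN _ hgh]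
    rw [h1, map_pow, hpow, LinearMap.add_apply, Module.End.one_apply,
      pow_kills (hcA h) (fun w hw => by
        rw [LinearMap.sub_apply, Module.End.one_apply, hs h hh w hw, sub_self]) _ v hv, add_zero]
  -- commutators
  have hC : ∀ g ∈ Γ s, ∀ h ∈ Γ s, ∀ k l v, (x ^ 2 ^ (k + l)) v = 0 →
      ((ρ g - 1) ^ 2 ^ k * (ρ h - 1) ^ 2 ^ l - (ρ h - 1) ^ 2 ^ l * (ρ g - 1) ^ 2 ^ k :
        Module.End F V) v = 0 := by
    intro g hg h hh k l v hv
    have e1 : (ρ g - 1) ^ 2 ^ k * (ρ h - 1) ^ 2 ^ l - (ρ h - 1) ^ 2 ^ l * (ρ g - 1) ^ 2 ^ k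
        = ρ (g ^ 2 ^ k * h ^ 2 ^ l) - ρ (h ^ 2 ^ l * g ^ 2 ^ k) := by
      rw [map_mul, map_mul, map_pow, map_pow, hpow g k, hpow h l]
      noncomm_ring
    rw [e1, LinearMap.sub_apply, sub_eq_zero]
    have hc : (g ^ 2 ^ k) * (h ^ 2 ^ l) * (g ^ 2 ^ k)⁻¹ * (h ^ 2 ^ l)⁻¹ ∈ Γ (s + (k + l)) :=
      hΓ.anti (by omega) (hΓ.comm (s + k) (s + l) _ (hΓ.pow_mem k s g hg) _ (hΓ.pow_mem l s h hh))
    have e2 : g ^ 2 ^ k * h ^ 2 ^ l
        = ((g ^ 2 ^ k) * (h ^ 2 ^ l) * (g ^ 2 ^ k)⁻¹ * (h ^ 2 ^ l)⁻¹) * (h ^ 2 ^ l * g ^ 2 ^ k) := by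
      group
    rw [e2, map_mul ρ ((g ^ 2 ^ k) * (h ^ 2 ^ l) * (g ^ 2 ^ k)⁻¹ * (h ^ 2 ^ l)⁻¹),
      Module.End.mul_apply]
    apply hW (k + l) _ hc
    rw [FI.comm_pow (hx _), hv, map_zero]
  -- the `2 ^ D`-th powers of elements of `Γ s` commute
  set D := finrank F (LinearMap.ker x) * finrank F (LinearMap.ker x) with hD
  have hcomm : ∀ g ∈ Γ s, ∀ h ∈ Γ s, Commute (ρ (g ^ 2 ^ D)) (ρ (h ^ 2 ^ D)) := by
    intro g hg h hh
    have h1 := FI.core_end hsurj hnil (hcA g) (hcA h) (hC g hg h hh)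
    rw [← hD] at h1
    rw [map_pow, map_pow, hpow, hpow]
    exact ((Commute.one_left _).add_left (((Commute.one_right _).add_right h1)))
  -- `Γ (s + D)` has commutative image
  have hab : ∀ g ∈ Γ (s + D), ∀ h ∈ Γ (s + D), ∀ v, ρ (g * h * g⁻¹ * h⁻¹) v = v := by
    intro g hg h hh v
    have key : ∀ g ∈ Γ (s + D), ∀ h ∈ Γ (s + D), ∀ v, ρ (g * h) v = ρ (h * g) v := by
      intro g hg h hh v
      obtain ⟨N, hN⟩ := hsm v
      have hn := hΓ.normal N
      obtain ⟨g', hg', hgg⟩ := hΓ.root D s N g hg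
      obtain ⟨h', hh', hhh⟩ := hΓ.root D s N h hh
      have aux : ∀ a b a' b' : U, a⁻¹ * a' ∈ Γ N → b⁻¹ * b' ∈ Γ N →
          ρ (a * b) v = ρ (a' * b') v := by
        intro a b a' b' ha hb
        have e1 : a' * b' = (a * b) * ((b⁻¹ * (a⁻¹ * a') * b⁻¹⁻¹) * (b⁻¹ * b')) := by group
        rw [e1, map_mul ρ (a * b), Module.End.mul_apply,
          hN _ ((Γ N).mul_mem (hn.conj_mem _ ha _) hb)]
      rw [aux g h _ _ hgg hhh, aux h g _ _ hhh hgg, map_mul, map_mul, (hcomm g' hg' h' hh').eq]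
    have e1 : g * h * g⁻¹ * h⁻¹ = (g * h) * (h * g)⁻¹ := by group
    have h2 := key g hg h hh (ρ ((h * g)⁻¹) v)
    rw [← Module.End.mul_apply, ← Module.End.mul_apply, ← map_mul, ← map_mul,
      mul_inv_cancel, map_one, Module.End.one_apply] at h2
    rw [e1]
    exact h2
  -- conclusion
  obtain ⟨n, hn⟩ := h4 (s + D)
  refine ⟨n, fun g hg v => ?_⟩
  obtain ⟨N, hN⟩ := hsm v
  obtain ⟨w, hw, hgw⟩ := hn N g hg
  have h1 : ∀ v, ρ w v = v := by
    clear hgw
    induction hw using Subgroup.closure_induction with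
    | mem c hc =>
      obtain ⟨a, ha, b, hb, rfl⟩ := hc
      exact hab a ha b hb
    | one => intro v; rw [map_one, Module.End.one_apply]
    | mul a b _ _ iha ihb => intro v; rw [map_mul, Module.End.mul_apply, ihb, iha]
    | inv a _ iha =>
      intro v
      have h2 : ρ a⁻¹ (ρ a v) = v := by
        rw [← Module.End.mul_apply, ← map_mul, inv_mul_cancel, map_one, Module.End.one_apply]
      rw [iha] at h2
      exact h2
  have h2 : w = g * (g⁻¹ * w) := by group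
  have h3 := h1 v
  rw [h2, map_mul, Module.End.mul_apply, hN _ hgw] at h3
  exact h3

end Abs

/-- **NODE 5**: the finite image lemma. -/
theorem finImage {F P U : Type*} [Field F] [CharP F 2] [AddCommGroup P] [Module F P] [Group U]
    {Γ : ℕ → Subgroup U} {d : ℕ} {u : Fin d → U} {ρ : U →* Module.End F P}
    (hΓ : FiltGroup Γ d u) (h4 : H4 Γ) (hρ : Smooth Γ ρ) : FinImage Γ ρ := by
  intro x hx Z hZ hxZ hnil hfd
  have hxm : ∀ v ∈ Z, x v ∈ Z := fun v hv => hxZ ▸ Submodule.mem_map_of_mem hv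
  let x' : Module.End F Z := x.restrict hxm
  let ρ' : U →* Module.End F Z :=
    { toFun := fun g => (ρ g).restrict (hZ g)
      map_one' := by ext v; simp
      map_mul' := by intro g h; ext v; simp }
  have hxp : ∀ (n : ℕ) (v : Z), (((x' ^ n) v : Z) : P) = (x ^ n) (v : P) := by
    intro n
    induction n with
    | zero => intro v; simp
    | succ n ih =>
      intro v
      rw [pow_succ, pow_succ, Module.End.mul_apply, Module.End.mul_apply, ih]
      rfl
  obtain ⟨n, hn⟩ := finImage_abs (V := Z) hΓ h4 ρ' (by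
      rintro ⟨v, hv⟩
      obtain ⟨N, hN⟩ := hρ.smooth v
      exact ⟨N, fun g hg => Subtype.ext (hN g hg)⟩) x' (by
      intro g
      ext v
      exact LinearMap.congr_fun (hx g).eq (v : P)) (by
      rintro ⟨v, hv⟩
      rw [← hxZ] at hv
      obtain ⟨w, hw, hwv⟩ := hv
      exact ⟨⟨w, hw⟩, Subtype.ext hwv⟩) (by
      rintro ⟨v, hv⟩
      obtain ⟨n, hn⟩ := hnil v hv
      exact ⟨n, Subtype.ext ((hxp n _).trans hn)⟩) (by
      have hmem : ∀ v : LinearMap.ker x', ((v : Z) : P) ∈ Z ⊓ LinearMap.ker x := by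
        rintro ⟨v, hv⟩
        refine ⟨v.2, ?_⟩
        have h1 : x' v = 0 := hv
        exact congrArg Subtype.val h1
      let f : LinearMap.ker x' →ₗ[F] ↥(Z ⊓ LinearMap.ker x) :=
        LinearMap.codRestrict _ (Z.subtype ∘ₗ (LinearMap.ker x').subtype) hmem
      refine FiniteDimensional.of_injective f ?_
      intro v w hvw
      exact Subtype.ext (Subtype.ext (congrArg (fun z : ↥(Z ⊓ LinearMap.ker x) => (z : P)) hvw)))
  exact ⟨n, fun g hg v hv => congrArg Subtype.val (hn g hg ⟨v, hv⟩)⟩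

end Crest.Agent.R007.H
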