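import Crest.Agent.R007.HTop
import Crest.Agent.R007.HFinImage
import Crest.Agent.R007.FTop
import Crest.Agent.R007.GTop

/-!
# Row 7, node TOP0 (helper775): `T0` is Noetherian of dimension `≤ 2`

Input: `F.EndData D O` (section F, the group `𝒢 = Pr D` acting on `K/R`) and `TData` (sections B, C,
D, E: the duality `T0 = Hom(W, F)`, the supersingular expansions `E e : W → K/R`, the Hecke formula).
-/

set_option autoImplicit false

open Module

namespace Crest.Agent.R007

namespace H

variable {F P U T ι : Type*} [Field F] [Finite F] [CharP F 2] [AddCommGroup P] [Module F P]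
  [Group U] [CommRing T] [Fintype ι]
variable {ρ : U →* Module.End F P} {Γ : ℕ → Subgroup U} {d : ℕ} {u : Fin d → U}
  {τ : T →+* Module.End F P} {φ : ι → (Module.Dual F P →+ T)}

/-- **PART H**, final form. -/
theorem htop (hΓ : FiltGroup Γ d u) (h4 : d = 3 → H4 Γ) (hρ : Smooth Γ ρ) (hφ : GenData ρ τ φ)
    (hd : d ≤ 3) : IsNoetherianRing T ∧ ringKrullDim T ≤ 2 :=
  htop_of hΓ hρ hφ hd fun h3 => finImage hΓ (h4 h3) hρ

end H

namespace TopZ

/-- What sections B, C, D, E must deliver, for the action `act` of the group `GG` on `V = K/R`. -/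
structure TData (F T0 W V GG P I : Type*) [Field F] [CommRing T0] [Algebra F T0]
    [AddCommGroup W] [Module F W] [Module T0 W] [IsScalarTower F T0 W]
    [AddCommGroup V] [Module F V] [Group GG] (act : GG →* Module.End F V) where
  /-- first coefficient functional -/
  a : W →ₗ[F] F
  dual_inj : ∀ t : T0, (∀ w, a (t • w) = 0) → t = 0
  dual_surj : ∀ f : W →ₗ[F] F, ∃ t : T0, ∀ w, f w = a (t • w)
  /-- generators of the Hecke algebra -/
  gen : I → T0
  approx : ∀ (s : Finset W) (t : T0), ∃ x ∈ Algebra.adjoin F (Set.range gen), ∀ w ∈ s, t • w = x • w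
  /-- orbits are finite-dimensional -/
  locfin : ∀ w : W, Module.Finite F (Submodule.span T0 {w})
  /-- supersingular expansions -/
  E : P → W →ₗ[F] V
  E_inj : ∀ w, (∀ e, E e w = 0) → w = 0
  /-- Hecke formula -/
  hk : I → P → List (GG × P)
  hecke : ∀ i e w, E e (gen i • w) = ((hk i e).map fun d => act d.1 (E d.2 w)).sum

/-- the bimodule data of section G from `TData` and the filtration of section F -/
def TData.toGData {F T0 W V GG P I : Type*} [Field F] [CommRing T0] [Algebra F T0]
    [AddCommGroup W] [Module F W] [Module T0 W] [IsScalarTower F T0 W]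
    [AddCommGroup V] [Module F V] [Group GG] {act : GG →* Module.End F V}
    (D : TData F T0 W V GG P I act) (Gam : ℕ → Subgroup GG) (normal : ∀ n, (Gam n).Normal)
    (finidx : ∀ n, (Gam n).FiniteIndex) (pgrp : ∀ n, ∀ g ∈ Gam 0, ∃ k : ℕ, g ^ (2 ^ k) ∈ Gam n)
    (anti : Antitone Gam) (smooth : ∀ v : V, ∃ n, ∀ g ∈ Gam n, act g v = v) :
    G.GData F T0 W V GG P I where
  act := act
  Gam := Gam
  normal := normal
  finidx := finidx
  pgrp := pgrp
  anti := anti
  smooth := smooth
  a := D.a
  dual_inj := D.dual_inj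
  dual_surj := D.dual_surj
  gen := D.gen
  approx := D.approx
  locfin := D.locfin
  E := D.E
  E_inj := D.E_inj
  hk := D.hk
  hecke := D.hecke

/-- **TOP0.** `T0` is Noetherian of Krull dimension at most `2`. -/
theorem dimT0 {κ : Type*} [Field κ] [CharP κ 2] {k : Type*} [Field k] [Finite k] [CharP k 2]
    [Algebra k κ] {D : F.FData κ} {O : Type*} [Ring O] (E : F.EndData D O)
    {T0 W P I : Type*} [CommRing T0] [Algebra k T0] [AddCommGroup W] [Module k W] [Module T0 W]
    [IsScalarTower k T0 W] [Finite P]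
    (T : TData k T0 W (F.KR κ) (F.Pr D) P I (F.act k D)) :
    IsNoetherianRing T0 ∧ ringKrullDim T0 ≤ 2 := by
  obtain ⟨Gam, d, u, hd, hnorm, hfin, hp, hanti, hsm, hFG, h4⟩ := F.sectionF k E
  let G := T.toGData Gam hnorm hfin hp hanti hsm
  obtain ⟨s, hs⟩ := G.exists_genData
  exact H.htop hFG h4 G.smooth0 hs hd

end TopZ

end Crest.Agent.R007
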