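import Crest.Agent.R007.Mix1
import Crest.Agent.R007.TopZ

/-!
# Row 7 (S0007): LINK (helper720, architect).

FROZEN interface between the modular side (C, D, E, EMB, TLB) and the bimodule `GData` of section G.

* `LL O k`   : 604's `Mix.Lk O k` (weight `k`, all odd levels, all expansions in `O`).
* `Cong O F c` : `q`-expansion of `F` at infinity is `∑ c r q^r` modulo `2 O`.
* `EOut`     : output of section E.
* `EmbOut`   : output of EMB + TLB.
* `gdata`    : the instance of `G.GData`.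
-/

set_option autoImplicit false

open scoped MatrixGroups

namespace Crest.Agent.R007.Link

open Lat F


/-! ### Definitions -/

/-- `L_k` = 604's `Mix.Lk`: weight `k`, all odd levels, all `q`-expansions of all `G2`-transforms
in `O`. -/
abbrev LL (O : Subring ℂ) (k : ℕ) : AddSubgroup (Lat.X → ℂ) := Mix.Lk O k

/-- the `q`-expansion of `F` at infinity is `∑ c r q^r` modulo `2 O`. -/
def Cong (O : Subring ℂ) (F : Lat.X → ℂ) (c : ℚ → ZMod 2) : Prop :=
  ∀ r : ℚ, ∃ a ∈ O, (qf (res F)).coeff r = ((c r).val : ℂ) + 2 * a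

/-- the indicator of `0` (reduction of the constant series `1`). -/
def cone : ℚ → ZMod 2 := fun r => if r = 0 then 1 else 0

/-- **(QP)** the `q`-expansion principle modulo 2, pure weight (section D). -/
def QP (O : Subring ℂ) : Prop :=
  ∀ (k : ℕ) (F : Lat.X → ℂ), F ∈ LL O k → (∀ r : ℚ, ∃ a ∈ O, (qf (res F)).coeff r = 2 * a) →
    ∃ G ∈ LL O k, F = (2 : ℂ) • G

/-- output of section E at level `M` (`A` = the weight one Hasse form). -/
structure EOut (O : Subring ℂ) (M : ℕ) (A : Lat.X → ℂ) {κ : Type*} [Field κ] [CharP κ 2]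
    (D : FData κ) where
  P : Type
  fin : Finite P
  /-- `e ∈ Pt_M`, extended to all odd levels -/
  ev : P → (k : ℕ) → LL O k →+ PowerSeries κ
  ev_A : ∀ (p : P) (k : ℕ) (F : LL O k) (G : LL O (k + 1)),
    (G : Lat.X → ℂ) = A * (F : Lat.X → ℂ) → ev p (k + 1) G = PowerSeries.X * ev p k F
  reg : ∀ (k : ℕ) (F : LL O k), (F : Lat.X → ℂ) ∈ MX M k → (∀ p, (PowerSeries.X : PowerSeries κ) ^ k ∣ ev p k F) →
    ∃ c ∈ O, ∃ G ∈ LL O k, (F : Lat.X → ℂ) = c • A ^ k + (2 : ℂ) • G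
  hecke : ∀ (p : P) (δ : GL(2, ℝ)⁺), δ ∈ G2 → ∃ (g : Pr D) (p' : P),
    ∀ (k : ℕ) (F G : LL O k), (F : Lat.X → ℂ) ∈ MX M k → (G : Lat.X → ℂ) = sl (F : Lat.X → ℂ) δ →
      algebraMap (PowerSeries κ) (LaurentSeries κ) (ev p k G) /
          algebraMap (PowerSeries κ) (LaurentSeries κ) PowerSeries.X ^ k =
        extK g.s (algebraMap (PowerSeries κ) (LaurentSeries κ) (ev p' k F) /
          algebraMap (PowerSeries κ) (LaurentSeries κ) PowerSeries.X ^ k)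

/-- output of EMB + TLB. `Q w = ∑_{(n,2N)=1} w(T_n) q^n`. -/
structure EmbOut (O : Subring ℂ) (M : ℕ) {T0 W I : Type*} [CommRing T0] [Algebra (ZMod 2) T0]
    [AddCommGroup W] [Module (ZMod 2) W] [Module T0 W] (gen : I → T0)
    (a : W →ₗ[ZMod 2] ZMod 2) where
  Q : W →+ (ℚ → ZMod 2)
  Q_zero : ∀ w, Q w 0 = 0
  Q_one : ∀ w, Q w 1 = a w
  surj : ∀ w, ∃ k, ∃ F ∈ LL O k, F ∈ MX M k ∧ Cong O F (Q w)
  hk : I → List GL(2, ℝ)⁺
  hk_mem : ∀ i, ∀ g ∈ hk i, g ∈ G2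
  hecke : ∀ (i : I) (w : W) (k : ℕ) (F : Lat.X → ℂ), F ∈ LL O k → F ∈ MX M k → Cong O F (Q w) →
    Cong O ((hk i).map (sl F)).sum (Q (gen i • w))

/-! ### Basic lemmas -/

section Basic

variable {O : Subring ℂ}

theorem LL_MO {k : ℕ} {F : Lat.X → ℂ} (h : F ∈ LL O k) : F ∈ MO k := h.1

theorem LL_PO {k : ℕ} {F : Lat.X → ℂ} (h : F ∈ LL O k) : res F ∈ PO := res_mem_PO h.1

theorem LL_sl {k : ℕ} {F : Lat.X → ℂ} (h : F ∈ LL O k) {g : GL(2, ℝ)⁺} (hg : g ∈ G2) :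
    sl F g ∈ LL O k := Mix.Lk_sl h hg

theorem coeff_mul_mem {x y : HahnSeries ℚ ℂ} (hx : ∀ r, x.coeff r ∈ O) (hy : ∀ r, y.coeff r ∈ O)
    (r : ℚ) : (x * y).coeff r ∈ O := by
  rw [HahnSeries.coeff_mul]
  exact O.sum_mem fun ij _ => O.mul_mem (hx _) (hy _)

theorem LL_mul {k l : ℕ} {F G : Lat.X → ℂ} (hF : F ∈ LL O k) (hG : G ∈ LL O l) :
    F * G ∈ LL O (k + l) := Mix.Lk_mul hF hG

theorem LL_one : (1 : Lat.X → ℂ) ∈ LL O 0 := Mix.Lk_one

theorem LL_pow {k : ℕ} {F : Lat.X → ℂ} (hF : F ∈ LL O k) (n : ℕ) : F ^ n ∈ LL O (n * k) := by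
  induction n with
  | zero => simpa using (LL_one (O := O))
  | succ n ih =>
    rw [pow_succ, add_mul, one_mul]
    exact LL_mul ih hF

theorem LL_coeff {k : ℕ} {F : Lat.X → ℂ} (hF : F ∈ LL O k) (r : ℚ) : (qf (res F)).coeff r ∈ O :=
  (Mix.VV_res (Mix.Lk_le_VV hF)).2 r

theorem LL_smul {k : ℕ} {F : Lat.X → ℂ} (hF : F ∈ LL O k) {c : ℂ} (hc : c ∈ O) :
    c • F ∈ LL O k := Mix.Lk_smul hF hc

theorem Cong.add {F G : Lat.X → ℂ} {c d : ℚ → ZMod 2} (hF : res F ∈ PO) (hG : res G ∈ PO)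
    (h : Cong O F c) (h' : Cong O G d) : Cong O (F + G) (c + d) := by
  intro r
  obtain ⟨a, ha, ea⟩ := h r
  obtain ⟨b, hb, eb⟩ := h' r
  have key : ((c r).val : ℂ) + ((d r).val : ℂ) =
      (((c + d) r).val : ℂ) + 2 * ((((c r).val + (d r).val) / 2 : ℕ) : ℂ) := by
    have h1 : (c r).val + (d r).val = ((c + d) r).val + 2 * (((c r).val + (d r).val) / 2) := by
      rw [Pi.add_apply, ZMod.val_add]
      omega
    exact_mod_cast h1
  refine ⟨(((c r).val + (d r).val) / 2 : ℕ) + a + b,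
    O.add_mem (O.add_mem (natCast_mem O _) ha) hb, ?_⟩
  rw [res_add, qf_add hF hG, HahnSeries.coeff_add, ea, eb]
  linear_combination key

/-- multiplication by a form `≡ 1` -/
theorem Cong.mul_one {A F : Lat.X → ℂ} {c : ℚ → ZMod 2} (hA : res A ∈ PO) (hF : res F ∈ PO)
    (hA1 : Cong O A cone) (hFO : ∀ r, (qf (res F)).coeff r ∈ O) (h : Cong O F c) :
    Cong O (A * F) c := by
  -- `qf A = 1 + 2 a`
  have h1 : ∃ a : HahnSeries ℚ ℂ, (∀ r, a.coeff r ∈ O) ∧ qf (res A) = 1 + (a + a) := by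
    refine ⟨(2 : ℂ)⁻¹ • (qf (res A) - 1), fun r => ?_, ?_⟩
    · obtain ⟨b, hb, eb⟩ := hA1 r
      have h2 : ((cone r).val : ℂ) = (1 : HahnSeries ℚ ℂ).coeff r := by
        rw [cone, HahnSeries.coeff_one]
        split_ifs <;> simp [ZMod.val_one]
      rw [HahnSeries.coeff_smul, HahnSeries.coeff_sub, eb, h2, smul_eq_mul]
      have : (2 : ℂ)⁻¹ * ((1 : HahnSeries ℚ ℂ).coeff r + 2 * b - (1 : HahnSeries ℚ ℂ).coeff r) = b := by
        ring
      rw [this]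
      exact hb
    · apply HahnSeries.ext
      funext r
      rw [HahnSeries.coeff_add, HahnSeries.coeff_add, HahnSeries.coeff_smul, HahnSeries.coeff_sub,
        smul_eq_mul]
      ring
  obtain ⟨a, ha, ea⟩ := h1
  intro r
  obtain ⟨b, hb, eb⟩ := h r
  refine ⟨b + (a * qf (res F)).coeff r, O.add_mem hb (coeff_mul_mem ha hFO r), ?_⟩
  rw [res_mul, qf_mul hA hF, ea, add_mul, _root_.one_mul, HahnSeries.coeff_add, eb, add_mul,
    HahnSeries.coeff_add]
  ring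

theorem Cong.sub_two {F G : Lat.X → ℂ} {c : ℚ → ZMod 2} (hF : res F ∈ PO) (hG : res G ∈ PO)
    (h : Cong O F c) (h' : Cong O G c) : ∀ r : ℚ, ∃ a ∈ O, (qf (res (F - G))).coeff r = 2 * a := by
  intro r
  obtain ⟨a, ha, ea⟩ := h r
  obtain ⟨b, hb, eb⟩ := h' r
  refine ⟨a - b, O.sub_mem ha hb, ?_⟩
  rw [res_sub, qf_sub hF hG, HahnSeries.coeff_sub, ea, eb]
  ring

theorem Cong.zero_of_two {F : Lat.X → ℂ} {c : ℚ → ZMod 2} (h1 : ∀ a ∈ O, (1 : ℂ) ≠ 2 * a)
    (h : Cong O F c) (h' : ∀ r : ℚ, ∃ a ∈ O, (qf (res F)).coeff r = 2 * a) : c = 0 := by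
  funext r
  obtain ⟨a, ha, ea⟩ := h r
  obtain ⟨b, hb, eb⟩ := h' r
  rw [ea] at eb
  have h2 : ∀ x : ZMod 2, x = 0 ∨ x = 1 := by decide
  rcases h2 (c r) with h0 | h0
  · exact h0
  · exfalso
    rw [h0, ZMod.val_one] at eb
    refine h1 (b - a) (O.sub_mem hb ha) ?_
    push_cast at eb
    linear_combination eb

end Basic

/-! ### The link -/

section Main

variable {O : Subring ℂ} {M : ℕ} {A : Lat.X → ℂ} {κ : Type*} [Field κ] [CharP κ 2] {D : FData κ}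

/-- `ev F / t^k` -/
noncomputable def EOut.q (E : EOut O M A D) (p : E.P) (k : ℕ) (F : LL O k) : LaurentSeries κ :=
  algebraMap (PowerSeries κ) (LaurentSeries κ) (E.ev p k F) /
    algebraMap (PowerSeries κ) (LaurentSeries κ) PowerSeries.X ^ k

theorem tne : algebraMap (PowerSeries κ) (LaurentSeries κ) PowerSeries.X ≠ 0 := by
  rw [Ne, FaithfulSMul.algebraMap_eq_zero_iff]
  exact PowerSeries.X_ne_zero

theorem EOut.q_A (E : EOut O M A D) (p : E.P) (k : ℕ) (F : LL O k) (G : LL O (k + 1))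
    (h : (G : Lat.X → ℂ) = A * (F : Lat.X → ℂ)) : E.q p (k + 1) G = E.q p k F := by
  rw [EOut.q, EOut.q, E.ev_A p k F G h, map_mul, pow_succ']
  rw [mul_div_mul_left _ _ tne]

theorem EOut.q_pow (E : EOut O M A D) (hA : A ∈ LL O 1) (p : E.P) (j : ℕ) :
    ∀ (k : ℕ) (F : LL O k) (G : LL O (j + k)),
      (G : Lat.X → ℂ) = A ^ j * (F : Lat.X → ℂ) → E.q p (j + k) G = E.q p k F := by
  induction j with
  | zero =>
    intro k F G h
    have h2 : ∀ (l : ℕ) (hl : l = k) (G : LL O l), (G : Lat.X → ℂ) = (F : Lat.X → ℂ) →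
        E.q p l G = E.q p k F := by
      rintro l rfl G h
      have : G = F := Subtype.ext h
      rw [this]
    exact h2 _ (by omega) G (by rw [h]; simp)
  | succ j ih =>
    intro k F G h
    have hm : A ^ j * (F : Lat.X → ℂ) ∈ LL O (j + k) := by
      have h1 := LL_pow hA j
      rw [mul_one] at h1
      exact LL_mul h1 F.2
    have h3 := ih k F ⟨_, hm⟩ rfl
    rw [← h3]
    have h4 : ∀ (l : ℕ) (hl : l = j + k + 1) (G : LL O l),
        (G : Lat.X → ℂ) = A * (A ^ j * (F : Lat.X → ℂ)) →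
        E.q p l G = E.q p (j + k) ⟨_, hm⟩ := by
      rintro l rfl G h
      exact E.q_A p _ ⟨_, hm⟩ G h
    exact h4 _ (by omega) G (by rw [h]; ring)

theorem EOut.q_add (E : EOut O M A D) (p : E.P) (k : ℕ) (F G : LL O k) :
    E.q p k (F + G) = E.q p k F + E.q p k G := by
  rw [EOut.q, EOut.q, EOut.q, map_add, map_add, add_div]

/-- independence of the representative -/
theorem EOut.q_congr (E : EOut O M A D) (hQP : QP O) (hA : A ∈ LL O 1) (hA1 : Cong O A cone)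
    {c : ℚ → ZMod 2} {k k' : ℕ} (F : LL O k) (F' : LL O k') (h : Cong O F c) (h' : Cong O F' c)
    (p : E.P) : E.q p k F = E.q p k' F' := by
  have hpow : ∀ (j l : ℕ) (G : Lat.X → ℂ), G ∈ LL O l → Cong O G c →
      A ^ j * G ∈ LL O (j + l) ∧ Cong O (A ^ j * G) c := by
    intro j
    induction j with
    | zero => intro l G hG hc; simpa using ⟨hG, hc⟩
    | succ j ih =>
      intro l G hG hc
      obtain ⟨h1, h2⟩ := ih l G hG hc
      have e : A ^ (j + 1) * G = A * (A ^ j * G) := by ring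
      rw [e]
      refine ⟨?_, Cong.mul_one (LL_PO hA) (LL_PO h1) hA1 (LL_coeff h1) h2⟩
      have := LL_mul hA h1
      rwa [show 1 + (j + l) = j + 1 + l by ring] at this
  obtain ⟨h1, h2⟩ := hpow k' k F F.2 h
  obtain ⟨h3, h4⟩ := hpow k k' F' F'.2 h'
  have h1' : A ^ k' * (F : Lat.X → ℂ) ∈ LL O (k + k') := by rwa [add_comm] at h1
  obtain ⟨G, hG, eG⟩ := hQP (k + k') (A ^ k' * (F : Lat.X → ℂ) - A ^ k * (F' : Lat.X → ℂ))
    (sub_mem h1' h3) (Cong.sub_two (LL_PO h1) (LL_PO h3) h2 h4)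
  rw [← E.q_pow hA p k' k F ⟨_, h1⟩ rfl, ← E.q_pow hA p k k' F' ⟨_, h3⟩ rfl]
  have e1 : ∀ (l : ℕ) (hl : l = k + k') (hm : A ^ k' * (F : Lat.X → ℂ) ∈ LL O l),
      E.q p l ⟨_, hm⟩ = E.q p (k + k') ⟨_, h3⟩ := by
    rintro l rfl hm
    have e2 : (⟨_, hm⟩ : LL O (k + k')) = ⟨_, h3⟩ + (⟨G, hG⟩ + ⟨G, hG⟩) := by
      apply Subtype.ext
      have : A ^ k' * (F : Lat.X → ℂ) = A ^ k * (F' : Lat.X → ℂ) + (2 : ℂ) • G := by
        rw [← eG]; ring
      change A ^ k' * (F : Lat.X → ℂ) = A ^ k * (F' : Lat.X → ℂ) + (G + G)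
      rw [this, two_smul]
    rw [e2, E.q_add, E.q_add]
    have : E.q p (k + k') ⟨G, hG⟩ + E.q p (k + k') ⟨G, hG⟩ = 0 := by
      have h2 : CharP (LaurentSeries κ) 2 :=
        charP_of_injective_algebraMap (algebraMap κ (LaurentSeries κ)).injective 2
      exact CharTwo.add_self_eq_zero _
    rw [this, add_zero]
  exact e1 _ (by omega) h1

end Main

end Crest.Agent.R007.Link
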