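import Crest.Agent.R007.ETop2
import Crest.Agent.R007.Link

/-!
Row 7, section E (helper853): `EOut` from `EIn`.
-/

set_option autoImplicit false

namespace Crest.Agent.R007.EL

open UpperHalfPlane ModularForm CongruenceSubgroup Matrix Crest.LubinTate
open Crest.Agent.R007.Lat Crest.Agent.R007.Mix
open scoped MatrixGroups Manifold ModularForm

variable {O : Subring ℂ} {κ : Type*} [Field κ] [CharP κ 2] {ρ : O →+* κ}

/-! ### regularity -/

/-- elements of level `M`, weight `j`, with value divisible by `t^j` -/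
def WE (M : ℕ) [NeZero M] (e : LL O →+* PowerSeries κ) (j : ℕ) : AddSubgroup (LM O M) where
  carrier := {x | (x : X → ℂ) ∈ BM O M j ∧ PowerSeries.X ^ j ∣ e (incM O M x)}
  add_mem' := by
    rintro x y ⟨h1, h2⟩ ⟨h3, h4⟩
    exact ⟨add_mem h1 h3, by rw [map_add, map_add]; exact dvd_add h2 h4⟩
  zero_mem' := ⟨zero_mem _, by rw [map_zero, map_zero]; exact dvd_zero _⟩
  neg_mem' := by
    rintro x ⟨h1, h2⟩
    exact ⟨neg_mem h1, by rw [map_neg, map_neg]; exact (dvd_neg).2 h2⟩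

theorem mem_WE {M : ℕ} [NeZero M] {e : LL O →+* PowerSeries κ} {j : ℕ} {x : LM O M} :
    x ∈ WE M e j ↔ (x : X → ℂ) ∈ BM O M j ∧ PowerSeries.X ^ j ∣ e (incM O M x) := Iff.rfl

/-- level one, regular ⟹ reduced `q`-expansion constant -/
theorem EIn.qL_const (E : EIn O ρ) {e : LL O →+* PowerSeries κ} (he : E.Pt e) {k : ℕ} {F : X → ℂ}
    (hF : F ∈ Lk O k) (h1 : F ∈ MX 1 k) (hd : PowerSeries.X ^ k ∣ e (mkL O F hF)) :
    ∃ b : κ, qL ρ (mkL O F hF) = HahnSeries.C b := by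
  obtain ⟨c, hc, G, hG, h⟩ := E.e_lev1 hF h1
  rw [hc e he] at hd
  have h0 := coeff_zero_of_dvd (fun i => ρ (c i)) hd
  refine ⟨ρ (c 0), ?_⟩
  have hA1 : qL ρ E.a1 = 1 := by
    have h2 : qL ρ (E.a1 - 1) = 0 := qL_of_two E.ρ_ker E.hasse_inf
    rw [map_sub, map_one, sub_eq_zero] at h2
    exact h2
  have h3 : mkL O F hF = ∑ i ∈ Finset.range (k / 12 + 1), cst O (c i) *
      ((E.a3 ^ 3 * (E.a1 ^ 3 - 27 * E.a3)) ^ i * E.a1 ^ (k - 12 * i)) + 2 * mkL O G hG := by
    apply Subtype.ext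
    rw [mkL_coe]
    conv_lhs => rw [h]
    have h4 := map_sum (LL O).subtype (fun i => cst O (c i) *
      ((E.a3 ^ 3 * (E.a1 ^ 3 - 27 * E.a3)) ^ i * E.a1 ^ (k - 12 * i))) (Finset.range (k / 12 + 1))
    have h5 : ((∑ i ∈ Finset.range (k / 12 + 1), cst O (c i) *
      ((E.a3 ^ 3 * (E.a1 ^ 3 - 27 * E.a3)) ^ i * E.a1 ^ (k - 12 * i)) + 2 * mkL O G hG : LL O) : X → ℂ)
       = (LL O).subtype (∑ i ∈ Finset.range (k / 12 + 1), cst O (c i) *
      ((E.a3 ^ 3 * (E.a1 ^ 3 - 27 * E.a3)) ^ i * E.a1 ^ (k - 12 * i))) + 2 * G := rfl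
    rw [h5, h4]
    congr 1
    refine Finset.sum_congr rfl fun i _ => ?_
    change _ = ((c i : ℂ) • (1 : X → ℂ)) * (Disc E.A1 E.A3 ^ i * E.A1 ^ (k - 12 * i))
    rw [smul_mul_assoc, one_mul]
  have h2z : qL ρ (2 * mkL O G hG) = 0 := by
    refine qL_of_two E.ρ_ker ?_
    exact two_res_of_VV (Lk_le_VV hG)
  rw [h3, map_add, h2z, add_zero, map_sum, Finset.sum_eq_single 0]
  · rw [map_mul, qL_cst, map_mul, pow_zero, map_one, map_pow, hA1, one_pow, mul_one, mul_one]
  · intro i hi hi0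
    have := h0 i hi hi0
    rw [map_mul, qL_cst, this, map_zero, zero_mul]
  · intro h; exact absurd (Finset.mem_range.2 (by omega)) h

variable [IsAlgClosed κ]

/-- regularity is stable under `SL₂(ℤ)` -/
theorem EIn.reg_sl (E : EIn O ρ) {k : ℕ} {F : LL O} (hF : F ∈ piece O k)
    (h : ∀ e, E.Pt e → PowerSeries.X ^ k ∣ e F) {e : LL O →+* PowerSeries κ} (he : E.Pt e)
    (δ : GL(2, ℝ)⁺) (hδ : δ ∈ G2) : PowerSeries.X ^ k ∣ e (slL O δ hδ F) := by
  obtain ⟨p, e', he', hk⟩ := E.step he δ hδ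
  exact (EStep.dvd_of_cross p.s (hk k F hF)).2 (h e' he')

/-- **regular at all points ⟹ constant** -/
theorem EIn.regular (E : EIn O ρ) (M : ℕ) [NeZero M] {k : ℕ} {F : X → ℂ} (hF : F ∈ Lk O k)
    (hM : F ∈ MX M k) (h : ∀ e, E.Pt e → PowerSeries.X ^ k ∣ e (mkL O F hF)) :
    ∃ c ∈ O, ∃ G ∈ Lk O k, F = c • E.A1 ^ k + (2 : ℂ) • G := by
  classical
  obtain ⟨e, he⟩ := E.exists_pt
  have : Fintype (GM M) := Fintype.ofFinite _
  let x : LM O M := ⟨F, le_SR (famM O M) ⟨hF, hM⟩⟩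
  let P : Polynomial (LM O M) := ∏ g : GM M, (Polynomial.X - Polynomial.C (g • x))
  set n := (Finset.univ : Finset (GM M)).card with hn
  -- the conjugates are regular
  have hx : ∀ g : GM M, g • x ∈ WE M e k := by
    intro g
    obtain ⟨γ, rfl⟩ := QuotientGroup.mk_surjective g
    refine ⟨BM_sl O M _ k F ⟨hF, hM⟩, ?_⟩
    have h1 := E.reg_sl (F := mkL O F hF) hF h he (sG γ⁻¹) (sG_mem_G2 γ⁻¹)
    have h2 : incM O M ((γ : GM M) • x) = slL O (sG γ⁻¹) (sG_mem_G2 γ⁻¹) (mkL O F hF) :=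
      Subtype.ext rfl
    rw [h2]
    exact h1
  -- homogeneity and regularity of coefficients
  have hcoef : ∀ m, m ≤ n → P.coeff m ∈ WE M e ((n - m) * k) := by
    intro m hm
    refine coeff_prod_mem (WE M e) ⟨⟨Lk_one, MX_one⟩, by simp⟩ ?_ (fun g : GM M => g • x) hx
      Finset.univ m hm
    rintro i j a ⟨h1, h2⟩ b ⟨h3, h4⟩
    refine ⟨(famM O M).mul h1 h3, ?_⟩
    rw [map_mul, map_mul, pow_add]
    exact mul_dvd_mul h2 h4
  -- invariance
  have hinv : ∀ g : GM M, P.map (MulSemiringAction.toRingHom (GM M) (LM O M) g) = P := by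
    intro g
    simp only [P, Polynomial.map_prod, Polynomial.map_sub, Polynomial.map_X, Polynomial.map_C,
      MulSemiringAction.toRingHom_apply, smul_smul]
    exact Fintype.prod_equiv (Equiv.mulLeft g) _ _ (fun _ => rfl)
  have hinv' : ∀ (m : ℕ) (g : GM M), g • P.coeff m = P.coeff m := by
    intro m g
    have h1 := congrArg (fun Q => Polynomial.coeff Q m) (hinv g)
    simpa [Polynomial.coeff_map] using h1
  -- coefficients have constant reduced q-expansion
  have hconst : ∀ m, m ≤ n → ∃ b : κ, qL ρ (incM O M (P.coeff m)) = HahnSeries.C b := by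
    intro m hm
    obtain ⟨h1, h2⟩ := hcoef m hm
    have h3 : ((P.coeff m : LM O M) : X → ℂ) ∈ MX 1 ((n - m) * k) := by
      refine MX_one_of_inv' h1.2 fun γ => ?_
      have h4 := hinv' m ((γ⁻¹ : SL(2, ℤ)) : GM M)
      rw [smul_def, inv_inv] at h4
      exact congrArg (Subtype.val : LM O M → X → ℂ) h4
    have h5 : incM O M (P.coeff m) = mkL O _ h1.1 := Subtype.ext rfl
    rw [h5] at h2 ⊢
    exact E.qL_const he h1.1 h3 h2
  have hmonic : P.Monic := Polynomial.monic_prod_of_monic _ _ fun g _ => Polynomial.monic_X_sub_C _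
  have : Nonempty X := ⟨⟨UpperHalfPlane.I, 1⟩⟩
  have : Nontrivial (LM O M) := inferInstance
  have hdeg : P.natDegree = n := by
    rw [Polynomial.natDegree_prod_of_monic _ _ fun g _ => Polynomial.monic_X_sub_C _]
    simp only [Polynomial.natDegree_X_sub_C, Finset.sum_const, smul_eq_mul, mul_one, hn]
  choose b hb using fun m : Fin (n + 1) => hconst m (Nat.lt_succ_iff.1 m.2)
  let B : ℕ → κ := fun m => if h : m < n + 1 then b ⟨m, h⟩ else 0
  have hB : ∀ m, m ≤ n → qL ρ (incM O M (P.coeff m)) = HahnSeries.C (B m) := by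
    intro m hm
    have : B m = b ⟨m, by omega⟩ := dif_pos (by omega)
    rw [this]
    exact hb ⟨m, by omega⟩
  let p : Polynomial κ := ∑ m ∈ Finset.range (n + 1), Polynomial.C (B m) * Polynomial.X ^ m
  have hBn : B n = 1 := by
    have h1 := hB n le_rfl
    have h2 : P.coeff n = 1 := by rw [← hdeg]; exact hmonic
    rw [h2, map_one, map_one] at h1
    have h3 : (HahnSeries.C (1 : κ) : HahnSeries ℚ κ) = HahnSeries.C (B n) := by rw [← h1, map_one]
    exact (HahnSeries.C_injective h3).symm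
  have hp0 : p ≠ 0 := by
    intro h0
    have h1 : p.coeff n = B n := by
      simp only [p, Polynomial.finsetSum_coeff, Polynomial.coeff_C_mul_X_pow]
      rw [Finset.sum_eq_single n]
      · simp
      · intro j _ hj
        rw [if_neg (Ne.symm hj)]
      · intro h; exact absurd (Finset.mem_range.2 (by omega)) h
    rw [h0, Polynomial.coeff_zero, hBn] at h1
    exact zero_ne_one h1
  have hroot : P.eval x = 0 := by
    rw [Polynomial.eval_prod]
    apply Finset.prod_eq_zero (Finset.mem_univ (1 : GM M))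
    rw [one_smul]; simp
  have hp : p.eval₂ (HahnSeries.C : κ →+* HahnSeries ℚ κ) (qL ρ (mkL O F hF)) = 0 := by
    have h1 := congrArg ((qL ρ).comp (incM O M)) hroot
    rw [map_zero, Polynomial.eval_eq_sum_range, hdeg, map_sum] at h1
    simp only [p, Polynomial.eval₂_finsetSum, Polynomial.eval₂_mul, Polynomial.eval₂_C,
      Polynomial.eval₂_pow, Polynomial.eval₂_X]
    rw [← h1]
    refine Finset.sum_congr rfl fun m hm => ?_
    rw [map_mul, map_pow, RingHom.comp_apply, hB m (Nat.lt_succ_iff.1 (Finset.mem_range.1 hm))]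
    rfl
  obtain ⟨a, ha⟩ := ECore2.algebraic_const_hahn hp0 hp
  obtain ⟨c, rfl⟩ := E.ρ_surj a
  have hA1 : qL ρ E.a1 = 1 := by
    have h2 : qL ρ (E.a1 - 1) = 0 := qL_of_two E.ρ_ker E.hasse_inf
    rw [map_sub, map_one, sub_eq_zero] at h2
    exact h2
  have hz : qL ρ (mkL O F hF - cst O c * E.a1 ^ k) = 0 := by
    rw [map_sub, map_mul, map_pow, hA1, one_pow, mul_one, qL_cst, ha, sub_self]
  have hT := qL_coeff_eq_zero E.ρ_ker hz
  have hA1k : E.A1 ^ k ∈ Lk O k := by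
    have := Link.LL_pow E.A1_mem k
    rwa [mul_one] at this
  have hmem : F - (c : ℂ) • E.A1 ^ k ∈ Lk O k := sub_mem hF (Lk_smul hA1k c.2)
  have hT' : Two O (res (F - (c : ℂ) • E.A1 ^ k)) := by
    have e1 : ((mkL O F hF - cst O c * E.a1 ^ k : LL O) : X → ℂ) = F - (c : ℂ) • E.A1 ^ k := by
      change F - ((c : ℂ) • (1 : X → ℂ)) * E.A1 ^ k = _
      rw [smul_mul_assoc, one_mul]
    rwa [e1] at hT
  obtain ⟨G, hG, hG'⟩ := E.qprin k _ hmem hT'
  refine ⟨c, c.2, G, hG, ?_⟩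
  rw [← two_mul_eq_smul, ← hG']
  abel

/-! ### the output -/

open Classical in
/-- the point of `L` attached to a class -/
noncomputable def EIn.pt (E : EIn O ρ) (M : ℕ) [NeZero M] (q : GM M) : LL O →+* PowerSeries κ :=
  if h : ∃ e : LL O →+* PowerSeries κ, E.Pt e ∧
      ∀ b : LM O M, e (incM O M b) = E.exists_pt.choose (incM O M (q • b)) then h.choose
  else E.exists_pt.choose

theorem EIn.pt_mem (E : EIn O ρ) (M : ℕ) [NeZero M] (q : GM M) : E.Pt (E.pt M q) := by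
  rw [EIn.pt]
  split_ifs with h
  · exact h.choose_spec.1
  · exact E.exists_pt.choose_spec

theorem EIn.exists_pt_eq (E : EIn O ρ) (M : ℕ) [NeZero M] {e : LL O →+* PowerSeries κ}
    (he : E.Pt e) : ∃ q : GM M, ∀ b : LM O M, E.pt M q (incM O M b) = e (incM O M b) := by
  obtain ⟨q, hq⟩ := E.transitive M E.exists_pt.choose_spec he
  refine ⟨q, fun b => ?_⟩
  have h : ∃ e : LL O →+* PowerSeries κ, E.Pt e ∧
      ∀ b : LM O M, e (incM O M b) = E.exists_pt.choose (incM O M (q • b)) := ⟨e, he, hq⟩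
  rw [EIn.pt, dif_pos h, h.choose_spec.2 b, hq b]

/-- **OUTPUT OF SECTION E** -/
noncomputable def EIn.out (E : EIn O ρ) (M : ℕ) [NeZero M] : Link.EOut O M E.A1 E.D where
  P := GM M
  fin := inferInstance
  ev q k :=
    { toFun := fun F => E.pt M q (mkL O F.1 F.2)
      map_zero' := by
        have : mkL O ((0 : Link.LL O k) : X → ℂ) (0 : Link.LL O k).2 = 0 := Subtype.ext rfl
        rw [this, map_zero]
      map_add' := fun F G => by
        have : mkL O ((F + G : Link.LL O k) : X → ℂ) (F + G).2 = mkL O F.1 F.2 + mkL O G.1 G.2 :=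
          Subtype.ext rfl
        rw [this, map_add] }
  ev_A q k F G h := by
    change E.pt M q (mkL O G.1 G.2) = PowerSeries.X * E.pt M q (mkL O F.1 F.2)
    have : mkL O G.1 G.2 = E.a1 * mkL O F.1 F.2 := Subtype.ext h
    rw [this, map_mul, (E.pt_mem M q).A1]
  reg k F hM h := by
    refine E.regular M F.2 hM fun e he => ?_
    obtain ⟨q, hq⟩ := E.exists_pt_eq M he
    have h1 := h q
    have h2 := hq ⟨F.1, le_SR (famM O M) ⟨F.2, hM⟩⟩
    have h3 : incM O M ⟨F.1, le_SR (famM O M) ⟨F.2, hM⟩⟩ = mkL O F.1 F.2 := Subtype.ext rfl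
    rw [h3] at h2
    rw [← h2]
    exact h1
  hecke q δ hδ := by
    obtain ⟨p, e', he', hk⟩ := E.step (E.pt_mem M q) δ hδ
    obtain ⟨q', hq'⟩ := E.exists_pt_eq M he'
    refine ⟨p, q', fun k F G hM hG => ?_⟩
    apply EStep.ext_of_cross
    change E.pt M q (mkL O G.1 G.2) * _ = p.s (E.pt M q' (mkL O F.1 F.2)) * _
    have h2 := hq' ⟨F.1, le_SR (famM O M) ⟨F.2, hM⟩⟩
    have h3 : incM O M ⟨F.1, le_SR (famM O M) ⟨F.2, hM⟩⟩ = mkL O F.1 F.2 := Subtype.ext rfl
    rw [h3] at h2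
    have h4 : mkL O G.1 G.2 = slL O δ hδ (mkL O F.1 F.2) := Subtype.ext hG
    rw [h2, h4]
    exact hk k (mkL O F.1 F.2) F.2

end Crest.Agent.R007.EL
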