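import Crest.Agent.R007.EIn
import Crest.Agent.R007.ECore1

/-!
Row 7, section E (helper853): level `M` subring of `L`, action of `SL(2,ℤ) ⧸ Γ(M)`, transitivity,
the finite set of points of level `M`, Hecke step.
-/

set_option autoImplicit false

namespace Crest.Agent.R007.EL

open UpperHalfPlane ModularForm CongruenceSubgroup Matrix Crest.LubinTate
open Crest.Agent.R007.Lat Crest.Agent.R007.Mix
open scoped MatrixGroups Manifold ModularForm

/-! ### level `M` -/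

section Level

theorem MX_sl_SL' {M : ℕ} [NeZero M] {k : ℕ} {F : X → ℂ} (hF : F ∈ MX M k) (γ : SL(2, ℤ)) :
    sl F (sG γ) ∈ MX M k := by
  have := MX_sl_iG hF γ.1 (by simp)
  have h1 : M * γ.1.det.natAbs = M := by simp
  rw [h1] at this
  exact this

theorem MX_one_of_inv' {M : ℕ} [NeZero M] {k : ℕ} {F : X → ℂ} (hF : F ∈ MX M k)
    (h : ∀ γ : SL(2, ℤ), sl F (sG γ) = F) : F ∈ MX 1 k := by
  rw [mem_MX_iff] at hF ⊢
  exact ⟨hF.1, fun γ _ => h γ, hF.2.2⟩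

variable (O : Subring ℂ) (M : ℕ) [NeZero M]

/-- the family `L_k ∩ MX M k` -/
def BM (k : ℕ) : AddSubgroup (X → ℂ) := Lk O k ⊓ (MX M k).toAddSubgroup

theorem mem_BM {k : ℕ} {F : X → ℂ} : F ∈ BM O M k ↔ F ∈ Lk O k ∧ F ∈ MX M k := Iff.rfl

theorem famM : Fam (BM O M) :=
  ⟨⟨Lk_one, MX_one⟩, fun h h' => ⟨Lk_mul h.1 h'.1, MX_mul h.2 h'.2⟩, fun h => MO_le_Wt h.1.1⟩

/-- the subring of level `M` -/
abbrev LM : Subring (X → ℂ) := SR (famM O M)

theorem LM_le : LM O M ≤ LL O := by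
  rintro F ⟨n, f, hf, h⟩
  exact ⟨n, f, fun k => (hf k).1, h⟩

/-- the inclusion -/
def incM : LM O M →+* LL O := Subring.inclusion (LM_le O M)

@[simp] theorem incM_coe (x : LM O M) : ((incM O M x : LL O) : X → ℂ) = x := rfl

theorem BM_sl (γ : SL(2, ℤ)) (k : ℕ) (F : X → ℂ) (hF : F ∈ BM O M k) : sl F (sG γ) ∈ BM O M k :=
  ⟨Lk_sl hF.1 (sG_mem_G2 γ), MX_sl_SL' hF.2 γ⟩

noncomputable def slM (γ : SL(2, ℤ)) : LM O M →+* LM O M := slR (famM O M) (sG γ) (BM_sl O M γ)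

@[simp] theorem slM_coe (γ : SL(2, ℤ)) (x : LM O M) : ((slM O M γ x : LM O M) : X → ℂ) = sl x (sG γ) :=
  rfl

theorem slM_mul (γ δ : SL(2, ℤ)) (x : LM O M) : slM O M (γ * δ) x = slM O M δ (slM O M γ x) := by
  apply Subtype.ext
  rw [slM_coe, slM_coe, slM_coe, sG_mul, sl_mul_right]

theorem slM_one (x : LM O M) : slM O M 1 x = x := by
  apply Subtype.ext
  rw [slM_coe, sG_one, sl_one_right]

/-- `γ ↦ (F ↦ F ∥ γ⁻¹)` -/
noncomputable def autM : SL(2, ℤ) →* RingAut (LM O M) where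
  toFun γ := RingEquiv.ofRingHom (slM O M γ⁻¹) (slM O M γ)
    (by
      ext1 x
      rw [RingHom.comp_apply, ← slM_mul, mul_inv_cancel, slM_one]; rfl)
    (by
      ext1 x
      rw [RingHom.comp_apply, ← slM_mul, inv_mul_cancel, slM_one]; rfl)
  map_one' := by
    ext1 x
    change slM O M (1⁻¹) x = x
    rw [inv_one, slM_one]
  map_mul' γ δ := by
    ext1 x
    change slM O M (γ * δ)⁻¹ x = slM O M γ⁻¹ (slM O M δ⁻¹ x)
    rw [_root_.mul_inv_rev, slM_mul]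

theorem autM_apply (γ : SL(2, ℤ)) (x : LM O M) : autM O M γ x = slM O M γ⁻¹ x := rfl

theorem autM_mem (γ : SL(2, ℤ)) (hγ : γ ∈ Gamma M) : autM O M γ = 1 := by
  ext1 x
  change slM O M γ⁻¹ x = x
  apply Subtype.ext
  obtain ⟨n, f, hf, h⟩ := x.2
  rw [slM_coe, h, sl_sum]
  refine Finset.sum_congr rfl fun k _ => ?_
  exact (mem_MX_iff.1 (hf k).2).2.1 _ (inv_mem hγ)

instance : (Gamma M).Normal := Gamma_normal M

/-- the finite group -/
abbrev GM : Type := SL(2, ℤ) ⧸ Gamma M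

noncomputable def qautM : GM M →* RingAut (LM O M) :=
  QuotientGroup.lift (Gamma M) (autM O M) (autM_mem O M)

noncomputable instance actM : MulSemiringAction (GM M) (LM O M) :=
  MulSemiringAction.compHom (LM O M) (qautM O M)

theorem smul_def (γ : SL(2, ℤ)) (x : LM O M) : ((γ : GM M) • x) = slM O M γ⁻¹ x := rfl

instance : Finite (GM M) := by
  have : (Gamma M).FiniteIndex := inferInstance
  infer_instance

/-- invariant elements have level one components -/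
theorem exists_level_one {x : LM O M} (hx : ∀ g : GM M, g • x = x) :
    ∃ (n : ℕ) (f : ℕ → X → ℂ), (∀ k, f k ∈ Lk O k ∧ f k ∈ MX 1 k) ∧
      (x : X → ℂ) = ∑ k ∈ Finset.range n, f k := by
  obtain ⟨n, f, hf, h⟩ := x.2
  refine ⟨n, fun k => if k < n then f k else 0, fun k => ?_, ?_⟩
  · show (if k < n then f k else 0) ∈ Lk O k ∧ (if k < n then f k else 0) ∈ MX 1 k
    split_ifs with hk
    · refine ⟨(hf k).1, MX_one_of_inv' (hf k).2 fun γ => ?_⟩
      have h1 := hx ((γ⁻¹ : SL(2, ℤ)) : GM M)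
      rw [smul_def, inv_inv] at h1
      have h2 := congrArg (Subtype.val : LM O M → X → ℂ) h1
      rw [slM_coe, h, sl_sum] at h2
      exact Wt_unique (fun k => Wt_sl (MX_le_Wt (hf k).2) _) (fun k => MX_le_Wt (hf k).2) h2 k hk
    · exact ⟨zero_mem _, zero_mem _⟩
  · rw [h]
    exact Finset.sum_congr rfl fun k hk => (if_pos (Finset.mem_range.1 hk)).symm

end Level

/-! ### points -/

section Points

variable {O : Subring ℂ} {κ : Type*} [Field κ] [CharP κ 2] {ρ : O →+* κ}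

/-- `A₁` as an element of `L` -/
def EIn.a1 (E : EIn O ρ) : LL O := mkL O E.A1 E.A1_mem
/-- `A₃` as an element of `L` -/
def EIn.a3 (E : EIn O ρ) : LL O := mkL O E.A3 E.A3_mem

@[simp] theorem EIn.a1_coe (E : EIn O ρ) : ((E.a1 : LL O) : X → ℂ) = E.A1 := rfl
@[simp] theorem EIn.a3_coe (E : EIn O ρ) : ((E.a3 : LL O) : X → ℂ) = E.A3 := rfl

/-- `Pt₀` -/
abbrev EIn.Pt (E : EIn O ρ) (e : LL O →+* PowerSeries κ) : Prop := IsPt ρ E.a1 E.a3 e

theorem two_zero : (2 : PowerSeries κ) = 0 := CharTwo.two_eq_zero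

theorem map_two_mul (e : LL O →+* PowerSeries κ) (x : LL O) : e (2 * x) = 0 := by
  rw [map_mul, map_ofNat, two_zero, zero_mul]

theorem eq_add_two {k : ℕ} {e : LL O →+* PowerSeries κ} {x y : LL O} {G : X → ℂ} (hG : G ∈ Lk O k)
    (h : (x : X → ℂ) = (y : X → ℂ) + 2 * G) : e x = e y := by
  have : x = y + 2 * mkL O G hG := Subtype.ext h
  rw [this, map_add, map_two_mul, add_zero]

theorem EIn.e_disc (E : EIn O ρ) {e : LL O →+* PowerSeries κ} (he : E.Pt e) :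
    e (E.a3 ^ 3 * (E.a1 ^ 3 - 27 * E.a3)) = 1 + PowerSeries.X ^ 3 := by
  rw [map_mul, map_pow, map_sub, map_pow, map_mul, map_ofNat, he.A1, he.A3, one_pow, one_mul, mul_one]
  have h2 : (2 : PowerSeries κ) = 0 := two_zero
  linear_combination (-14 : PowerSeries κ) * h2

theorem isUnit_one_add : IsUnit (1 + PowerSeries.X ^ 3 : PowerSeries κ) := by
  rw [ECore2.isUnit_iff_cc]
  simp

theorem EIn.e_sl_a1 (E : EIn O ρ) {e : LL O →+* PowerSeries κ} (he : E.Pt e) (δ : GL(2, ℝ)⁺)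
    (hδ : δ ∈ G2) : e (slL O δ hδ E.a1) = PowerSeries.X := by
  obtain ⟨G, hG, h⟩ := E.hasse δ hδ
  rw [← he.A1]
  exact eq_add_two hG h

theorem EIn.e_sl_a3 (E : EIn O ρ) {e : LL O →+* PowerSeries κ} (he : E.Pt e) (δ : GL(2, ℝ)⁺)
    (hδ : δ ∈ G2) : IsUnit (e (slL O δ hδ E.a3)) := by
  obtain ⟨j, G, hG, h⟩ := E.unit δ hδ
  have h1 : slL O δ hδ E.a3 * ⟨G, hG⟩ = (E.a3 ^ 3 * (E.a1 ^ 3 - 27 * E.a3)) ^ j := Subtype.ext h
  have h2 := congrArg e h1
  rw [map_mul, map_pow, E.e_disc he] at h2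
  exact isUnit_of_mul_isUnit_left (h2 ▸ isUnit_one_add.pow j)

/-- value on level one elements -/
theorem EIn.e_lev1 (E : EIn O ρ) {k : ℕ} {F : X → ℂ} (hF : F ∈ Lk O k) (h1 : F ∈ MX 1 k) :
    ∃ c : ℕ → O, (∀ e : LL O →+* PowerSeries κ, E.Pt e → e (mkL O F hF) =
      ∑ i ∈ Finset.range (k / 12 + 1), PowerSeries.C (ρ (c i)) *
        ((1 + PowerSeries.X ^ 3) ^ i * PowerSeries.X ^ (k - 12 * i))) ∧
      ∃ G ∈ Lk O k, F = ∑ i ∈ Finset.range (k / 12 + 1),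
        (c i : ℂ) • ((Disc E.A1 E.A3) ^ i * E.A1 ^ (k - 12 * i)) + 2 * G := by
  obtain ⟨c, G, hG, h⟩ := E.lev1 k F hF h1
  refine ⟨c, fun e he => ?_, G, hG, h⟩
  have h2 : e (mkL O F hF) = e (∑ i ∈ Finset.range (k / 12 + 1), cst O (c i) *
      ((E.a3 ^ 3 * (E.a1 ^ 3 - 27 * E.a3)) ^ i * E.a1 ^ (k - 12 * i))) := by
    apply eq_add_two hG
    rw [mkL_coe, h]
    congr 1
    have h3 := map_sum (LL O).subtype (fun i => cst O (c i) *
      ((E.a3 ^ 3 * (E.a1 ^ 3 - 27 * E.a3)) ^ i * E.a1 ^ (k - 12 * i))) (Finset.range (k / 12 + 1))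
    refine Eq.trans ?_ h3.symm
    refine Finset.sum_congr rfl fun i _ => ?_
    change _ = ((c i : ℂ) • (1 : X → ℂ)) * (Disc E.A1 E.A3 ^ i * E.A1 ^ (k - 12 * i))
    rw [smul_mul_assoc, one_mul]
  rw [h2, map_sum]
  refine Finset.sum_congr rfl fun i _ => ?_
  rw [map_mul, map_mul, map_pow, map_pow, E.e_disc he, he.c, he.A1]

/-- **transitivity** -/
theorem EIn.transitive (E : EIn O ρ) (M : ℕ) [NeZero M] {e e' : LL O →+* PowerSeries κ}
    (he : E.Pt e) (he' : E.Pt e') : ∃ g : GM M, ∀ b : LM O M, e' (incM O M b) = e (incM O M (g • b)) := by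
  refine ECore.exists_smul_eq (G := GM M) (e.comp (incM O M)) (e'.comp (incM O M)) fun b hb => ?_
  obtain ⟨n, f, hf, h⟩ := exists_level_one O M hb
  have h1 : incM O M b = ∑ k ∈ Finset.range n, mkL O (f k) (hf k).1 := by
    apply Subtype.ext
    rw [incM_coe, h]
    exact (map_sum (LL O).subtype (fun k => mkL O (f k) (hf k).1) (Finset.range n)).symm
  rw [RingHom.comp_apply, RingHom.comp_apply, h1, map_sum, map_sum]
  refine Finset.sum_congr rfl fun k _ => ?_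
  obtain ⟨c, hc, -⟩ := E.e_lev1 (hf k).1 (hf k).2
  rw [hc e he, hc e' he']

variable [IsAlgClosed κ]

/-- **the step** `e ↦ e'_δ` -/
theorem EIn.step (E : EIn O ρ) {e : LL O →+* PowerSeries κ} (he : E.Pt e) (δ : GL(2, ℝ)⁺)
    (hδ : δ ∈ G2) : ∃ (p : F.Pr E.D) (e' : LL O →+* PowerSeries κ), E.Pt e' ∧
      ∀ k, ∀ F ∈ piece O k, e (slL O δ hδ F) * p.s PowerSeries.X ^ k = p.s (e' F) * PowerSeries.X ^ k := by
  obtain ⟨H, hH, hu⟩ := E.fg e he δ hδ
  have hH' : IsFGHom (E.Phi ((e.comp (slL O δ hδ)) E.a1) ((e.comp (slL O δ hδ)) E.a3))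
      (E.Phi PowerSeries.X 1) H := hH
  obtain ⟨p, e', h1, h3, h0, hk⟩ := EStep.step (piece O) (pc_one (famL O)) (pc_mul (famL O))
    (pc_internal (famL O)) (A1 := E.a1) (A3 := E.a3) E.A1_mem E.A3_mem E.D E.Phi E.Phi_map E.Phi_D
    E.Phi_sc (e.comp (slL O δ hδ)) (E.e_sl_a1 he δ hδ) (E.e_sl_a3 he δ hδ) hH' hu
  refine ⟨p, e', ⟨fun c => ?_, h1, h3⟩, hk⟩
  apply h0 _ (cst_mem O c)
  have : slL O δ hδ (cst O c) = cst O c := Subtype.ext rfl
  rw [RingHom.comp_apply, this, he.c]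

end Points

end Crest.Agent.R007.EL
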