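import Crest.Agent.R007.ETop1

/-!
Row 7, section E (helper853): regular at all points ⟹ constant.
-/

set_option autoImplicit false

namespace Crest.Agent.R007.EL

open UpperHalfPlane ModularForm CongruenceSubgroup Matrix Crest.LubinTate
open Crest.Agent.R007.Lat Crest.Agent.R007.Mix
open scoped MatrixGroups Manifold ModularForm

/-! ### the reduced `q`-expansion -/

section QBar

variable {O : Subring ℂ} {κ : Type*} [Field κ]

/-- the `q`-expansion with coefficients in `O` -/
noncomputable def qOf (f : IntO O) : HahnSeries ℚ O where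
  coeff r := ⟨(qf f.1).coeff r, f.2.2 r⟩
  isPWO_support' := (qf f.1).isPWO_support.mono (by
    intro r hr h0
    apply hr
    exact Subtype.ext h0)

theorem qOf_coeff (f : IntO O) (r : ℚ) : (((qOf f).coeff r : O) : ℂ) = (qf f.1).coeff r := rfl

theorem qOf_map (f : IntO O) : (qOf f).map O.subtype = qf f.1 := by
  ext r; rfl

theorem map_sub_inj {x y : HahnSeries ℚ O} (h : x.map O.subtype = y.map O.subtype) : x = y := by
  ext r
  have := congrArg (fun z => HahnSeries.coeff z r) h
  simpa using this

/-- the `q`-expansion, ring hom to `HahnSeries ℚ O` -/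
noncomputable def qO (O : Subring ℂ) : IntO O →+* HahnSeries ℚ O where
  toFun := qOf
  map_one' := by
    ext r
    rw [qOf_coeff]
    change (qf 1).coeff r = _
    rw [qf_one, HahnSeries.coeff_one, HahnSeries.coeff_one]
    split_ifs <;> rfl
  map_zero' := by
    ext r
    rw [qOf_coeff]
    change (qf 0).coeff r = _
    rw [qf_zero]; rfl
  map_add' f g := by
    ext r
    rw [qOf_coeff, HahnSeries.coeff_add]
    change (qf (f.1 + g.1)).coeff r = _
    rw [qf_add f.2.1 g.2.1, HahnSeries.coeff_add]; rfl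
  map_mul' f g := by
    apply map_sub_inj
    have h := HahnSeries.map_mul (O.subtype : O →ₙ+* ℂ) (x := qOf f) (y := qOf g)
    rw [qOf_map]
    change qf (f.1 * g.1) = _
    rw [qf_mul f.2.1 g.2.1, ← qOf_map f, ← qOf_map g]
    exact h.symm

/-- coefficientwise application of a ring hom -/
noncomputable def hmap {R S : Type*} [CommRing R] [CommRing S] (ρ : R →+* S) :
    HahnSeries ℚ R →+* HahnSeries ℚ S where
  toFun x := x.map ρ
  map_one' := by
    ext r
    rw [HahnSeries.map_coeff, HahnSeries.coeff_one, HahnSeries.coeff_one]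
    split_ifs <;> simp
  map_zero' := by ext r; simp
  map_add' x y := by ext r; simp
  map_mul' x y := HahnSeries.map_mul (ρ : R →ₙ+* S)

variable (ρ : O →+* κ)

/-- the reduced `q`-expansion of `F ∈ L` -/
noncomputable def qL : LL O →+* HahnSeries ℚ κ :=
  (hmap ρ).comp ((qO O).comp
    { toFun := fun x => (⟨res x, by
        obtain ⟨n, f, hf, h⟩ := x.2
        rw [h, res_sum]
        exact sum_mem fun k _ => VV_res (Lk_le_VV (hf k))⟩ : IntO O)
      map_one' := rfl
      map_mul' := fun _ _ => rfl
      map_zero' := rfl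
      map_add' := fun _ _ => rfl })

theorem qL_coeff_eq_zero {ρ : O →+* κ} (hρ : ∀ c : O, ρ c = 0 ↔ ∃ d : O, c = 2 * d) {x : LL O}
    (h : qL ρ x = 0) : Two O (res x) := by
  intro r
  have h1 := congrArg (fun z => HahnSeries.coeff z r) h
  change ρ ⟨(qf (res x)).coeff r, _⟩ = 0 at h1
  obtain ⟨d, hd⟩ := (hρ _).1 h1
  refine ⟨d, d.2, ?_⟩
  have := congrArg (Subtype.val : O → ℂ) hd
  exact this

theorem qL_of_two {ρ : O →+* κ} (hρ : ∀ c : O, ρ c = 0 ↔ ∃ d : O, c = 2 * d) {x : LL O}
    (h : Two O (res x)) : qL ρ x = 0 := by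
  ext r
  change ρ ⟨(qf (res x)).coeff r, _⟩ = 0
  obtain ⟨y, hy, e⟩ := h r
  exact (hρ _).2 ⟨⟨y, hy⟩, Subtype.ext e⟩

theorem qL_cst (c : O) : qL ρ (cst O c) = HahnSeries.C (ρ c) := by
  ext r
  change ρ ⟨(qf ((c : ℂ) • (1 : ℍ → ℂ))).coeff r, _⟩ = _
  have h1 : (qf ((c : ℂ) • (1 : ℍ → ℂ))).coeff r = if r = 0 then (c : ℂ) else 0 := by
    rw [qf_smul _ (one_mem _), qf_one, HahnSeries.coeff_smul, HahnSeries.coeff_one]
    split_ifs <;> simp
  rw [HahnSeries.C_apply, HahnSeries.coeff_single]
  split_ifs with h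
  · congr 1
    apply Subtype.ext
    change (qf ((c : ℂ) • (1 : ℍ → ℂ))).coeff r = c
    rw [h1, if_pos h]
  · have : (⟨(qf ((c : ℂ) • (1 : ℍ → ℂ))).coeff r, by rw [h1, if_neg h]; exact zero_mem _⟩ : O) = 0 := by
      apply Subtype.ext
      change (qf ((c : ℂ) • (1 : ℍ → ℂ))).coeff r = 0
      rw [h1, if_neg h]
    rw [this, map_zero]

end QBar

/-! ### polynomial lemma -/

/-- coefficients of `∏ (T - a_i)` in a graded family -/
theorem coeff_prod_mem {A ι : Type*} [CommRing A] (W : ℕ → AddSubgroup A) (h1 : (1 : A) ∈ W 0)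
    (hmul : ∀ i j, ∀ a ∈ W i, ∀ b ∈ W j, a * b ∈ W (i + j)) {k : ℕ} (a : ι → A) (ha : ∀ i, a i ∈ W k)
    (s : Finset ι) (m : ℕ) : m ≤ s.card →
      (∏ i ∈ s, (Polynomial.X - Polynomial.C (a i))).coeff m ∈ W ((s.card - m) * k) := by
  classical
  induction s using Finset.induction_on generalizing m with
  | empty =>
    intro hm
    have : m = 0 := by simpa using hm
    subst this
    simpa using h1
  | insert i s hi ih =>
    intro hm
    have hdeg : (∏ i ∈ s, (Polynomial.X - Polynomial.C (a i))).natDegree ≤ s.card := by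
      refine (Polynomial.natDegree_prod_le _ _).trans ?_
      refine (Finset.sum_le_card_nsmul _ _ 1 fun i _ => Polynomial.natDegree_X_sub_C_le _).trans ?_
      simp
    rw [Finset.prod_insert hi, Finset.card_insert_of_notMem hi] at *
    rw [sub_mul, Polynomial.coeff_sub, Polynomial.coeff_C_mul]
    have h2 : a i * (∏ i ∈ s, (Polynomial.X - Polynomial.C (a i))).coeff m ∈
        W ((s.card + 1 - m) * k) := by
      by_cases hms : m ≤ s.card
      · have := hmul _ _ _ (ha i) _ (ih m hms)
        have e : k + (s.card - m) * k = (s.card + 1 - m) * k := by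
          rw [Nat.sub_add_comm hms, Nat.add_mul, one_mul, add_comm]
        rwa [e] at this
      · rw [Polynomial.coeff_eq_zero_of_natDegree_lt (by omega), mul_zero]
        exact zero_mem _
    refine sub_mem ?_ h2
    cases m with
    | zero =>
      rw [Polynomial.coeff_X_mul_zero]
      exact zero_mem _
    | succ m =>
      rw [Polynomial.coeff_X_mul]
      have := ih m (by omega)
      have e : s.card + 1 - (m + 1) = s.card - m := by omega
      rwa [e]

/-- (C2d) in the form used -/
theorem coeff_zero_of_dvd {κ : Type*} [Field κ] {K : ℕ} (a : ℕ → κ)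
    (h : (PowerSeries.X : PowerSeries κ) ^ K ∣ ∑ i ∈ Finset.range (K / 12 + 1), PowerSeries.C (a i) *
      ((1 + PowerSeries.X ^ 3) ^ i * PowerSeries.X ^ (K - 12 * i))) :
    ∀ i ∈ Finset.range (K / 12 + 1), i ≠ 0 → a i = 0 := by
  classical
  obtain ⟨r, hr⟩ := h
  let p : Polynomial κ := ∑ i ∈ Finset.range (K / 12 + 1), Polynomial.C (a i) * Polynomial.X ^ i
  have hinj := IsFractionRing.injective (PowerSeries κ) (FractionRing (PowerSeries κ))
  set ι := algebraMap (PowerSeries κ) (FractionRing (PowerSeries κ)) with hι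
  have hX : ι PowerSeries.X ≠ 0 := by
    intro h0
    exact PowerSeries.X_ne_zero (hinj (h0.trans (map_zero _).symm))
  have hp : Polynomial.aeval (ι (1 + PowerSeries.X ^ 3) / ι PowerSeries.X ^ 12) p = ι r := by
    simp only [p, map_sum, map_mul, map_pow, Polynomial.aeval_C, Polynomial.aeval_X]
    apply mul_left_cancel₀ (pow_ne_zero K hX)
    have h2 := congrArg ι hr
    rw [map_mul, map_pow] at h2
    rw [← h2, map_sum, Finset.mul_sum]
    refine Finset.sum_congr rfl fun i hi => ?_
    have hi' : 12 * i ≤ K := by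
      have := Finset.mem_range.1 hi
      omega
    rw [map_mul, map_mul, map_pow, map_pow]
    have e1 : algebraMap κ (FractionRing (PowerSeries κ)) (a i) = ι (PowerSeries.C (a i)) := by
      rw [hι, IsScalarTower.algebraMap_apply κ (PowerSeries κ) (FractionRing (PowerSeries κ))]; rfl
    have e2 : K = (K - 12 * i) + 12 * i := by omega
    rw [e1, div_pow, ← pow_mul]
    conv_lhs => rw [e2, pow_add]
    field_simp
  obtain ⟨b, hb⟩ := ECore2.coeff_eq_zero_of_regular (FractionRing (PowerSeries κ)) p r hp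
  intro i hi hi0
  have h3 : p.coeff i = a i := by
    simp only [p, Polynomial.finsetSum_coeff, Polynomial.coeff_C_mul_X_pow]
    rw [Finset.sum_eq_single i]
    · simp
    · intro j _ hj
      rw [if_neg (Ne.symm hj)]
    · intro h; exact absurd hi h
  rw [← h3, hb, Polynomial.coeff_C, if_neg hi0]

end Crest.Agent.R007.EL
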