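import Crest.Agent.R007.OpU

/-! Row 7, node EMB (helper7), part 1: mixed forms and their `a_n`; the algebra of stage functionals. -/

set_option autoImplicit false

namespace Crest.Agent.R007.Emb

open Crest.NumberTheoryR.HeckeTwoAdic Crest.Agent.R007.Op

/-- mixed forms of weights `1, …, k` and level `Γ₁(N)`. -/
abbrev Mix (N k : ℕ) : Type := (i : Fin k) → MF N (i + 1)

section
variable {N : ℕ}

/-- the action of the product of endomorphism rings. -/
noncomputable def act {k : ℕ} (s : EndProd N k) (F : Mix N k) : Mix N k := fun i => s i (F i)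

@[simp] lemma act_apply {k : ℕ} (s : EndProd N k) (F : Mix N k) (i : Fin k) :
    act s F i = s i (F i) := rfl

lemma act_mul {k : ℕ} (s t : EndProd N k) (F : Mix N k) : act (s * t) F = act s (act t F) := rfl

lemma act_one {k : ℕ} (F : Mix N k) : act (1 : EndProd N k) F = F := rfl

/-- the `n`-th coefficient of a mixed form. -/
noncomputable def aM {k : ℕ} (F : Mix N k) (n : ℕ) : ℂ := ∑ i, an (F i) n

end

variable {N : ℕ} [NeZero N] {T D : ℕ → (i : ℕ) → (MF N i →ₗ[ℂ] MF N i)}

lemma aM_add {k : ℕ} (F G : Mix N k) (n : ℕ) : aM (F + G) n = aM F n + aM G n := by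
  simp only [aM, Pi.add_apply, an_add, Finset.sum_add_distrib]

lemma aM_smul {k : ℕ} (c : ℂ) (F : Mix N k) (n : ℕ) : aM (c • F) n = c * aM F n := by
  simp only [aM, Pi.smul_apply, an_smul, Finset.mul_sum]

lemma an_zero' {k : ℕ} (n : ℕ) : an (0 : MF N k) n = 0 := by
  have := an_smul (0 : ℂ) (0 : MF N k) n
  simpa using this

lemma an_neg {k : ℕ} (f : MF N k) (n : ℕ) : an (-f) n = - an f n := by
  have := an_smul (-1 : ℂ) f n
  simpa using this

lemma an_sub {k : ℕ} (f g : MF N k) (n : ℕ) : an (f - g) n = an f n - an g n := by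
  rw [sub_eq_add_neg, an_add, an_neg, sub_eq_add_neg]

lemma an_sum {k : ℕ} {ι : Type*} (s : Finset ι) (f : ι → MF N k) (n : ℕ) :
    an (∑ i ∈ s, f i) n = ∑ i ∈ s, an (f i) n := by
  classical
  induction s using Finset.induction_on with
  | empty => simp [an_zero']
  | insert a s ha ih => rw [Finset.sum_insert ha, an_add, ih, Finset.sum_insert ha]

lemma aM_sub {k : ℕ} (F G : Mix N k) (n : ℕ) : aM (F - G) n = aM F n - aM G n := by
  simp only [aM, Pi.sub_apply, an_sub, Finset.sum_sub_distrib]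

section stage

/-- the tuple of the `T_l`. -/
def gT (T : ℕ → (i : ℕ) → (MF N i →ₗ[ℂ] MF N i)) (k l : ℕ) : EndProd N k :=
  fun i : Fin k => T l ((i : ℕ) + 1)

/-- the tuple of the `l S_l`. -/
noncomputable def gS (D : ℕ → (i : ℕ) → (MF N i →ₗ[ℂ] MF N i)) (k l : ℕ) : EndProd N k :=
  fun i : Fin k => ((l : ℂ) ^ (i : ℕ)) • D l ((i : ℕ) + 1)

omit [NeZero N] in
lemma gT_mem {k l : ℕ} (hl : l.Prime) (hN : ¬ l ∣ 2 * N) : gT T k l ∈ stage N T D k :=
  Subring.subset_closure ⟨l, hl, hN, Or.inl rfl⟩

omit [NeZero N] in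
lemma gS_mem {k l : ℕ} (hl : l.Prime) (hN : ¬ l ∣ 2 * N) : gS D k l ∈ stage N T D k :=
  Subring.subset_closure ⟨l, hl, hN, Or.inr rfl⟩

/-- `a_n (T_l F)` for mixed forms. -/
lemma aM_gT (hT : IsHeckeFamily N T D) {k l : ℕ} (hl : l.Prime) (hN : ¬ l ∣ 2 * N)
    (F : Mix N k) (n : ℕ) :
    aM (act (gT T k l) F) n = aM F (l * n) +
      (if l ∣ n then aM (act (gS D k l) F) (n / l) else 0) := by
  by_cases h : l ∣ n
  · simp only [aM, act_apply, gT, gS, if_pos h, LinearMap.smul_apply, an_smul,
      ← Finset.sum_add_distrib]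
    refine Finset.sum_congr rfl fun i _ => ?_
    rw [an_hecke hT hl hN, if_pos h]
    congr 2
    have : ((((i : ℕ) + 1 : ℕ) : ℤ) - 1) = ((i : ℕ) : ℤ) := by push_cast; ring
    rw [this, zpow_natCast]
  · simp only [aM, act_apply, gT, if_neg h, add_zero]
    refine Finset.sum_congr rfl fun i _ => ?_
    rw [an_hecke hT hl hN, if_neg h, add_zero]

omit [NeZero N] in
lemma act_mem_of {k : ℕ} (A : AddSubgroup ℂ) {F : Mix N k}
    (h : ∀ s ∈ stage N T D k, aM (act s F) 1 ∈ A) {t : EndProd N k} (ht : t ∈ stage N T D k) :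
    ∀ s ∈ stage N T D k, aM (act s (act t F)) 1 ∈ A := by
  intro s hs
  rw [← act_mul]
  exact h _ (mul_mem hs ht)

/-- coefficients at `n` prime to `2N` are controlled by the stage functional `s ↦ a_1 (s F)`. -/
theorem coef_mem (hT : IsHeckeFamily N T D) {k : ℕ} (A : AddSubgroup ℂ) (n : ℕ) :
    ∀ (F : Mix N k), (∀ s ∈ stage N T D k, aM (act s F) 1 ∈ A) → n.Coprime (2 * N) →
      aM F n ∈ A := by
  induction n using Nat.strong_induction_on with
  | _ n ih =>
    intro F h hn
    have hn0 : n ≠ 0 := by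
      rintro rfl
      rw [Nat.coprime_zero_left] at hn
      omega
    rcases Nat.lt_or_ge 1 n with h1 | h1
    · set l := n.minFac with hl
      have hlp : l.Prime := Nat.minFac_prime (by omega)
      obtain ⟨m, hm⟩ := Nat.minFac_dvd n
      rw [← hl] at hm
      have hlN : ¬ l ∣ 2 * N := fun hd =>
        hlp.one_lt.ne' (Nat.eq_one_of_dvd_coprimes hn (hl ▸ Nat.minFac_dvd n) hd)
      have hm0 : 0 < m := by
        rcases Nat.eq_zero_or_pos m with h0 | h0
        · rw [h0, mul_zero] at hm; omega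
        · exact h0
      have hml : m < n := by
        rw [hm]
        exact lt_mul_of_one_lt_left hm0 hlp.one_lt
      have hmc : m.Coprime (2 * N) := Nat.Coprime.coprime_dvd_left ⟨l, by rw [mul_comm]; exact hm⟩ hn
      have e := aM_gT hT hlp hlN F m
      rw [← hm] at e
      have h2 : aM (act (gT T k l) F) m ∈ A :=
        ih m hml _ (act_mem_of A h (gT_mem hlp hlN)) hmc
      have h3 : (if l ∣ m then aM (act (gS D k l) F) (m / l) else 0) ∈ A := by
        split_ifs with hd
        · refine ih (m / l) (lt_of_le_of_lt (Nat.div_le_self _ _) hml) _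
            (act_mem_of A h (gS_mem hlp hlN)) ?_
          exact Nat.Coprime.coprime_dvd_left (Nat.div_dvd_of_dvd hd) hmc
        · exact A.zero_mem
      have : aM F n = aM (act (gT T k l) F) m - (if l ∣ m then aM (act (gS D k l) F) (m / l) else 0) := by
        rw [e]; ring
      rw [this]
      exact A.sub_mem h2 h3
    · have : n = 1 := by omega
      subst this
      have := h 1 (one_mem _)
      rwa [act_one] at this

end stage

end Crest.Agent.R007.Emb
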