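import Mathlib
import Crest.Prelude.Def_HeckeTwo
import Crest.Agent.R007.Lat3

/-!
# Row 7, node N2 (TLB): Hecke operators in the `G2`-picture

`TX ℓ γ F = ℓ⁻¹ (∑_{j<ℓ} F ∥ (1/ℓ, j/ℓ; 0, 1) + F ∥ (γ (1,0;0,1/ℓ)))`, independent of the weight.
-/

set_option autoImplicit false

namespace Crest.Agent.R007.Tlb

open UpperHalfPlane ModularForm CongruenceSubgroup Matrix
open scoped MatrixGroups Manifold ModularForm
open Crest.Agent.R007.Lat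
open Crest.NumberTheoryR.HeckeTwoAdic

/-- scalar `1/n` in `GL(2,ℝ)⁺` -/
noncomputable def si (n : ℕ) (hn : n ≠ 0) : GL(2, ℝ)⁺ :=
  (iG (sc n) (sc_det_pos (by exact_mod_cast hn)))⁻¹

lemma si_mem {n : ℕ} (hn : n ≠ 0) (ho : Odd n) : si n hn ∈ G2 := by
  refine inv_mem (iG_mem_G2 _ _ ?_)
  rw [sc_det]
  have : Odd (n : ℤ) := by exact_mod_cast ho
  exact this.mul this

lemma sl_si {k : ℕ} {F : X → ℂ} (hF : F ∈ Wt k) {n : ℕ} (hn : n ≠ 0) :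
    sl F (si n hn) = (n : ℂ) ^ k • F := by
  have h1 := sl_scalar hF (n : ℤ) (sc_det_pos (by exact_mod_cast hn))
  have hn' : (n : ℂ) ≠ 0 := by exact_mod_cast hn
  have h2 : sl (sl F (iG (sc n) (sc_det_pos (by exact_mod_cast hn)))) (si n hn) = F := by
    rw [← sl_mul_right, si, mul_inv_cancel, sl_one_right]
  rw [h1, sl_smul] at h2
  have h3 : (n : ℂ) ^ k • ((((n : ℤ) : ℂ)⁻¹) ^ k • sl F (si n hn)) = (n : ℂ) ^ k • F := by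
    rw [h2]
  rw [smul_smul, ← mul_pow] at h3
  simpa [hn'] using h3

lemma upD (l : ℕ) (hl : l ≠ 0) (j : ℕ) : 0 < (!![1, (j : ℤ); 0, (l : ℤ)] : Matrix (Fin 2) (Fin 2) ℤ).det := by
  rw [Matrix.det_fin_two_of]; simp; omega

lemma loD (l : ℕ) (hl : l ≠ 0) : 0 < (!![(l : ℤ), 0; 0, 1] : Matrix (Fin 2) (Fin 2) ℤ).det := by
  rw [Matrix.det_fin_two_of]; simp; omega

/-- `(1/ℓ, j/ℓ; 0, 1)` -/
noncomputable def dUp (l : ℕ) (hl : l ≠ 0) (j : ℕ) : GL(2, ℝ)⁺ :=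
  si l hl * iG !![1, (j : ℤ); 0, (l : ℤ)] (upD l hl j)

/-- `(1, 0; 0, 1/ℓ)` -/
noncomputable def dLo (l : ℕ) (hl : l ≠ 0) : GL(2, ℝ)⁺ :=
  si l hl * iG !![(l : ℤ), 0; 0, 1] (loD l hl)

lemma dUp_mem {l : ℕ} (hl : l ≠ 0) (ho : Odd l) (j : ℕ) : dUp l hl j ∈ G2 := by
  refine mul_mem (si_mem hl ho) (iG_mem_G2 _ _ ?_)
  rw [Matrix.det_fin_two_of]
  simpa using ho

lemma dLo_mem {l : ℕ} (hl : l ≠ 0) (ho : Odd l) : dLo l hl ∈ G2 := by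
  refine mul_mem (si_mem hl ho) (iG_mem_G2 _ _ ?_)
  rw [Matrix.det_fin_two_of]
  simpa using ho

lemma upperMat_eq (l j : ℕ) (hl : l ≠ 0) :
    upperMat l j hl = ((iG !![1, (j : ℤ); 0, (l : ℤ)] (upD l hl j) : GL(2, ℝ)⁺) : GL (Fin 2) ℝ) := by
  apply Units.ext
  rw [iG_val]
  ext a b
  fin_cases a <;> fin_cases b <;>
    simp [upperMat, mat2, Matrix.GeneralLinearGroup.mkOfDetNeZero]

lemma lowerMat_eq (l : ℕ) (hl : l ≠ 0) :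
    lowerMat l hl = ((iG !![(l : ℤ), 0; 0, 1] (loD l hl) : GL(2, ℝ)⁺) : GL (Fin 2) ℝ) := by
  apply Units.ext
  rw [iG_val]
  ext a b
  fin_cases a <;> fin_cases b <;>
    simp [lowerMat, mat2, Matrix.GeneralLinearGroup.mkOfDetNeZero]

/-- slash by a matrix of determinant `ℓ` versus `sl` by `ℓ⁻¹` times the matrix -/
lemma sl_si_iG (k : ℕ) (f : ℍ → ℂ) (l : ℕ) (hl : l ≠ 0) (A : Matrix (Fin 2) (Fin 2) ℤ)
    (hA : 0 < A.det) (hd : A.det = l) :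
    sl (lift k f) (si l hl * iG A hA) =
      lift k ((l : ℂ) • (f ∣[(k : ℤ)] ((iG A hA : GL(2, ℝ)⁺) : GL (Fin 2) ℝ))) := by
  have hl' : (l : ℂ) ≠ 0 := by exact_mod_cast hl
  rw [sl_mul_right, sl_si (lift_mem k f) hl, sl_smul, sl_lift, res_sl_eq, lift_smul, lift_smul,
    smul_smul]
  congr 1
  have h1 : (((((iG A hA : GL(2, ℝ)⁺) : GL (Fin 2) ℝ)).det.val : ℝ) : ℂ) = l := by
    have : ((((iG A hA : GL(2, ℝ)⁺) : GL (Fin 2) ℝ)).det.val : ℝ) = ((A.det : ℤ) : ℝ) := by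
      rw [iG_coe, toGL_det]
    rw [this, hd]
    simp
  rw [h1, ← zpow_natCast, ← zpow_add₀ hl']
  simp

lemma sl_dUp (k : ℕ) (f : ℍ → ℂ) (l : ℕ) (hl : l ≠ 0) (j : ℕ) :
    sl (lift k f) (dUp l hl j) = lift k ((l : ℂ) • (f ∣[(k : ℤ)] upperMat l j hl)) := by
  rw [dUp, sl_si_iG k f l hl _ _ (by rw [Matrix.det_fin_two_of]; simp), upperMat_eq]

lemma sl_dLo (k : ℕ) (f : ℍ → ℂ) (l : ℕ) (hl : l ≠ 0) :
    sl (lift k f) (dLo l hl) = lift k ((l : ℂ) • (f ∣[(k : ℤ)] lowerMat l hl)) := by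
  rw [dLo, sl_si_iG k f l hl _ _ (by rw [Matrix.det_fin_two_of]; simp), lowerMat_eq]

/-- `T_ℓ` on functions on `X`, independent of the weight -/
noncomputable def TX (l : ℕ) (hl : l ≠ 0) (γ : SL(2, ℤ)) : (X → ℂ) →ₗ[ℂ] (X → ℂ) :=
  (l : ℂ)⁻¹ • ((∑ j ∈ Finset.range l, (slHom (dUp l hl j)).toLinearMap) +
    (slHom (sG γ * dLo l hl)).toLinearMap)

/-- `ℓ S_ℓ` on functions on `X`, independent of the weight -/
noncomputable def SX (l : ℕ) (hl : l ≠ 0) (γ : SL(2, ℤ)) : (X → ℂ) →ₗ[ℂ] (X → ℂ) :=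
  (l : ℂ)⁻¹ • (slHom (sG γ * si l hl)).toLinearMap

lemma TX_apply (l : ℕ) (hl : l ≠ 0) (γ : SL(2, ℤ)) (F : X → ℂ) :
    TX l hl γ F = (l : ℂ)⁻¹ • ((∑ j ∈ Finset.range l, sl F (dUp l hl j)) + sl F (sG γ * dLo l hl)) := by
  simp only [TX, LinearMap.smul_apply, LinearMap.add_apply, LinearMap.sum_apply]
  rfl

lemma SX_apply (l : ℕ) (hl : l ≠ 0) (γ : SL(2, ℤ)) (F : X → ℂ) :
    SX l hl γ F = (l : ℂ)⁻¹ • sl F (sG γ * si l hl) := rfl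

/-- `T_ℓ` of a family satisfying the frozen predicates, in the `G2`-picture. -/
theorem TX_lift {N : ℕ} {T D : ℕ → (i : ℕ) → (MF N i →ₗ[ℂ] MF N i)}
    (hD : IsDiamondFamily N D) (hT : IsHeckeFamily N T D) {l : ℕ} (hl : l.Prime)
    (hlN : ¬ l ∣ 2 * N) {γ : SL(2, ℤ)} (hγ : γ ∈ Gamma0 N) (hγl : ((γ 1 1 : ℤ) : ZMod N) = l)
    (k : ℕ) (f : MF N k) :
    TX l hl.ne_zero γ (lift k f) = lift k (T l k f) := by
  have hl' : (l : ℂ) ≠ 0 := by exact_mod_cast hl.ne_zero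
  rw [TX_apply, hT l hl hlN k f, hD l k γ hγ hγl f]
  have h1 : ∀ j, sl (lift k f) (dUp l hl.ne_zero j) =
      (l : ℂ) • lift k (f ∣[(k : ℤ)] upperMat l j hl.ne_zero) := by
    intro j
    rw [sl_dUp, lift_smul]
  have h2 : sl (lift k f) (sG γ * dLo l hl.ne_zero) =
      (l : ℂ) • lift k (((f : ℍ → ℂ) ∣[(k : ℤ)] γ) ∣[(k : ℤ)] lowerMat l hl.ne_zero) := by
    rw [sl_mul_right, sl_lift_SL, sl_dLo, lift_smul]
  rw [h2, Finset.sum_congr rfl fun j _ => h1 j, ← Finset.smul_sum, ← smul_add, smul_smul,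
    inv_mul_cancel₀ hl', one_smul, lift_add]
  congr 1
  have h3 : ∀ (s : Finset ℕ) (g : ℕ → ℍ → ℂ), ∑ j ∈ s, lift k (g j) = lift k (∑ j ∈ s, g j) := by
    intro s g
    classical
    induction s using Finset.induction_on with
    | empty => simp [lift_zero]
    | insert a s ha ih => rw [Finset.sum_insert ha, Finset.sum_insert ha, ih, lift_add]
  rw [h3]

/-- `ℓ S_ℓ = ℓ^(k-1) ⟨ℓ⟩` in the `G2`-picture. -/
theorem SX_lift {N : ℕ} {D : ℕ → (i : ℕ) → (MF N i →ₗ[ℂ] MF N i)}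
    (hD : IsDiamondFamily N D) {l : ℕ} (hl : l ≠ 0)
    {γ : SL(2, ℤ)} (hγ : γ ∈ Gamma0 N) (hγl : ((γ 1 1 : ℤ) : ZMod N) = l)
    (k : ℕ) (f : MF N (k + 1)) :
    SX l hl γ (lift (k + 1) f) = lift (k + 1) (((l : ℂ) ^ k • D l (k + 1)) f) := by
  have hl' : (l : ℂ) ≠ 0 := by exact_mod_cast hl
  rw [SX_apply, sl_mul_right, sl_lift_SL, sl_si (lift_mem _ _) hl]
  have h1 : ((((l : ℂ) ^ k • D l (k + 1)) f : MF N (k + 1)) : ℍ → ℂ) =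
      (l : ℂ) ^ k • ((f : ℍ → ℂ) ∣[((k + 1 : ℕ) : ℤ)] γ) := by
    rw [← hD l (k + 1) γ hγ hγl f]
    rfl
  rw [h1, lift_smul, smul_smul]
  congr 1
  field_simp
  ring

end Crest.Agent.R007.Tlb
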