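import Crest.Agent.R007.Emb1
import Crest.Agent.R007.CoefO
import Crest.Agent.R007.Mix1
import Crest.Agent.R007.Tlb1
import Crest.Agent.R007.KumM

/-! Row 7, node EMB (helper7), part 2: forms of level `Γ₁(N)` inside `MX N j`, their coefficients. -/

set_option autoImplicit false

namespace Crest.Agent.R007.Emb

open UpperHalfPlane ModularForm CongruenceSubgroup Matrix
open scoped MatrixGroups Manifold ModularForm
open Crest.NumberTheoryR.HeckeTwoAdic Crest.Agent.R007.Op Crest.Agent.R007.Lat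

local notation "𝕢" => Function.Periodic.qParam

lemma Gamma_le_Gamma1 {N : ℕ} {γ : SL(2, ℤ)} (h : γ ∈ Gamma N) : γ ∈ Gamma1 N := by
  rw [Gamma_mem] at h
  rw [Gamma1_mem]
  exact ⟨h.1, h.2.2.2, h.2.2.1⟩

lemma lift_mem_MX {N : ℕ} [NeZero N] {j : ℕ} (f : MF N j) : lift j f ∈ MX N j := by
  rw [mem_MX_iff]
  refine ⟨lift_mem _ _, ?_, ?_, ?_⟩
  · intro γ hγ
    rw [sl_lift_SL]
    exact congrArg _ (inv1_mf f γ (Gamma_le_Gamma1 hγ))
  · rw [res_lift]; exact ModularFormClass.holo f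
  · intro γ
    rw [← slash_SL_eq_res]
    have hc : IsCusp (Matrix.SpecialLinearGroup.mapGL ℝ γ • OnePoint.infty)
        ((Gamma1 N : Subgroup SL(2, ℤ)) : Subgroup (GL (Fin 2) ℝ)) := by
      rw [Subgroup.IsArithmetic.isCusp_iff_isCusp_SL2Z, isCusp_SL2Z_iff']
      exact ⟨γ, rfl⟩
    have h1 := ModularFormClass.bdd_at_cusps f hc
    exact h1 _ rfl

lemma lift_mem_MO {N : ℕ} [NeZero N] (hN : Odd N) {j : ℕ} (f : MF N j) : lift j f ∈ MO j :=
  ⟨N, hN, lift_mem_MX f⟩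

lemma mf_mem_PB {N : ℕ} [NeZero N] {j : ℕ} (f : MF N j) : (⇑f : ℍ → ℂ) ∈ PB ((1 : ℕ) : ℝ) := by
  refine ⟨?_, ModularFormClass.holo f, ?_⟩
  · have := SlashInvariantFormClass.periodic_comp_ofComplex f (one_mem_periods N)
    simpa using this
  · have := res_mem_PB (lift_mem_MX f)
    rw [res_lift] at this
    exact this.2.2

lemma qf_an {N : ℕ} [NeZero N] {j : ℕ} (f : MF N j) (n : ℕ) :
    (qf (⇑f)).coeff (n : ℚ) = an f n := by
  have h := qf_coeff_of_hasSum (M := 1) odd_one (mf_mem_PB f) (c := an f) (fun τ => by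
    have := hasSum_an f τ
    simpa [smul_eq_mul] using this) n
  simpa using h

lemma qf_not_nat {N : ℕ} [NeZero N] {j : ℕ} (f : MF N j) {r : ℚ} (hr : ∀ n : ℕ, (n : ℚ) ≠ r) :
    (qf (⇑f)).coeff r = 0 :=
  qf_coeff_of_notMem (M := 1) odd_one (mf_mem_PB f) (fun n => by simpa using hr n)

end Crest.Agent.R007.Emb
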