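import Mathlib
import Crest.Agent.R007.Mix1

/-! Row 7, section C: consequences of the `q`-expansion principle (C1) for forms with bounded
denominators (node (I4) of the embedding), congruences mod `2 V`. -/

set_option autoImplicit false

namespace Crest.Agent.R007.Mix

open UpperHalfPlane ModularForm CongruenceSubgroup Matrix
open Crest.Agent.R007.Lat
open scoped MatrixGroups Manifold ModularForm

variable {O : Subring ℂ}

/-- congruence mod `2 V` -/
def Cg (O : Subring ℂ) (F G : X → ℂ) : Prop := ∃ H ∈ VV O, F - G = 2 * H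

lemma Cg.refl (F : X → ℂ) : Cg O F F := ⟨0, zero_mem _, by simp⟩

lemma Cg.symm {F G : X → ℂ} (h : Cg O F G) : Cg O G F := by
  obtain ⟨H, hH, e⟩ := h
  exact ⟨-H, neg_mem hH, by rw [mul_neg, ← e]; ring⟩

lemma Cg.trans {F G H : X → ℂ} (h : Cg O F G) (h' : Cg O G H) : Cg O F H := by
  obtain ⟨A, hA, e⟩ := h
  obtain ⟨B, hB, e'⟩ := h'
  exact ⟨A + B, add_mem hA hB, by rw [mul_add, ← e, ← e']; ring⟩

lemma Cg.add {F G F' G' : X → ℂ} (h : Cg O F G) (h' : Cg O F' G') : Cg O (F + F') (G + G') := by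
  obtain ⟨A, hA, e⟩ := h
  obtain ⟨B, hB, e'⟩ := h'
  exact ⟨A + B, add_mem hA hB, by rw [mul_add, ← e, ← e']; ring⟩

lemma Cg.sub {F G F' G' : X → ℂ} (h : Cg O F G) (h' : Cg O F' G') : Cg O (F - F') (G - G') := by
  obtain ⟨A, hA, e⟩ := h
  obtain ⟨B, hB, e'⟩ := h'
  exact ⟨A - B, sub_mem hA hB, by rw [mul_sub, ← e, ← e']; ring⟩

lemma Cg.neg {F G : X → ℂ} (h : Cg O F G) : Cg O (-F) (-G) := by
  obtain ⟨A, hA, e⟩ := h
  exact ⟨-A, neg_mem hA, by rw [mul_neg, ← e]; ring⟩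

lemma Cg.mul_left {F G H : X → ℂ} (h : Cg O F G) (hH : H ∈ VV O) : Cg O (H * F) (H * G) := by
  obtain ⟨A, hA, e⟩ := h
  refine ⟨H * A, mul_mem hH hA, ?_⟩
  calc H * F - H * G = H * (F - G) := by ring
    _ = 2 * (H * A) := by rw [e]; ring

lemma Cg.mul {F G F' G' : X → ℂ} (h : Cg O F G) (h' : Cg O F' G') (hF : F ∈ VV O) (hG' : G' ∈ VV O) :
    Cg O (F * F') (G * G') := by
  refine (h'.mul_left hF).trans ?_
  have := h.mul_left hG'
  rwa [mul_comm G' F, mul_comm G' G] at this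

lemma Cg.smul {F G : X → ℂ} (h : Cg O F G) {c : ℂ} (hc : c ∈ O) : Cg O (c • F) (c • G) := by
  obtain ⟨A, hA, e⟩ := h
  refine ⟨c • A, VV_smul hA hc, ?_⟩
  rw [← smul_sub, e, mul_smul_comm]

lemma Cg.sl {F G : X → ℂ} (h : Cg O F G) {g : GL(2, ℝ)⁺} (hg : g ∈ G2) :
    Cg O (sl F g) (Lat.sl G g) := by
  obtain ⟨A, hA, e⟩ := h
  refine ⟨Lat.sl A g, VV_sl hA hg, ?_⟩
  rw [← sl_sub, e]
  rfl

lemma Cg.sum {ι : Type*} (s : Finset ι) {F G : ι → X → ℂ} (h : ∀ i ∈ s, Cg O (F i) (G i)) :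
    Cg O (∑ i ∈ s, F i) (∑ i ∈ s, G i) := by
  classical
  induction s using Finset.induction_on with
  | empty => simpa using Cg.refl (O := O) 0
  | insert a s ha ih =>
    rw [Finset.sum_insert ha, Finset.sum_insert ha]
    exact (h a (Finset.mem_insert_self _ _)).add (ih fun i hi => h i (Finset.mem_insert_of_mem hi))

lemma Cg.mem_VV {F G : X → ℂ} (h : Cg O F G) (hG : G ∈ VV O) : F ∈ VV O := by
  obtain ⟨A, hA, e⟩ := h
  have h2 : (2 : X → ℂ) ∈ VV O := by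
    have : (2 : X → ℂ) = 1 + 1 := by norm_num
    rw [this]; exact add_mem (one_mem _) (one_mem _)
  have : F = G + 2 * A := by rw [← e]; ring
  rw [this]
  exact add_mem hG (mul_mem h2 hA)

lemma Cg.two_sl {F G : X → ℂ} (h : Cg O F G) {g : GL(2, ℝ)⁺} (hg : g ∈ G2) :
    Two O (res (Lat.sl (F - G) g)) := by
  obtain ⟨A, hA, e⟩ := h
  rw [e]
  exact two_res_sl_of_VV hA hg

lemma Cg.two {F G : X → ℂ} (h : Cg O F G) : Two O (res (F - G)) := by
  have := h.two_sl (one_mem _)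
  rwa [sl_one_right] at this

lemma cg_iff {F G : X → ℂ} (hF : F ∈ MM) (hG : G ∈ MM) :
    Cg O F G ↔ ∀ g ∈ G2, Two O (res (sl (F - G) g)) :=
  ⟨fun h _ hg => h.two_sl hg, fun h => VV_half (sub_mem hF hG) h⟩

/-- congruence of pure weight forms: `L_k ∩ 2 V = 2 L_k` -/
lemma Cg.pure {k : ℕ} {F G : X → ℂ} (h : Cg O F G) (hF : F ∈ MO k) (hG : G ∈ MO k) :
    ∃ H ∈ Lk O k, F - G = 2 * H := by
  obtain ⟨A, hA, e⟩ := h
  exact ⟨A, Lk_of_two (sub_mem hF hG) hA e, e⟩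

/-! ### the `q`-expansion principle with denominators -/

lemma two_pow_smul_MM {F : X → ℂ} {m : ℕ} (h : ((2 : ℂ) ^ m) • F ∈ MM) : F ∈ MM := by
  have : F = ((2 : ℂ) ^ m)⁻¹ • (((2 : ℂ) ^ m) • F) := by
    rw [smul_smul, inv_mul_cancel₀ (pow_ne_zero _ two_ne_zero), one_smul]
  rw [this]
  exact MM_smul h _

/-- (I4a): a form with bounded denominators which is integral at infinity is in `V` -/
theorem VV_of_int (hC1 : ∀ F ∈ VV O, Two O (res F) → ∃ G ∈ VV O, F = 2 * G)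
    {F : X → ℂ} (m : ℕ) (h : ((2 : ℂ) ^ m) • F ∈ VV O) (hint : ∀ r : ℚ, (qf (res F)).coeff r ∈ O) :
    F ∈ VV O := by
  induction m with
  | zero => simpa using h
  | succ m ih =>
    apply ih
    have hF : F ∈ MM := two_pow_smul_MM h.1
    obtain ⟨G, hG, e⟩ := hC1 _ h (by
      intro r
      refine ⟨(2 : ℂ) ^ m * (qf (res F)).coeff r, ?_, ?_⟩
      · have h2 : (2 : ℂ) ∈ O := by
          have : (2 : ℂ) = 1 + 1 := by norm_num
          rw [this]; exact add_mem (one_mem _) (one_mem _)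
        exact mul_mem (pow_mem h2 m) (hint r)
      · rw [res_smul, qf_smul _ (MM_res hF), HahnSeries.coeff_smul, smul_eq_mul, pow_succ]
        ring)
    have : ((2 : ℂ) ^ m) • F = G := by
      apply two_cancel
      rw [← e, two_mul_eq_smul, smul_smul, pow_succ, mul_comm]
    rwa [this]

/-- (I4b): a form with bounded denominators which is `0` mod 2 at infinity is in `2 V` -/
theorem VV_of_two (hC1 : ∀ F ∈ VV O, Two O (res F) → ∃ G ∈ VV O, F = 2 * G)
    {F : X → ℂ} (m : ℕ) (h : ((2 : ℂ) ^ m) • F ∈ VV O) (hint : Two O (res F)) :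
    ∃ G ∈ VV O, F = 2 * G := by
  have h2 : (2 : ℂ) ∈ O := by
    have : (2 : ℂ) = 1 + 1 := by norm_num
    rw [this]; exact add_mem (one_mem _) (one_mem _)
  refine hC1 F (VV_of_int hC1 m h fun r => ?_) hint
  obtain ⟨y, hy, e⟩ := hint r
  rw [e]
  exact mul_mem h2 hy

end Crest.Agent.R007.Mix
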