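import Crest.Agent.R007.Emb2
import Crest.Agent.R007.Mix2
import Crest.Agent.R007.Base5

/-! Row 7, node EMB (helper7), part 3: functionals on the stage, lifts, `T_n`. -/

set_option autoImplicit false

namespace Crest.Agent.R007.Emb

open UpperHalfPlane ModularForm CongruenceSubgroup Matrix
open scoped MatrixGroups Manifold ModularForm
open Crest.NumberTheoryR.HeckeTwoAdic Crest.Agent.R007.Op Crest.Agent.R007.Lat Crest.Agent.R007.Mix
open Crest.Agent.R007.Coef

/-! ### arithmetic mod `2 O` -/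

/-- `2 O`. -/
noncomputable abbrev T2 : AddSubgroup ℂ := KumM.twoO (K := ℂ) OO

lemma mem_T2 {x : ℂ} : x ∈ T2 ↔ ∃ y ∈ OO, x = 2 * y := KumM.mem_twoO

lemma T2_le {x : ℂ} (h : x ∈ T2) : x ∈ OO := KumM.twoO_le h

lemma two_mul_mem_T2 {y : ℂ} (h : y ∈ OO) : 2 * y ∈ T2 := mem_T2.2 ⟨y, h, rfl⟩

lemma mul_mem_T2 {x y : ℂ} (hx : x ∈ OO) (hy : y ∈ T2) : x * y ∈ T2 := KumM.mul_mem_twoO hx hy

lemma one_notMem_T2 : (1 : ℂ) ∉ T2 := by
  intro h
  obtain ⟨y, hy, e⟩ := mem_T2.1 h
  apply two_not_isUnit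
  refine IsUnit.of_mul_eq_one (⟨y, hy⟩ : OO) ?_
  apply Subtype.ext
  exact e.symm

/-- the representative `0, 1` of a class mod 2. -/
def toC (x : ZMod 2) : ℂ := (x.val : ℂ)

@[simp] lemma toC_zero : toC 0 = 0 := by simp [toC]

@[simp] lemma toC_one : toC 1 = 1 := by simp [toC, ZMod.val_one]

lemma toC_mem (x : ZMod 2) : toC x ∈ OO := natCast_mem OO _

lemma zmod2 (x : ZMod 2) : x = 0 ∨ x = 1 := by revert x; decide

lemma toC_add (x y : ZMod 2) : toC (x + y) - toC x - toC y ∈ T2 := by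
  rcases zmod2 x with rfl | rfl
  · simp [T2.zero_mem]
  · rcases zmod2 y with rfl | rfl
    · simp [T2.zero_mem]
    · have : (1 : ZMod 2) + 1 = 0 := by decide
      rw [this, toC_zero, toC_one]
      have : (0 : ℂ) - 1 - 1 = 2 * (-1) := by norm_num
      rw [this]
      exact two_mul_mem_T2 (OO.neg_mem OO.one_mem)

lemma toC_sub (x y : ZMod 2) : toC (x - y) - (toC x - toC y) ∈ T2 := by
  have h := toC_add (x - y) y
  rw [sub_add_cancel] at h
  have := T2.neg_mem h
  have e : -(toC x - toC (x - y) - toC y) = toC (x - y) - (toC x - toC y) := by ring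
  rwa [e] at this

lemma eq_zero_of_toC {x : ZMod 2} (h : toC x ∈ T2) : x = 0 := by
  rcases zmod2 x with rfl | rfl
  · rfl
  · rw [toC_one] at h
    exact absurd h one_notMem_T2

/-! ### the elements `T_n` -/

/-- `T_n` from `T_l` and `l S_l`, recursion on the smallest prime factor. -/
def Tn {R : Type*} [Ring R] (t e : ℕ → R) : ℕ → R
  | 0 => 0
  | 1 => 1
  | (n + 2) =>
    let l := (n + 2).minFac
    let m := (n + 2) / l
    Tn t e m * t l - (if l ∣ m then Tn t e (m / l) * e l else 0)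
decreasing_by
  · exact Nat.div_lt_self (by omega) (Nat.minFac_prime (by omega)).one_lt
  · refine lt_of_le_of_lt (Nat.div_le_self _ _) ?_
    exact Nat.div_lt_self (by omega) (Nat.minFac_prime (by omega)).one_lt

lemma Tn_zero {R : Type*} [Ring R] (t e : ℕ → R) : Tn t e 0 = 0 := by rw [Tn]

lemma Tn_one {R : Type*} [Ring R] (t e : ℕ → R) : Tn t e 1 = 1 := by rw [Tn]

lemma Tn_of_two_le {R : Type*} [Ring R] (t e : ℕ → R) {n : ℕ} (hn : 2 ≤ n) :
    Tn t e n = Tn t e (n / n.minFac) * t n.minFac -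
      (if n.minFac ∣ n / n.minFac then Tn t e (n / n.minFac / n.minFac) * e n.minFac else 0) := by
  obtain ⟨m, rfl⟩ : ∃ m, n = m + 2 := ⟨n - 2, by omega⟩
  rw [Tn]

lemma map_Tn {R S : Type*} [Ring R] [Ring S] (f : R →+* S) (t e : ℕ → R) (n : ℕ) :
    f (Tn t e n) = Tn (fun l => f (t l)) (fun l => f (e l)) n := by
  induction n using Nat.strong_induction_on with
  | _ n ih =>
    rcases Nat.lt_or_ge n 2 with h | h
    · have : n = 0 ∨ n = 1 := by omega
      rcases this with rfl | rfl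
      · rw [Tn_zero, Tn_zero, map_zero]
      · rw [Tn_one, Tn_one, map_one]
    · have h1 : n / n.minFac < n := Nat.div_lt_self (by omega) (Nat.minFac_prime (by omega)).one_lt
      have h2 : n / n.minFac / n.minFac < n := lt_of_le_of_lt (Nat.div_le_self _ _) h1
      rw [Tn_of_two_le _ _ h, Tn_of_two_le _ _ h, map_sub, map_mul, ih _ h1]
      congr 1
      split_ifs with hd
      · rw [map_mul, ih _ h2]
      · rw [map_zero]

/-- `Tn` only depends on the values at primes dividing `n`. -/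
lemma Tn_congr {R : Type*} [Ring R] {t e t' e' : ℕ → R} (P : ℕ → Prop)
    (hP : ∀ m n, P n → m ∣ n → P m) (ht : ∀ l, l.Prime → P l → t l = t' l)
    (he : ∀ l, l.Prime → P l → e l = e' l) (n : ℕ) (hn : P n) :
    Tn t e n = Tn t' e' n := by
  induction n using Nat.strong_induction_on with
  | _ n ih =>
    rcases Nat.lt_or_ge n 2 with h | h
    · have : n = 0 ∨ n = 1 := by omega
      rcases this with rfl | rfl
      · rw [Tn_zero, Tn_zero]
      · rw [Tn_one, Tn_one]
    · have hp : n.minFac.Prime := Nat.minFac_prime (by omega)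
      have hd : n.minFac ∣ n := Nat.minFac_dvd n
      have h1 : n / n.minFac < n := Nat.div_lt_self (by omega) hp.one_lt
      have h2 : n / n.minFac / n.minFac < n := lt_of_le_of_lt (Nat.div_le_self _ _) h1
      have hP1 : P (n / n.minFac) := hP _ _ hn (Nat.div_dvd_of_dvd hd)
      rw [Tn_of_two_le _ _ h, Tn_of_two_le _ _ h, ih _ h1 hP1, ht _ hp (hP _ _ hn hd),
        he _ hp (hP _ _ hn hd)]
      by_cases hdd : n.minFac ∣ n / n.minFac
      · rw [if_pos hdd, if_pos hdd, ih _ h2 (hP _ _ hP1 (Nat.div_dvd_of_dvd hdd))]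
      · rw [if_neg hdd, if_neg hdd]

/-! ### lifts of functionals -/

variable {N : ℕ} {T D : ℕ → (i : ℕ) → (MF N i →ₗ[ℂ] MF N i)} {k : ℕ}

/-- `T_l` in the stage (`0` if `l` is not a prime not dividing `2N`). -/
noncomputable def tS (N : ℕ) (T D : ℕ → (i : ℕ) → (MF N i →ₗ[ℂ] MF N i)) (k l : ℕ) :
    stage N T D k := by
  classical
  exact if h : l.Prime ∧ ¬ l ∣ 2 * N then ⟨gT T k l, gT_mem h.1 h.2⟩ else 0

/-- `l S_l` in the stage. -/
noncomputable def eS (N : ℕ) (T D : ℕ → (i : ℕ) → (MF N i →ₗ[ℂ] MF N i)) (k l : ℕ) :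
    stage N T D k := by
  classical
  exact if h : l.Prime ∧ ¬ l ∣ 2 * N then ⟨gS D k l, gS_mem h.1 h.2⟩ else 0

lemma coe_tS {l : ℕ} (hl : l.Prime) (hN : ¬ l ∣ 2 * N) :
    ((tS N T D k l : stage N T D k) : EndProd N k) = gT T k l := by
  rw [tS, dif_pos ⟨hl, hN⟩]

lemma coe_eS {l : ℕ} (hl : l.Prime) (hN : ¬ l ∣ 2 * N) :
    ((eS N T D k l : stage N T D k) : EndProd N k) = gS D k l := by
  rw [eS, dif_pos ⟨hl, hN⟩]

/-- translate of a functional. -/
noncomputable def mulR (φ : stage N T D k →+ ZMod 2) (t : stage N T D k) : stage N T D k →+ ZMod 2 :=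
  φ.comp (AddMonoidHom.mulRight t)

@[simp] lemma mulR_apply (φ : stage N T D k →+ ZMod 2) (t s : stage N T D k) :
    mulR φ t s = φ (s * t) := rfl

/-- `F` represents `φ` mod 2: `a_1 (s F) = φ s`. -/
def Lift (φ : stage N T D k →+ ZMod 2) (F : Mix N k) : Prop :=
  ∀ s : stage N T D k, aM (act s.1 F) 1 - toC (φ s) ∈ T2

lemma Lift.act {φ : stage N T D k →+ ZMod 2} {F : Mix N k} (h : Lift φ F) (t : stage N T D k) :
    Lift (mulR φ t) (Emb.act t.1 F) := by
  intro s
  rw [← act_mul, mulR_apply]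
  exact h (s * t)

lemma Lift.add [NeZero N] {φ ψ : stage N T D k →+ ZMod 2} {F G : Mix N k} (h : Lift φ F)
    (h' : Lift ψ G) : Lift (φ + ψ) (F + G) := by
  intro s
  have e : Emb.act s.1 (F + G) = Emb.act s.1 F + Emb.act s.1 G := by
    funext i; simp [Emb.act]
  rw [e, aM_add, AddMonoidHom.add_apply]
  have h1 := T2.add_mem (h s) (h' s)
  have h2 := T2.sub_mem h1 (toC_add (φ s) (ψ s))
  have e2 : aM (Emb.act s.1 F) 1 + aM (Emb.act s.1 G) 1 - toC (φ s + ψ s) =
      (aM (Emb.act s.1 F) 1 - toC (φ s) + (aM (Emb.act s.1 G) 1 - toC (ψ s))) -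
        (toC (φ s + ψ s) - toC (φ s) - toC (ψ s)) := by ring
  rw [e2]
  exact h2

/-- coefficients of a lift at `n` prime to `2N` are integral. -/
lemma Lift.mem [NeZero N] (hT : IsHeckeFamily N T D) {φ : stage N T D k →+ ZMod 2} {F : Mix N k}
    (h : Lift φ F) {n : ℕ} (hn : n.Coprime (2 * N)) : aM F n ∈ OO := by
  refine coef_mem (T := T) (D := D) hT OO.toAddSubgroup n F (fun s hs => ?_) hn
  have h1 := OO.add_mem (T2_le (h ⟨s, hs⟩)) (toC_mem (φ ⟨s, hs⟩))
  rw [sub_add_cancel] at h1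
  exact h1

/-- coefficients of a lift mod 2. -/
lemma Lift.coef [NeZero N] (hT : IsHeckeFamily N T D) {n : ℕ} :
    ∀ {φ : stage N T D k →+ ZMod 2} {F : Mix N k}, Lift φ F → n.Coprime (2 * N) →
      aM F n - toC (φ (Tn (tS N T D k) (eS N T D k) n)) ∈ T2 := by
  induction n using Nat.strong_induction_on with
  | _ n ih =>
    intro φ F h hn
    have hn0 : n ≠ 0 := by
      rintro rfl
      rw [Nat.coprime_zero_left] at hn
      omega
    rcases Nat.lt_or_ge n 2 with h1 | h1
    · have : n = 1 := by omega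
      subst this
      rw [Tn_one]
      have := h 1
      rwa [show ((1 : stage N T D k) : EndProd N k) = 1 from rfl, act_one] at this
    · set l := n.minFac with hl
      have hlp : l.Prime := Nat.minFac_prime (by omega)
      have hld : l ∣ n := Nat.minFac_dvd n
      set m := n / l with hm
      have hnm : l * m = n := Nat.mul_div_cancel' hld
      have hlN : ¬ l ∣ 2 * N := fun hd =>
        hlp.one_lt.ne' (Nat.eq_one_of_dvd_coprimes hn hld hd)
      have hml : m < n := Nat.div_lt_self (by omega) hlp.one_lt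
      have hmc : m.Coprime (2 * N) := Nat.Coprime.coprime_dvd_left ⟨l, by rw [mul_comm]; exact hnm.symm⟩ hn
      have e := aM_gT hT hlp hlN F m
      rw [hnm] at e
      have h2 := ih m hml (h.act (tS N T D k l)) hmc
      rw [coe_tS hlp hlN, mulR_apply] at h2
      rw [Tn_of_two_le _ _ h1, ← hl, ← hm]
      by_cases hd : l ∣ m
      · have hml' : m / l < n := lt_of_le_of_lt (Nat.div_le_self _ _) hml
        have h3 := ih (m / l) hml' (h.act (eS N T D k l))
          (Nat.Coprime.coprime_dvd_left (Nat.div_dvd_of_dvd hd) hmc)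
        rw [coe_eS hlp hlN, mulR_apply] at h3
        rw [if_pos hd] at e ⊢
        rw [map_sub]
        have h4 := T2.sub_mem h2 h3
        have h5 := T2.sub_mem h4 (toC_sub (φ (Tn (tS N T D k) (eS N T D k) m * tS N T D k l))
          (φ (Tn (tS N T D k) (eS N T D k) (m / l) * eS N T D k l)))
        refine Eq.mp ?_ h5
        congr 1
        rw [e]
        ring
      · rw [if_neg hd] at e ⊢
        rw [sub_zero]
        rw [add_zero] at e
        rw [← e]
        exact h2

/-- the `q`-expansion mod 2 attached to a functional: `∑_{(n,2N)=1} φ(T_n) q^n`. -/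
noncomputable def Qf (φ : stage N T D k →+ ZMod 2) (r : ℚ) : ZMod 2 := by
  classical
  exact if r.den = 1 ∧ 0 ≤ r.num ∧ r.num.toNat.Coprime (2 * N) then
    φ (Tn (tS N T D k) (eS N T D k) r.num.toNat) else 0

lemma Qf_nat (φ : stage N T D k →+ ZMod 2) (n : ℕ) :
    Qf φ (n : ℚ) = if n.Coprime (2 * N) then φ (Tn (tS N T D k) (eS N T D k) n) else 0 := by
  classical
  rw [Qf]
  have h1 : ((n : ℚ)).den = 1 := Rat.den_natCast n
  have h2 : ((n : ℚ)).num = n := Rat.num_natCast n
  rw [h1, h2, Int.toNat_natCast]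
  simp

lemma Qf_not_nat (φ : stage N T D k →+ ZMod 2) {r : ℚ} (hr : ∀ n : ℕ, (n : ℚ) ≠ r) :
    Qf φ r = 0 := by
  classical
  rw [Qf, if_neg]
  rintro ⟨h1, h2, -⟩
  apply hr r.num.toNat
  have h3 : ((r.num.toNat : ℤ) : ℚ) = (r.num : ℚ) := by rw [Int.toNat_of_nonneg h2]
  have h4 : (r.num : ℚ) = r := by
    have := Rat.num_div_den r
    rw [h1] at this
    simpa using this
  rw [← h4]
  exact_mod_cast h3

lemma Qf_add (φ ψ : stage N T D k →+ ZMod 2) (r : ℚ) : Qf (φ + ψ) r = Qf φ r + Qf ψ r := by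
  classical
  rw [Qf, Qf, Qf]
  split_ifs <;> simp

end Crest.Agent.R007.Emb
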