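import Crest.Agent.R007.Emb3

/-! Row 7, node EMB (helper7), part 4: the depleted form `vF` attached to a mixed form. -/

set_option autoImplicit false

namespace Crest.Agent.R007.Emb

open UpperHalfPlane ModularForm CongruenceSubgroup Matrix
open scoped MatrixGroups Manifold ModularForm
open Crest.NumberTheoryR.HeckeTwoAdic Crest.Agent.R007.Op Crest.Agent.R007.Lat Crest.Agent.R007.Mix
open Crest.Agent.R007.Coef

/-- The depletion operators, precision `m`, weights `1, …, k`. -/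
structure Dep (N N' : ℕ) (D : ℕ → (i : ℕ) → (MF N i →ₗ[ℂ] MF N i)) (m k : ℕ) where
  w : ℕ
  dvd : 2 ^ (m + 1) ∣ w
  P : (i : Fin k) → (MF N ((i : ℕ) + 1) →ₗ[ℂ] MF N' ((i : ℕ) + 1 + w))
  slash : ∀ (i : Fin k) (f f₁ : MF N ((i : ℕ) + 1)) (g : SL(2, ℤ)), g ∈ Gamma0 N' →
    (⇑f₁ : ℍ → ℂ) = (⇑f) ∣[(((i : ℕ) + 1 : ℕ) : ℤ)] g →
    (⇑(P i f₁) : ℍ → ℂ) = (⇑(P i f)) ∣[(((i : ℕ) + 1 + w : ℕ) : ℤ)] g
  int : ∀ (i : Fin k) (f : MF N ((i : ℕ) + 1)),
    (∀ d : ℕ, d.Coprime N → ∀ n, an (D d ((i : ℕ) + 1) f) n ∈ OO) →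
    ∀ n, ∃ z ∈ OO, an (P i f) n - (if n.Coprime (2 * N) then an f n else 0) = 2 ^ (m + 1) * z
  rat : ∀ (i : Fin k) (f : MF N ((i : ℕ) + 1)),
    (∀ d : ℕ, d.Coprime N → ∀ n, an (D d ((i : ℕ) + 1) f) n ∈ K0) →
    ∀ n, an (P i f) n ∈ K0

section bd

variable {N : ℕ} [NeZero N] {D : ℕ → (i : ℕ) → (MF N i →ₗ[ℂ] MF N i)} {k : ℕ}

/-- `2^m F` is integral together with all its diamond translates. -/
def Bd (D : ℕ → (i : ℕ) → (MF N i →ₗ[ℂ] MF N i)) (m : ℕ) (F : Mix N k) : Prop :=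
  ∀ (i : Fin k) (d : ℕ), d.Coprime N → ∀ n, (2 ^ m : ℂ) * an (D d ((i : ℕ) + 1) (F i)) n ∈ OO

/-- `F` is `K0`-rational together with all its diamond translates. -/
def RatM (D : ℕ → (i : ℕ) → (MF N i →ₗ[ℂ] MF N i)) (F : Mix N k) : Prop :=
  ∀ (i : Fin k) (d : ℕ), d.Coprime N → ∀ n, an (D d ((i : ℕ) + 1) (F i)) n ∈ K0

lemma Bd.gS (hD : IsDiamondFamily N D) {m : ℕ} {F : Mix N k} (h : Bd D m F) {l : ℕ}
    (hl : l.Coprime N) : Bd D m (act (gS D k l) F) := by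
  intro i d hd n
  rw [act_apply, Emb.gS, LinearMap.smul_apply, map_smul, an_smul,
    Base.D_mul hD hl hd (m := l * d) (by push_cast; rfl)]
  have h1 := h i (l * d) (Nat.Coprime.mul_left hl hd) n
  have h2 : ((l : ℂ) ^ (i : ℕ)) ∈ OO := OO.pow_mem (natCast_mem OO l) _
  have := OO.mul_mem h2 h1
  refine Eq.mp ?_ this
  congr 1
  ring

lemma RatM.gS (hD : IsDiamondFamily N D) {F : Mix N k} (h : RatM D F) {l : ℕ}
    (hl : l.Coprime N) : RatM D (act (gS D k l) F) := by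
  intro i d hd n
  rw [act_apply, Emb.gS, LinearMap.smul_apply, map_smul, an_smul,
    Base.D_mul hD hl hd (m := l * d) (by push_cast; rfl)]
  exact K0.mul_mem (K0.pow_mem (natCast_mem K0 l) _) (h i (l * d) (Nat.Coprime.mul_left hl hd) n)

/-- weight-dependent scaling. -/
noncomputable def scl (c : ℂ) (F : Mix N k) : Mix N k := fun i => c ^ (i : ℕ) • F i

omit [NeZero N] in
@[simp] lemma scl_apply (c : ℂ) (F : Mix N k) (i : Fin k) : scl c F i = c ^ (i : ℕ) • F i := rfl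

lemma Bd.scl {m : ℕ} {F : Mix N k} (h : Bd D m F) {c : ℂ} (hc : c ∈ OO) : Bd D m (scl c F) := by
  intro i d hd n
  rw [scl_apply, map_smul, an_smul]
  have := OO.mul_mem (OO.pow_mem hc (i : ℕ)) (h i d hd n)
  refine Eq.mp ?_ this
  congr 1
  ring

lemma RatM.scl {F : Mix N k} (h : RatM D F) {c : ℂ} (hc : c ∈ K0) : RatM D (scl c F) := by
  intro i d hd n
  rw [scl_apply, map_smul, an_smul]
  exact K0.mul_mem (K0.pow_mem hc _) (h i d hd n)

end bd

section vF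

variable {N N' : ℕ} [NeZero N] [NeZero N'] {D : ℕ → (i : ℕ) → (MF N i →ₗ[ℂ] MF N i)} {m k : ℕ}

/-- the pieces. -/
noncomputable def piece (P : Dep N N' D m k) (F : Mix N k) (i : Fin k) : X → ℂ :=
  lift ((i : ℕ) + 1 + P.w) (⇑(P.P i (F i)))

/-- the depleted mixed form. -/
noncomputable def vF (P : Dep N N' D m k) (F : Mix N k) : X → ℂ := ∑ i, piece P F i

lemma piece_mem (P : Dep N N' D m k) (F : Mix N k) (i : Fin k) :
    piece P F i ∈ MX N' ((i : ℕ) + 1 + P.w) := lift_mem_MX _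

lemma piece_res (P : Dep N N' D m k) (F : Mix N k) (i : Fin k) :
    res (piece P F i) = ⇑(P.P i (F i)) := res_lift _ _

lemma mf_mem_PO {N : ℕ} [NeZero N] {j : ℕ} (f : MF N j) : (⇑f : ℍ → ℂ) ∈ PO :=
  ⟨1, odd_one, mf_mem_PB f⟩

lemma qf_sum {ι : Type*} (s : Finset ι) (f : ι → ℍ → ℂ) (hf : ∀ i ∈ s, f i ∈ PO) (r : ℚ) :
    (qf (∑ i ∈ s, f i)).coeff r = ∑ i ∈ s, (qf (f i)).coeff r := by
  classical
  induction s using Finset.induction_on with
  | empty => simp [qf_zero]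
  | insert a s ha ih =>
    rw [Finset.sum_insert ha, Finset.sum_insert ha, qf_add (hf a (Finset.mem_insert_self _ _))
      (sum_mem fun i hi => hf i (Finset.mem_insert_of_mem hi)), HahnSeries.coeff_add,
      ih fun i hi => hf i (Finset.mem_insert_of_mem hi)]

lemma vF_res (P : Dep N N' D m k) (F : Mix N k) : res (vF P F) = ∑ i, (⇑(P.P i (F i)) : ℍ → ℂ) := by
  have h := map_sum resHom (piece P F) Finset.univ
  have h2 : res (vF P F) = ∑ i, res (piece P F i) := h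
  rw [h2]
  exact Finset.sum_congr rfl fun i _ => piece_res P F i

lemma vF_coeff_nat (P : Dep N N' D m k) (F : Mix N k) (n : ℕ) :
    (qf (res (vF P F))).coeff (n : ℚ) = ∑ i, an (P.P i (F i)) n := by
  rw [vF_res, qf_sum _ _ fun i _ => mf_mem_PO _]
  exact Finset.sum_congr rfl fun i _ => qf_an _ _

lemma vF_coeff_not_nat (P : Dep N N' D m k) (F : Mix N k) {r : ℚ} (hr : ∀ n : ℕ, (n : ℚ) ≠ r) :
    (qf (res (vF P F))).coeff r = 0 := by
  rw [vF_res, qf_sum _ _ fun i _ => mf_mem_PO _]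
  exact Finset.sum_eq_zero fun i _ => qf_not_nat _ hr

/-- the depletion approximates the coefficients mod 2. -/
lemma Dep.approx (P : Dep N N' D m k) {F : Mix N k} (hB : Bd D m F) (i : Fin k) (n : ℕ) :
    an (P.P i (F i)) n - (if n.Coprime (2 * N) then an (F i) n else 0) ∈ T2 := by
  obtain ⟨z, hz, e⟩ := P.int i ((2 ^ m : ℂ) • F i) (fun d hd n => by
    rw [map_smul, an_smul]; exact hB i d hd n) n
  rw [map_smul, an_smul, an_smul] at e
  refine mem_T2.2 ⟨z, hz, ?_⟩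
  have h2 : (2 ^ m : ℂ) ≠ 0 := pow_ne_zero _ two_ne_zero
  apply mul_left_cancel₀ h2
  rw [pow_succ] at e
  rw [← mul_assoc, ← e]
  split_ifs <;> ring

/-- coefficients of `vF` mod 2. -/
lemma vF_approx (P : Dep N N' D m k) {F : Mix N k} (hB : Bd D m F) (n : ℕ) :
    (qf (res (vF P F))).coeff (n : ℚ) - (if n.Coprime (2 * N) then aM F n else 0) ∈ T2 := by
  rw [vF_coeff_nat]
  have h := T2.sum_mem fun i (_ : i ∈ Finset.univ) => P.approx hB i n
  rw [Finset.sum_sub_distrib] at h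
  by_cases hn : n.Coprime (2 * N)
  · simp only [if_pos hn] at h ⊢
    exact h
  · simp only [if_neg hn, Finset.sum_const_zero] at h ⊢
    exact h

end vF

end Crest.Agent.R007.Emb
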