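import Crest.Agent.R007.Emb4

/-! Row 7, node EMB (helper7), part 5: `vF` in `V`, its components, scaling and diamonds. -/

set_option autoImplicit false
set_option linter.unusedSectionVars false

namespace Crest.Agent.R007.Emb

open UpperHalfPlane ModularForm CongruenceSubgroup Matrix
open scoped MatrixGroups Manifold ModularForm
open Crest.NumberTheoryR.HeckeTwoAdic Crest.Agent.R007.Op Crest.Agent.R007.Lat Crest.Agent.R007.Mix
open Crest.Agent.R007.Coef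

/-- congruence of the expansion at infinity mod 2. -/
def CC (F : X → ℂ) (c : ℚ → ZMod 2) : Prop := ∀ r : ℚ, (qf (res F)).coeff r - toC (c r) ∈ T2

/-- bounded denominators at level `Γ₁(N)`. -/
def BDst (N : ℕ) (D : ℕ → (i : ℕ) → (MF N i →ₗ[ℂ] MF N i)) : Prop :=
  ∀ (j : ℕ) (f : MF N j), (∀ d : ℕ, d.Coprime N → ∀ n, an (D d j f) n ∈ K0) →
    ∃ r : ℕ, ((2 : ℂ) ^ r) • lift j f ∈ Lk OO j

/-- the `q`-expansion principle mod 2 on `V`. -/
def C1st : Prop := ∀ F ∈ VV OO, Two OO (res F) → ∃ G ∈ VV OO, F = 2 * G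

lemma two_mem : (2 : ℂ) ∈ OO := by
  have : (2 : ℂ) = 1 + 1 := by norm_num
  rw [this]; exact OO.add_mem OO.one_mem OO.one_mem

section gen

lemma MM_PO {F : X → ℂ} (hF : F ∈ MM) : res F ∈ PO := MM_res hF

lemma res_sub' (F G : X → ℂ) : res (F - G) = res F - res G := rfl

/-- congruent `q`-expansions imply congruence mod `2V`. -/
lemma cg_of_CC (hC1 : C1st) {F G : X → ℂ} (hF : F ∈ VV OO) (hG : G ∈ VV OO) {c : ℚ → ZMod 2}
    (h : CC F c) (h' : CC G c) : Cg OO F G := by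
  apply hC1 _ (sub_mem hF hG)
  intro r
  have h1 := T2.sub_mem (h r) (h' r)
  rw [res_sub', qf_sub (MM_PO hF.1) (MM_PO hG.1), HahnSeries.coeff_sub]
  apply mem_T2.1
  refine Eq.mp ?_ h1
  congr 1
  ring

lemma CC.of_cg {F G : X → ℂ} (hF : F ∈ MM) (hG : G ∈ MM) (h : Cg OO F G) {c : ℚ → ZMod 2}
    (h' : CC G c) : CC F c := by
  intro r
  have h1 := h.two r
  rw [res_sub', qf_sub (MM_PO hF) (MM_PO hG), HahnSeries.coeff_sub] at h1
  have h2 := T2.add_mem (mem_T2.2 h1) (h' r)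
  refine Eq.mp ?_ h2
  congr 1
  ring

lemma cg_smul_of_sub {F : X → ℂ} (hF : F ∈ VV OO) {c : ℂ} (hc : c - 1 ∈ T2) : Cg OO (c • F) F := by
  obtain ⟨z, hz, e⟩ := mem_T2.1 hc
  refine ⟨z • F, VV_smul hF hz, ?_⟩
  rw [two_mul_eq_smul, smul_smul, ← e, sub_smul, one_smul]

lemma odd_sub_one {c : ℕ} (hc : Odd c) : (c : ℂ) - 1 ∈ T2 := by
  obtain ⟨b, rfl⟩ := hc
  refine mem_T2.2 ⟨b, natCast_mem OO b, ?_⟩
  push_cast; ring

lemma cg_odd_smul {F : X → ℂ} (hF : F ∈ VV OO) {c : ℕ} (hc : Odd c) : Cg OO ((c : ℂ) • F) F :=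
  cg_smul_of_sub hF (odd_sub_one hc)

end gen

section vF

variable {N N' : ℕ} [NeZero N] [NeZero N'] {T D : ℕ → (i : ℕ) → (MF N i →ₗ[ℂ] MF N i)}
  {D' : ℕ → (i : ℕ) → (MF N' i →ₗ[ℂ] MF N' i)} {m k : ℕ}

lemma vF_CC (hT : IsHeckeFamily N T D) (P : Dep N N' D m k) {φ : stage N T D k →+ ZMod 2}
    {F : Mix N k} (hL : Lift φ F) (hB : Bd D m F) : CC (vF P F) (Qf φ) := by
  intro r
  by_cases hr : ∃ n : ℕ, (n : ℚ) = r
  · obtain ⟨n, rfl⟩ := hr
    have h1 := vF_approx P hB n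
    rw [Qf_nat]
    by_cases hn : n.Coprime (2 * N)
    · rw [if_pos hn] at h1 ⊢
      have h2 := T2.add_mem h1 (hL.coef hT hn)
      refine Eq.mp ?_ h2
      congr 1
      ring
    · rw [if_neg hn] at h1 ⊢
      rw [toC_zero]
      exact h1
  · have hr' : ∀ n : ℕ, (n : ℚ) ≠ r := fun n hn => hr ⟨n, hn⟩
    rw [vF_coeff_not_nat P F hr', Qf_not_nat φ hr', toC_zero, sub_zero]
    exact T2.zero_mem

lemma gamma_down (h : N ∣ N') {γ : SL(2, ℤ)} (hγ : γ ∈ Gamma0 N') {d : ℕ}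
    (hd : ((γ 1 1 : ℤ) : ZMod N') = d) : γ ∈ Gamma0 N ∧ ((γ 1 1 : ℤ) : ZMod N) = d := by
  constructor
  · rw [Gamma0_mem] at hγ ⊢
    have := congrArg (ZMod.castHom h (ZMod N)) hγ
    simpa using this
  · have := congrArg (ZMod.castHom h (ZMod N)) hd
    simpa using this

lemma coprime_down (h : N ∣ N') {d : ℕ} (hd : d.Coprime N') : d.Coprime N :=
  Nat.Coprime.coprime_dvd_right h hd

/-- diamond translate of a piece. -/
lemma diam_P (hD : IsDiamondFamily N D) (hD' : IsDiamondFamily N' D') (h : N ∣ N')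
    (P : Dep N N' D m k) (i : Fin k) (f : MF N ((i : ℕ) + 1)) {d : ℕ} (hd : d.Coprime N') :
    D' d ((i : ℕ) + 1 + P.w) (P.P i f) = P.P i (D d ((i : ℕ) + 1) f) := by
  obtain ⟨γ, hγ, h1⟩ := Base.exists_gamma N' d hd
  obtain ⟨hγ', h1'⟩ := gamma_down h hγ h1
  apply DFunLike.coe_injective
  rw [hD' d _ γ hγ h1]
  exact (P.slash i f _ γ hγ (hD d _ γ hγ' h1' f)).symm

/-- the pieces have bounded denominators. -/
lemma piece_bd (hD : IsDiamondFamily N D) (hD' : IsDiamondFamily N' D') (h : N ∣ N')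
    (hbd : BDst N' D') (P : Dep N N' D m k) {F : Mix N k} (hR : RatM D F) (i : Fin k) :
    ∃ r : ℕ, ((2 : ℂ) ^ r) • piece P F i ∈ Lk OO ((i : ℕ) + 1 + P.w) := by
  apply hbd
  intro d hd n
  rw [diam_P hD hD' h P i (F i) hd]
  apply P.rat
  intro e he n
  rw [Base.D_mul hD (coprime_down h hd) he (m := d * e) (by push_cast; rfl)]
  exact hR i (d * e) (Nat.Coprime.mul_left (coprime_down h hd) he) n

lemma pow_smul_mem_VV {F : X → ℂ} {r s : ℕ} (hrs : r ≤ s) (h : ((2 : ℂ) ^ r) • F ∈ VV OO) :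
    ((2 : ℂ) ^ s) • F ∈ VV OO := by
  have : ((2 : ℂ) ^ s) • F = ((2 : ℂ) ^ (s - r)) • (((2 : ℂ) ^ r) • F) := by
    rw [smul_smul, ← pow_add, Nat.sub_add_cancel hrs]
  rw [this]
  exact VV_smul h (OO.pow_mem two_mem _)

lemma pieces_bd (hD : IsDiamondFamily N D) (hD' : IsDiamondFamily N' D') (h : N ∣ N')
    (hbd : BDst N' D') (P : Dep N N' D m k) {F : Mix N k} (hR : RatM D F) :
    ∃ R : ℕ, ∀ i, ((2 : ℂ) ^ R) • piece P F i ∈ VV OO := by
  choose r hr using fun i => piece_bd hD hD' h hbd P hR i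
  refine ⟨∑ i, r i, fun i => pow_smul_mem_VV ?_ (Lk_le_VV (hr i))⟩
  exact Finset.single_le_sum (f := r) (fun _ _ => Nat.zero_le _) (Finset.mem_univ i)

/-- `vF` lies in `V`. -/
lemma vF_VV (hC1 : C1st) (hT : IsHeckeFamily N T D) (hD : IsDiamondFamily N D)
    (hD' : IsDiamondFamily N' D') (h : N ∣ N') (hbd : BDst N' D') (P : Dep N N' D m k)
    {φ : stage N T D k →+ ZMod 2} {F : Mix N k} (hL : Lift φ F) (hR : RatM D F) (hB : Bd D m F) :
    vF P F ∈ VV OO := by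
  obtain ⟨R, hR'⟩ := pieces_bd hD hD' h hbd P hR
  refine VV_of_int hC1 R ?_ fun r => ?_
  · rw [vF, Finset.smul_sum]
    exact sum_mem fun i _ => hR' i
  · have h1 := OO.add_mem (T2_le (vF_CC hT P hL hB r)) (toC_mem (Qf φ r))
    rw [sub_add_cancel] at h1
    exact h1

/-- the component of weight `j`. -/
noncomputable def GG (P : Dep N N' D m k) (F : Mix N k) (j : ℕ) : X → ℂ :=
  ∑ i : Fin k, if (i : ℕ) + 1 + P.w = j then piece P F i else 0

lemma GG_mem (P : Dep N N' D m k) (F : Mix N k) (j : ℕ) : GG P F j ∈ MX N' j := by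
  refine Submodule.sum_mem _ fun i _ => ?_
  split_ifs with h
  · rw [← h]; exact piece_mem P F i
  · exact zero_mem _

lemma sum_GG (P : Dep N N' D m k) (F : Mix N k) (c : ℂ) :
    ∑ j ∈ Finset.range (k + 1 + P.w), c ^ j • GG P F j =
      ∑ i : Fin k, c ^ ((i : ℕ) + 1 + P.w) • piece P F i := by
  simp only [GG, Finset.smul_sum]
  rw [Finset.sum_comm]
  refine Finset.sum_congr rfl fun i _ => ?_
  simp only [smul_ite, smul_zero]
  rw [Finset.sum_ite_eq, if_pos]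
  rw [Finset.mem_range]
  have := i.2
  omega

lemma sum_GG_one (P : Dep N N' D m k) (F : Mix N k) :
    ∑ j ∈ Finset.range (k + 1 + P.w), GG P F j = vF P F := by
  have := sum_GG P F 1
  simpa [vF] using this

lemma GG_bd (hD : IsDiamondFamily N D) (hD' : IsDiamondFamily N' D') (h : N ∣ N')
    (hbd : BDst N' D') (P : Dep N N' D m k) {F : Mix N k} (hR : RatM D F) (j : ℕ) :
    ∃ r : ℕ, ((2 : ℂ) ^ r) • GG P F j ∈ VV OO := by
  obtain ⟨R, hR'⟩ := pieces_bd hD hD' h hbd P hR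
  refine ⟨R, ?_⟩
  rw [GG, Finset.smul_sum]
  refine sum_mem fun i _ => ?_
  split_ifs with hi
  · exact hR' i
  · rw [smul_zero]; exact zero_mem _

/-- scaling. -/
lemma vF_scl (P : Dep N N' D m k) (F : Mix N k) (c : ℂ) :
    c ^ (1 + P.w) • vF P (scl c F) = ∑ j ∈ Finset.range (k + 1 + P.w), c ^ j • GG P F j := by
  rw [sum_GG, vF, Finset.smul_sum]
  refine Finset.sum_congr rfl fun i _ => ?_
  have : piece P (scl c F) i = c ^ (i : ℕ) • piece P F i := by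
    rw [piece, scl_apply, map_smul, piece, ← lift_smul]
    rfl
  rw [this, smul_smul, ← pow_add]
  congr 2
  ring

/-- diamonds. -/
lemma vF_gS (hD : IsDiamondFamily N D) (h : N ∣ N') (P : Dep N N' D m k) (F : Mix N k) {l : ℕ}
    {s : SL(2, ℤ)} (hs : s ∈ Gamma0 N') (hl : ((s 1 1 : ℤ) : ZMod N') = l) :
    ((l : ℂ) ^ (1 + P.w)) • vF P (act (gS D k l) F) =
      sl (∑ j ∈ Finset.range (k + 1 + P.w), (l : ℂ) ^ j • GG P F j) (sG s) := by
  obtain ⟨hγ', h1'⟩ := gamma_down h hs hl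
  rw [sum_GG, vF, Finset.smul_sum]
  have hsum : sl (∑ i : Fin k, (l : ℂ) ^ ((i : ℕ) + 1 + P.w) • piece P F i) (sG s) =
      ∑ i : Fin k, sl ((l : ℂ) ^ ((i : ℕ) + 1 + P.w) • piece P F i) (sG s) :=
    Lat.sl_sum _ _ _
  rw [hsum]
  refine Finset.sum_congr rfl fun i _ => ?_
  have e1 : piece P (act (gS D k l) F) i = (l : ℂ) ^ (i : ℕ) • sl (piece P F i) (sG s) := by
    have e2 : act (gS D k l) F i = (l : ℂ) ^ (i : ℕ) • D l ((i : ℕ) + 1) (F i) := rfl
    have e3 := P.slash i (F i) _ s hs (hD l _ s hγ' h1' (F i))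
    rw [piece, e2, map_smul, piece, sl_lift_SL, ← e3, ← lift_smul]
    rfl
  rw [e1, sl_smul, smul_smul, ← pow_add]
  congr 2
  ring

end vF

end Crest.Agent.R007.Emb
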