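import Crest.Agent.R007.Emb5
import Crest.Agent.R007.EmbDens

/-! Row 7, node EMB (helper7), part 6: `surj` and `dia` at the stage level. -/

set_option autoImplicit false
set_option linter.unusedSectionVars false

namespace Crest.Agent.R007.Emb

open UpperHalfPlane ModularForm CongruenceSubgroup Matrix
open scoped MatrixGroups Manifold ModularForm
open Crest.NumberTheoryR.HeckeTwoAdic Crest.Agent.R007.Op Crest.Agent.R007.Lat Crest.Agent.R007.Mix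
open Crest.Agent.R007.Coef

variable {N N' : ℕ} [NeZero N] [NeZero N'] {T D : ℕ → (i : ℕ) → (MF N i →ₗ[ℂ] MF N i)}
  {D' : ℕ → (i : ℕ) → (MF N' i →ₗ[ℂ] MF N' i)} {m k : ℕ}

/-- `D_d = 1` for `d ≡ 1`. -/
lemma D_one (hD : IsDiamondFamily N D) {d : ℕ} (hd : (d : ZMod N) = 1) (i : ℕ) (f : MF N i) :
    D d i f = f := by
  apply DFunLike.coe_injective
  rw [hD d i 1 (one_mem _) (by simp [hd])]
  exact SlashAction.slash_one _ _

/-- scaling by `l ≡ 1 mod N` is `l S_l`. -/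
lemma act_gS_eq_scl (hD : IsDiamondFamily N D) {l : ℕ} (hl : (l : ZMod N) = 1) (F : Mix N k) :
    act (gS D k l) F = scl (l : ℂ) F := by
  funext i
  rw [act_apply, gS, LinearMap.smul_apply, D_one hD hl, scl_apply]

lemma scl_mul (a b : ℂ) (F : Mix N k) : scl a (scl b F) = scl (a * b) F := by
  funext i
  rw [scl_apply, scl_apply, scl_apply, smul_smul, mul_pow]

lemma scl_one (F : Mix N k) : scl (1 : ℂ) F = F := by
  funext i
  rw [scl_apply, one_pow, one_smul]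

/-- invariance of lifts under scaling. -/
lemma Lift.scl (hD : IsDiamondFamily N D) {φ : stage N T D k →+ ZMod 2} {l : ℕ} (hlp : l.Prime)
    (hlN : ¬ l ∣ 2 * N) (hl : (l : ZMod N) = 1) (hφ : ∀ s, φ (s * eS N T D k l) = φ s)
    {F : Mix N k} (h : Lift φ F) : Lift φ (scl (l : ℂ) F) := by
  have h1 := h.act (eS N T D k l)
  rw [coe_eS hlp hlN, act_gS_eq_scl hD hl] at h1
  have h2 : mulR φ (eS N T D k l) = φ := by
    ext s; exact hφ s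
  rwa [h2] at h1

lemma Lift.scl_pow (hD : IsDiamondFamily N D) {φ : stage N T D k →+ ZMod 2} {l : ℕ} (hlp : l.Prime)
    (hlN : ¬ l ∣ 2 * N) (hl : (l : ZMod N) = 1) (hφ : ∀ s, φ (s * eS N T D k l) = φ s)
    {F : Mix N k} (h : Lift φ F) (a : ℕ) : Lift φ (Emb.scl ((l ^ a : ℕ) : ℂ) F) := by
  induction a with
  | zero => simpa [scl_one] using h
  | succ a ih =>
    have := Lift.scl hD hlp hlN hl hφ ih
    rw [scl_mul] at this
    have e : ((l : ℂ) * ((l ^ a : ℕ) : ℂ)) = ((l ^ (a + 1) : ℕ) : ℂ) := by push_cast; ring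
    rwa [e] at this

/-- all data and inputs for EMB. -/
structure Ctx (N N' M : ℕ) [NeZero N] [NeZero N'] [NeZero M]
    (T D : ℕ → (i : ℕ) → (MF N i →ₗ[ℂ] MF N i)) (D' : ℕ → (i : ℕ) → (MF N' i →ₗ[ℂ] MF N' i))
    (l₀ n₀ : ℕ) : Prop where
  hM : Odd M
  h3 : 3 ∣ M
  hN'M : N' ∣ M
  hNN' : N ∣ N'
  hD : IsDiamondFamily N D
  hT : IsHeckeFamily N T D
  hD' : IsDiamondFamily N' D'
  c1 : C1st
  pure : ∀ (n : ℕ) (F : ℕ → X → ℂ), (∀ k, F k ∈ MX M k) → ∑ k ∈ Finset.range n, F k ∈ VV OO →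
    (∀ R c : ℕ, Odd c → ∃ c' : ℕ, Odd c' ∧ c' ≡ c [MOD 2 ^ R] ∧
      Cg OO (∑ k ∈ Finset.range n, (c' : ℂ) ^ k • F k) (∑ k ∈ Finset.range n, F k)) →
    ∃ K, ∃ f ∈ Lk OO K, f ∈ MX M K ∧ Cg OO (∑ k ∈ Finset.range n, F k) f
  bd : BDst N D
  bd' : BDst N' D'
  dep : ∀ m k, Nonempty (Dep N N' D m k)
  real : ∀ (k : ℕ) (φ : stage N T D k →+ ZMod 2), ∃ F : Mix N k, RatM D F ∧ Lift φ F
  l_prime : l₀.Prime
  l_N : ¬ l₀ ∣ 2 * N
  l_eight : l₀ % 8 = 5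
  l_one : (l₀ : ZMod N) = 1
  n_prime : n₀.Prime
  n_N : ¬ n₀ ∣ 2 * N
  n_four : n₀ % 4 = 3
  n_one : (n₀ : ZMod N) = 1

/-- the functionals killed by `y`, `y'`. -/
def Inv (l₀ n₀ : ℕ) (φ : stage N T D k →+ ZMod 2) : Prop :=
  (∀ s, φ (s * eS N T D k l₀) = φ s) ∧ (∀ s, φ (s * eS N T D k n₀) = φ s)

section main

variable {M : ℕ} [NeZero M] {l₀ n₀ : ℕ} (H : Ctx N N' M T D D' l₀ n₀)
include H

/-- bounded denominators of a rational mixed form, with all diamonds. -/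
lemma Ctx.exists_Bd {F : Mix N k} (hR : RatM D F) : ∃ m, Bd D m F := by
  have h1 : ∀ i : Fin k, ∃ r : ℕ, ((2 : ℂ) ^ r) • lift ((i : ℕ) + 1) (F i) ∈ Lk OO ((i : ℕ) + 1) :=
    fun i => H.bd _ (F i) (hR i)
  choose r hr using h1
  refine ⟨∑ i, r i, fun i d hd n => ?_⟩
  obtain ⟨γ, hγ, hγd⟩ := Base.exists_gamma N d hd
  have h2 := (hr i).2 (sG γ) (sG_mem_G2 γ)
  have e : res (sl (((2 : ℂ) ^ r i) • lift ((i : ℕ) + 1) (F i)) (sG γ)) =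
      ((2 : ℂ) ^ r i) • (⇑(D d ((i : ℕ) + 1) (F i)) : ℍ → ℂ) := by
    rw [sl_smul, res_smul, sl_lift_SL, res_lift, H.hD d _ γ hγ hγd (F i)]
  rw [e] at h2
  have h3 := h2.2 (n : ℚ)
  rw [qf_smul _ (mf_mem_PO _), HahnSeries.coeff_smul, qf_an, smul_eq_mul] at h3
  have hle : r i ≤ ∑ i, r i :=
    Finset.single_le_sum (f := r) (fun _ _ => Nat.zero_le _) (Finset.mem_univ i)
  have h4 := OO.mul_mem (OO.pow_mem two_mem ((∑ i, r i) - r i)) h3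
  rw [← mul_assoc, ← pow_add, Nat.sub_add_cancel hle] at h4
  exact h4

lemma Ctx.l_odd : Odd l₀ := by
  rw [Nat.odd_iff]; have := H.l_eight; omega

lemma Ctx.n_odd : Odd n₀ := by
  rw [Nat.odd_iff]; have := H.n_four; omega

/-- `[c']`-invariance mod `2V` for a dense set of `c'`. -/
lemma Ctx.inv (P : Dep N N' D m k) {φ : stage N T D k →+ ZMod 2} (hφ : Inv l₀ n₀ φ) {F : Mix N k}
    (hL : Lift φ F) (hR : RatM D F) (hB : Bd D m F) :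
    ∀ R c : ℕ, Odd c → ∃ c' : ℕ, Odd c' ∧ c' ≡ c [MOD 2 ^ R] ∧
      Cg OO (∑ j ∈ Finset.range (k + 1 + P.w), (c' : ℂ) ^ j • GG P F j)
        (∑ j ∈ Finset.range (k + 1 + P.w), GG P F j) := by
  intro R c hc
  obtain ⟨a, b, hab⟩ := EmbDens.dens H.l_eight H.n_four R c hc
  refine ⟨l₀ ^ a * n₀ ^ b, (H.l_odd.pow).mul (H.n_odd.pow), hab, ?_⟩
  set c' := l₀ ^ a * n₀ ^ b with hc'
  have hodd : Odd c' := (H.l_odd.pow).mul (H.n_odd.pow)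
  have hL1 : Lift φ (scl ((c' : ℕ) : ℂ) F) := by
    have h1 := Lift.scl_pow H.hD H.n_prime H.n_N H.n_one hφ.2 hL b
    have h2 := Lift.scl_pow H.hD H.l_prime H.l_N H.l_one hφ.1 h1 a
    rw [scl_mul] at h2
    have e : (((l₀ ^ a : ℕ) : ℂ) * ((n₀ ^ b : ℕ) : ℂ)) = ((c' : ℕ) : ℂ) := by
      rw [hc']; push_cast; ring
    rwa [e] at h2
  have hR1 : RatM D (scl ((c' : ℕ) : ℂ) F) := hR.scl (natCast_mem K0 _)
  have hB1 : Bd D m (scl ((c' : ℕ) : ℂ) F) := hB.scl (natCast_mem OO _)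
  have hv := vF_VV H.c1 H.hT H.hD H.hD' H.hNN' H.bd' P hL hR hB
  have hv1 := vF_VV H.c1 H.hT H.hD H.hD' H.hNN' H.bd' P hL1 hR1 hB1
  rw [sum_GG_one, ← vF_scl]
  have h1 : Cg OO ((c' : ℂ) ^ (1 + P.w) • vF P (scl (c' : ℂ) F)) (vF P (scl (c' : ℂ) F)) := by
    have := cg_odd_smul hv1 (c := c' ^ (1 + P.w)) hodd.pow
    rwa [Nat.cast_pow] at this
  exact h1.trans (cg_of_CC H.c1 hv1 hv (vF_CC H.hT P hL1 hB1) (vF_CC H.hT P hL hB))

/-- **surj** at the stage level. -/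
theorem Ctx.surj {φ : stage N T D k →+ ZMod 2} (hφ : Inv l₀ n₀ φ) :
    ∃ K, ∃ f ∈ Lk OO K, f ∈ MX M K ∧ CC f (Qf φ) := by
  obtain ⟨F, hR, hL⟩ := H.real k φ
  obtain ⟨m, hB⟩ := H.exists_Bd hR
  obtain ⟨P⟩ := H.dep m k
  have hv := vF_VV H.c1 H.hT H.hD H.hD' H.hNN' H.bd' P hL hR hB
  obtain ⟨K, f, hf, hfM, hfc⟩ := H.pure (k + 1 + P.w) (GG P F)
    (fun j => MX_mono H.hN'M (GG_mem P F j)) (by rw [sum_GG_one]; exact hv) (H.inv P hφ hL hR hB)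
  refine ⟨K, f, hf, hfM, ?_⟩
  rw [sum_GG_one] at hfc
  exact CC.of_cg (Lk_le_VV hf).1 hv.1 hfc.symm (vF_CC H.hT P hL hB)

/-- **dia** at the stage level: diamonds and `l S_l`. -/
theorem Ctx.dia (hinv_all : ∀ (n : ℕ) (G : ℕ → X → ℂ), (∀ j, ∃ r : ℕ, ((2 : ℂ) ^ r) • G j ∈ VV OO) →
      (∀ R c : ℕ, Odd c → ∃ c' : ℕ, Odd c' ∧ c' ≡ c [MOD 2 ^ R] ∧
        Cg OO (∑ k ∈ Finset.range n, (c' : ℂ) ^ k • G k) (∑ k ∈ Finset.range n, G k)) →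
      ∀ c : ℕ, Odd c → Cg OO (∑ k ∈ Finset.range n, (c : ℂ) ^ k • G k) (∑ k ∈ Finset.range n, G k))
    {φ : stage N T D k →+ ZMod 2} (hφ : Inv l₀ n₀ φ) {K : ℕ} {f : X → ℂ} (hf : f ∈ Lk OO K)
    (hc : CC f (Qf φ)) {l : ℕ} (hlp : l.Prime) (hlN : ¬ l ∣ 2 * N) {s : SL(2, ℤ)}
    (hs : s ∈ Gamma0 N') (hl : ((s 1 1 : ℤ) : ZMod N') = l) :
    CC (sl f (sG s)) (Qf (mulR φ (eS N T D k l))) := by
  obtain ⟨F, hR, hL⟩ := H.real k φ
  obtain ⟨m, hB⟩ := H.exists_Bd hR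
  obtain ⟨P⟩ := H.dep m k
  have hlc : l.Coprime N := Base.coprime_of_prime hlp hlN
  have hlo : Odd l := by
    rcases hlp.eq_two_or_odd' with h | h
    · exact absurd (h ▸ Dvd.intro N rfl) hlN
    · exact h
  have hv := vF_VV H.c1 H.hT H.hD H.hD' H.hNN' H.bd' P hL hR hB
  -- the form attached to `φ(· l S_l)`
  have hL1 : Lift (mulR φ (eS N T D k l)) (act (gS D k l) F) := by
    have := hL.act (eS N T D k l)
    rwa [coe_eS hlp hlN] at this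
  have hR1 : RatM D (act (gS D k l) F) := hR.gS H.hD hlc
  have hB1 : Bd D m (act (gS D k l) F) := hB.gS H.hD hlc
  have hv1 := vF_VV H.c1 H.hT H.hD H.hD' H.hNN' H.bd' P hL1 hR1 hB1
  have h1 : Cg OO f (vF P F) := cg_of_CC H.c1 (Lk_le_VV hf) hv hc (vF_CC H.hT P hL hB)
  have h2 : Cg OO (∑ j ∈ Finset.range (k + 1 + P.w), (l : ℂ) ^ j • GG P F j) (vF P F) := by
    have := hinv_all (k + 1 + P.w) (GG P F)
      (GG_bd H.hD H.hD' H.hNN' H.bd' P hR) (H.inv P hφ hL hR hB) l hlo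
    rwa [sum_GG_one] at this
  have h3 := (h1.trans h2.symm).sl (sG_mem_G2 s)
  rw [← vF_gS H.hD H.hNN' P F hs hl] at h3
  have h4 : Cg OO ((l : ℂ) ^ (1 + P.w) • vF P (act (gS D k l) F)) (vF P (act (gS D k l) F)) := by
    have := cg_odd_smul hv1 (c := l ^ (1 + P.w)) hlo.pow
    rwa [Nat.cast_pow] at this
  exact CC.of_cg (Lk_le_VV (Lk_sl hf (sG_mem_G2 s))).1 hv1.1 (h3.trans h4) (vF_CC H.hT P hL1 hB1)

end main

end Crest.Agent.R007.Emb
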