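import Crest.Agent.R007.RatBDN
import Crest.Agent.R007.EHasse
import Crest.Agent.R007.OOInst

/-! Row 7, node EMB: bounded denominators at level `Γ₁(N)` in the language of `Lk`. -/

set_option autoImplicit false

namespace Crest.Agent.R007.Emb

open UpperHalfPlane ModularForm CongruenceSubgroup
open Crest.NumberTheoryR.HeckeTwoAdic
open scoped MatrixGroups

/-- `K0`-rational at infinity ⇒ a 2-power multiple is integral (all cusps, all of `G2`). -/
theorem emb_bd {N j : ℕ} [NeZero N] (hN : Odd N) (f : MF N j) (hf : ∀ n, Op.an f n ∈ Coef.K0) :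
    ∃ m : ℕ, ((2 : ℂ) ^ m) • Lat.lift j (f : ℍ → ℂ) ∈ Mix.Lk Coef.OO j := by
  obtain ⟨r, hr⟩ := Rat.bd_MF_isR hN f hf
  refine ⟨r, ?_⟩
  rw [← Lat.lift_smul]
  exact EH.isR_mem_Lk OOI.oddRing_OO hN hr

/-- version with the diamond hypothesis -/
theorem emb_bd' {N j : ℕ} [NeZero N] (hN : Odd N) {D : ℕ → (i : ℕ) → (MF N i →ₗ[ℂ] MF N i)}
    (hD : IsDiamondFamily N D) (f : MF N j)
    (hf : ∀ d : ℕ, Nat.Coprime d N → ∀ n, Op.an (D d j f) n ∈ Coef.K0) :
    ∃ m : ℕ, ((2 : ℂ) ^ m) • Lat.lift j (f : ℍ → ℂ) ∈ Mix.Lk Coef.OO j := by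
  apply emb_bd hN f
  intro n
  have h1 := hf 1 (Nat.coprime_one_left N) n
  have h2 : D 1 j f = f := by
    apply DFunLike.coe_injective
    rw [hD 1 j 1 (one_mem _) (by simp) f, SlashAction.slash_one]
  rwa [h2] at h1

end Crest.Agent.R007.Emb
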