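import Crest.Agent.R007.Mix2

/-! Row 7, node EMB (helper782): the `[c]`-invariance step. -/

set_option autoImplicit false

namespace Crest.Agent.R007.Emb

open UpperHalfPlane ModularForm CongruenceSubgroup Matrix
open scoped MatrixGroups Manifold ModularForm
open Crest.Agent.R007.Lat Crest.Agent.R007.Mix

variable {O : Subring ℂ}

/-- the scalar `c` in `G2`. -/
lemma sc_inv_mem {c : ℕ} (hc : Odd c) (h : 0 < (sc (c : ℤ)).det) : (iG (sc (c : ℤ)) h)⁻¹ ∈ G2 := by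
  refine inv_mem (iG_mem_G2 _ _ ?_)
  rw [sc_det]
  have : Odd (c : ℤ) := by exact_mod_cast hc
  exact this.mul this

lemma sl_sc_inv {k : ℕ} {F : X → ℂ} (hF : F ∈ Wt k) {c : ℕ} (hc : c ≠ 0)
    (h : 0 < (sc (c : ℤ)).det) : sl F (iG (sc (c : ℤ)) h)⁻¹ = ((c : ℂ)) ^ k • F := by
  have e := sl_scalar hF (c : ℤ) h
  have hc0 : (c : ℂ) ≠ 0 := by exact_mod_cast hc
  have e2 : sl (sl F (iG (sc (c : ℤ)) h)) (iG (sc (c : ℤ)) h)⁻¹ = F := by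
    rw [← sl_mul_right, mul_inv_cancel, sl_one_right]
  rw [e, sl_smul] at e2
  rw [← e2, smul_smul]
  have : (c : ℂ) ^ k * (((c : ℤ) : ℂ)⁻¹) ^ k = 1 := by
    rw [← mul_pow]
    have : (c : ℂ) * (((c : ℤ) : ℂ)⁻¹) = 1 := by
      rw [Int.cast_natCast]
      exact mul_inv_cancel₀ hc0
    rw [this, one_pow]
  rw [this, one_smul, e2]

/-- the twisted sum `[c⁻¹] v`. -/
noncomputable def scal (n : ℕ) (F : ℕ → X → ℂ) (c : ℕ) : X → ℂ :=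
  ∑ k ∈ Finset.range n, (c : ℂ) ^ k • F k

lemma scal_one (n : ℕ) (F : ℕ → X → ℂ) : scal n F 1 = ∑ k ∈ Finset.range n, F k := by
  simp [scal]

lemma scal_sl {n : ℕ} {F : ℕ → X → ℂ} (hF : ∀ k, F k ∈ Wt k) {c : ℕ} (hc : c ≠ 0)
    (h : 0 < (sc (c : ℤ)).det) (d : ℕ) :
    sl (scal n F d) (iG (sc (c : ℤ)) h)⁻¹ = scal n F (c * d) := by
  unfold scal
  rw [sl_sum]
  refine Finset.sum_congr rfl fun k _ => ?_
  rw [sl_smul, sl_sc_inv (hF k) hc, smul_smul]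
  congr 1
  push_cast
  ring

lemma cg_scal_mul {n : ℕ} {F : ℕ → X → ℂ} (hF : ∀ k, F k ∈ Wt k) {c d : ℕ} (hc : Odd c)
    (h : Cg O (scal n F c) (scal n F 1)) (h' : Cg O (scal n F d) (scal n F 1)) :
    Cg O (scal n F (c * d)) (scal n F 1) := by
  have hc0 : c ≠ 0 := by rintro rfl; exact absurd hc (by decide)
  have hp : 0 < (sc (c : ℤ)).det := sc_det_pos (by exact_mod_cast hc0)
  have h2 := h'.sl (sc_inv_mem hc hp)
  rw [scal_sl hF hc0, scal_sl hF hc0, mul_one] at h2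
  exact h2.trans h

lemma cg_scal_pow {n : ℕ} {F : ℕ → X → ℂ} (hF : ∀ k, F k ∈ Wt k) {c : ℕ} (hc : Odd c)
    (h : Cg O (scal n F c) (scal n F 1)) (a : ℕ) : Cg O (scal n F (c ^ a)) (scal n F 1) := by
  induction a with
  | zero => rw [pow_zero]; exact Cg.refl _
  | succ a ih =>
    rw [pow_succ']
    exact cg_scal_mul hF hc h ih

lemma cg_scal_pow_mul {n : ℕ} {F : ℕ → X → ℂ} (hF : ∀ k, F k ∈ Wt k) {l l' : ℕ} (hl : Odd l)
    (hl' : Odd l') (h : Cg O (scal n F l) (scal n F 1)) (h' : Cg O (scal n F l') (scal n F 1))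
    (a b : ℕ) : Cg O (scal n F (l ^ a * l' ^ b)) (scal n F 1) :=
  cg_scal_mul hF hl.pow (cg_scal_pow hF hl h a) (cg_scal_pow hF hl' h' b)

/-- the `Cg`-form of `hinv` of (I5). -/
theorem hinv_of {n : ℕ} {F : ℕ → X → ℂ} (hF : ∀ k, F k ∈ Wt k) {l l' : ℕ} (hl : Odd l)
    (hl' : Odd l')
    (dens : ∀ R c : ℕ, Odd c → ∃ a b : ℕ, l ^ a * l' ^ b ≡ c [MOD 2 ^ R])
    (h : Cg O (scal n F l) (scal n F 1)) (h' : Cg O (scal n F l') (scal n F 1)) :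
    ∀ R c : ℕ, Odd c → ∃ c' : ℕ, Odd c' ∧ c' ≡ c [MOD 2 ^ R] ∧
      Cg O (scal n F c') (scal n F 1) := by
  intro R c hc
  obtain ⟨a, b, hab⟩ := dens R c hc
  exact ⟨l ^ a * l' ^ b, Odd.mul hl.pow hl'.pow, hab, cg_scal_pow_mul hF hl hl' h h' a b⟩

lemma cg_smul_of_dvd {G : X → ℂ} {r R : ℕ} (hr : r + 1 ≤ R) (h : ((2 : ℂ) ^ r) • G ∈ VV O) (z w : ℤ)
    (hz : ((2 : ℤ) ^ R) ∣ z - w) : Cg O ((z : ℂ) • G) ((w : ℂ) • G) := by
  obtain ⟨y, hy⟩ := hz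
  obtain ⟨s, rfl⟩ := Nat.exists_eq_add_of_le hr
  refine ⟨(((y * 2 ^ s : ℤ)) : ℂ) • (((2 : ℂ) ^ r) • G), VV_smul h (intCast_mem O _), ?_⟩
  rw [two_mul_eq_smul, ← sub_smul, smul_smul, smul_smul]
  congr 1
  have h1 : (z : ℂ) - w = ((z - w : ℤ) : ℂ) := by push_cast; ring
  rw [h1, hy]
  push_cast
  ring

/-- `[c] v mod 2 V` depends only on `c` modulo a power of `2`. -/
theorem inv_all {n : ℕ} {G : ℕ → X → ℂ} (hG : ∀ j, ∃ r : ℕ, ((2 : ℂ) ^ r) • G j ∈ VV O)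
    (hinv : ∀ R c : ℕ, Odd c → ∃ c' : ℕ, Odd c' ∧ c' ≡ c [MOD 2 ^ R] ∧
      Cg O (∑ j ∈ Finset.range n, (c' : ℂ) ^ j • G j) (∑ j ∈ Finset.range n, G j))
    (c : ℕ) (hc : Odd c) :
    Cg O (∑ j ∈ Finset.range n, (c : ℂ) ^ j • G j) (∑ j ∈ Finset.range n, G j) := by
  choose r hr using hG
  obtain ⟨R, hR⟩ : ∃ R : ℕ, ∀ j ∈ Finset.range n, r j + 1 ≤ R :=
    ⟨∑ j ∈ Finset.range n, (r j + 1), fun j hj =>
      Finset.single_le_sum (f := fun j => r j + 1) (fun _ _ => Nat.zero_le _) hj⟩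
  obtain ⟨c', -, hcc, h⟩ := hinv R c hc
  refine Cg.trans (Cg.sum _ fun j hj => ?_) h
  have hd : ((2 : ℤ) ^ R) ∣ ((c : ℤ) ^ j - (c' : ℤ) ^ j) := by
    have h1 : ((2 : ℤ) ^ R) ∣ ((c : ℤ) - (c' : ℤ)) := by
      have := (Nat.modEq_iff_dvd.1 hcc)
      push_cast at this
      exact this
    exact h1.trans (sub_dvd_pow_sub_pow _ _ j)
  have := cg_smul_of_dvd (hR j hj) (hr j) ((c : ℤ) ^ j) ((c' : ℤ) ^ j) hd
  push_cast at this
  exact this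

end Crest.Agent.R007.Emb
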