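import Mathlib
import Crest.Agent.R007.KumM
import Crest.Agent.R007.Lat6

/-! Row 7: basic calculus of coefficients of mixed weight forms (all odd levels). -/

set_option autoImplicit false

namespace Crest.Agent.R007.KumC

open UpperHalfPlane ModularForm CongruenceSubgroup Matrix
open scoped MatrixGroups Manifold ModularForm
open Crest.Agent.R007.Lat Crest.Agent.R007.KumM

/-! ### integral matrices -/

lemma exists_hermite (A : Matrix (Fin 2) (Fin 2) ℤ) (hA : 0 < A.det) :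
    ∃ (γ : SL(2, ℤ)) (a b d : ℕ), A = γ.1 * ut a b d ∧ (a : ℤ) * d = A.det ∧ 0 < a ∧ 0 < d := by
  obtain ⟨p, q, r, s, rfl⟩ : ∃ p q r s : ℤ, A = !![p, q; r, s] := ⟨_, _, _, _, Matrix.eta_fin_two A⟩
  rw [Matrix.det_fin_two_of] at hA
  have hg0 : Int.gcd p r ≠ 0 := by
    intro h
    rw [Int.gcd_eq_zero_iff] at h
    rw [h.1, h.2] at hA
    simp at hA
  obtain ⟨p', hp'⟩ : (Int.gcd p r : ℤ) ∣ p := Int.gcd_dvd_left ..
  obtain ⟨r', hr'⟩ : (Int.gcd p r : ℤ) ∣ r := Int.gcd_dvd_right ..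
  obtain ⟨x, y, hbez⟩ : ∃ x y : ℤ, (Int.gcd p r : ℤ) = p * x + r * y := ⟨_, _, Int.gcd_eq_gcd_ab p r⟩
  generalize Int.gcd p r = g at *
  have hgz : (g : ℤ) ≠ 0 := by exact_mod_cast hg0
  have hgpos : (0 : ℤ) < g := by exact_mod_cast Nat.pos_of_ne_zero hg0
  subst hp' hr'
  have hb1 : x * p' + y * r' = 1 := by
    have : (g : ℤ) * (x * p' + y * r') = g * 1 := by
      rw [mul_one]
      conv_rhs => rw [hbez]
      ring
    exact mul_left_cancel₀ hgz this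
  have hd : (g * p') * s - q * (g * r') = g * (p' * s - r' * q) := by ring
  have hdpos : 0 < p' * s - r' * q := by
    rw [hd] at hA
    exact (mul_pos_iff_of_pos_left hgpos).1 hA
  set D := p' * s - r' * q with hD
  set b0 := x * q + y * s with hb0
  set t := -(b0 / D) with ht
  have hb : b0 + t * D = b0 % D := by rw [ht, Int.emod_def]; ring
  have hbpos : 0 ≤ b0 + t * D := by rw [hb]; exact Int.emod_nonneg _ hdpos.ne'
  refine ⟨⟨!![p', -(y + t * p'); r', x - t * r'], ?_⟩, g, (b0 + t * D).toNat, D.toNat, ?_, ?_, ?_, ?_⟩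
  · rw [Matrix.det_fin_two_of]
    linear_combination hb1
  · rw [Int.toNat_of_nonneg hbpos, Int.toNat_of_nonneg hdpos.le]
    simp only [ut, Matrix.mul_fin_two]
    ext i j
    fin_cases i <;> fin_cases j
    · simp; ring
    · simp
      rw [hb0, hD]
      linear_combination (-q) * hb1
    · simp; ring
    · simp
      rw [hb0, hD]
      linear_combination (-s) * hb1
  · rw [Int.toNat_of_nonneg hdpos.le, Matrix.det_fin_two_of]
    rw [hd]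
  · exact_mod_cast hgpos
  · have : (0 : ℤ) < (D.toNat : ℤ) := by rw [Int.toNat_of_nonneg hdpos.le]; exact hdpos
    exact_mod_cast this

lemma iG_sc_comm (n : ℤ) (h : 0 < (sc n).det) (g : GL(2, ℝ)⁺) : iG (sc n) h * g = g * iG (sc n) h := by
  apply Subtype.ext
  apply Units.ext
  rw [Subgroup.coe_mul, Units.val_mul, Subgroup.coe_mul, Units.val_mul, iG_val, sc_map]
  simp

/-- every element of `G2` is `[n]⁻¹ γ (a b; 0 d)` -/
lemma G2_decomp {δ : GL(2, ℝ)⁺} (hδ : δ ∈ G2) : ∃ (n a b d : ℕ) (γ : SL(2, ℤ)) (hn : 0 < (sc n).det)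
    (hu : 0 < (ut a b d).det), Odd n ∧ Odd a ∧ Odd d ∧ iG (sc n) hn * δ = sG γ * iG (ut a b d) hu := by
  obtain ⟨n, A, hn, hA, h, h', e, _⟩ := G2_exists hδ
  obtain ⟨γ, a, b, d, hAe, hdet, ha, hd⟩ := exists_hermite A h
  have hu : 0 < (ut a b d).det := by rw [ut_det]; exact_mod_cast Nat.mul_pos ha hd
  have hodd : Odd ((a : ℤ) * d) := by rw [hdet]; exact hA
  rw [Int.odd_mul] at hodd
  refine ⟨n, a, b, d, γ, h', hu, hn, by exact_mod_cast hodd.1, by exact_mod_cast hodd.2, ?_⟩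
  rw [e, sG, ← iG_mul _ _ _ _ (by rw [← hAe]; exact h)]
  exact iG_congr hAe _

/-! ### the algebra `MP` and coefficients -/

/-- functions all whose translates have expansions -/
def MP : Subalgebra ℂ (X → ℂ) where
  carrier := {F | ∀ δ ∈ G2, res (sl F δ) ∈ PO}
  mul_mem' := by
    intro F G hF hG δ hδ
    rw [sl_mul, res_mul]
    exact mul_mem (hF δ hδ) (hG δ hδ)
  add_mem' := by
    intro F G hF hG δ hδ
    rw [sl_add, res_add]
    exact add_mem (hF δ hδ) (hG δ hδ)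
  algebraMap_mem' := by
    intro c δ _
    exact PO.algebraMap_mem c

lemma mem_MP {F : X → ℂ} : F ∈ MP ↔ ∀ δ ∈ G2, res (sl F δ) ∈ PO := Iff.rfl

lemma MO_le_MP {k : ℕ} {F : X → ℂ} (hF : F ∈ MO k) : F ∈ MP := fun _ hδ => res_mem_PO (MO_sl hF hδ)

lemma MP_sl {F : X → ℂ} (hF : F ∈ MP) {ε : GL(2, ℝ)⁺} (hε : ε ∈ G2) : sl F ε ∈ MP := by
  intro δ hδ
  rw [← sl_mul_right]
  exact hF _ (mul_mem hε hδ)

/-- coefficient of `q^ν` in the expansion of `F ∥ δ` -/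
noncomputable def cf (δ : GL(2, ℝ)⁺) (ν : ℚ) (F : X → ℂ) : ℂ := (qf (res (sl F δ))).coeff ν

variable {F G : X → ℂ} {δ : GL(2, ℝ)⁺} {ν : ℚ}

lemma cf_add (hF : F ∈ MP) (hG : G ∈ MP) (hδ : δ ∈ G2) : cf δ ν (F + G) = cf δ ν F + cf δ ν G := by
  rw [cf, sl_add, res_add, qf_add (hF δ hδ) (hG δ hδ), HahnSeries.coeff_add]; rfl

lemma cf_sub (hF : F ∈ MP) (hG : G ∈ MP) (hδ : δ ∈ G2) : cf δ ν (F - G) = cf δ ν F - cf δ ν G := by
  rw [cf, sl_sub, res_sub, qf_sub (hF δ hδ) (hG δ hδ), HahnSeries.coeff_sub]; rfl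

lemma cf_smul (c : ℂ) (hF : F ∈ MP) (hδ : δ ∈ G2) : cf δ ν (c • F) = c * cf δ ν F := by
  rw [cf, sl_smul, res_smul, qf_smul c (hF δ hδ), HahnSeries.coeff_smul]; rfl

lemma cf_zero : cf δ ν 0 = 0 := by
  have h : res (sl (0 : X → ℂ) δ) = 0 := rfl
  rw [cf, h, qf_zero, HahnSeries.coeff_zero]

lemma cf_sum {s : Finset ℕ} {F : ℕ → X → ℂ} (hF : ∀ i ∈ s, F i ∈ MP) (hδ : δ ∈ G2) :
    cf δ ν (∑ i ∈ s, F i) = ∑ i ∈ s, cf δ ν (F i) := by
  induction s using Finset.induction_on with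
  | empty => simp [cf_zero]
  | insert a s ha ih =>
    rw [Finset.sum_insert ha, Finset.sum_insert ha, cf_add (hF _ (Finset.mem_insert_self _ _)) _ hδ, ih]
    · intro i hi; exact hF i (Finset.mem_insert_of_mem hi)
    · exact sum_mem fun i hi => hF i (Finset.mem_insert_of_mem hi)

lemma cf_sl (ε : GL(2, ℝ)⁺) : cf δ ν (sl F ε) = cf (ε * δ) ν F := by
  rw [cf, cf, sl_mul_right]

lemma cf_of_den_even (hF : F ∈ MP) (hδ : δ ∈ G2) (hν : ¬ Odd ν.den) : cf δ ν F = 0 := by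
  obtain ⟨M, hM, hf⟩ := hF δ hδ
  apply qf_coeff_of_notMem hM hf
  rintro n rfl
  apply hν
  have h1 := Rat.den_dvd (n : ℤ) (M : ℤ)
  rw [Rat.divInt_eq_div] at h1
  have h3 : (((n : ℤ) : ℚ) / ((M : ℤ) : ℚ)) = (n : ℚ) / (M : ℚ) := by push_cast; rfl
  rw [h3] at h1
  have h2 : ((n : ℚ) / (M : ℚ)).den ∣ M := Int.natCast_dvd_natCast.1 h1
  exact Odd.of_dvd_nat hM h2

/-! ### integrality -/

/-- all coefficients of all translates lie in `I` -/
def IntAt (I : AddSubgroup ℂ) (F : X → ℂ) : Prop := ∀ δ ∈ G2, ∀ ν : ℚ, cf δ ν F ∈ I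

variable {I J : AddSubgroup ℂ}

lemma IntAt.sl (h : IntAt I F) {ε : GL(2, ℝ)⁺} (hε : ε ∈ G2) : IntAt I (sl F ε) := by
  intro δ hδ ν
  rw [cf_sl]
  exact h _ (mul_mem hε hδ) ν

lemma IntAt.add (h : IntAt I F) (h' : IntAt I G) (hF : F ∈ MP) (hG : G ∈ MP) : IntAt I (F + G) := by
  intro δ hδ ν
  rw [cf_add hF hG hδ]
  exact I.add_mem (h δ hδ ν) (h' δ hδ ν)

lemma IntAt.sub (h : IntAt I F) (h' : IntAt I G) (hF : F ∈ MP) (hG : G ∈ MP) : IntAt I (F - G) := by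
  intro δ hδ ν
  rw [cf_sub hF hG hδ]
  exact I.sub_mem (h δ hδ ν) (h' δ hδ ν)

lemma IntAt.smul {c : ℂ} (hc : ∀ x ∈ I, c * x ∈ J) (h : IntAt I F) (hF : F ∈ MP) : IntAt J (c • F) := by
  intro δ hδ ν
  rw [cf_smul c hF hδ]
  exact hc _ (h δ hδ ν)

lemma IntAt.mono (hIJ : I ≤ J) (h : IntAt I F) : IntAt J F := fun δ hδ ν => hIJ (h δ hδ ν)

lemma IntAt.sum {s : Finset ℕ} {F : ℕ → X → ℂ} (h : ∀ i ∈ s, IntAt I (F i)) (hF : ∀ i ∈ s, F i ∈ MP) :
    IntAt I (∑ i ∈ s, F i) := by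
  intro δ hδ ν
  rw [cf_sum hF hδ]
  exact sum_mem fun i hi => h i hi δ hδ ν

lemma IntAt.mul {K : AddSubgroup ℂ} (hIJ : ∀ x ∈ I, ∀ y ∈ J, x * y ∈ K) (h : IntAt I F) (h' : IntAt J G)
    (hF : F ∈ MP) (hG : G ∈ MP) : IntAt K (F * G) := by
  intro δ hδ ν
  rw [cf, sl_mul, res_mul, qf_mul (hF δ hδ) (hG δ hδ), HahnSeries.coeff_mul]
  exact sum_mem fun ij _ => hIJ _ (h δ hδ _) _ (h' δ hδ _)

lemma intAt_one (O : Subring ℂ) : IntAt O.toAddSubgroup 1 := by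
  intro δ _ ν
  have h : res (Lat.sl (1 : X → ℂ) δ) = 1 := rfl
  rw [cf, h, qf_one, HahnSeries.coeff_one]
  split_ifs
  · exact O.one_mem
  · exact O.zero_mem

/-! ### scalars -/

lemma sl_sc {k : ℕ} (hF : F ∈ Wt k) (n : ℕ) (h : 0 < (sc n).det) :
    sl F (iG (sc n) h) = ((n : ℂ)⁻¹) ^ k • F := by
  have := sl_scalar hF n h
  simpa using this

lemma sl_sc_inv {k : ℕ} (hF : F ∈ Wt k) (n : ℕ) (h : 0 < (sc n).det) :
    sl F (iG (sc n) h)⁻¹ = (n : ℂ) ^ k • F := by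
  have hn : (n : ℂ) ≠ 0 := by
    rintro h0
    have : n = 0 := by exact_mod_cast h0
    subst this
    simp [sc_det] at h
  have h1 : sl (sl F (iG (sc n) h)) (iG (sc n) h)⁻¹ = F := by
    rw [← sl_mul_right, mul_inv_cancel, sl_one_right]
  rw [sl_sc hF n h, sl_smul] at h1
  conv_rhs => rw [← h1]
  rw [smul_smul, inv_pow, mul_inv_cancel₀ (pow_ne_zero _ hn), one_smul]

lemma sc_mem_G2 {n : ℕ} (hn : Odd n) (h : 0 < (sc n).det) : iG (sc n) h ∈ G2 :=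
  iG_mem_G2 _ _ (by rw [sc_det]; exact (by exact_mod_cast hn.mul hn))

lemma sc_pos {n : ℕ} (hn : Odd n) : 0 < (sc n).det := sc_det_pos (by exact_mod_cast hn.pos.ne')

/-! ### upper triangular matrices -/

lemma MM_le_MP {F : X → ℂ} (hF : F ∈ MM) : F ∈ MP := by
  refine Submodule.iSup_induction (p := fun k => MO k) (motive := fun F => F ∈ MP) (mem_MM.1 hF)
    (fun k x hx => MO_le_MP hx) (zero_mem _) (fun x y hx hy => add_mem hx hy)

lemma cf_ut {F : X → ℂ} (hF : F ∈ MM) {a b d : ℕ} (ha : Odd a) (hd : Odd d)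
    (h : 0 < (ut a b d).det) (hd' : 0 < (sc d).det) (s : ℚ) :
    cf (iG (ut a b d) h) (s * a / d) F = ee (s * b / d) * cf (iG (sc d) hd') s F := by
  have hu : iG (ut a b d) h ∈ G2 := iG_mem_G2 _ _ (by rw [ut_det]; exact_mod_cast ha.mul hd)
  have hs : iG (sc d) hd' ∈ G2 := sc_mem_G2 hd hd'
  revert F
  intro F hF
  have key : F ∈ MP ∧ cf (iG (ut a b d) h) (s * a / d) F = ee (s * b / d) * cf (iG (sc d) hd') s F := by
    refine Submodule.iSup_induction (p := fun k => MO k) (motive := fun F => F ∈ MP ∧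
      cf (iG (ut a b d) h) (s * a / d) F = ee (s * b / d) * cf (iG (sc d) hd') s F) (mem_MM.1 hF) ?_ ?_ ?_
    · intro k x hx
      refine ⟨MO_le_MP hx, ?_⟩
      have h1 : res (sl x (iG (ut a b d) h)) =
          (((d : ℂ)⁻¹) ^ k) • (fun τ => res x (iG (ut a b d) h • τ)) := by
        funext τ
        rw [res_sl_ut (MO_le_Wt hx)]
        simp
      have h2 : (fun τ => res x (iG (ut a b d) h • τ)) ∈ PO := by
        obtain ⟨M, hM, hf⟩ := res_mem_PO hx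
        have : NeZero M := ⟨hM.pos.ne'⟩
        exact ⟨M * d, hM.mul hd, PB_comp_ut hf hd.pos h⟩
      rw [cf, cf, h1, qf_smul _ h2, HahnSeries.coeff_smul, qf_comp_ut (res_mem_PO hx) ha hd h s,
        sl_sc (MO_le_Wt hx), res_smul, qf_smul _ (res_mem_PO hx), HahnSeries.coeff_smul, smul_eq_mul,
        smul_eq_mul]
      ring
    · exact ⟨zero_mem _, by rw [cf_zero, cf_zero, mul_zero]⟩
    · rintro x y ⟨hx, ex⟩ ⟨hy, ey⟩
      refine ⟨add_mem hx hy, ?_⟩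
      rw [cf_add hx hy hu, cf_add hx hy hs, ex, ey]
      ring
  exact key.2

/-- reduction of integrality to `SL₂(ℤ)` and rational scalars -/
lemma intAt_of {O : Subring ℂ} (hroot : ∀ x : ℚ, Odd x.den → ee x ∈ O) (hI : ∀ x ∈ O, ∀ y ∈ I, x * y ∈ I)
    {F : X → ℂ} (hF : F ∈ MM)
    (h : ∀ (n d : ℕ) (_ : Odd n) (_ : Odd d) (hn : 0 < (sc n).det) (hd : 0 < (sc d).det)
      (γ : SL(2, ℤ)) (s : ℚ), cf (sG γ) s (sl (sl F (iG (sc n) hn)⁻¹) (iG (sc d) hd)) ∈ I) : IntAt I F := by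
  intro δ hδ ν
  obtain ⟨n, a, b, d, γ, hn, hu, hno, ha, hd, e⟩ := G2_decomp hδ
  have hd' := sc_pos hd
  have hnG := sc_mem_G2 hno hn
  have hdG := sc_mem_G2 hd hd'
  have e2 : δ = (iG (sc n) hn)⁻¹ * (sG γ * iG (ut a b d) hu) := by rw [← e]; group
  have ha0 : (a : ℚ) ≠ 0 := by exact_mod_cast ha.pos.ne'
  have hd0 : (d : ℚ) ≠ 0 := by exact_mod_cast hd.pos.ne'
  set s : ℚ := ν * d / a with hs
  have hν : ν = s * a / d := by rw [hs]; field_simp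
  have hH : sl (sl F (iG (sc n) hn)⁻¹) (sG γ) ∈ MM := MM_sl (MM_sl hF (inv_mem hnG)) (sG_mem_G2 γ)
  have h1 : cf δ ν F = ee (s * b / d) * cf (iG (sc d) hd') s (sl (sl F (iG (sc n) hn)⁻¹) (sG γ)) := by
    rw [e2, ← cf_sl, ← cf_sl, hν]
    exact cf_ut hH ha hd hu hd' s
  have h2 : cf (iG (sc d) hd') s (sl (sl F (iG (sc n) hn)⁻¹) (sG γ)) =
      cf (sG γ) s (sl (sl F (iG (sc n) hn)⁻¹) (iG (sc d) hd')) := by
    rw [cf_sl (sG γ), cf_sl (iG (sc d) hd'), iG_sc_comm]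
  by_cases hso : Odd s.den
  · rw [h1]
    apply hI
    · apply hroot
      have h3 : (s * b / d : ℚ) = s * ((b : ℤ) / (d : ℤ) : ℚ) := by push_cast; ring
      rw [h3]
      have h4 := Rat.den_dvd (b : ℤ) (d : ℤ)
      rw [Rat.divInt_eq_div] at h4
      have h5 : ((b : ℤ) / (d : ℤ) : ℚ).den ∣ d := by exact_mod_cast h4
      have h6 := Rat.mul_den_dvd s ((b : ℤ) / (d : ℤ) : ℚ)
      exact Odd.of_dvd_nat (hso.mul (Odd.of_dvd_nat hd h5)) h6
    · rw [h2]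
      exact h n d hno hd hn hd' γ s
  · rw [h1, cf_of_den_even (MM_le_MP hH) hdG hso, mul_zero]
    exact zero_mem I

/-- pure weight: integrality of the expansions of `F ∥ γ`, `γ ∈ SL₂(ℤ)`, is enough -/
theorem intAt_of_SL {O : Subring ℂ} (hodd : ∀ n : ℕ, Odd n → ((n : ℂ))⁻¹ ∈ O)
    (hroot : ∀ x : ℚ, Odd x.den → ee x ∈ O) (hI : ∀ x ∈ O, ∀ y ∈ I, x * y ∈ I) {k : ℕ}
    {F : X → ℂ} (hF : F ∈ MO k) (h : ∀ (γ : SL(2, ℤ)) (s : ℚ), (qf (res (sl F (sG γ)))).coeff s ∈ I) :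
    IntAt I F := by
  apply intAt_of hroot hI (MO_le_MM hF)
  intro n d hno hdo hn hd γ s
  have e : sl (sl F (iG (sc n) hn)⁻¹) (iG (sc d) hd) = ((n : ℂ) ^ k * ((d : ℂ)⁻¹) ^ k) • F := by
    rw [sl_sc_inv (MO_le_Wt hF), sl_smul, sl_sc (MO_le_Wt hF), smul_smul]
  rw [e, cf_smul _ (MO_le_MP hF) (sG_mem_G2 γ)]
  exact hI _ (O.mul_mem (O.pow_mem (natCast_mem O n) k) (O.pow_mem (hodd d hdo) k)) _ (h γ s)

end Crest.Agent.R007.KumC
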