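import Mathlib
import Crest.Agent.R007.KumC

/-! Row 7, section C: theorem (K): `[c]`-invariant elements of `V/2` are pure weight forms mod `2V`. -/

set_option autoImplicit false

namespace Crest.Agent.R007.KumK

open UpperHalfPlane ModularForm CongruenceSubgroup Matrix
open scoped MatrixGroups Manifold ModularForm
open Crest.Agent.R007.Lat Crest.Agent.R007.KumM Crest.Agent.R007.KumC

/-! ### Eisenstein series -/

lemma bernoulli_ne_zero_of_even {k : ℕ} (hk : 3 ≤ k) (h2 : Even k) : _root_.bernoulli k ≠ 0 := by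
  obtain ⟨m, rfl⟩ := h2
  have hm : m ≠ 0 := by omega
  have h1 := riemannZeta_two_mul_nat hm
  intro h0
  have e : 2 * m = m + m := by ring
  rw [e, h0] at h1
  have h3 : riemannZeta (2 * (m : ℂ)) = 0 := by
    rw [h1]; simp
  have h4 : riemannZeta (2 * (m : ℂ)) ≠ 0 := by
    apply riemannZeta_ne_zero_of_one_lt_re
    have : (2 * (m : ℂ)).re = 2 * (m : ℝ) := by simp
    rw [this]
    have : (1 : ℝ) ≤ m := by exact_mod_cast Nat.one_le_iff_ne_zero.2 hm
    linarith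
  exact h4 h3

/-- the constant term -/
noncomputable def ec (j : ℕ) : ℂ := (1 - 3 ^ j) * (-((_root_.bernoulli j : ℚ) : ℂ) / (2 * j))

/-- `(1-3^j)(-B_j/2j) E_j` -/
noncomputable def EE (j : ℕ) : X → ℂ := if hj : 3 ≤ j then lift j (ec j • ⇑(ModularForm.E hj)) else 0

lemma EE_mem (j : ℕ) : EE j ∈ MX 1 j := by
  unfold EE
  split_ifs with hj
  · rw [mem_MX_iff]
    have hinv : ∀ γ : SL(2, ℤ), ⇑(ModularForm.E hj) ∣[(j : ℤ)] γ = ⇑(ModularForm.E hj) := fun γ =>
      SlashInvariantForm.slash_action_eqn (Γ := 𝒮ℒ) (k := (j : ℤ)) (ModularForm.E hj)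
        (Matrix.SpecialLinearGroup.mapGL ℝ γ) ⟨γ, rfl⟩
    have hs : ∀ γ : SL(2, ℤ), sl (lift j (ec j • ⇑(ModularForm.E hj))) (sG γ) =
        lift j (ec j • ⇑(ModularForm.E hj)) := by
      intro γ
      rw [lift_smul, sl_smul, sl_lift_SL, hinv]
    refine ⟨lift_mem _ _, fun γ _ => hs γ, ?_, fun γ => ?_⟩
    · rw [res_lift]
      exact (ModularFormClass.holo (ModularForm.E hj)).const_smul _
    · rw [hs, res_lift]
      have hc : IsCusp OnePoint.infty 𝒮ℒ := isCusp_SL2Z_iff'.2 ⟨1, by simp⟩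
      exact bddAtInfty_smul (OnePoint.isBoundedAt_infty_iff.1
        (ModularFormClass.bdd_at_cusps (ModularForm.E hj) hc)) _
  · exact zero_mem _

lemma EE_sl (j : ℕ) (γ : SL(2, ℤ)) : sl (EE j) (sG γ) = EE j := by
  have h := EE_mem j
  rw [mem_MX_iff] at h
  apply h.2.1
  rw [Gamma_mem]
  exact ⟨Subsingleton.elim _ _, Subsingleton.elim _ _, Subsingleton.elim _ _, Subsingleton.elim _ _⟩

lemma EE_coeff {j : ℕ} (hj : 3 ≤ j) (h2 : Even j) (m : ℕ) :
    (qExpansion 1 (res (EE j))).coeff m =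
      if m = 0 then ec j else (1 - 3 ^ j) * ∑ d ∈ m.divisors, (d : ℂ) ^ (j - 1) := by
  have hE : res (EE j) = ec j • ⇑(ModularForm.E hj) := by
    rw [EE, dif_pos hj, res_lift]
  have hPB : (⇑(ModularForm.E hj) : ℍ → ℂ) ∈ PB 1 := by
    have h1 : res (lift j (⇑(ModularForm.E hj))) ∈ PB ((1 : ℕ) : ℝ) := by
      apply res_mem_PB (k := j)
      have h3 := EE_mem j
      rw [EE, dif_pos hj, lift_smul] at h3
      have h4 : ec j ≠ 0 := by
        unfold ec
        have hb := bernoulli_ne_zero_of_even hj h2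
        have h5 : (j : ℂ) ≠ 0 := by exact_mod_cast (by omega : j ≠ 0)
        have h6 : (1 - 3 ^ j : ℂ) ≠ 0 := by
          rw [sub_ne_zero]
          intro h
          have h7 : (3 : ℕ) ^ j = 1 := by exact_mod_cast h.symm
          have h8 : j < 3 ^ j := Nat.lt_pow_self (by norm_num)
          omega
        apply mul_ne_zero h6
        apply div_ne_zero
        · rw [neg_ne_zero]; exact_mod_cast hb
        · exact mul_ne_zero two_ne_zero h5
      have h9 := Submodule.smul_mem _ (ec j)⁻¹ h3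
      rwa [smul_smul, inv_mul_cancel₀ h4, one_smul] at h9
    simpa using h1
  rw [hE, qExpansion_smul (PB_analytic one_pos hPB), map_smul,
    EisensteinSeries.E_qExpansion_coeff hj h2 m]
  split_ifs with hm
  · simp
  · have hb : ((_root_.bernoulli j : ℚ) : ℂ) ≠ 0 := by exact_mod_cast bernoulli_ne_zero_of_even hj h2
    have h5 : (j : ℂ) ≠ 0 := by exact_mod_cast (by omega : j ≠ 0)
    rw [smul_eq_mul, ec, ArithmeticFunction.sigma_apply]
    push_cast
    field_simp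

/-! ### families -/

/-- the hypotheses of Lemma M for a family with exponents `e i` -/
structure ID (O : Subring ℂ) (s : Finset ℕ) (e : ℕ → ℕ) (x : ℕ → ℂ) (r : ℕ) : Prop where
  even : ∀ i ∈ s, Even (e i)
  large : ∀ i ∈ s, r + 4 ≤ e i
  den : ∀ i ∈ s, 2 ^ r * x i ∈ O
  int : ∀ c : ℕ, Odd c → ∑ i ∈ s, x i * (c : ℂ) ^ e i ∈ O
  cong : ∀ c : ℕ, Odd c → ∑ i ∈ s, x i * (c : ℂ) ^ e i - ∑ i ∈ s, x i ∈ twoO O

lemma regroup (s : Finset ℕ) (e : ℕ → ℕ) (x q : ℕ → ℂ) :
    ∑ j ∈ s.image e, (∑ i ∈ s.filter (fun i => e i = j), x i) * q j = ∑ i ∈ s, x i * q (e i) := by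
  rw [← Finset.sum_fiberwise_of_maps_to (s := s) (t := s.image e) (g := e)
    (fun i hi => Finset.mem_image_of_mem e hi)]
  apply Finset.sum_congr rfl
  intro j _
  rw [Finset.sum_mul]
  apply Finset.sum_congr rfl
  intro i hi
  rw [(Finset.mem_filter.1 hi).2]

variable {O : Subring ℂ} {s : Finset ℕ} {e : ℕ → ℕ} {x : ℕ → ℂ} {r : ℕ}

lemma ID.toM (h : ID O s e x r) :
    MData O (s.image e) (fun j => ∑ i ∈ s.filter (fun i => e i = j), x i) r where
  even := by
    intro j hj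
    obtain ⟨i, hi, rfl⟩ := Finset.mem_image.1 hj
    exact h.even i hi
  large := by
    intro j hj
    obtain ⟨i, hi, rfl⟩ := Finset.mem_image.1 hj
    have := h.large i hi
    omega
  den := by
    intro j _
    rw [Finset.mul_sum]
    exact sum_mem fun i hi => h.den i (Finset.mem_filter.1 hi).1
  int := by
    intro c hc
    rw [regroup s e x (fun j => (c : ℂ) ^ j)]
    exact h.int c hc
  cong := by
    intro c hc
    have h1 := regroup s e x (fun _ => 1)
    simp only [mul_one] at h1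
    rw [regroup s e x (fun j => (c : ℂ) ^ j), h1]
    exact h.cong c hc

variable (hodd : ∀ n : ℕ, Odd n → ((n : ℂ))⁻¹ ∈ O)

include hodd in
lemma id_pos (h : ID O s e x r) (n : ℕ) :
    ∑ i ∈ s, x i * ((1 - 3 ^ e i) * ∑ d ∈ n.divisors, (d : ℂ) ^ (e i - 1)) ∈ twoO O := by
  have := lemmaM_pos hodd h.toM n
  rwa [regroup s e x (fun j => (1 - 3 ^ j) * ∑ d ∈ n.divisors, (d : ℂ) ^ (j - 1))] at this

include hodd in
lemma id_zero (h : ID O s e x r) : ∑ i ∈ s, x i * ec (e i) - ∑ i ∈ s, x i ∈ twoO O := by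
  have := lemmaM_zero hodd h.toM
  have h1 := regroup s e x (fun _ => 1)
  simp only [mul_one] at h1
  rw [regroup s e x (fun j => (1 - 3 ^ j) * (-((_root_.bernoulli j : ℚ) : ℂ) / (2 * j))), h1] at this
  exact this

lemma exists_level {f : ℕ → ℍ → ℂ} (h : ∀ i ∈ s, f i ∈ PO) : ∃ M : ℕ, Odd M ∧ ∀ i ∈ s, f i ∈ PB M := by
  induction s using Finset.induction_on with
  | empty => exact ⟨1, odd_one, by simp⟩
  | insert a s _ ih =>
    obtain ⟨M, hM, h1⟩ := ih (fun i hi => h i (Finset.mem_insert_of_mem hi))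
    obtain ⟨M', hM', h2⟩ := h a (Finset.mem_insert_self _ _)
    have : NeZero M := ⟨hM.pos.ne'⟩
    have : NeZero M' := ⟨hM'.pos.ne'⟩
    refine ⟨M * M', hM.mul hM', fun i hi => ?_⟩
    rcases Finset.mem_insert.1 hi with rfl | hi
    · exact PB_mono (Dvd.intro_left _ rfl) h2
    · exact PB_mono (Dvd.intro _ rfl) (h1 i hi)

lemma EE_PB (j : ℕ) : res (EE j) ∈ PB ((1 : ℕ) : ℝ) := res_mem_PB (EE_mem j)

lemma EE_PO (j : ℕ) : res (EE j) ∈ PO := ⟨1, odd_one, EE_PB j⟩

/-- coefficients in `q^{1/M}` -/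
lemma EE_coeff' {M : ℕ} [NeZero M] (hM : Odd M) (j m : ℕ) :
    (qExpansion (M : ℝ) (res (EE j))).coeff m =
      if M ∣ m then (qExpansion 1 (res (EE j))).coeff (m / M) else 0 := by
  have hPBM : res (EE j) ∈ PB (M : ℝ) := PB_mono (M := 1) (M' := M) (one_dvd M) (EE_PB j)
  have h1 := qf_eq' M hM hPBM
  have h2 := qf_eq' 1 odd_one (EE_PB j)
  rw [Nat.cast_one] at h2
  rw [← emb_coeff M, ← h1, h2]
  have hM0 : (M : ℚ) ≠ 0 := by exact_mod_cast NeZero.ne M
  split_ifs with h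
  · obtain ⟨t, rfl⟩ := h
    rw [Nat.mul_div_cancel_left _ (Nat.pos_of_ne_zero (NeZero.ne M)), ← emb_coeff 1]
    congr 1
    push_cast
    field_simp
  · apply emb_coeff_of_notMem
    intro t ht
    apply h
    push_cast at ht
    field_simp at ht
    have h : t * M = m := by exact_mod_cast ht
    exact ⟨t, by rw [← h, mul_comm]⟩

include hodd in
/-- the main congruence, at the level of expansions -/
lemma prod_coeff {f : ℕ → ℍ → ℂ} (hf : ∀ i ∈ s, f i ∈ PO)
    (h : ∀ ν : ℚ, ID O s e (fun i => (qf (f i)).coeff ν) r) (ν : ℚ) :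
    (qf (∑ i ∈ s, f i * res (EE (e i)))).coeff ν - ∑ i ∈ s, (qf (f i)).coeff ν ∈ twoO O := by
  obtain ⟨M, hM, hfM⟩ := exists_level hf
  have : NeZero M := ⟨hM.pos.ne'⟩
  set P : ℕ → PowerSeries ℂ := fun i => qExpansion (M : ℝ) (f i) with hP
  set Q : ℕ → PowerSeries ℂ := fun j => qExpansion (M : ℝ) (res (EE j)) with hQ
  have hPBM : ∀ j, res (EE j) ∈ PB (M : ℝ) := fun j => PB_mono (M := 1) (M' := M) (one_dvd M) (EE_PB j)
  have hsum : qf (∑ i ∈ s, f i * res (EE (e i))) = emb M ℂ (∑ i ∈ s, P i * Q (e i)) := by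
    have h1 := map_sum qx (fun i : ℕ => if hi : i ∈ s then
      (⟨f i * res (EE (e i)), mul_mem (hf i hi) (EE_PO _)⟩ : PO) else 0) s
    have h2 : ((∑ i ∈ s, (if hi : i ∈ s then
      (⟨f i * res (EE (e i)), mul_mem (hf i hi) (EE_PO _)⟩ : PO) else 0) : PO) : ℍ → ℂ) =
        ∑ i ∈ s, f i * res (EE (e i)) := by
      rw [AddSubmonoidClass.coe_finsetSum]
      apply Finset.sum_congr rfl
      intro i hi
      rw [dif_pos hi]
    rw [qx_apply, h2] at h1
    rw [h1, map_sum]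
    apply Finset.sum_congr rfl
    intro i hi
    rw [dif_pos hi, qx_apply, qf_mul (hf i hi) (EE_PO _), map_mul, qf_eq' M hM (hfM i hi),
      qf_eq' M hM (hPBM _)]
  by_cases hν : ∃ n : ℕ, (n : ℚ) / M = ν
  · obtain ⟨n, rfl⟩ := hν
    rw [hsum, emb_coeff, map_sum]
    have hc : ∀ (a : ℕ), ID O s e (fun i => (P i).coeff a) r := by
      intro a
      have h3 := h ((a : ℚ) / M)
      have h4 : ∀ i ∈ s, (qf (f i)).coeff ((a : ℚ) / M) = (P i).coeff a := by
        intro i hi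
        rw [qf_eq' M hM (hfM i hi), emb_coeff]
      constructor
      · exact h3.even
      · exact h3.large
      · intro i hi
        have := h3.den i hi
        rwa [h4 i hi] at this
      · intro c hc
        have := h3.int c hc
        rwa [Finset.sum_congr rfl fun i hi => by rw [h4 i hi]] at this
      · intro c hc
        have := h3.cong c hc
        rwa [Finset.sum_congr rfl fun i hi => by rw [h4 i hi], Finset.sum_congr rfl h4] at this
    have h4 : ∀ i ∈ s, (qf (f i)).coeff ((n : ℚ) / M) = (P i).coeff n := by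
      intro i hi
      rw [qf_eq' M hM (hfM i hi), emb_coeff]
    rw [Finset.sum_congr rfl h4]
    simp only [PowerSeries.coeff_mul]
    rw [Finset.sum_comm]
    have hmem : ((n, 0) : ℕ × ℕ) ∈ Finset.HasAntidiagonal.antidiagonal n := by simp
    rw [← Finset.add_sum_erase _ _ hmem]
    have hlarge : ∀ i ∈ s, 3 ≤ e i := fun i hi => by have := (hc 0).large i hi; omega
    have h0 : ∀ i ∈ s, (Q (e i)).coeff 0 = ec (e i) := by
      intro i hi
      rw [hQ]
      simp only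
      rw [EE_coeff' hM, if_pos (dvd_zero M), Nat.zero_div, EE_coeff (hlarge i hi) ((hc 0).even i hi),
        if_pos rfl]
    rw [add_sub_right_comm]
    apply (twoO O).add_mem
    · have h5 := id_zero hodd (hc n)
      have h55 : ∑ i ∈ s, (P i).coeff n * (Q (e i)).coeff 0 = ∑ i ∈ s, (P i).coeff n * ec (e i) :=
        Finset.sum_congr rfl fun i hi => by rw [h0 i hi]
      rw [← h55] at h5
      exact h5
    · apply sum_mem
      rintro ⟨a, b⟩ hab
      rw [Finset.mem_erase, Finset.HasAntidiagonal.mem_antidiagonal] at hab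
      have hb : b ≠ 0 := by
        rintro rfl
        apply hab.1
        have := hab.2
        simp only [add_zero] at this
        rw [this]
      simp only
      by_cases hMb : M ∣ b
      · obtain ⟨t, rfl⟩ := hMb
        have ht : t ≠ 0 := by rintro rfl; simp at hb
        have h6 : ∀ i ∈ s, (Q (e i)).coeff (M * t) =
            (1 - 3 ^ e i) * ∑ d ∈ t.divisors, (d : ℂ) ^ (e i - 1) := by
          intro i hi
          rw [hQ]
          simp only
          rw [EE_coeff' hM, if_pos (Dvd.intro _ rfl), Nat.mul_div_cancel_left _ (Nat.pos_of_ne_zero (NeZero.ne M)),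
            EE_coeff (hlarge i hi) ((hc 0).even i hi), if_neg ht]
        rw [Finset.sum_congr rfl fun i hi => by rw [h6 i hi]]
        exact id_pos hodd (hc a) t
      · have h6 : ∀ i ∈ s, (Q (e i)).coeff b = 0 := by
          intro i _
          rw [hQ]
          simp only
          rw [EE_coeff' hM, if_neg hMb]
        rw [Finset.sum_congr rfl fun i hi => by rw [h6 i hi, mul_zero]]
        simp
  · push Not at hν
    rw [hsum, emb_coeff_of_notMem _ _ hν]
    have h4 : ∀ i ∈ s, (qf (f i)).coeff ν = 0 := by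
      intro i hi
      rw [qf_eq' M hM (hfM i hi), emb_coeff_of_notMem _ _ hν]
    rw [Finset.sum_congr rfl h4]
    simp

/-! ### (K) for even weights -/

include hodd in
lemma unit_cong {n d N : ℕ} (hn : Odd n) (hd : Odd d) :
    (n : ℂ) ^ N * ((d : ℂ)⁻¹) ^ N - 1 ∈ twoO O := by
  have hd0 : (d : ℂ) ≠ 0 := by exact_mod_cast hd.pos.ne'
  have h1 : Even ((n : ℤ) ^ N - (d : ℤ) ^ N) := by
    have ho1 : Odd ((n : ℤ) ^ N) := Odd.pow (by exact_mod_cast hn)
    have ho2 : Odd ((d : ℤ) ^ N) := Odd.pow (by exact_mod_cast hd)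
    exact ho1.sub_odd ho2
  obtain ⟨t, ht⟩ := h1
  have h2 : (n : ℂ) ^ N - (d : ℂ) ^ N = 2 * t := by
    have : (((n : ℤ) ^ N - (d : ℤ) ^ N : ℤ) : ℂ) = ((t + t : ℤ) : ℂ) := by rw [ht]
    push_cast at this
    rw [this]; ring
  have h3 : (n : ℂ) ^ N * ((d : ℂ)⁻¹) ^ N - 1 = ((d : ℂ)⁻¹) ^ N * (2 * t) := by
    rw [← h2, mul_sub, ← mul_pow ((d : ℂ)⁻¹) (d : ℂ), inv_mul_cancel₀ hd0, one_pow]
    ring
  rw [h3]
  exact mul_mem_twoO (O.pow_mem (hodd d hd) N) (mem_twoO.2 ⟨t, intCast_mem O t, rfl⟩)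

lemma sum_sl_sc {wt : ℕ → ℕ} {F : ℕ → X → ℂ} (hF : ∀ i, F i ∈ MO (wt i)) (s : Finset ℕ) (n : ℕ)
    (h : 0 < (sc n).det) :
    sl (∑ i ∈ s, F i) (iG (sc n) h) = ∑ i ∈ s, ((n : ℂ)⁻¹) ^ wt i • F i := by
  rw [sl_sum]
  exact Finset.sum_congr rfl fun i _ => sl_sc (MO_le_Wt (hF i)) n h

lemma sum_sl_sc_inv {wt : ℕ → ℕ} {F : ℕ → X → ℂ} (hF : ∀ i, F i ∈ MO (wt i)) (s : Finset ℕ) (n : ℕ)
    (h : 0 < (sc n).det) :
    sl (∑ i ∈ s, F i) (iG (sc n) h)⁻¹ = ∑ i ∈ s, (n : ℂ) ^ wt i • F i := by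
  rw [sl_sum]
  exact Finset.sum_congr rfl fun i _ => sl_sc_inv (MO_le_Wt (hF i)) n h

include hodd in
theorem kum_even (hroot : ∀ x : ℚ, Odd x.den → ee x ∈ O) {wt : ℕ → ℕ}
    {F : ℕ → X → ℂ} (hF : ∀ i, F i ∈ MO (wt i)) (hev : ∀ i ∈ s, Even (wt i))
    (hr : ∀ i ∈ s, IntAt O.toAddSubgroup ((2 : ℂ) ^ r • F i))
    (hint : IntAt O.toAddSubgroup (∑ i ∈ s, F i))
    (hinv : ∀ c : ℕ, Odd c → IntAt (twoO O) (∑ i ∈ s, (c : ℂ) ^ wt i • F i - ∑ i ∈ s, F i))
    {N : ℕ} (hN : Even N) (hN2 : ∀ i ∈ s, wt i + r + 4 ≤ N) :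
    (∑ i ∈ s, F i * EE (N - wt i)) ∈ MO N ∧
      IntAt (twoO O) (∑ i ∈ s, F i * EE (N - wt i) - ∑ i ∈ s, F i) := by
  have hFP : ∀ i, F i ∈ MP := fun i => MO_le_MP (hF i)
  set h := ∑ i ∈ s, F i with hh
  set h' := ∑ i ∈ s, F i * EE (N - wt i) with hh'
  have hhM : h ∈ MM := sum_mem fun i _ => MO_le_MM (hF i)
  have hhP : h ∈ MP := MM_le_MP hhM
  have hEO : ∀ j, EE j ∈ MO j := fun j => ⟨1, odd_one, EE_mem j⟩
  have h'O : h' ∈ MO N := by
    apply sum_mem
    intro i hi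
    have h1 := MO_mul (hF i) (hEO (N - wt i))
    have h2 : wt i + (N - wt i) = N := by have := hN2 i hi; omega
    rwa [h2] at h1
  have h'P : h' ∈ MP := MO_le_MP h'O
  -- the action of scalars on `h`
  have inv1 : ∀ (c : ℕ) (_ : Odd c) (hp : 0 < (sc c).det), IntAt (twoO O) (sl h (iG (sc c) hp)⁻¹ - h) := by
    intro c hc hp
    rw [hh, sum_sl_sc_inv hF]
    exact hinv c hc
  have inv2 : ∀ (c : ℕ) (_ : Odd c) (hp : 0 < (sc c).det), IntAt (twoO O) (sl h (iG (sc c) hp) - h) := by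
    intro c hc hp
    have h1 := (inv1 c hc hp).sl (sc_mem_G2 hc hp)
    rw [sl_sub, ← sl_mul_right, inv_mul_cancel, sl_one_right] at h1
    intro δ hδ ν
    have h2 := h1 δ hδ ν
    rw [cf_sub hhP (MP_sl hhP (sc_mem_G2 hc hp)) hδ] at h2
    rw [cf_sub (MP_sl hhP (sc_mem_G2 hc hp)) hhP hδ]
    have := (twoO O).neg_mem h2
    rwa [neg_sub] at this
  -- the hypotheses of Lemma M
  have hID : ∀ δ ∈ G2, ∀ ν : ℚ, ID O s (fun i => N - wt i) (fun i => cf δ ν (F i)) r := by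
    intro δ hδ ν
    have hsum : ∑ i ∈ s, cf δ ν (F i) = cf δ ν h := (cf_sum (fun i _ => hFP i) hδ).symm
    have hc : ∀ (c : ℕ) (_ : Odd c) (hp : 0 < (sc c).det), ∑ i ∈ s, cf δ ν (F i) * (c : ℂ) ^ (N - wt i) =
        (c : ℂ) ^ N * cf δ ν (sl h (iG (sc c) hp)) := by
      intro c hc hp
      have hc0 : (c : ℂ) ≠ 0 := by exact_mod_cast hc.pos.ne'
      rw [hh, sum_sl_sc hF, cf_sum (fun i _ => Subalgebra.smul_mem _ (hFP i) _) hδ, Finset.mul_sum]
      apply Finset.sum_congr rfl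
      intro i hi
      rw [cf_smul _ (hFP i) hδ]
      have h2 : N = (N - wt i) + wt i := by have := hN2 i hi; omega
      have h3 : (c : ℂ) ^ N = (c : ℂ) ^ (N - wt i) * (c : ℂ) ^ wt i := by rw [← pow_add, ← h2]
      rw [h3, inv_pow]
      have := pow_ne_zero (wt i) hc0
      field_simp
    constructor
    · intro i hi
      exact (Nat.even_sub (by have := hN2 i hi; omega)).2 (iff_of_true hN (hev i hi))
    · intro i hi
      have := hN2 i hi
      omega
    · intro i hi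
      have h1 := hr i hi δ hδ ν
      rwa [cf_smul _ (hFP i) hδ] at h1
    · intro c hco
      rw [hc c hco (sc_pos hco)]
      apply O.mul_mem (O.pow_mem (natCast_mem O c) N)
      exact hint.sl (sc_mem_G2 hco (sc_pos hco)) δ hδ ν
    · intro c hco
      have hp := sc_pos hco
      rw [hc c hco hp, hsum]
      have h1 := inv2 c hco hp δ hδ ν
      rw [cf_sub (MP_sl hhP (sc_mem_G2 hco hp)) hhP hδ] at h1
      have h2 : (c : ℂ) ^ N - 1 ∈ twoO O := by
        have := unit_cong hodd (O := O) (N := N) hco odd_one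
        simpa using this
      have h3 : (c : ℂ) ^ N * cf δ ν (sl h (iG (sc c) hp)) - cf δ ν h =
          (c : ℂ) ^ N * (cf δ ν (sl h (iG (sc c) hp)) - cf δ ν h) + cf δ ν h * ((c : ℂ) ^ N - 1) := by ring
      rw [h3]
      exact (twoO O).add_mem (mul_mem_twoO (O.pow_mem (natCast_mem O c) N) h1) (mul_mem_twoO (hint δ hδ ν) h2)
  -- `SL₂(ℤ)`
  have hSL : ∀ (γ : SL(2, ℤ)) (ν : ℚ), cf (sG γ) ν h' - cf (sG γ) ν h ∈ twoO O := by
    intro γ ν
    have hγ := sG_mem_G2 γ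
    have h1 := prod_coeff hodd (s := s) (e := fun i => N - wt i) (f := fun i => res (sl (F i) (sG γ))) (r := r)
      (fun i _ => hFP i _ hγ) (fun ν => hID _ hγ ν) ν
    have h2 : res (sl h' (sG γ)) = ∑ i ∈ s, res (sl (F i) (sG γ)) * res (EE (N - wt i)) := by
      rw [hh', sl_sum, res_sum]
      apply Finset.sum_congr rfl
      intro i _
      rw [sl_mul, EE_sl, res_mul]
    have h3 : cf (sG γ) ν h = ∑ i ∈ s, (qf (res (sl (F i) (sG γ)))).coeff ν := by
      rw [hh, cf_sum (fun i _ => hFP i) hγ]; rfl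
    rw [h3, cf, h2]
    exact h1
  refine ⟨h'O, ?_⟩
  apply intAt_of hroot (fun x hx y hy => mul_mem_twoO hx hy) (sub_mem (MO_le_MM h'O) hhM)
  intro n d hn hd hpn hpd γ ν
  have hγ := sG_mem_G2 γ
  have hnG := inv_mem (sc_mem_G2 hn hpn)
  have hdG := sc_mem_G2 hd hpd
  set u : ℂ := (n : ℂ) ^ N * ((d : ℂ)⁻¹) ^ N with hu
  have e1 : sl (sl h' (iG (sc n) hpn)⁻¹) (iG (sc d) hpd) = u • h' := by
    rw [sl_sc_inv (MO_le_Wt h'O), sl_smul, sl_sc (MO_le_Wt h'O), smul_smul]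
  set h2 := sl (sl h (iG (sc n) hpn)⁻¹) (iG (sc d) hpd) with hh2
  have h2P : h2 ∈ MP := MP_sl (MP_sl hhP hnG) hdG
  have e2 : IntAt (twoO O) (h2 - h) := by
    have a1 := (inv1 n hn hpn).sl hdG
    have a2 := inv2 d hd hpd
    rw [sl_sub] at a1
    have a3 := a1.add a2 (sub_mem h2P (MP_sl hhP hdG)) (sub_mem (MP_sl hhP hdG) hhP)
    rwa [sub_add_sub_cancel] at a3
  have e3 := e2 _ hγ ν
  rw [cf_sub h2P hhP hγ] at e3
  rw [sl_sub, sl_sub, e1, cf_sub (Subalgebra.smul_mem _ h'P _) h2P hγ, cf_smul _ h'P hγ]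
  have e4 : u * cf (sG γ) ν h' - cf (sG γ) ν h2 = u * (cf (sG γ) ν h' - cf (sG γ) ν h) +
      cf (sG γ) ν h * (u - 1) - (cf (sG γ) ν h2 - cf (sG γ) ν h) := by ring
  rw [e4]
  apply (twoO O).sub_mem _ e3
  apply (twoO O).add_mem
  · apply mul_mem_twoO _ (hSL γ ν)
    exact O.mul_mem (O.pow_mem (natCast_mem O n) N) (O.pow_mem (hodd d hd) N)
  · exact mul_mem_twoO (hint _ hγ ν) (unit_cong hodd hn hd)

/-! ### components are integral up to a power of two -/

lemma nat_split {D : ℤ} (hD : D ≠ 0) : ∃ (r m : ℕ), Odd m ∧ (D = 2 ^ r * m ∨ D = -(2 ^ r * m)) := by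
  have h0 : D.natAbs ≠ 0 := Int.natAbs_ne_zero.2 hD
  obtain ⟨r, m, hm, e⟩ := Nat.exists_eq_two_pow_mul_odd h0
  refine ⟨r, m, hm, ?_⟩
  rcases Int.natAbs_eq D with h | h
  · left; rw [h, e]; push_cast; rfl
  · right; rw [h, e]; push_cast; rfl

include hodd in
/-- Vandermonde -/
lemma vander (n : ℕ) : ∃ r : ℕ, ∀ x : ℕ → ℂ, (∀ c : ℕ, Odd c → ∑ k ∈ Finset.range n, (c : ℂ) ^ k * x k ∈ O) →
    ∀ k < n, 2 ^ r * x k ∈ O := by
  set V : Matrix (Fin n) (Fin n) ℤ := Matrix.vandermonde (fun i : Fin n => (2 * (i : ℕ) + 1 : ℤ)) with hV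
  have hdet : V.det ≠ 0 := by
    rw [hV, Matrix.det_vandermonde_ne_zero_iff]
    intro a b hab
    have : (a : ℕ) = (b : ℕ) := by
      have h2 : (2 * ((a : ℕ) : ℤ) + 1) = 2 * ((b : ℕ) : ℤ) + 1 := hab
      omega
    exact Fin.ext this
  obtain ⟨r, m, hm, hD⟩ := nat_split hdet
  refine ⟨r, fun x hx k hk => ?_⟩
  set VC : Matrix (Fin n) (Fin n) ℂ := V.map (Int.castRingHom ℂ) with hVC
  set y : Fin n → ℂ := VC *ᵥ (fun i => x i) with hy
  have hyO : ∀ i, y i ∈ O := by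
    intro i
    have h1 := hx (2 * i + 1) ⟨i, by ring⟩
    have h2 : y i = ∑ k ∈ Finset.range n, ((2 * (i : ℕ) + 1 : ℕ) : ℂ) ^ k * x k := by
      rw [hy, Matrix.mulVec, dotProduct, ← Fin.sum_univ_eq_sum_range (fun k => ((2 * (i : ℕ) + 1 : ℕ) : ℂ) ^ k * x k)]
      apply Finset.sum_congr rfl
      intro j _
      simp [hVC, hV, Matrix.vandermonde_apply]
    rw [h2]; exact h1
  have hadj : VC.adjugate *ᵥ y = VC.det • (fun i : Fin n => x i) := by
    rw [hy, Matrix.mulVec_mulVec, Matrix.adjugate_mul, Matrix.smul_mulVec, Matrix.one_mulVec]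
  have hdetC : VC.det = ((V.det : ℤ) : ℂ) := by
    have := RingHom.map_det (Int.castRingHom ℂ) V
    rw [hVC]
    simpa using this.symm
  have h1 : VC.det * x k ∈ O := by
    have h2 := congrFun hadj ⟨k, hk⟩
    rw [Pi.smul_apply, smul_eq_mul] at h2
    simp only at h2
    rw [← h2, Matrix.mulVec, dotProduct]
    apply sum_mem
    intro j _
    apply O.mul_mem _ (hyO j)
    have h3 : VC.adjugate = V.adjugate.map (Int.castRingHom ℂ) := by
      have := RingHom.map_adjugate (Int.castRingHom ℂ) V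
      rw [RingHom.mapMatrix_apply, RingHom.mapMatrix_apply] at this
      exact this.symm
    rw [h3, Matrix.map_apply]
    exact intCast_mem O _
  have hm0 : (m : ℂ) ≠ 0 := by exact_mod_cast hm.pos.ne'
  have h4 : 2 ^ r * x k = (m : ℂ)⁻¹ * (VC.det * x k) ∨ 2 ^ r * x k = -((m : ℂ)⁻¹ * (VC.det * x k)) := by
    rcases hD with h | h
    · left
      rw [hdetC, h]; push_cast; field_simp
    · right
      rw [hdetC, h]; push_cast; field_simp
  rcases h4 with h | h
  · rw [h]; exact O.mul_mem (hodd m hm) h1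
  · rw [h]; exact O.neg_mem (O.mul_mem (hodd m hm) h1)

lemma dvd_mem {r : ℕ} {z : ℤ} {x : ℂ} (hz : (2 : ℤ) ^ (r + 1) ∣ z) (hx : 2 ^ r * x ∈ O) :
    (z : ℂ) * x ∈ twoO O := by
  obtain ⟨t, rfl⟩ := hz
  refine mem_twoO.2 ⟨t * (2 ^ r * x), O.mul_mem (intCast_mem O t) hx, ?_⟩
  push_cast; ring

include hodd in
/-- **(K)**: elements of `V` which are `[c]`-invariant mod `2V` are pure mod `2V`. -/
theorem kum (hroot : ∀ x : ℚ, Odd x.den → ee x ∈ O) {A : X → ℂ} {w : ℕ} (hw : Odd w) (hA : A ∈ MO w)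
    (hA1 : IntAt (twoO O) (A - 1)) {n : ℕ} {F : ℕ → X → ℂ} (hF : ∀ k, F k ∈ MO k)
    (hint : IntAt O.toAddSubgroup (∑ k ∈ Finset.range n, F k))
    (hinv : ∀ R c : ℕ, Odd c → ∃ c' : ℕ, Odd c' ∧ c' ≡ c [MOD 2 ^ R] ∧
      IntAt (twoO O) (∑ k ∈ Finset.range n, (c' : ℂ) ^ k • F k - ∑ k ∈ Finset.range n, F k)) :
    ∃ N, ∃ h' ∈ MO N, (∀ M : ℕ, NeZero M → (∀ k, F k ∈ MX M k) → A ∈ MX M w → h' ∈ MX M N) ∧
      IntAt O.toAddSubgroup h' ∧ IntAt (twoO O) (∑ k ∈ Finset.range n, F k - h') := by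
  have hFP : ∀ i, F i ∈ MP := fun i => MO_le_MP (hF i)
  set h := ∑ k ∈ Finset.range n, F k with hh
  have hhM : h ∈ MM := sum_mem fun i _ => MO_le_MM (hF i)
  have hhP : h ∈ MP := MM_le_MP hhM
  have hcP : ∀ c : ℂ, ∑ k ∈ Finset.range n, c ^ k • F k ∈ MP := fun c =>
    sum_mem fun i _ => Subalgebra.smul_mem _ (hFP i) _
  have hcf : ∀ (c : ℂ) (δ : GL(2, ℝ)⁺) (_ : δ ∈ G2) (ν : ℚ), cf δ ν (∑ k ∈ Finset.range n, c ^ k • F k) =
      ∑ k ∈ Finset.range n, c ^ k * cf δ ν (F k) := by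
    intro c δ hδ ν
    rw [cf_sum (fun i _ => Subalgebra.smul_mem _ (hFP i) _) hδ]
    exact Finset.sum_congr rfl fun i _ => cf_smul _ (hFP i) hδ
  have hcfh : ∀ (δ : GL(2, ℝ)⁺) (_ : δ ∈ G2) (ν : ℚ), cf δ ν h = ∑ k ∈ Finset.range n, cf δ ν (F k) :=
    fun δ hδ ν => cf_sum (fun i _ => hFP i) hδ
  -- denominators
  obtain ⟨r, hr⟩ := vander (O := O) hodd n
  have hr' : ∀ δ ∈ G2, ∀ ν : ℚ, ∀ k < n, 2 ^ r * cf δ ν (F k) ∈ O := by
    intro δ hδ ν k hk
    apply hr _ _ k hk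
    intro c hc
    have hp := sc_pos hc
    have h1 := hint.sl (inv_mem (sc_mem_G2 hc hp)) δ hδ ν
    rw [hh, sum_sl_sc_inv hF, hcf _ δ hδ] at h1
    exact h1
  -- invariance under all odd `c`
  have hinv' : ∀ c : ℕ, Odd c → IntAt (twoO O) (∑ k ∈ Finset.range n, (c : ℂ) ^ k • F k - h) := by
    intro c hc δ hδ ν
    obtain ⟨c', hc', hcc, h1⟩ := hinv (r + 1) c hc
    have h2 := h1 δ hδ ν
    rw [cf_sub (hcP _) hhP hδ, hcf _ δ hδ, hcfh δ hδ] at h2 ⊢
    have h3 : ∑ k ∈ Finset.range n, (c : ℂ) ^ k * cf δ ν (F k) - ∑ k ∈ Finset.range n, (c' : ℂ) ^ k * cf δ ν (F k)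
        ∈ twoO O := by
      rw [← Finset.sum_sub_distrib]
      apply sum_mem
      intro k hk
      have hd : (2 : ℤ) ^ (r + 1) ∣ (c : ℤ) ^ k - (c' : ℤ) ^ k := by
        have h4 : (c' : ℤ) ≡ c [ZMOD ((2 ^ (r + 1) : ℕ) : ℤ)] := (Int.natCast_modEq_iff).2 hcc
        have h5 : (2 : ℤ) ^ (r + 1) ∣ (c : ℤ) - c' := by
          have := h4.dvd
          push_cast at this
          exact this
        exact h5.trans (sub_dvd_pow_sub_pow _ _ k)
      have h6 := dvd_mem hd (hr' δ hδ ν k (Finset.mem_range.1 hk))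
      push_cast at h6
      rwa [← sub_mul]
    have h4 := (twoO O).add_mem h3 h2
    rwa [sub_add_sub_cancel] at h4
  -- the odd part is integral
  set ho := ∑ k ∈ (Finset.range n).filter (fun k => ¬ Even k), F k with hho
  have hoM : ho ∈ MM := sum_mem fun i _ => MO_le_MM (hF i)
  have hoP : ho ∈ MP := MM_le_MP hoM
  have hoI : IntAt O.toAddSubgroup ho := by
    intro δ hδ ν
    set c : ℕ := 2 ^ (r + 1) - 1 with hc
    have hc1 : 1 ≤ 2 ^ (r + 1) := Nat.one_le_two_pow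
    have hco : Odd c := by
      refine ⟨2 ^ r - 1, ?_⟩
      have : 1 ≤ 2 ^ r := Nat.one_le_two_pow
      rw [hc, pow_succ]; omega
    have hcz : (c : ℤ) = 2 ^ (r + 1) - 1 := by
      rw [hc]; push_cast [Nat.cast_sub hc1]; ring
    have h1 := hinv' c hco δ hδ ν
    rw [cf_sub (hcP _) hhP hδ, hcf _ δ hδ, hcfh δ hδ, ← Finset.sum_sub_distrib] at h1
    have h2 : ∑ k ∈ Finset.range n, ((c : ℂ) ^ k * cf δ ν (F k) - (-1) ^ k * cf δ ν (F k)) ∈ twoO O := by
      apply sum_mem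
      intro k hk
      have hd : (2 : ℤ) ^ (r + 1) ∣ (c : ℤ) ^ k - (-1 : ℤ) ^ k := by
        have h5 : (2 : ℤ) ^ (r + 1) ∣ (c : ℤ) - (-1) := ⟨1, by rw [hcz]; ring⟩
        exact h5.trans (sub_dvd_pow_sub_pow _ _ k)
      have h6 := dvd_mem hd (hr' δ hδ ν k (Finset.mem_range.1 hk))
      push_cast at h6
      rwa [← sub_mul]
    have h3 := (twoO O).sub_mem h1 h2
    rw [← Finset.sum_sub_distrib] at h3
    have h4 : ∀ k ∈ Finset.range n, ((c : ℂ) ^ k * cf δ ν (F k) - cf δ ν (F k) -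
        ((c : ℂ) ^ k * cf δ ν (F k) - (-1) ^ k * cf δ ν (F k))) =
        if ¬ Even k then (-2) * cf δ ν (F k) else 0 := by
      intro k _
      by_cases hk : Even k
      · rw [hk.neg_one_pow, if_neg (not_not.2 hk)]; ring
      · rw [(Nat.not_even_iff_odd.1 hk).neg_one_pow, if_pos hk]; ring
    rw [Finset.sum_congr rfl h4, ← Finset.sum_filter, ← Finset.mul_sum] at h3
    obtain ⟨y, hy, e⟩ := mem_twoO.1 h3
    rw [hho, cf_sum (fun i _ => hFP i) hδ]
    have : ∑ k ∈ (Finset.range n).filter (fun k => ¬ Even k), cf δ ν (F k) = -y := by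
      linear_combination (-1 / 2) * e
    rw [this]
    exact O.neg_mem hy
  -- `A`
  have hAP : A ∈ MP := MO_le_MP hA
  have hAI : IntAt O.toAddSubgroup A := by
    have h1 : IntAt O.toAddSubgroup (A - 1) := hA1.mono (fun x hx => twoO_le hx)
    have h2 := h1.add (intAt_one O) (sub_mem hAP (one_mem _)) (one_mem _)
    rwa [sub_add_cancel] at h2
  -- the new family
  set G : ℕ → X → ℂ := fun k => if Even k then F k else A * F k with hG
  set wt : ℕ → ℕ := fun k => if Even k then k else w + k with hwt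
  have hGO : ∀ k, G k ∈ MO (wt k) := by
    intro k
    by_cases hk : Even k
    · simp only [hG, hwt, hk, if_true]; exact hF k
    · simp only [hG, hwt, hk, if_false]; exact MO_mul hA (hF k)
  have hwe : ∀ k, Even (wt k) := by
    intro k
    by_cases hk : Even k
    · simp only [hwt, hk, if_true]
    · simp only [hwt, hk, if_false]; exact hw.add_odd (Nat.not_even_iff_odd.1 hk)
  set g := ∑ k ∈ Finset.range n, G k with hg
  have hgM : g ∈ MM := sum_mem fun i _ => MO_le_MM (hGO i)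
  have hgP : g ∈ MP := MM_le_MP hgM
  have hgh : g - h = (A - 1) * ho := by
    rw [hg, hh, hho, ← Finset.sum_sub_distrib, Finset.mul_sum, Finset.sum_filter]
    apply Finset.sum_congr rfl
    intro k _
    by_cases hk : Even k
    · simp [hG, hk]
    · simp only [hG, hk, if_false, not_false_eq_true, if_true]; ring
  have hgh2 : IntAt (twoO O) (g - h) := by
    rw [hgh]
    exact hA1.mul (fun x hx y hy => by rw [mul_comm]; exact mul_mem_twoO hy hx) hoI
      (sub_mem hAP (one_mem _)) hoP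
  have hgI : IntAt O.toAddSubgroup g := by
    have h1 : IntAt O.toAddSubgroup (g - h) := hgh2.mono (fun x hx => twoO_le hx)
    have h2 := h1.add hint (sub_mem hgP hhP) hhP
    rwa [sub_add_cancel] at h2
  have hGr : ∀ i ∈ Finset.range n, IntAt O.toAddSubgroup ((2 : ℂ) ^ r • G i) := by
    intro i hi
    have h1 : IntAt O.toAddSubgroup ((2 : ℂ) ^ r • F i) := by
      intro δ hδ ν
      rw [cf_smul _ (hFP i) hδ]
      exact hr' δ hδ ν i (Finset.mem_range.1 hi)
    by_cases hk : Even i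
    · simp only [hG, hk, if_true]; exact h1
    · have e1 : (2 : ℂ) ^ r • G i = A * ((2 : ℂ) ^ r • F i) := by
        simp only [hG, hk, if_false]
        rw [mul_smul_comm]
      rw [e1]
      exact hAI.mul (fun x hx y hy => O.mul_mem hx hy) h1 hAP (Subalgebra.smul_mem _ (hFP i) _)
  have hGinv : ∀ c : ℕ, Odd c → IntAt (twoO O) (∑ i ∈ Finset.range n, (c : ℂ) ^ wt i • G i -
      ∑ i ∈ Finset.range n, G i) := by
    intro c hc
    have hp := sc_pos hc
    have hcG := inv_mem (sc_mem_G2 hc hp)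
    rw [← sum_sl_sc_inv hGO (Finset.range n) c hp, ← hg]
    have a1 := hgh2.sl hcG
    rw [sl_sub] at a1
    have a2 := hinv' c hc
    rw [← sum_sl_sc_inv hF (Finset.range n) c hp, ← hh] at a2
    have a3 := a1.add a2 (sub_mem (MP_sl hgP hcG) (MP_sl hhP hcG)) (sub_mem (MP_sl hhP hcG) hhP)
    rw [sub_add_sub_cancel] at a3
    have a4 := a3.sub hgh2 (sub_mem (MP_sl hgP hcG) hhP) (sub_mem hgP hhP)
    rwa [sub_sub_sub_cancel_right] at a4
  set N : ℕ := 2 * (n + w + r + 4) with hN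
  have hNe : Even N := even_two_mul _
  have hN2 : ∀ i ∈ Finset.range n, wt i + r + 4 ≤ N := by
    intro i hi
    have h1 := Finset.mem_range.1 hi
    have h2 : wt i ≤ w + i := by
      simp only [hwt]; split_ifs <;> omega
    omega
  obtain ⟨k1, k2⟩ := kum_even (O := O) (s := Finset.range n) (r := r) hodd hroot hGO
    (fun i _ => hwe i) hGr hgI hGinv hNe hN2
  refine ⟨N, _, k1, ?_, ?_, ?_⟩
  · intro M hM hFM hAM
    apply sum_mem
    intro i hi
    have h1 : G i ∈ MX M (wt i) := by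
      by_cases hk : Even i
      · simp only [hG, hwt, hk, if_true]; exact hFM i
      · simp only [hG, hwt, hk, if_false]; exact MX_mul hAM (hFM i)
    have h2 := MX_mul h1 (MX_mono (one_dvd M) (EE_mem (N - wt i)))
    have h3 : wt i + (N - wt i) = N := by have := hN2 i hi; omega
    rwa [h3] at h2
  · have h1 := k2.mono (fun x hx => twoO_le hx) (J := O.toAddSubgroup)
    have h2 := h1.add hgI (sub_mem (MO_le_MP k1) hgP) hgP
    rwa [← hg, sub_add_cancel] at h2
  · have h1 := k2.add hgh2 (sub_mem (MO_le_MP k1) hgP) (sub_mem hgP hhP)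
    rw [← hg, sub_add_sub_cancel] at h1
    intro δ hδ ν
    have h2 := (twoO O).neg_mem (h1 δ hδ ν)
    rw [cf_sub (MO_le_MP k1) hhP hδ] at h2
    rw [cf_sub hhP (MO_le_MP k1) hδ]
    rwa [neg_sub] at h2

end Crest.Agent.R007.KumK
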