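import Mathlib
import Crest.Agent.R007.Mix2
import Crest.Agent.R007.KumC

/-! Row 7, section C: translation between 704's `IntAt` and `VV`, `Two`, `Cg`. -/

set_option autoImplicit false

namespace Crest.Agent.R007.Mix

open UpperHalfPlane ModularForm CongruenceSubgroup Matrix
open Crest.Agent.R007.Lat Crest.Agent.R007.KumC Crest.Agent.R007.KumM
open scoped MatrixGroups Manifold ModularForm

variable {O : Subring ℂ}

lemma intAt_iff_VV {F : X → ℂ} (hF : F ∈ MM) : IntAt O.toAddSubgroup F ↔ F ∈ VV O := by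
  constructor
  · intro h
    exact ⟨hF, fun g hg => ⟨MM_res_sl hF hg, fun r => h g hg r⟩⟩
  · intro h g hg r
    exact (h.2 g hg).2 r

lemma intAt_iff_Lk {k : ℕ} {F : X → ℂ} (hF : F ∈ MO k) : IntAt O.toAddSubgroup F ↔ F ∈ Lk O k := by
  constructor
  · intro h
    exact ⟨hF, fun g hg => ⟨MM_res_sl (MO_le_MM hF) hg, fun r => h g hg r⟩⟩
  · intro h g hg r
    exact (h.2 g hg).2 r

lemma two_iff_twoO {f : ℍ → ℂ} : Two O f ↔ ∀ r : ℚ, (qf f).coeff r ∈ twoO O := by
  simp only [Two, mem_twoO]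

lemma intAt_two_iff {F : X → ℂ} (hF : F ∈ MM) : IntAt (twoO O) F ↔ ∃ G ∈ VV O, F = 2 * G := by
  constructor
  · intro h
    exact VV_half hF fun g hg => two_iff_twoO.2 fun r => h g hg r
  · rintro ⟨G, hG, rfl⟩ g hg r
    exact two_iff_twoO.1 (two_res_sl_of_VV hG hg) r

lemma intAt_sub_iff {F G : X → ℂ} (hF : F ∈ MM) (hG : G ∈ MM) : IntAt (twoO O) (F - G) ↔ Cg O F G :=
  intAt_two_iff (sub_mem hF hG)

end Crest.Agent.R007.Mix
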