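/-
Row 7 (S0007), section C: the q-expansion principle on V/2 by the abelian-quotient trick,
abstract form (helper377; argument of helper192 / helper704).
-/
import Mathlib

set_option autoImplicit false

namespace Crest.Agent.R007.QPrin

open scoped Pointwise

variable {V : Type*} [CommRing V] {G : Type*} [Group G]

/-- Hypotheses of the abstract q-expansion principle. -/
structure Hyp (sl : G → V →+* V) (Z : Subgroup G) (I P : Ideal V) (B : Set V) : Prop where
  sl_one : ∀ x, sl 1 x = x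
  sl_mul : ∀ g h x, sl (g * h) x = sl h (sl g x)
  comm : ∀ z ∈ Z, ∀ g : G, z * g = g * z
  slI : ∀ g x, x ∈ I → sl g x ∈ I
  prime : P.IsPrime
  le : I ≤ P
  slB : ∀ g, ∀ b ∈ B, sl g b ∈ B
  fin : ∀ x : V, ∃ U : Subgroup G, U ≤ Z ∧ (U.subgroupOf Z).FiniteIndex ∧
    ∀ u ∈ U, sl u x - x ∈ I
  K : ∀ x : V, (∀ z ∈ Z, sl z x - x ∈ I) → ∃ b ∈ B, x - b ∈ I
  D : ∀ b ∈ B, b ∈ P → b ∈ I

variable {sl : G → V →+* V} {Z : Subgroup G} {I P : Ideal V} {B : Set V}

/-- the subring of elements fixed by `U` mod `I`. -/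
def WU (H : Hyp sl Z I P B) (U : Subgroup G) : Subring V where
  carrier := {x | ∀ u ∈ U, sl u x - x ∈ I}
  mul_mem' {x y} hx hy := fun u hu => by
    have h1 := hx u hu
    have h2 := hy u hu
    have : sl u (x * y) - x * y = (sl u x - x) * sl u y + x * (sl u y - y) := by
      rw [map_mul]; ring
    rw [this]
    exact I.add_mem (I.mul_mem_right _ h1) (I.mul_mem_left _ h2)
  one_mem' := fun u _ => by simp
  add_mem' {x y} hx hy := fun u hu => by
    have : sl u (x + y) - (x + y) = (sl u x - x) + (sl u y - y) := by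
      rw [map_add]; ring
    rw [this]
    exact I.add_mem (hx u hu) (hy u hu)
  zero_mem' := fun u _ => by simp
  neg_mem' {x} hx := fun u hu => by
    have : sl u (-x) - (-x) = -(sl u x - x) := by rw [map_neg]; ring
    rw [this]
    exact I.neg_mem (hx u hu)

lemma mul_comm_of (H : Hyp sl Z I P B) {z : G} (hz : z ∈ Z) (g : G) : g * z = z * g :=
  (H.comm z hz g).symm

lemma mem_WU (H : Hyp sl Z I P B) (U : Subgroup G) (x : V) :
    x ∈ WU H U ↔ ∀ u ∈ U, sl u x - x ∈ I := Iff.rfl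

section
variable (H : Hyp sl Z I P B) {U : Subgroup G} (hU : U ≤ Z)
include H

lemma sl_comm {z : G} (hz : z ∈ Z) (g : G) (x : V) : sl z (sl g x) = sl g (sl z x) := by
  rw [← H.sl_mul, ← H.sl_mul, H.comm z hz]

include hU

lemma WU_sl {x : V} (hx : x ∈ WU H U) (g : G) : sl g x ∈ WU H U := by
  intro u hu
  rw [sl_comm H (hU hu), ← map_sub]
  exact H.slI g _ (hx u hu)

omit hU in
/-- the ideal `J(g) = {x ∈ W_U | sl g x ∈ P}`. -/
def J (H : Hyp sl Z I P B) (U : Subgroup G) (g : G) : Ideal (WU H U) :=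
  P.comap ((sl g).comp (WU H U).subtype)

omit hU in
omit H in
lemma mem_J (H : Hyp sl Z I P B) (g : G) (x : WU H U) : x ∈ J H U g ↔ sl g (x : V) ∈ P := Iff.rfl

omit hU in
lemma J_prime (g : G) : (J H U g).IsPrime := by
  haveI := H.prime
  exact Ideal.comap_isPrime _ _

/-- `J(g₁) ≤ J(g₂)` implies `J(z g₁) ≤ J(z g₂)` for scalars `z`. -/
lemma J_le_mul {g₁ g₂ : G} (h : J H U g₁ ≤ J H U g₂) {z : G} (hz : z ∈ Z) :
    J H U (z * g₁) ≤ J H U (z * g₂) := by
  intro x hx
  rw [mem_J, H.sl_mul] at hx ⊢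
  exact h (show (⟨sl z x, WU_sl H hU x.2 z⟩ : WU H U) ∈ J H U g₁ from hx)

omit hU in
lemma J_of_mem_U {u : G} (hu : u ∈ U) : J H U u = J H U 1 := by
  ext x
  rw [mem_J, mem_J, H.sl_one]
  have h := H.le (x.2 u hu)
  constructor
  · intro hx
    have := P.sub_mem hx h
    simpa using this
  · intro hx
    have := P.add_mem h hx
    simpa using this

end

section norm
variable (H : Hyp sl Z I P B) {U : Subgroup G} (hU : U ≤ Z)
include H hU

/-- classes of the scalar translates only depend on the coset. -/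
lemma mk_sl_eq {x : V} (hx : x ∈ WU H U) (w : Z) :
    Ideal.Quotient.mk I (sl (w : G) x) = Ideal.Quotient.mk I
      (sl ((Quotient.out (QuotientGroup.mk (s := U.subgroupOf Z) w) : Z) : G) x) := by
  set c := (Quotient.out (QuotientGroup.mk (s := U.subgroupOf Z) w) : Z) with hc
  have h1 : QuotientGroup.mk (s := U.subgroupOf Z) c = QuotientGroup.mk w := Quotient.out_eq' _
  have h2 : c⁻¹ * w ∈ U.subgroupOf Z := QuotientGroup.eq.1 h1
  have h3 : ((c : G)⁻¹ * (w : G)) ∈ U := by simpa [Subgroup.mem_subgroupOf] using h2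
  have h4 : (w : G) = ((c : G)⁻¹ * (w : G)) * (c : G) := by
    have := H.comm c c.2 ((c : G)⁻¹ * (w : G))
    rw [← this]; group
  rw [h4, H.sl_mul, Ideal.Quotient.eq, ← map_sub]
  exact H.slI _ _ (hx _ h3)

/-- the norm of `x ∈ W_U`: a finite product of scalar translates of `x`, invariant mod `I`. -/
lemma exists_norm (hfin : (U.subgroupOf Z).FiniteIndex) (x : V) (hx : x ∈ WU H U) :
    ∃ (S : Finset (Z ⧸ U.subgroupOf Z)) (r : Z ⧸ U.subgroupOf Z → G),
    (∀ i, r i ∈ Z) ∧ (∃ i ∈ S, sl (r i) x - x ∈ I) ∧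
    (∀ z ∈ Z, sl z (∏ i ∈ S, sl (r i) x) - ∏ i ∈ S, sl (r i) x ∈ I) := by
  classical
  have := hfin
  have : Finite (Z ⧸ U.subgroupOf Z) := inferInstance
  have := Fintype.ofFinite (Z ⧸ U.subgroupOf Z)
  refine ⟨Finset.univ, fun c => ((Quotient.out c : Z) : G), fun i => (Quotient.out i : Z).2, ?_, ?_⟩
  · refine ⟨QuotientGroup.mk (1 : Z), Finset.mem_univ _, ?_⟩
    have := mk_sl_eq H hU hx (1 : Z)
    rw [← Ideal.Quotient.eq, ← this]
    simp [H.sl_one]
  · intro z hz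
    rw [← Ideal.Quotient.eq, map_prod, map_prod, map_prod]
    have key : ∀ c : Z ⧸ U.subgroupOf Z,
        Ideal.Quotient.mk I (sl z (sl ((Quotient.out c : Z) : G) x)) =
        Ideal.Quotient.mk I (sl ((Quotient.out ((⟨z, hz⟩ : Z) • c) : Z) : G) x) := by
      intro c
      rw [← H.sl_mul]
      have hzc : (⟨z, hz⟩ : Z) • c = QuotientGroup.mk ((⟨z, hz⟩ : Z) * Quotient.out c) := by
        conv_lhs => rw [← Quotient.out_eq' c]
        rfl
      rw [hzc, ← mk_sl_eq H hU hx]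
      congr 2
      rw [Subgroup.coe_mul, H.comm z hz]
    simp_rw [key]
    exact Equiv.prod_comp (MulAction.toPerm (⟨z, hz⟩ : Z))
      (fun c : Z ⧸ U.subgroupOf Z => Ideal.Quotient.mk I (sl ((Quotient.out c : Z) : G) x))

/-- `J(g) ≤ J(z)` for some scalar `z`. -/
lemma exists_le (hfin : (U.subgroupOf Z).FiniteIndex) (g : G) :
    ∃ z ∈ Z, J H U g ≤ J H U z := by
  classical
  have := hfin
  have : Finite (Z ⧸ U.subgroupOf Z) := inferInstance
  have := Fintype.ofFinite (Z ⧸ U.subgroupOf Z)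
  set r : Z ⧸ U.subgroupOf Z → G := fun c => ((Quotient.out c : Z) : G) with hr
  have hsub : (J H U g : Set (WU H U)) ⊆
      ⋃ i ∈ (↑(Finset.univ : Finset (Z ⧸ U.subgroupOf Z)) : Set _), (J H U (r i) : Set (WU H U)) := by
    intro x hx
    obtain ⟨S, r', hr', ⟨i₀, hi₀, h0⟩, hinv⟩ := exists_norm H hU hfin x x.2
    obtain ⟨b, hb, hyb⟩ := H.K _ hinv
    have hxg : sl g (x : V) ∈ P := hx
    have h1 : sl g (∏ i ∈ S, sl (r' i) (x : V)) ∈ P := by
      rw [map_prod, ← Finset.mul_prod_erase S _ hi₀]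
      apply P.mul_mem_right
      have h2 := H.le (H.slI g _ h0)
      rw [map_sub] at h2
      have := P.add_mem h2 hxg
      simpa using this
    have h2 : sl g b ∈ P := by
      have h3 := H.le (H.slI g _ hyb)
      rw [map_sub] at h3
      have := P.sub_mem h1 h3
      simpa using this
    have h3 : sl g b ∈ I := H.D _ (H.slB g b hb) h2
    have h4 : b ∈ I := by
      have := H.slI g⁻¹ _ h3
      rwa [← H.sl_mul, mul_inv_cancel, H.sl_one] at this
    have h5 : ∏ i ∈ S, sl (r' i) (x : V) ∈ P := by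
      have := P.add_mem (H.le hyb) (H.le h4)
      simpa using this
    have hP := H.prime
    obtain ⟨i, hi, hPi⟩ := (Ideal.IsPrime.prod_mem_iff).1 h5
    have h6 : sl (r (QuotientGroup.mk (⟨r' i, hr' i⟩ : Z))) (x : V) ∈ P := by
      have := mk_sl_eq H hU x.2 (⟨r' i, hr' i⟩ : Z)
      rw [Ideal.Quotient.eq] at this
      have := P.sub_mem hPi (H.le this)
      simpa using this
    simp only [Set.mem_iUnion]
    exact ⟨QuotientGroup.mk (⟨r' i, hr' i⟩ : Z), by simp, h6⟩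
  rw [Ideal.subset_union_prime (QuotientGroup.mk (1 : Z)) (QuotientGroup.mk (1 : Z))
    (fun i _ _ _ => J_prime H (r i))] at hsub
  obtain ⟨i, _, hi⟩ := hsub
  exact ⟨r i, (Quotient.out i : Z).2, hi⟩

/-- `J(g) = J(z)` for some scalar `z`. -/
lemma exists_eq (hfin : (U.subgroupOf Z).FiniteIndex) (g : G) :
    ∃ z ∈ Z, J H U g = J H U z := by
  obtain ⟨z, hz, h1⟩ := exists_le H hU hfin g
  obtain ⟨w, hw, h2⟩ := exists_le H hU hfin g⁻¹
  -- `J(1) ≤ J(w * g)`
  have h3 : J H U 1 ≤ J H U (w * g) := by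
    intro y hy
    rw [mem_J, H.sl_one] at hy
    have h4 : (⟨sl g y, WU_sl H hU y.2 g⟩ : WU H U) ∈ J H U g⁻¹ := by
      rw [mem_J, ← H.sl_mul, mul_inv_cancel, H.sl_one]
      exact hy
    have h5 := h2 h4
    rw [mem_J] at h5 ⊢
    rw [H.comm w hw, H.sl_mul]
    exact h5
  have h4 : J H U (w * g) ≤ J H U (w * z) := J_le_mul H hU h1 hw
  set y := w * z with hy
  have hyZ : y ∈ Z := Z.mul_mem hw hz
  have h5 : J H U 1 ≤ J H U y := h3.trans h4
  have h6 : ∀ n : ℕ, J H U y ≤ J H U (y ^ (n + 1)) := by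
    intro n
    induction n with
    | zero => simp
    | succ n ih =>
      have h7 : J H U (y ^ (n + 1) * 1) ≤ J H U (y ^ (n + 1) * y) :=
        J_le_mul H hU h5 (Z.pow_mem hyZ _)
      rw [mul_one, ← pow_succ] at h7
      exact ih.trans h7
  have h7 : J H U y = J H U 1 := by
    refine le_antisymm ?_ h5
    have hn : ∃ n : ℕ, y ^ (n + 1) ∈ U := by
      have := hfin
      obtain ⟨n, hn0, _, hn⟩ := (U.subgroupOf Z).exists_pow_mem_of_index_ne_zero
        (Subgroup.FiniteIndex.index_ne_zero) ⟨y, hyZ⟩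
      refine ⟨n - 1, ?_⟩
      rw [Nat.sub_add_cancel hn0]
      simpa [Subgroup.mem_subgroupOf] using hn
    obtain ⟨n, hn⟩ := hn
    have := h6 n
    rwa [J_of_mem_U H hn] at this
  have h8 : J H U 1 = J H U (w * g) := le_antisymm h3 (h4.trans h7.le)
  refine ⟨w⁻¹, Z.inv_mem hw, ?_⟩
  have h9 := J_le_mul H hU h8.le (Z.inv_mem hw)
  have h10 := J_le_mul H hU h8.ge (Z.inv_mem hw)
  rw [← mul_assoc, inv_mul_cancel, one_mul, mul_one] at h9 h10
  exact le_antisymm h10 h9

/-- scalars act compatibly: `J(z₁) = J(z₂)` etc.  The set of `g` with `J(g) = J(1)` contains all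
commutators. -/
lemma J_mul {g h z w : G} (hz : z ∈ Z) (hw : w ∈ Z) (hg : J H U g = J H U z)
    (hh : J H U h = J H U w) : J H U (g * h) = J H U (z * w) := by
  have e1 : J H U (w * g) = J H U (w * z) :=
    le_antisymm (J_le_mul H hU hg.le hw) (J_le_mul H hU hg.ge hw)
  have e2 : J H U (g * h) = J H U (w * g) := by
    ext x
    rw [mem_J, mem_J, H.sl_mul, ← mul_comm_of H hw g, H.sl_mul]
    have h1 : (⟨sl g x, WU_sl H hU x.2 g⟩ : WU H U) ∈ J H U h ↔
        (⟨sl g x, WU_sl H hU x.2 g⟩ : WU H U) ∈ J H U w := by rw [hh]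
    exact h1
  rw [e2, e1, H.comm w hw z]

lemma J_comm_eq (hfin : (U.subgroupOf Z).FiniteIndex) (g h : G) :
    J H U (g * h * g⁻¹ * h⁻¹) = J H U 1 := by
  obtain ⟨z, hz, h1⟩ := exists_eq H hU hfin g
  obtain ⟨w, hw, h2⟩ := exists_eq H hU hfin h
  obtain ⟨z', hz', h3⟩ := exists_eq H hU hfin g⁻¹
  obtain ⟨w', hw', h4⟩ := exists_eq H hU hfin h⁻¹
  have e1 : J H U (z * z') = J H U 1 := by
    rw [← J_mul H hU hz hz' h1 h3, mul_inv_cancel]
  have e2 : J H U (w * w') = J H U 1 := by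
    rw [← J_mul H hU hw hw' h2 h4, mul_inv_cancel]
  have e3 : J H U (g * h * g⁻¹ * h⁻¹) = J H U (z * w * z' * w') :=
    J_mul H hU (Z.mul_mem (Z.mul_mem hz hw) hz') hw'
      (J_mul H hU (Z.mul_mem hz hw) hz' (J_mul H hU hz hw h1 h2) h3) h4
  have e4 : z * w * z' * w' = (z * z') * (w * w') := by
    have := H.comm w hw z'
    calc z * w * z' * w' = z * (w * z') * w' := by group
      _ = z * (z' * w) * w' := by rw [this]
      _ = (z * z') * (w * w') := by group
  rw [e3, e4]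
  have := J_mul H hU (Z.one_mem) (Z.one_mem) e1 e2
  rw [this, mul_one]

/-- all `g` satisfy `J(g) = J(1)` when the stabiliser and the commutators generate. -/
lemma J_eq_one (hfin : (U.subgroupOf Z).FiniteIndex)
    (hgen : Subgroup.closure ({g : G | ∀ x, sl g x ∈ P ↔ x ∈ P} ∪
      {g | ∃ a b : G, a * b * a⁻¹ * b⁻¹ = g}) = ⊤) (g : G) :
    J H U g = J H U 1 := by
  have hg : g ∈ Subgroup.closure ({g : G | ∀ x, sl g x ∈ P ↔ x ∈ P} ∪
      {g | ∃ a b : G, a * b * a⁻¹ * b⁻¹ = g}) := by rw [hgen]; trivial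
  induction hg using Subgroup.closure_induction with
  | mem g hg =>
    rcases hg with hg | ⟨a, b, rfl⟩
    · ext x
      rw [mem_J, mem_J, H.sl_one]
      exact hg x
    · exact J_comm_eq H hU hfin a b
  | one => rfl
  | mul g h _ _ hg hh =>
    have := J_mul H hU Z.one_mem Z.one_mem hg hh
    rwa [mul_one] at this
  | inv g _ hg =>
    obtain ⟨z', hz', h3⟩ := exists_eq H hU hfin g⁻¹
    have := J_mul H hU Z.one_mem hz' hg h3
    rw [mul_inv_cancel, one_mul] at this
    rw [h3, this]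

end norm

/-- **q-expansion principle, abstract form**: `P = I`. -/
theorem eq_of_sep (H : Hyp sl Z I P B)
    (hgen : Subgroup.closure ({g : G | ∀ x, sl g x ∈ P ↔ x ∈ P} ∪
      {g | ∃ a b : G, a * b * a⁻¹ * b⁻¹ = g}) = ⊤)
    (hsep : ∀ x, (∀ g, sl g x ∈ P) → x ∈ I) : P = I := by
  refine le_antisymm (fun x hx => hsep x fun g => ?_) H.le
  obtain ⟨U, hU, hfin, hfix⟩ := H.fin x
  have h := J_eq_one H hU hfin hgen g
  have h1 : (⟨x, hfix⟩ : WU H U) ∈ J H U 1 := by
    rw [mem_J, H.sl_one]; exact hx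
  rw [← h] at h1
  exact h1

/-- stability of `P` under all `g`. -/
theorem sl_mem (H : Hyp sl Z I P B)
    (hgen : Subgroup.closure ({g : G | ∀ x, sl g x ∈ P ↔ x ∈ P} ∪
      {g | ∃ a b : G, a * b * a⁻¹ * b⁻¹ = g}) = ⊤) (g : G) {x : V} (hx : x ∈ P) :
    sl g x ∈ P := by
  obtain ⟨U, hU, hfin, hfix⟩ := H.fin x
  have h := J_eq_one H hU hfin hgen g
  have h1 : (⟨x, hfix⟩ : WU H U) ∈ J H U 1 := by
    rw [mem_J, H.sl_one]; exact hx
  rw [← h] at h1
  exact h1

end Crest.Agent.R007.QPrin
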