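import Mathlib
import Crest.Agent.R007.Mix1
import Crest.Agent.R007.QPrin
import Crest.Agent.R007.G2Gen

/-! Row 7, section C: the q-expansion principle on `VV O` from (K) and (D)
(instance of `QPrin.eq_of_sep`). -/

set_option autoImplicit false

namespace Crest.Agent.R007.QInst

open UpperHalfPlane ModularForm CongruenceSubgroup Matrix
open Crest.Agent.R007.Lat Crest.Agent.R007.Mix
open scoped MatrixGroups Manifold ModularForm

variable {O : Subring ℂ}

/-! ### primality -/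

/-- `2 O` is a prime ideal, elementwise -/
def PrimeTwo (O : Subring ℂ) : Prop :=
  (∀ y ∈ O, (1 : ℂ) ≠ 2 * y) ∧
  ∀ x ∈ O, ∀ y ∈ O, (∃ z ∈ O, x * y = 2 * z) → (∃ z ∈ O, x = 2 * z) ∨ (∃ z ∈ O, y = 2 * z)

lemma two_or_two (hp : PrimeTwo O) {f g : ℍ → ℂ} (hf : f ∈ IntO O) (hg : g ∈ IntO O)
    (h : Two O (f * g)) : Two O f ∨ Two O g := by
  by_contra hcon
  push Not at hcon
  obtain ⟨h1, h2⟩ := hcon
  unfold Two at h1 h2
  push Not at h1 h2
  set A : Set ℚ := {r | ∀ y ∈ O, (qf f).coeff r ≠ 2 * y} with hA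
  set B : Set ℚ := {r | ∀ y ∈ O, (qf g).coeff r ≠ 2 * y} with hB
  have hAs : A ⊆ (qf f).support := by
    intro r hr
    rw [HahnSeries.mem_support]
    intro h0
    exact hr 0 O.zero_mem (by rw [h0, mul_zero])
  have hBs : B ⊆ (qf g).support := by
    intro r hr
    rw [HahnSeries.mem_support]
    intro h0
    exact hr 0 O.zero_mem (by rw [h0, mul_zero])
  have hAn : A.Nonempty := h1
  have hBn : B.Nonempty := h2
  have hAw : A.IsWF := ((qf f).isPWO_support.mono hAs).isWF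
  have hBw : B.IsWF := ((qf g).isPWO_support.mono hBs).isWF
  set a := hAw.min hAn with ha
  set b := hBw.min hBn with hb
  have haA : a ∈ A := hAw.min_mem hAn
  have hbB : b ∈ B := hBw.min_mem hBn
  have ha' : ∀ r < a, ∃ y ∈ O, (qf f).coeff r = 2 * y := by
    intro r hr
    by_contra hc
    push Not at hc
    exact absurd hr (not_lt.2 (hAw.min_le hAn hc))
  have hb' : ∀ r < b, ∃ y ∈ O, (qf g).coeff r = 2 * y := by
    intro r hr
    by_contra hc
    push Not at hc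
    exact absurd hr (not_lt.2 (hBw.min_le hBn hc))
  obtain ⟨y, hy, e⟩ := h (a + b)
  rw [qf_mul hf.1 hg.1, HahnSeries.coeff_mul] at e
  have hmem : (a, b) ∈ Finset.antidiagonal (qf f).isPWO_support (qf g).isPWO_support (a + b) := by
    rw [Finset.mem_antidiagonal]
    exact ⟨hAs haA, hBs hbB, rfl⟩
  rw [← Finset.add_sum_erase _ _ hmem] at e
  have hrest : ∃ z ∈ O, ∑ x ∈ (Finset.antidiagonal (qf f).isPWO_support (qf g).isPWO_support
      (a + b)).erase (a, b), (qf f).coeff x.1 * (qf g).coeff x.2 = 2 * z := by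
    have key : ∀ x ∈ (Finset.antidiagonal (qf f).isPWO_support (qf g).isPWO_support
      (a + b)).erase (a, b), ∃ z ∈ O, (qf f).coeff x.1 * (qf g).coeff x.2 = 2 * z := by
      intro x hx
      rw [Finset.mem_erase, Finset.mem_antidiagonal] at hx
      obtain ⟨hne, _, _, hsum⟩ := hx
      rcases lt_trichotomy x.1 a with hlt | heq | hgt
      · obtain ⟨z, hz, ez⟩ := ha' _ hlt
        exact ⟨z * (qf g).coeff x.2, O.mul_mem hz (hg.2 _), by rw [ez]; ring⟩
      · exfalso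
        apply hne
        have : x.2 = b := by linarith
        exact Prod.ext heq this
      · have hlt : x.2 < b := by linarith
        obtain ⟨z, hz, ez⟩ := hb' _ hlt
        exact ⟨(qf f).coeff x.1 * z, O.mul_mem (hf.2 _) hz, by rw [ez]; ring⟩
    choose! z hz ez using key
    refine ⟨∑ x ∈ (Finset.antidiagonal (qf f).isPWO_support (qf g).isPWO_support
      (a + b)).erase (a, b), z x, O.sum_mem fun x hx => hz x hx, ?_⟩
    rw [Finset.mul_sum]
    exact Finset.sum_congr rfl fun x hx => ez x hx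
  obtain ⟨z, hz, ez⟩ := hrest
  rw [ez] at e
  have : (qf f).coeff a * (qf g).coeff b = 2 * (y - z) := by
    have e' : (qf f).coeff (a, b).1 * (qf g).coeff (a, b).2 = 2 * y - 2 * z := by
      linear_combination e
    rw [show (qf f).coeff a * (qf g).coeff b = (qf f).coeff (a, b).1 * (qf g).coeff (a, b).2 from rfl,
      e']
    ring
  rcases hp.2 _ (hf.2 a) _ (hg.2 b) ⟨y - z, O.sub_mem hy hz, this⟩ with ⟨w, hw, ew⟩ | ⟨w, hw, ew⟩
  · exact haA w hw ew
  · exact hbB w hw ew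

/-- forms whose expansion at infinity is `0` mod `2` -/
def PP (O : Subring ℂ) : Ideal (VV O) where
  carrier := {F | Two O (res F.1)}
  add_mem' := by
    intro F G hF hG
    exact Two.add (VV_res F.2).1 (VV_res G.2).1 hF hG
  zero_mem' := by
    intro r
    refine ⟨0, O.zero_mem, ?_⟩
    have : res ((0 : VV O) : X → ℂ) = 0 := rfl
    rw [this, qf_zero]
    simp
  smul_mem' := by
    intro F G hG
    exact Two.mul (VV_res F.2) (VV_res G.2).1 hG

lemma mem_PP {F : VV O} : F ∈ PP O ↔ Two O (res F.1) := Iff.rfl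

lemma PP_prime (hp : PrimeTwo O) : (PP O).IsPrime := by
  refine ⟨?_, ?_⟩
  · rw [Ideal.ne_top_iff_one]
    intro h
    obtain ⟨y, hy, e⟩ := h 0
    have : res ((1 : VV O) : X → ℂ) = 1 := rfl
    rw [this, qf_one, HahnSeries.coeff_one, if_pos rfl] at e
    exact hp.1 y hy e
  · intro F G hFG
    exact two_or_two hp (VV_res F.2) (VV_res G.2) hFG

/-- `2 V` -/
def II (O : Subring ℂ) : Ideal (VV O) := Ideal.span {(2 : VV O)}

lemma mem_II {F : VV O} : F ∈ II O ↔ ∃ G ∈ VV O, F.1 = 2 * G := by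
  rw [II, Ideal.mem_span_singleton']
  constructor
  · rintro ⟨a, rfl⟩
    exact ⟨a.1, a.2, mul_comm _ _⟩
  · rintro ⟨G, hG, e⟩
    exact ⟨⟨G, hG⟩, Subtype.ext ((mul_comm _ _).trans e.symm)⟩

/-- slash as an endomorphism of `VV O` -/
noncomputable def sV (O : Subring ℂ) (g : G2) : VV O →+* VV O where
  toFun F := ⟨sl F.1 g.1, VV_sl F.2 g.2⟩
  map_one' := rfl
  map_mul' _ _ := rfl
  map_zero' := rfl
  map_add' _ _ := rfl

@[simp] lemma sV_coe (g : G2) (F : VV O) : ((sV O g F : VV O) : X → ℂ) = sl F.1 g.1 := rfl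

/-! ### scalars -/

/-- the matrix of an element of `G2` -/
def mat (g : G2) : Matrix (Fin 2) (Fin 2) ℝ := ((g.1 : GL (Fin 2) ℝ) : Matrix (Fin 2) (Fin 2) ℝ)

lemma mat_mul (g h : G2) : mat (g * h) = mat g * mat h := rfl
lemma mat_one : mat 1 = 1 := rfl
lemma mat_inj {g h : G2} (e : mat g = mat h) : g = h :=
  Subtype.ext (Subtype.ext (Units.ext e))

/-- `z = m / n` -/
def IsSc (z : G2) (m n : ℕ) : Prop := Odd m ∧ Odd n ∧ (n : ℝ) • mat z = (m : ℝ) • 1

lemma IsSc.mul {z w : G2} {m n m' n' : ℕ} (h : IsSc z m n) (h' : IsSc w m' n') :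
    IsSc (z * w) (m * m') (n * n') := by
  refine ⟨h.1.mul h'.1, h.2.1.mul h'.2.1, ?_⟩
  rw [mat_mul]
  have : ((n * n' : ℕ) : ℝ) • (mat z * mat w) = ((n : ℝ) • mat z) * ((n' : ℝ) • mat w) := by
    rw [smul_mul_smul_comm]; push_cast; rfl
  rw [this, h.2.2, h'.2.2, smul_mul_smul_comm, mul_one]
  push_cast; rfl

lemma IsSc.inv {z : G2} {m n : ℕ} (h : IsSc z m n) : IsSc z⁻¹ n m := by
  refine ⟨h.2.1, h.1, ?_⟩
  have e : mat z * mat z⁻¹ = 1 := by rw [← mat_mul, mul_inv_cancel, mat_one]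
  have e2 : ((n : ℝ) • mat z) * mat z⁻¹ = ((m : ℝ) • 1) * mat z⁻¹ := by rw [h.2.2]
  rw [smul_mul_assoc, e, smul_mul_assoc, one_mul] at e2
  exact e2.symm

lemma IsSc.one : IsSc 1 1 1 := ⟨odd_one, odd_one, by rw [mat_one]⟩

/-- the scalars in `G2` -/
def ZZ : Subgroup G2 where
  carrier := {z | ∃ m n : ℕ, IsSc z m n}
  one_mem' := ⟨1, 1, IsSc.one⟩
  mul_mem' := by
    rintro z w ⟨m, n, h⟩ ⟨m', n', h'⟩
    exact ⟨_, _, h.mul h'⟩
  inv_mem' := by
    rintro z ⟨m, n, h⟩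
    exact ⟨_, _, h.inv⟩

lemma mem_ZZ {z : G2} : z ∈ ZZ ↔ ∃ m n : ℕ, IsSc z m n := Iff.rfl

/-- the scalars congruent to `1` mod `N` -/
def ZN (N : ℕ) : Subgroup G2 where
  carrier := {z | ∃ m n : ℕ, IsSc z m n ∧ m ≡ n [MOD N]}
  one_mem' := ⟨1, 1, IsSc.one, Nat.ModEq.refl _⟩
  mul_mem' := by
    rintro z w ⟨m, n, h, e⟩ ⟨m', n', h', e'⟩
    exact ⟨_, _, h.mul h', e.mul e'⟩
  inv_mem' := by
    rintro z ⟨m, n, h, e⟩
    exact ⟨_, _, h.inv, e.symm⟩

lemma ZN_le (N : ℕ) : ZN N ≤ ZZ := by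
  rintro z ⟨m, n, h, _⟩
  exact ⟨m, n, h⟩

lemma ZN_finiteIndex (N : ℕ) [NeZero N] : ((ZN N).subgroupOf ZZ).FiniteIndex := by
  have hfin : Finite (ZZ ⧸ (ZN N).subgroupOf ZZ) := by
    have hch : ∀ z : ZZ, ∃ p : ℕ × ℕ, IsSc z.1 p.1 p.2 := fun z => by
      obtain ⟨m, n, h⟩ := z.2
      exact ⟨(m, n), h⟩
    choose p hp using hch
    let f : (ZZ ⧸ (ZN N).subgroupOf ZZ) → ZMod N × ZMod N := fun c =>
      (((p (Quotient.out c)).1 : ZMod N), ((p (Quotient.out c)).2 : ZMod N))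
    apply Finite.of_injective f
    intro c c' hcc
    simp only [f, Prod.mk.injEq, ZMod.natCast_eq_natCast_iff] at hcc
    rw [← Quotient.out_eq' c, ← Quotient.out_eq' c', QuotientGroup.eq, Subgroup.mem_subgroupOf]
    have h1 := (hp (Quotient.out c)).inv.mul (hp (Quotient.out c'))
    refine ⟨_, _, h1, ?_⟩
    exact (hcc.2.mul hcc.1.symm).trans (by rw [mul_comm])
  exact Subgroup.finiteIndex_of_finite_quotient

lemma ZZ_comm {z : G2} (hz : z ∈ ZZ) (g : G2) : z * g = g * z := by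
  obtain ⟨m, n, h⟩ := hz
  apply mat_inj
  rw [mat_mul, mat_mul]
  have hn : (n : ℝ) ≠ 0 := by exact_mod_cast h.2.1.pos.ne'
  apply smul_right_injective _ hn
  change (n : ℝ) • (mat z * mat g) = (n : ℝ) • (mat g * mat z)
  rw [← smul_mul_assoc, ← mul_smul_comm, h.2.2]
  simp

lemma sc_pos {n : ℕ} (hn : Odd n) : 0 < (sc n).det := sc_det_pos (by exact_mod_cast hn.pos.ne')

lemma sc_odd {n : ℕ} (hn : Odd n) : Odd (sc n).det := by
  rw [sc_det]
  have : Odd (n : ℤ) := by exact_mod_cast hn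
  exact this.mul this

/-- the scalar `n` -/
noncomputable def scG (n : ℕ) (hn : Odd n) : G2 := gG (sc n) (sc_pos hn) (sc_odd hn)

lemma scG_coe (n : ℕ) (hn : Odd n) : ((scG n hn : G2) : GL(2, ℝ)⁺) = iG (sc n) (sc_pos hn) := rfl

lemma mat_scG (n : ℕ) (hn : Odd n) : mat (scG n hn) = (n : ℝ) • 1 := by
  have : mat (scG n hn) = (sc n).map (Int.cast : ℤ → ℝ) := rfl
  rw [this, sc_map]; simp

lemma scG_mem (n : ℕ) (hn : Odd n) : scG n hn ∈ ZZ :=
  ⟨n, 1, hn, odd_one, by rw [mat_scG]; simp⟩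

lemma IsSc.eq {z : G2} {m n : ℕ} (h : IsSc z m n) : scG n h.2.1 * z = scG m h.1 := by
  apply mat_inj
  rw [mat_mul, mat_scG, mat_scG, smul_mul_assoc, one_mul, h.2.2]

/-- the action of a scalar in weight `k` -/
lemma sl_sc {k : ℕ} {F : X → ℂ} (hF : F ∈ Wt k) {z : G2} {m n : ℕ} (h : IsSc z m n) :
    sl F z.1 = ((n : ℂ) / m) ^ k • F := by
  have hn : (n : ℂ) ≠ 0 := by exact_mod_cast h.2.1.pos.ne'
  have hm : (m : ℂ) ≠ 0 := by exact_mod_cast h.1.pos.ne'
  have e1 : sl F (scG n h.2.1 * z : G2).1 = sl F (scG m h.1 : G2).1 := by rw [h.eq]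
  rw [Subgroup.coe_mul, sl_mul_right, scG_coe, scG_coe, sl_scalar hF, sl_scalar hF, sl_smul] at e1
  have e2 : sl F z.1 = (n : ℂ) ^ k • ((((n : ℤ) : ℂ)⁻¹) ^ k • sl F z.1) := by
    rw [smul_smul, ← mul_pow]
    push_cast
    rw [mul_inv_cancel₀ hn, one_pow, one_smul]
  rw [e2, e1, smul_smul, ← mul_pow]
  push_cast
  rw [div_eq_mul_inv]

/-! ### components -/

lemma three_sub (j : ℕ) (hj : 1 ≤ j) : ∃ a t : ℕ, Odd t ∧ 3 ^ j - 1 = 2 ^ a * t := by
  have h : 3 ^ j - 1 ≠ 0 := by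
    have : 3 ^ 1 ≤ 3 ^ j := Nat.pow_le_pow_right (by norm_num) hj
    omega
  obtain ⟨a, t, ht, e⟩ := Nat.exists_eq_two_pow_mul_odd h
  exact ⟨a, t, ht, e⟩

/-- all components of a `2`-integral mixed weight form are `2`-integral up to a power of `2` -/
lemma exists_two_pow (hodd : ∀ n : ℕ, Odd n → (n : ℂ)⁻¹ ∈ O) (N : ℕ) :
    ∀ F : ℕ → X → ℂ, (∀ k, F k ∈ MO k) → (∑ k ∈ Finset.range N, F k) ∈ VV O →
      ∃ r : ℕ, ∀ k < N, (2 : ℂ) ^ r • F k ∈ VV O := by
  induction N with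
  | zero => intro F _ _; exact ⟨0, fun k hk => absurd hk (Nat.not_lt_zero _)⟩
  | succ N ih =>
    intro F hF hs
    have h3 : Odd 3 := by decide
    have h30 : (3 : ℂ) ≠ 0 := by norm_num
    -- eliminate the top component
    have e1 : ∀ k, sl (F k) (scG 3 h3 : G2).1 = ((3 : ℂ)⁻¹) ^ k • F k := by
      intro k
      rw [scG_coe, sl_scalar (MO_le_Wt (hF k))]
      norm_num
    have h1 : (3 : ℂ) ^ N • sl (∑ k ∈ Finset.range (N + 1), F k) (scG 3 h3 : G2).1 -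
        ∑ k ∈ Finset.range (N + 1), F k ∈ VV O := by
      apply sub_mem _ hs
      apply VV_smul (VV_sl hs (scG 3 h3).2)
      exact O.pow_mem (by exact_mod_cast natCast_mem O 3) _
    have h2 : (3 : ℂ) ^ N • sl (∑ k ∈ Finset.range (N + 1), F k) (scG 3 h3 : G2).1 -
        ∑ k ∈ Finset.range (N + 1), F k = ∑ k ∈ Finset.range N, ((3 : ℂ) ^ (N - k) - 1) • F k := by
      rw [sl_sum, Finset.smul_sum, ← Finset.sum_sub_distrib, Finset.sum_range_succ]
      have e2 : (3 : ℂ) ^ N • sl (F N) (scG 3 h3 : G2).1 - F N = 0 := by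
        rw [e1, smul_smul, ← mul_pow, mul_inv_cancel₀ h30, one_pow, one_smul, sub_self]
      rw [e2, add_zero]
      apply Finset.sum_congr rfl
      intro k hk
      rw [e1, smul_smul, sub_smul, one_smul]
      congr 2
      have hk' : k ≤ N := (Finset.mem_range.1 hk).le
      have : (3 : ℂ) ^ N = 3 ^ (N - k) * 3 ^ k := by rw [← pow_add, Nat.sub_add_cancel hk']
      rw [this, mul_assoc, ← mul_pow, mul_inv_cancel₀ h30, one_pow, mul_one]
    rw [h2] at h1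
    obtain ⟨r, hr⟩ := ih (fun k => ((3 : ℂ) ^ (N - k) - 1) • F k)
      (fun k => Submodule.smul_mem _ _ (hF k)) h1
    -- each component with `k < N`
    have h4 : ∀ k, ∃ r : ℕ, k < N → (2 : ℂ) ^ r • F k ∈ VV O := by
      intro k
      by_cases hk : k < N
      · obtain ⟨a, t, ht, e⟩ := three_sub (N - k) (by omega)
        refine ⟨r + a, fun _ => ?_⟩
        have h5 := VV_smul (hr k hk) (hodd t ht)
        have h6 : ((3 : ℂ) ^ (N - k) - 1) = 2 ^ a * t := by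
          have h7 : 1 ≤ 3 ^ (N - k) := Nat.one_le_pow _ _ (by norm_num)
          have : ((3 ^ (N - k) - 1 : ℕ) : ℂ) = ((2 ^ a * t : ℕ) : ℂ) := by rw [e]
          rw [Nat.cast_sub h7] at this
          push_cast at this
          exact this
        have ht0 : (t : ℂ) ≠ 0 := by exact_mod_cast ht.pos.ne'
        rw [smul_smul, smul_smul, h6] at h5
        have h8 : (t : ℂ)⁻¹ * (2 ^ r * (2 ^ a * t)) = 2 ^ (r + a) := by
          rw [pow_add]; field_simp
        rw [show (t : ℂ)⁻¹ * (2 ^ r) * (2 ^ a * t) = 2 ^ (r + a) by rw [← h8]; ring] at h5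
        exact h5
      · exact ⟨0, fun h => absurd h hk⟩
    choose r' hr' using h4
    set R := ∑ k ∈ Finset.range N, r' k with hR
    have h5 : ∀ k < N, (2 : ℂ) ^ R • F k ∈ VV O := by
      intro k hk
      have h6 : r' k ≤ R := Finset.single_le_sum (f := r') (fun _ _ => Nat.zero_le _)
        (Finset.mem_range.2 hk)
      have : (2 : ℂ) ^ R • F k = (2 : ℂ) ^ (R - r' k) • ((2 : ℂ) ^ (r' k) • F k) := by
        rw [smul_smul, ← pow_add, Nat.sub_add_cancel h6]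
      rw [this]
      exact VV_smul (hr' k hk) (O.pow_mem (by exact_mod_cast natCast_mem O 2) _)
    refine ⟨R, fun k hk => ?_⟩
    rcases Nat.lt_succ_iff_lt_or_eq.1 hk with hk | rfl
    · exact h5 k hk
    · have h7 : (2 : ℂ) ^ R • F k = (2 : ℂ) ^ R • (∑ j ∈ Finset.range (k + 1), F j) -
          ∑ j ∈ Finset.range k, (2 : ℂ) ^ R • F j := by
        rw [Finset.sum_range_succ, smul_add, Finset.smul_sum]; abel
      rw [h7]
      exact sub_mem (VV_smul hs (O.pow_mem (by exact_mod_cast natCast_mem O 2) _))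
        (sum_mem fun j hj => h5 j (Finset.mem_range.1 hj))

/-- `[z] x = x` mod `2 V` for scalars `z = 1` mod a power of `2` -/
lemma exists_fix (hodd : ∀ n : ℕ, Odd n → (n : ℂ)⁻¹ ∈ O) {F : X → ℂ} (hF : F ∈ VV O) :
    ∃ R : ℕ, ∀ z ∈ ZN (2 ^ R), ∃ G ∈ VV O, sl F z.1 - F = 2 * G := by
  obtain ⟨N, f, hf, e⟩ := mem_MM_iff.1 hF.1
  rw [e] at hF
  obtain ⟨r, hr⟩ := exists_two_pow hodd N f hf hF
  refine ⟨r + 1, ?_⟩
  rintro z ⟨m, n, hz, hmn⟩
  have hm : (m : ℂ) ≠ 0 := by exact_mod_cast hz.1.pos.ne'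
  have key : ∀ k, k < N → ∃ G ∈ VV O, ((n : ℂ) / m) ^ k • f k - f k = 2 * G := by
    intro k hk
    have h1 : ((2 ^ (r + 1) : ℕ) : ℤ) ∣ (n : ℤ) ^ k - (m : ℤ) ^ k := by
      have := (Int.natCast_modEq_iff.2 hmn).pow k
      exact this.dvd
    obtain ⟨t, ht⟩ := h1
    refine ⟨((t : ℂ) * ((m ^ k : ℕ) : ℂ)⁻¹) • ((2 : ℂ) ^ r • f k), VV_smul (hr k hk)
      (O.mul_mem (intCast_mem O t) (hodd _ (hz.1.pow))), ?_⟩
    have h2 : ((n : ℂ) ^ k - (m : ℂ) ^ k) = 2 ^ (r + 1) * t := by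
      have := congrArg (Int.cast : ℤ → ℂ) ht
      push_cast at this
      exact this
    rw [two_mul_eq_smul, smul_smul, smul_smul]
    have h3 : ((n : ℂ) / m) ^ k • f k - f k = ((((n : ℂ) ^ k - (m : ℂ) ^ k)) * ((m : ℂ) ^ k)⁻¹) • f k := by
      rw [sub_mul, sub_smul, mul_inv_cancel₀ (pow_ne_zero _ hm), one_smul, div_pow, div_eq_mul_inv]
    rw [h3, h2]
    congr 1
    push_cast
    ring
  choose! G hG eG using key
  refine ⟨∑ k ∈ Finset.range N, G k, sum_mem fun k hk => hG k (Finset.mem_range.1 hk), ?_⟩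
  rw [e, sl_sum, ← Finset.sum_sub_distrib, Finset.mul_sum]
  apply Finset.sum_congr rfl
  intro k hk
  rw [sl_sc (MO_le_Wt (hf k)) hz, eG k (Finset.mem_range.1 hk)]

/-! ### upper triangular matrices with `d = 1` -/

lemma res_sl_ut1 (F : X → ℂ) {a b : ℕ} (h : 0 < (ut a b (1 : ℕ)).det) :
    res (sl F (iG (ut a b (1 : ℕ)) h)) = fun τ => res F (iG (ut a b (1 : ℕ)) h • τ) := by
  funext τ
  rw [res_apply, sl_apply, res_apply]
  congr 1
  apply X.ext
  · rfl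
  · rw [smul_w]
    apply Units.ext
    rw [mul_one, dn_ut]
    simp

lemma qf_sl_ut1 {F : X → ℂ} (hF : F ∈ MM) {a b : ℕ} (ha : Odd a)
    (h : 0 < (ut a b (1 : ℕ)).det) (s : ℚ) :
    (qf (res (sl F (iG (ut a b (1 : ℕ)) h)))).coeff (s * a) = ee (s * b) * (qf (res F)).coeff s := by
  rw [res_sl_ut1]
  have := qf_comp_ut (MM_res hF) (a := a) (b := b) (d := 1) ha odd_one h s
  simpa using this

lemma two_T_iff (hroot : ∀ x : ℚ, Odd x.den → ee x ∈ O) {F : X → ℂ} (hF : F ∈ MM)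
    (h : 0 < (ut (1 : ℕ) (1 : ℕ) (1 : ℕ)).det) :
    Two O (res (sl F (iG (ut (1 : ℕ) (1 : ℕ) (1 : ℕ)) h))) ↔ Two O (res F) := by
  have key : ∀ s : ℚ, (qf (res (sl F (iG (ut (1 : ℕ) (1 : ℕ) (1 : ℕ)) h)))).coeff s =
      ee s * (qf (res F)).coeff s := by
    intro s
    have := qf_sl_ut1 hF (a := 1) (b := 1) odd_one h s
    simpa using this
  have hz : ∀ s : ℚ, ¬ Odd s.den → (qf (res F)).coeff s = 0 := by
    intro s hs
    obtain ⟨M, hM, hf⟩ := MM_res hF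
    apply qf_coeff_of_notMem hM hf
    intro n hn
    apply hs
    rw [← hn]
    have h1 : ((n : ℚ) / M).den ∣ M := by
      have := Rat.den_dvd (n : ℤ) (M : ℤ)
      have h2 : ((n : ℤ) : ℚ) / ((M : ℤ) : ℚ) = (n : ℚ) / M := by push_cast; rfl
      rw [Rat.divInt_eq_div, h2] at this
      exact_mod_cast this
    exact hM.of_dvd_nat h1
  have hee : ∀ s : ℚ, ee (-s) * ee s = 1 := by
    intro s
    rw [← ee_add]
    simp [ee]
  constructor
  · intro h2 s
    by_cases hs : Odd s.den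
    · obtain ⟨y, hy, e⟩ := h2 s
      rw [key] at e
      refine ⟨ee (-s) * y, O.mul_mem (hroot _ (by simpa using hs)) hy, ?_⟩
      have : (qf (res F)).coeff s = (ee (-s) * ee s) * (qf (res F)).coeff s := by rw [hee, one_mul]
      rw [this, mul_assoc, e]; ring
    · exact ⟨0, O.zero_mem, by rw [hz s hs, mul_zero]⟩
  · intro h2 s
    rw [key]
    by_cases hs : Odd s.den
    · obtain ⟨y, hy, e⟩ := h2 s
      exact ⟨ee s * y, O.mul_mem (hroot _ hs) hy, by rw [e]; ring⟩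
    · exact ⟨0, O.zero_mem, by rw [hz s hs, mul_zero, mul_zero]⟩

lemma two_D_iff {F : X → ℂ} (hF : F ∈ MM) {n : ℕ} (hn : Odd n)
    (h : 0 < (ut (n : ℕ) (0 : ℕ) (1 : ℕ)).det) :
    Two O (res (sl F (iG (ut (n : ℕ) (0 : ℕ) (1 : ℕ)) h))) ↔ Two O (res F) := by
  have hn0 : (n : ℚ) ≠ 0 := by exact_mod_cast hn.pos.ne'
  have key : ∀ s : ℚ, (qf (res (sl F (iG (ut (n : ℕ) (0 : ℕ) (1 : ℕ)) h)))).coeff (s * n) =
      (qf (res F)).coeff s := by
    intro s
    have := qf_sl_ut1 hF (a := n) (b := 0) hn h s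
    rw [this]
    have : ee (s * ((0 : ℕ) : ℚ)) = 1 := by simp [ee]
    rw [this, one_mul]
  constructor
  · intro h2 s
    obtain ⟨y, hy, e⟩ := h2 (s * n)
    rw [key] at e
    exact ⟨y, hy, e⟩
  · intro h2 s
    obtain ⟨y, hy, e⟩ := h2 (s / n)
    have := key (s / n)
    rw [div_mul_cancel₀ _ hn0] at this
    exact ⟨y, hy, by rw [this, e]⟩

/-! ### the q-expansion principle -/

/-- statement (K) -/
def SK (O : Subring ℂ) : Prop := ∀ h ∈ VV O,
  (∀ (c : ℕ) (hc : Odd c), ∃ G ∈ VV O, sl h (iG (sc c) (sc_pos hc)) - h = 2 * G) →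
    ∃ k, ∃ f ∈ Lk O k, ∃ G ∈ VV O, h - f = 2 * G

/-- statement (D) -/
def SD (O : Subring ℂ) : Prop := ∀ k, ∀ f ∈ Lk O k, Two O (res f) → ∃ g ∈ Lk O k, f = 2 * g

theorem hyp (hp : PrimeTwo O) (hodd : ∀ n : ℕ, Odd n → (n : ℂ)⁻¹ ∈ O) (hK : SK O) (hD : SD O) :
    QPrin.Hyp (sV O) ZZ (II O) (PP O) {F : VV O | ∃ k, F.1 ∈ Lk O k} where
  sl_one x := Subtype.ext (sl_one_right x.1)
  sl_mul g h x := Subtype.ext (sl_mul_right x.1 g.1 h.1)
  comm z hz g := ZZ_comm hz g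
  slI g x hx := by
    rw [mem_II] at hx ⊢
    obtain ⟨G, hG, e⟩ := hx
    exact ⟨sl G g.1, VV_sl hG g.2, by rw [sV_coe, e]; rfl⟩
  prime := PP_prime hp
  le := by
    intro x hx
    rw [mem_II] at hx
    obtain ⟨G, hG, e⟩ := hx
    rw [mem_PP, e]
    exact two_res_of_VV hG
  slB := by
    rintro g b ⟨k, hk⟩
    exact ⟨k, Lk_sl hk g.2⟩
  fin x := by
    obtain ⟨R, hR⟩ := exists_fix hodd x.2
    have : NeZero (2 ^ R) := ⟨by positivity⟩
    refine ⟨ZN (2 ^ R), ZN_le _, ZN_finiteIndex _, fun u hu => ?_⟩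
    rw [mem_II]
    exact hR u hu
  K x hx := by
    obtain ⟨k, f, hf, G, hG, e⟩ := hK x.1 x.2 (by
      intro c hc
      have := hx (scG c hc) (scG_mem c hc)
      rw [mem_II] at this
      exact this)
    refine ⟨⟨f, Lk_le_VV hf⟩, ⟨k, hf⟩, ?_⟩
    rw [mem_II]
    exact ⟨G, hG, e⟩
  D := by
    rintro b ⟨k, hk⟩ hP
    rw [mem_II]
    obtain ⟨g, hg, e⟩ := hD k b.1 hk hP
    exact ⟨g, Lk_le_VV hg, e⟩

theorem PP_eq (hp : PrimeTwo O) (hodd : ∀ n : ℕ, Odd n → (n : ℂ)⁻¹ ∈ O)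
    (hroot : ∀ x : ℚ, Odd x.den → ee x ∈ O) (hK : SK O) (hD : SD O) : PP O = II O := by
  apply QPrin.eq_of_sep (hyp hp hodd hK hD)
  · apply G2_closure
    · intro x
      exact two_T_iff hroot x.2.1 (by simp [ut])
    · intro n hn ho x
      obtain ⟨m, rfl⟩ := Int.eq_ofNat_of_zero_le hn.le
      have hm : Odd m := by exact_mod_cast ho
      exact two_D_iff x.2.1 hm (by simpa [ut] using det_D hn)
  · intro x hx
    rw [mem_II]
    exact VV_half x.2.1 fun g hg => hx ⟨g, hg⟩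

/-- **the q-expansion principle on `V/2`** -/
theorem C1 (hp : PrimeTwo O) (hodd : ∀ n : ℕ, Odd n → (n : ℂ)⁻¹ ∈ O)
    (hroot : ∀ x : ℚ, Odd x.den → ee x ∈ O) (hK : SK O) (hD : SD O)
    {F : X → ℂ} (hF : F ∈ VV O) (h : Two O (res F)) : ∃ G ∈ VV O, F = 2 * G := by
  have h1 : (⟨F, hF⟩ : VV O) ∈ PP O := h
  rw [PP_eq hp hodd hroot hK hD, mem_II] at h1
  exact h1

/-- **the q-expansion principle, integral form**: a mixed weight form with bounded denominators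
whose expansion at infinity is integral is integral. -/
theorem C1_int (hp : PrimeTwo O) (hodd : ∀ n : ℕ, Odd n → (n : ℂ)⁻¹ ∈ O)
    (hroot : ∀ x : ℚ, Odd x.den → ee x ∈ O) (hK : SK O) (hD : SD O)
    {F : X → ℂ} (r : ℕ) (hF : (2 : ℂ) ^ r • F ∈ VV O) (h : ∀ s, (qf (res F)).coeff s ∈ O)
    (hFM : F ∈ MM) : F ∈ VV O := by
  induction r with
  | zero => simpa using hF
  | succ r ih =>
    apply ih
    obtain ⟨G, hG, e⟩ := C1 hp hodd hroot hK hD hF (by
      intro s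
      refine ⟨2 ^ r * (qf (res F)).coeff s, O.mul_mem (O.pow_mem (by exact_mod_cast natCast_mem O 2) _)
        (h s), ?_⟩
      rw [res_smul, qf_smul _ (MM_res hFM), HahnSeries.coeff_smul, smul_eq_mul]
      ring)
    have : (2 : ℂ) ^ r • F = G := by
      apply two_cancel
      rw [← e, two_mul_eq_smul, smul_smul, pow_succ, mul_comm]
    rw [this]
    exact hG

/-- two integral mixed forms with expansions at infinity congruent mod `2` are congruent mod `2 V` -/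
theorem C1_congr (hp : PrimeTwo O) (hodd : ∀ n : ℕ, Odd n → (n : ℂ)⁻¹ ∈ O)
    (hroot : ∀ x : ℚ, Odd x.den → ee x ∈ O) (hK : SK O) (hD : SD O)
    {F F' : X → ℂ} (hF : F ∈ VV O) (hF' : F' ∈ VV O)
    (h : ∀ s, ∃ y ∈ O, (qf (res F)).coeff s - (qf (res F')).coeff s = 2 * y) :
    ∃ G ∈ VV O, F - F' = 2 * G := by
  apply C1 hp hodd hroot hK hD (sub_mem hF hF')
  intro s
  obtain ⟨y, hy, e⟩ := h s
  refine ⟨y, hy, ?_⟩
  rw [res_sub, qf_sub (MM_res hF.1) (MM_res hF'.1), HahnSeries.coeff_sub, e]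

end Crest.Agent.R007.QInst
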