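import Mathlib
import Crest.Agent.R007.QInst
import Crest.Agent.R007.CoefO

/-! Row 7, section C: `O = OO` satisfies the hypotheses of the q-expansion principle. -/

set_option autoImplicit false

namespace Crest.Agent.R007.QInst

open UpperHalfPlane ModularForm CongruenceSubgroup Matrix
open Crest.Agent.R007.Lat Crest.Agent.R007.Mix
open scoped MatrixGroups Manifold ModularForm

open Crest.Agent.R007.Coef (OO)

theorem primeTwo_of_prime {O : Subring ℂ} (h : Prime (2 : O)) : PrimeTwo O := by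
  refine ⟨?_, ?_⟩
  · intro y hy e
    apply h.not_isUnit
    refine IsUnit.of_mul_eq_one ⟨y, hy⟩ ?_
    exact Subtype.ext e.symm
  · rintro x hx y hy ⟨z, hz, e⟩
    have h1 : (2 : O) ∣ ⟨x, hx⟩ * ⟨y, hy⟩ := ⟨⟨z, hz⟩, Subtype.ext e⟩
    rcases h.dvd_or_dvd h1 with ⟨w, hw⟩ | ⟨w, hw⟩
    · exact Or.inl ⟨w.1, w.2, congrArg Subtype.val hw⟩
    · exact Or.inr ⟨w.1, w.2, congrArg Subtype.val hw⟩

theorem OO_primeTwo : PrimeTwo OO := primeTwo_of_prime Coef.prime_two

theorem OO_hodd : ∀ n : ℕ, Odd n → (n : ℂ)⁻¹ ∈ OO := fun _ hn => Coef.inv_nat_mem hn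

theorem OO_hroot : ∀ x : ℚ, Odd x.den → ee x ∈ OO := by
  intro x hx
  apply Coef.root_mem hx
  rw [← ee_nsmul, mul_comm, Rat.mul_den_eq_num]
  simp only [ee, Rat.cast_intCast]
  rw [show (2 * Real.pi * Complex.I * (x.num : ℂ)) = (x.num : ℂ) * (2 * Real.pi * Complex.I) by ring]
  exact Complex.exp_int_mul_two_pi_mul_I x.num

/-- the q-expansion principle on `V/2`, `O = OO` -/
theorem C1_OO (hK : SK OO) (hD : SD OO) : ∀ F ∈ VV OO, Two OO (res F) → ∃ G ∈ VV OO, F = 2 * G :=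
  fun _ hF h => C1 OO_primeTwo OO_hodd OO_hroot hK hD hF h

end Crest.Agent.R007.QInst
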