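import Mathlib
import Crest.Agent.R007.Mix3
import Crest.Agent.R007.KumK
import Crest.Agent.R007.QInstO
import Crest.Agent.R007.EHasse
import Crest.Agent.R007.OOInst

/-! Row 7, section C: the statements (K), (I4), (I5) for `OO`. -/

set_option autoImplicit false

namespace Crest.Agent.R007.Mix

open UpperHalfPlane ModularForm CongruenceSubgroup Matrix
open Crest.Agent.R007.Lat Crest.Agent.R007.KumC Crest.Agent.R007.KumM
open Crest.Agent.R007.Coef (OO)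
open Crest.Agent.R007.QInst (SK SD OO_hodd OO_hroot)
open scoped MatrixGroups Manifold ModularForm

/-- the vector of order `3` -/
def v3 : Fin 2 → ℤ := ![0, 1]

lemma nz_v3 : Tc.NZ 3 v3 := by
  right
  simp [v3]

/-- an odd weight form `≡ 1 mod 2 V` -/
lemma intAt_A1 : IntAt (twoO OO) (lift 1 (Tc.A1 v3) - 1) := by
  intro δ hδ r
  have h := (EH.hasse_G2 OOI.oddRing_OO nz_v3 hδ).2 r
  obtain ⟨y, hy, e⟩ := h
  exact mem_twoO.2 ⟨y, hy, e⟩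

theorem exists_pure {M : ℕ} [NeZero M] (h3 : 3 ∣ M) {n : ℕ} {F : ℕ → X → ℂ} (hF : ∀ k, F k ∈ MX M k)
    (hM : Odd M) (hint : ∑ k ∈ Finset.range n, F k ∈ VV OO)
    (hinv : ∀ R c : ℕ, Odd c → ∃ c' : ℕ, Odd c' ∧ c' ≡ c [MOD 2 ^ R] ∧
      ∃ G ∈ VV OO, ∑ k ∈ Finset.range n, (c' : ℂ) ^ k • F k - ∑ k ∈ Finset.range n, F k = 2 * G) :
    ∃ K, ∃ f ∈ Lk OO K, f ∈ MX M K ∧ ∃ G ∈ VV OO, ∑ k ∈ Finset.range n, F k - f = 2 * G := by
  have hFO : ∀ k, F k ∈ MO k := fun k => ⟨M, hM, hF k⟩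
  have hsM : ∀ c : ℂ, ∑ k ∈ Finset.range n, c ^ k • F k ∈ MM := fun c =>
    sum_mem fun k _ => MM_smul (MO_le_MM (hFO k)) _
  have hhM : ∑ k ∈ Finset.range n, F k ∈ MM := hint.1
  obtain ⟨N, f, hf, hlev, hI, hT⟩ := KumK.kum (O := OO) OO_hodd OO_hroot (w := 1) odd_one
    (EH.A1_mem_MO nz_v3) intAt_A1 (n := n) hFO ((intAt_iff_VV hhM).2 hint) (by
      intro R c hc
      obtain ⟨c', h1, h2, h3⟩ := hinv R c hc
      exact ⟨c', h1, h2, (intAt_two_iff (sub_mem (hsM _) hhM)).2 h3⟩)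
  refine ⟨N, f, (intAt_iff_Lk hf).1 hI, hlev M ‹_› hF ?_, (intAt_two_iff (sub_mem hhM (MO_le_MM hf))).1 hT⟩
  have h1 : lift 1 (Tc.A1 v3) ∈ MX 3 1 := EH.isF_mem_MX (Tc.isF_A1 nz_v3)
  exact MX_mono h3 h1

/-- (K) for `OO` -/
theorem SK_OO : SK OO := by
  intro h hh hinv
  obtain ⟨n, F, hF, e⟩ := mem_MM_iff.1 hh.1
  subst e
  have hhM : ∑ k ∈ Finset.range n, F k ∈ MM := hh.1
  have hsM : ∀ c : ℂ, ∑ k ∈ Finset.range n, c ^ k • F k ∈ MM := fun c =>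
    sum_mem fun k _ => MM_smul (MO_le_MM (hF k)) _
  obtain ⟨N, f, hf, -, hI, hT⟩ := KumK.kum (O := OO) OO_hodd OO_hroot (w := 1) odd_one
    (EH.A1_mem_MO nz_v3) intAt_A1 (n := n) hF ((intAt_iff_VV hhM).2 hh) (by
      intro R c hc
      refine ⟨c, hc, rfl, (intAt_two_iff (sub_mem (hsM _) hhM)).2 ?_⟩
      have h1 : Cg OO (sl (∑ k ∈ Finset.range n, F k) (iG (sc c) (KumC.sc_pos hc)))
          (∑ k ∈ Finset.range n, F k) := hinv c hc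
      have h2 := h1.sl (inv_mem (KumC.sc_mem_G2 hc (KumC.sc_pos hc)))
      rw [← sl_mul_right, mul_inv_cancel, sl_one_right] at h2
      rw [KumK.sum_sl_sc_inv (wt := fun k => k) hF] at h2
      exact h2.symm)
  exact ⟨N, f, (intAt_iff_Lk hf).1 hI, (intAt_two_iff (sub_mem hhM (MO_le_MM hf))).1 hT⟩

/-- the `q`-expansion principle on `V / 2 V` ((I4b) of the embedding) -/
theorem C1_of_D (hD : SD OO) {F : X → ℂ} (hF : F ∈ VV OO) (h : Two OO (res F)) :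
    ∃ G ∈ VV OO, F = 2 * G := QInst.C1_OO SK_OO hD F hF h

/-- (I4a) of the embedding -/
theorem VV_of_D (hD : SD OO) {F : X → ℂ} (_hF : F ∈ MM) (hb : ∃ m : ℕ, ((2 : ℂ) ^ m) • F ∈ VV OO)
    (h : res F ∈ IntO OO) : F ∈ VV OO := by
  obtain ⟨m, hm⟩ := hb
  exact VV_of_int (fun F hF h => C1_of_D hD hF h) m hm h.2

end Crest.Agent.R007.Mix
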