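import Mathlib
import Crest.Agent.R007.Mix4
import Crest.Agent.R007.DThm

/-! Row 7, section C: hypothesis-free final statements. -/

set_option autoImplicit false

namespace Crest.Agent.R007.Mix

open UpperHalfPlane ModularForm CongruenceSubgroup Matrix
open Crest.Agent.R007.Lat
open Crest.Agent.R007.Coef (OO)
open Crest.Agent.R007.QInst (SK SD)
open scoped MatrixGroups Manifold ModularForm

theorem SD_OO : SD OO := fun _ _ hf h => Dsec.D_OO_half hf h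

/-- **(C1)** the `q`-expansion principle on `V / 2 V` (= (I4b)) -/
theorem C1 {F : X → ℂ} (hF : F ∈ VV OO) (h : Two OO (res F)) : ∃ G ∈ VV OO, F = 2 * G :=
  C1_of_D SD_OO hF h

/-- (I4a) -/
theorem I4a {F : X → ℂ} (hF : F ∈ MM) (hb : ∃ m : ℕ, ((2 : ℂ) ^ m) • F ∈ VV OO)
    (h : res F ∈ IntO OO) : F ∈ VV OO := VV_of_D SD_OO hF hb h

/-- (I4b) with denominators -/
theorem I4b {F : X → ℂ} (m : ℕ) (hb : ((2 : ℂ) ^ m) • F ∈ VV OO)
    (h : Two OO (res F)) : ∃ G ∈ VV OO, F = 2 * G := VV_of_two (fun _ hF h => C1 hF h) m hb h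

/-- (I5) -/
theorem I5 {M : ℕ} [NeZero M] (hM : Odd M) (h3 : 3 ∣ M) {n : ℕ} {F : ℕ → X → ℂ} (hF : ∀ k, F k ∈ MX M k)
    (hint : ∑ k ∈ Finset.range n, F k ∈ VV OO)
    (hinv : ∀ R c : ℕ, Odd c → ∃ c' : ℕ, Odd c' ∧ c' ≡ c [MOD 2 ^ R] ∧
      ∃ G ∈ VV OO, ∑ k ∈ Finset.range n, (c' : ℂ) ^ k • F k - ∑ k ∈ Finset.range n, F k = 2 * G) :
    ∃ K, ∃ f ∈ Lk OO K, f ∈ MX M K ∧ ∃ G ∈ VV OO, ∑ k ∈ Finset.range n, F k - f = 2 * G :=
  exists_pure h3 hF hM hint hinv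

end Crest.Agent.R007.Mix
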