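import Mathlib

/-!
Row 7 (S0007): surjectivity of `SL₂(ℤ) → SL₂(ℤ/M)`.
-/

set_option autoImplicit false

namespace Crest.Agent.R007.Rat

open Matrix
open scoped MatrixGroups

lemma exists_coprime_add (c d M : ℤ) (hc : c ≠ 0)
    (h : ∀ p : ℕ, p.Prime → (p : ℤ) ∣ c → (p : ℤ) ∣ d → ¬ (p : ℤ) ∣ M) :
    ∃ t : ℤ, IsCoprime c (d + t * M) := by
  classical
  let ps : Finset ℕ := c.natAbs.primeFactors.filter fun p => ¬ (p : ℤ) ∣ d
  refine ⟨((ps.prod id : ℕ) : ℤ), ?_⟩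
  rw [Int.isCoprime_iff_gcd_eq_one, Int.gcd_eq_natAbs]
  refine Nat.coprime_of_dvd fun p hp hpc hpd => ?_
  have hpc' : (p : ℤ) ∣ c := Int.natCast_dvd.mpr hpc
  have hpd' : (p : ℤ) ∣ d + ((ps.prod id : ℕ) : ℤ) * M := Int.natCast_dvd.mpr hpd
  by_cases hd : (p : ℤ) ∣ d
  · have h1 : (p : ℤ) ∣ ((ps.prod id : ℕ) : ℤ) * M := (Int.dvd_add_right hd).mp hpd'
    rcases (Nat.prime_iff_prime_int.mp hp).dvd_or_dvd h1 with h2 | h2
    · have h3 : p ∣ ps.prod id := Int.natCast_dvd_natCast.mp h2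
      obtain ⟨q, hq, hq'⟩ := (hp.prime.dvd_finsetProd_iff id).mp h3
      rw [Finset.mem_filter, Nat.mem_primeFactors] at hq
      have h4 := (Nat.prime_dvd_prime_iff_eq hp hq.1.1).mp hq'
      rw [← h4] at hq
      exact hq.2 hd
    · exact h p hp hpc' hd h2
  · have hps : p ∈ ps := Finset.mem_filter.mpr ⟨Nat.mem_primeFactors.mpr ⟨hp, hpc, by simpa using hc⟩, hd⟩
    have h1 : (p : ℤ) ∣ ((ps.prod id : ℕ) : ℤ) * M :=
      Dvd.dvd.mul_right (Int.natCast_dvd_natCast.mpr (Finset.dvd_prod_of_mem id hps)) M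
    exact hd ((Int.dvd_add_left h1).mp hpd')

/-- `SL₂(ℤ) → SL₂(ℤ/M)` is surjective (entrywise form). -/
theorem exists_SL_lift (M : ℕ) [NeZero M] (a b c d : ℤ)
    (h : ((a * d - b * c : ℤ) : ZMod M) = 1) :
    ∃ g : SL(2, ℤ), ((g 0 0 : ℤ) : ZMod M) = a ∧ ((g 0 1 : ℤ) : ZMod M) = b ∧
      ((g 1 0 : ℤ) : ZMod M) = c ∧ ((g 1 1 : ℤ) : ZMod M) = d := by
  have hM : (M : ℤ) ≠ 0 := by exact_mod_cast NeZero.ne M
  obtain ⟨c', hc', hcc⟩ : ∃ c' : ℤ, c' ≠ 0 ∧ ((c' : ℤ) : ZMod M) = c := by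
    by_cases hc : c = 0
    · exact ⟨M, hM, by simp [hc]⟩
    · exact ⟨c, hc, rfl⟩
  have h' : ((a * d - b * c' : ℤ) : ZMod M) = 1 := by
    push_cast at h ⊢
    rw [hcc]; exact h
  have hdvd : (M : ℤ) ∣ (a * d - b * c') - 1 := by
    rw [← ZMod.intCast_zmod_eq_zero_iff_dvd]
    push_cast at h' ⊢
    rw [h', sub_self]
  obtain ⟨t, ht⟩ := exists_coprime_add c' d M hc' (by
    intro p hp hpc hpd hpM
    have h1 : (p : ℤ) ∣ (a * d - b * c') - 1 := hpM.trans hdvd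
    have h2 : (p : ℤ) ∣ a * d - b * c' := Int.dvd_sub (hpd.mul_left a) (hpc.mul_left b)
    have h3 : (p : ℤ) ∣ 1 := by
      have := Int.dvd_sub h2 h1
      simpa using this
    have h4 : p ∣ 1 := Int.natCast_dvd_natCast.mp (by simpa using h3)
    exact hp.one_lt.ne' (Nat.dvd_one.mp h4))
  obtain ⟨u, v, huv⟩ := ht
  set d' := d + t * M with hd'
  obtain ⟨k, hk⟩ : (M : ℤ) ∣ (a * d' - b * c') - 1 := by
    have : (a * d' - b * c') - 1 = ((a * d - b * c') - 1) + M * (a * t) := by rw [hd']; ring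
    rw [this]
    exact Int.dvd_add hdvd (dvd_mul_right _ _)
  refine ⟨⟨!![a - M * (k * v), b + M * (k * u); c', d'], ?_⟩, ?_, ?_, ?_, ?_⟩
  · rw [Matrix.det_fin_two_of]
    linear_combination hk - (M : ℤ) * k * huv
  · simp
  · simp
  · simpa using hcc
  · simp [hd']

end Crest.Agent.R007.Rat
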