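import Crest.Agent.R007.RatGal2
import Crest.Agent.R007.RatSurj
import Crest.Agent.R007.OpQ

/-!
Row 7 (S0007), section A: `Aut(ℂ)` acts on `MF N i`, commuting with the diamond operators;
rational bases.
-/

set_option autoImplicit false

noncomputable section

namespace Crest.Agent.R007.Rat

open UpperHalfPlane ModularForm CongruenceSubgroup Matrix.SpecialLinearGroup
open scoped MatrixGroups Manifold
open Crest.NumberTheoryR.HeckeTwoAdic

/-- existence of twists -/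
lemma exists_tw {s : ℤ} {M : ℕ} [NeZero M] (hs : IsUnit (s : ZMod M)) (g' : SL(2, ℤ)) :
    ∃ g, Tw s M g g' := by
  obtain ⟨u, hu⟩ := hs
  obtain ⟨r, hr⟩ := ZMod.intCast_surjective ((u⁻¹ : (ZMod M)ˣ) : ZMod M)
  have hrs : (s : ZMod M) * (r : ZMod M) = 1 := by
    rw [hr, ← hu]; exact u.mul_inv
  have hdet : ((g' 0 0 : ℤ) : ZMod M) * (g' 1 1 : ℤ) - ((g' 0 1 : ℤ) : ZMod M) * (g' 1 0 : ℤ) = 1 := by
    have hd := g'.det_coe
    rw [Matrix.det_fin_two] at hd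
    exact_mod_cast congrArg (Int.cast : ℤ → ZMod M) hd
  obtain ⟨g, h1, h2, h3, h4⟩ := exists_SL_lift M (g' 0 0) (r * g' 0 1) (s * g' 1 0) (g' 1 1) (by
    push_cast
    linear_combination hdet - ((g' 0 1 : ℤ) : ZMod M) * ((g' 1 0 : ℤ) : ZMod M) * hrs)
  refine ⟨g, h1.symm, ?_, ?_, h4.symm⟩
  · rw [h2]
    push_cast
    linear_combination (-((g' 0 1 : ℤ) : ZMod M)) * hrs
  · rw [h3]
    push_cast
    rfl

lemma exists_tw' {s : ℤ} {M : ℕ} [NeZero M] (g : SL(2, ℤ)) (hs : IsUnit (s : ZMod M)) :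
    ∃ g', Tw s M g g' := by
  obtain ⟨u, hu⟩ := hs
  obtain ⟨r, hr⟩ := ZMod.intCast_surjective ((u⁻¹ : (ZMod M)ˣ) : ZMod M)
  have hrs : (s : ZMod M) * (r : ZMod M) = 1 := by
    rw [hr, ← hu]; exact u.mul_inv
  have hdet : ((g 0 0 : ℤ) : ZMod M) * (g 1 1 : ℤ) - ((g 0 1 : ℤ) : ZMod M) * (g 1 0 : ℤ) = 1 := by
    have hd := g.det_coe
    rw [Matrix.det_fin_two] at hd
    exact_mod_cast congrArg (Int.cast : ℤ → ZMod M) hd
  obtain ⟨g', h1, h2, h3, h4⟩ := exists_SL_lift M (g 0 0) (s * g 0 1) (r * g 1 0) (g 1 1) (by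
    push_cast
    linear_combination hdet - ((g 0 1 : ℤ) : ZMod M) * ((g 1 0 : ℤ) : ZMod M) * hrs)
  refine ⟨g', h1, ?_, ?_, h4⟩
  · rw [h2]
    push_cast
    rfl
  · rw [h3]
    push_cast
    linear_combination (((g 1 0 : ℤ) : ZMod M)) * hrs

variable {N i : ℕ} [NeZero N]

/-- q-expansion with period `M` of a form on `Γ₁(N)`. -/
lemma coeff_qe_MF (f : MF N i) (M : ℕ) [NeZero M] (hf : IsF M (i : ℤ) (f : ℍ → ℂ)) (n : ℕ) :
    (qe M (f : ℍ → ℂ)).coeff n = if M ∣ n then Op.an f (n / M) else 0 := by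
  refine Wp.coeff_qe_of_hasSum hf (c := fun n => if M ∣ n then Op.an f (n / M) else 0)
    (fun τ => ?_) n
  have h1 := Op.hasSum_an f τ
  have hq : Function.Periodic.qParam (1 : ℝ) (τ : ℂ) =
      Function.Periodic.qParam (M : ℝ) (τ : ℂ) ^ M := by
    rw [Function.Periodic.qParam, Function.Periodic.qParam, ← Complex.exp_nat_mul]
    congr 1
    have h2 : (M : ℂ) ≠ 0 := by exact_mod_cast NeZero.ne M
    push_cast
    field_simp
  rw [hq] at h1
  exact RatAlg.hasSum_dvd (a := fun m => Op.an f m) (Nat.pos_of_ne_zero (NeZero.ne M)) h1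

/-- **SIGMA(N)** -/
theorem exists_sigma_MF (σ : ℂ →+* ℂ) (f : MF N i) :
    ∃ f' : MF N i, ∀ (g : SL(2, ℤ)) (hg : g ∈ Gamma0 N) (n : ℕ),
      Op.an (Op.Dop N i g hg f') n = σ (Op.an (Op.Dop N i g hg f) n) := by
  have hN0 := NeZero.ne N
  have h3 : NeZero (N * 3) := ⟨mul_ne_zero hN0 (by norm_num)⟩
  have hM : 3 ≤ N * 3 := by have := Nat.pos_of_ne_zero hN0; omega
  obtain ⟨s, hs⟩ := exists_zpow_zeta σ (N * 3)
  have hu := isUnit_of_map_zeta hs
  have hF : IsF (N * 3) (i : ℤ) (f : ℍ → ℂ) := (isF_of_MF f).mono (Dvd.intro 3 rfl)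
  obtain ⟨F', hF'⟩ := exists_gal hM hs hF
  have hcast : ∀ {a b : ℤ}, (a : ZMod (N * 3)) = b → (a : ZMod N) = b := by
    intro a b hab
    rw [ZMod.intCast_eq_intCast_iff_dvd_sub] at hab ⊢
    exact (Int.natCast_dvd_natCast.mpr (Dvd.intro 3 rfl)).trans hab
  have hinv : ∀ γ ∈ Gamma1 N, F' ∣[(i : ℤ)] γ = F' := by
    intro γ hγ
    obtain ⟨g, hg⟩ := exists_tw hu γ
    have hg1 : g ∈ Gamma1 N := by
      rw [Gamma1_mem] at hγ ⊢
      obtain ⟨h00, h01, h10, h11⟩ := hg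
      refine ⟨?_, ?_, ?_⟩
      · rw [← hcast h00]; exact hγ.1
      · rw [← hcast h11]; exact hγ.2.1
      · have h10' : ((s * γ 1 0 : ℤ) : ZMod (N * 3)) = (g 1 0 : ℤ) := by push_cast; exact h10
        rw [← hcast h10']
        push_cast
        rw [hγ.2.2, mul_zero]
    refine qe_inj (hF'.right.slash_SL γ) hF'.right ?_
    rw [hF'.eq g γ hg, hF'.qe_eq]
    congr 2
    exact Op.inv1_mf f g hg1
  have hF'N : IsF N (i : ℤ) F' :=
    ⟨fun γ hγ => hinv γ (Gamma_le_Gamma1 N hγ), hF'.right.holo, hF'.right.bdd⟩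
  refine ⟨hF'N.toMF hinv, fun g hg n => ?_⟩
  obtain ⟨g₀, hg₀⟩ := exists_tw hu g
  have hg0N : g₀ ∈ Gamma0 N := by
    rw [Gamma0_mem] at hg ⊢
    obtain ⟨h00, h01, h10, h11⟩ := hg₀
    have h10' : ((s * g 1 0 : ℤ) : ZMod (N * 3)) = (g₀ 1 0 : ℤ) := by push_cast; exact h10
    rw [← hcast h10']
    push_cast
    rw [hg, mul_zero]
  have hdi : (f : ℍ → ℂ) ∣[(i : ℤ)] g₀ = (f : ℍ → ℂ) ∣[(i : ℤ)] g := by
    have hd1 : ((g.1 1 1 : ℤ) : ZMod N) = (((g.1 1 1 : ℤ) : ZMod N).val : ℕ) := by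
      rw [ZMod.natCast_zmod_val]
    refine Op.diam_indep (Op.inv1_mf f) (d := ((g.1 1 1 : ℤ) : ZMod N).val) ⟨hg0N, ?_⟩ ⟨hg, hd1⟩
    rw [← hd1]
    exact (hcast hg₀.2.2.2).symm
  have hL : IsF (N * 3) (i : ℤ) (Op.Dop N i g hg (hF'N.toMF hinv) : ℍ → ℂ) := by
    rw [Op.Dop_coe]; exact hF'.right.slash_SL g
  have hR : IsF (N * 3) (i : ℤ) (Op.Dop N i g hg f : ℍ → ℂ) := by
    rw [Op.Dop_coe]; exact hF.slash_SL g
  have e1 := coeff_qe_MF (Op.Dop N i g hg (hF'N.toMF hinv)) (N * 3) hL (N * 3 * n)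
  have e2 := coeff_qe_MF (Op.Dop N i g hg f) (N * 3) hR (N * 3 * n)
  rw [if_pos (dvd_mul_right _ _), Nat.mul_div_cancel_left _ (Nat.pos_of_ne_zero (NeZero.ne _))] at e1 e2
  rw [← e1, ← e2, Op.Dop_coe, Op.Dop_coe, ← PowerSeries.coeff_map, ← hdi, ← hF'.eq g₀ g hg₀]
  rfl

/-- finitely many coefficients determine a form -/
theorem exists_coeff_bound (N i : ℕ) [NeZero N] :
    ∃ n₀ : ℕ, ∀ f : MF N i, (∀ n < n₀, Op.an f n = 0) → f = 0 := by
  classical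
  let W : ℕ → Submodule ℂ (MF N i) := fun m => ⨅ n : Fin m, LinearMap.ker (Op.anL N i n)
  have hmemW : ∀ m f, f ∈ W m ↔ ∀ n < m, Op.an f n = 0 := by
    intro m f
    simp only [W, Submodule.mem_iInf, LinearMap.mem_ker]
    exact ⟨fun h n hn => h ⟨n, hn⟩, fun h n => h n n.2⟩
  have hanti : Antitone W := by
    intro a b hab f hf
    rw [hmemW] at hf ⊢
    exact fun n hn => hf n (lt_of_lt_of_le hn hab)
  obtain ⟨m, hm⟩ := IsArtinian.monotone_stabilizes (R := ℂ) (M := MF N i)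
    ⟨fun m => OrderDual.toDual (W m), fun a b hab => hanti hab⟩
  refine ⟨m, fun f hf => ?_⟩
  refine Op.eq_zero_of_an f fun n => ?_
  have h1 : f ∈ W m := (hmemW m f).mpr hf
  have h2 : W m = W (max m (n + 1)) := OrderDual.toDual_inj.mp (hm _ (le_max_left _ _))
  rw [h2, hmemW] at h1
  exact h1 n (lt_of_lt_of_le (Nat.lt_succ_self n) (le_max_right _ _))

/-- rational forms span `MF N i`. -/
theorem span_rat (N : ℕ) [NeZero N] (i : ℕ) :
    Submodule.span ℂ {f : MF N i | ∀ (g : SL(2, ℤ)) (hg : g ∈ Gamma0 N) (n : ℕ),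
      Op.an (Op.Dop N i g hg f) n ∈ (⊥ : Subfield ℂ)} = ⊤ := by
  classical
  rw [eq_top_iff]
  rintro f -
  obtain ⟨n₀, hn₀⟩ := exists_coeff_bound N i
  let ev : MF N i →ₗ[ℂ] (Fin n₀ → ℂ) := LinearMap.pi fun n => Op.anL N i n
  have hev : Function.Injective ev := by
    rw [injective_iff_map_eq_zero]
    intro f hf
    exact hn₀ f fun n hn => congrFun hf ⟨n, hn⟩
  have h1N : (1 : SL(2, ℤ)) ∈ Gamma0 N := Subgroup.one_mem _
  have hD1 : ∀ f : MF N i, Op.Dop N i 1 h1N f = f := by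
    intro f
    ext τ
    rw [Op.Dop_coe, SlashAction.slash_one]
  let V := LinearMap.range ev
  have hV : ∀ σ : ℂ ≃+* ℂ, (∀ y ∈ (⊥ : Subfield ℂ), σ y = y) → ∀ v ∈ V, (fun i => σ (v i)) ∈ V := by
    rintro σ - _ ⟨f, rfl⟩
    obtain ⟨f', hf'⟩ := exists_sigma_MF (σ : ℂ →+* ℂ) f
    refine ⟨f', funext fun n => ?_⟩
    have := hf' 1 h1N n
    rw [hD1, hD1] at this
    exact this
  have hdes := RatAlg.descent ⊥ V hV
  have hf : ev f ∈ V := ⟨f, rfl⟩
  rw [hdes] at hf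
  have key : ∀ v ∈ Submodule.span ℂ {v | v ∈ V ∧ ∀ i, v i ∈ (⊥ : Subfield ℂ)},
      ∃ h ∈ Submodule.span ℂ {f : MF N i | ∀ (g : SL(2, ℤ)) (hg : g ∈ Gamma0 N) (n : ℕ),
        Op.an (Op.Dop N i g hg f) n ∈ (⊥ : Subfield ℂ)}, ev h = v := by
    intro v hv
    induction hv using Submodule.span_induction with
    | mem v hv =>
      obtain ⟨⟨h, rfl⟩, hK⟩ := hv
      refine ⟨h, Submodule.subset_span ?_, rfl⟩
      intro g hg n
      refine RatAlg.mem_of_fixed _ _ fun σ hσ => ?_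
      obtain ⟨h', hh'⟩ := exists_sigma_MF (σ : ℂ →+* ℂ) h
      have heq : h' = h := by
        apply hev
        ext n
        have := hh' 1 h1N n
        rw [hD1, hD1] at this
        change Op.an h' n = Op.an h n
        rw [this]
        exact hσ _ (hK n)
      have := hh' g hg n
      rw [heq] at this
      exact this.symm
    | zero => exact ⟨0, Submodule.zero_mem _, map_zero _⟩
    | add v w _ _ h1 h2 =>
      obtain ⟨a, ha, ha'⟩ := h1
      obtain ⟨b, hb, hb'⟩ := h2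
      exact ⟨a + b, Submodule.add_mem _ ha hb, by rw [map_add, ha', hb']⟩
    | smul c v _ h1 =>
      obtain ⟨a, ha, ha'⟩ := h1
      exact ⟨c • a, Submodule.smul_mem _ _ ha, by rw [map_smul, ha']⟩
  obtain ⟨h, hh, hh'⟩ := key _ hf
  rw [hev hh'] at hh
  exact hh

end Crest.Agent.R007.Rat
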