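import Crest.Agent.R007.Fin2
import Crest.Agent.R007.OpU
import Crest.Agent.R007.RatG1

/-!
Row 7 (S0007), section B, node FIN: from the rational structure and bounded denominators.
-/

set_option autoImplicit false

namespace Crest.Agent.R007.Fin

open Crest.NumberTheoryR.HeckeTwoAdic Crest.Agent.R007.Op
open scoped TensorProduct MatrixGroups
open CongruenceSubgroup

/-- the rational numbers with odd denominator, in `ℂ` -/
def Z2C : Subring ℂ where
  carrier := {z | ∃ a b : ℤ, Odd b ∧ (b : ℂ) * z = a}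
  zero_mem' := ⟨0, 1, odd_one, by simp⟩
  one_mem' := ⟨1, 1, odd_one, by simp⟩
  add_mem' := by
    rintro x y ⟨a, b, hb, h⟩ ⟨c, d, hd, h'⟩
    refine ⟨a * d + c * b, b * d, hb.mul hd, ?_⟩
    push_cast
    linear_combination (d : ℂ) * h + (b : ℂ) * h'
  mul_mem' := by
    rintro x y ⟨a, b, hb, h⟩ ⟨c, d, hd, h'⟩
    refine ⟨a * c, b * d, hb.mul hd, ?_⟩
    push_cast
    linear_combination (d : ℂ) * y * h + (a : ℂ) * h'
  neg_mem' := by
    rintro x ⟨a, b, hb, h⟩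
    refine ⟨-a, b, hb, ?_⟩
    push_cast
    linear_combination (-1 : ℂ) * h

theorem mem_Z2C {z : ℂ} : z ∈ Z2C ↔ ∃ a b : ℤ, Odd b ∧ (b : ℂ) * z = a := Iff.rfl

theorem Z2C_twoFG : TwoFG Z2C := by
  refine ⟨{1}, fun x => ?_⟩
  obtain ⟨a, b, hb, h⟩ := x.2
  refine ⟨b, hb, ?_⟩
  have h1 : b • x = a • (1 : Z2C) := by
    apply Subtype.ext
    rw [AddSubgroupClass.coe_zsmul, AddSubgroupClass.coe_zsmul, zsmul_eq_mul, zsmul_eq_mul, h]
    simp
  rw [h1]
  exact Submodule.smul_mem _ _ (Submodule.subset_span (by simp))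

/-- bounded denominators (at 2) of rational forms, at all diamond translates -/
def BddDen (N : ℕ) [NeZero N] : Prop :=
  ∀ (i : ℕ) (f : MF N i),
    (∀ (g : SL(2, ℤ)) (hg : g ∈ Gamma0 N) (n : ℕ), an (Dop N i g hg f) n ∈ (⊥ : Subfield ℂ)) →
    ∃ r : ℕ, ∀ (g : SL(2, ℤ)) (hg : g ∈ Gamma0 N) (n : ℕ),
      (2 : ℂ) ^ r * an (Dop N i g hg f) n ∈ Z2C

variable {N : ℕ} [NeZero N] {T D : ℕ → (i : ℕ) → (MF N i →ₗ[ℂ] MF N i)}

theorem span_Lam (hD : IsDiamondFamily N D) (hbd : BddDen N) (i : ℕ) :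
    Submodule.span ℂ ((Lam Z2C D i : AddSubgroup _) : Set (MF N i)) = ⊤ := by
  rw [eq_top_iff, ← Rat.span_rat N i, Submodule.span_le]
  intro f hf
  obtain ⟨r, hr⟩ := hbd i f hf
  have h1 : ((2 : ℂ) ^ r) • f ∈ Lam Z2C D i := by
    intro d hd n
    obtain ⟨g, hg⟩ := exists_isDiam hd
    have h2 : D d i (((2 : ℂ) ^ r) • f) = Dop N i g hg.1 (((2 : ℂ) ^ r) • f) := by
      apply DFunLike.coe_injective
      exact hD d i g hg.1 hg.2 _
    rw [h2, map_smul, an_smul]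
    exact hr g hg.1 n
  have h3 : f = ((2 : ℂ) ^ r)⁻¹ • (((2 : ℂ) ^ r) • f) := by
    rw [smul_smul, inv_mul_cancel₀ (pow_ne_zero _ two_ne_zero), one_smul]
  rw [h3]
  exact Submodule.smul_mem _ _ (Submodule.subset_span h1)

/-- the stage is finitely generated up to odd multiples -/
theorem stage_twoFG_of_bdd (hD : IsDiamondFamily N D) (hT : IsHeckeFamily N T D)
    (hbd : BddDen N) (k : ℕ) : TwoFG (stage N T D k) := by
  have : ∀ i, FiniteDimensional ℂ (MF N i) := fun i => Rat.finite_MF N i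
  exact stage_twoFG (fun i => Lam Z2C D ((i : ℕ) + 1)) (fun i => Lam_twoFG hD Z2C Z2C_twoFG _)
    (fun i => span_Lam hD hbd _) (Lam_stable hD hT Z2C)

/-- **FIN**: `ℤ₂ ⊗ stage` is finite over `ℤ₂`. -/
theorem finite_stage (hD : IsDiamondFamily N D) (hT : IsHeckeFamily N T D)
    (hbd : BddDen N) (k : ℕ) : Module.Finite ℤ_[2] (ℤ_[2] ⊗[ℤ] (stage N T D k)) :=
  (stage_twoFG_of_bdd hD hT hbd k).finite_tensor

end Crest.Agent.R007.Fin
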