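import Mathlib

/-! Row 7: lifting additive maps `A → ZMod 2` to `ℤ_(2)`-valued additive maps, for `A` embedded in a
lattice `ℤ_(2)^J`. -/

set_option autoImplicit false

namespace Crest.Agent.R007.LiftTwo

open Module

/-- the prime `(2)` of `ℤ` -/
abbrev P2 : Ideal ℤ := Ideal.span {(2 : ℤ)}

instance P2_prime : P2.IsPrime :=
  (Ideal.span_singleton_prime (by norm_num)).2 Int.prime_two

/-- `ℤ_(2)` -/
abbrev R2 : Type := Localization.AtPrime P2

theorem mem_compl {b : ℤ} : b ∈ P2.primeCompl ↔ Odd b := by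
  change ¬ (b ∈ P2) ↔ _
  rw [Ideal.mem_span_singleton, ← even_iff_two_dvd, Int.not_even_iff_odd]

instance : IsDiscreteValuationRing R2 :=
  IsLocalization.AtPrime.isDiscreteValuationRing_of_dedekind_domain ℤ
    (P := P2) (by simp) R2

/-- embedding in `ℂ` -/
noncomputable def toC : R2 →+* ℂ :=
  IsLocalization.lift (M := P2.primeCompl) (g := Int.castRingHom ℂ) (by
    rintro ⟨b, hb⟩
    rw [mem_compl] at hb
    have : (b : ℂ) ≠ 0 := by
      rintro h
      rw [Int.cast_eq_zero] at h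
      subst h
      exact absurd hb (by decide)
    exact IsUnit.mk0 _ this)

/-- reduction mod 2 -/
noncomputable def red : R2 →+* ZMod 2 :=
  IsLocalization.lift (M := P2.primeCompl) (g := Int.castRingHom (ZMod 2)) (by
    rintro ⟨b, hb⟩
    rw [mem_compl] at hb
    have : (b : ZMod 2) ≠ 0 := by
      rw [Ne, ZMod.intCast_zmod_eq_zero_iff_dvd]
      intro h
      exact (Int.not_even_iff_odd.2 hb) (even_iff_two_dvd.2 (by exact_mod_cast h))
    exact IsUnit.mk0 _ this)

theorem exists_frac (r : R2) : ∃ a b : ℤ, Odd b ∧ r * (b : R2) = (a : R2) := by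
  obtain ⟨⟨a, b⟩, h⟩ := IsLocalization.surj P2.primeCompl r
  refine ⟨a, b, mem_compl.1 b.2, ?_⟩
  simpa using h

theorem odd_cast {b : ℤ} (hb : Odd b) : ((b : ℤ) : ZMod 2) = 1 := by
  obtain ⟨c, rfl⟩ := hb
  push_cast
  have : (2 : ZMod 2) = 0 := by decide
  rw [this, zero_mul, zero_add]

theorem toC_frac (r : R2) : ∃ a b : ℤ, Odd b ∧ (b : ℂ) * toC r = a ∧ ((a : ℤ) : ZMod 2) = red r := by
  obtain ⟨a, b, hb, h⟩ := exists_frac r
  refine ⟨a, b, hb, ?_, ?_⟩
  · have h1 := congrArg toC h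
    rw [map_mul, map_intCast, map_intCast, mul_comm] at h1
    exact h1
  · have h1 := congrArg red h
    rw [map_mul, map_intCast, map_intCast, odd_cast hb, mul_one] at h1
    exact h1.symm

theorem toC_injective : Function.Injective toC := by
  rw [injective_iff_map_eq_zero]
  intro r hr
  obtain ⟨a, b, hb, h⟩ := exists_frac r
  have h1 := congrArg toC h
  rw [map_mul, hr, zero_mul, map_intCast] at h1
  have ha : a = 0 := by exact_mod_cast h1.symm
  rw [ha, Int.cast_zero] at h
  rcases mul_eq_zero.1 h with h2 | h2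
  · exact h2
  · exfalso
    have h3 := congrArg toC h2
    rw [map_intCast, map_zero, Int.cast_eq_zero] at h3
    subst h3
    exact absurd hb (by decide)

theorem exists_toC {x : ℂ} (hx : ∃ a b : ℤ, Odd b ∧ (b : ℂ) * x = a) : ∃ r, toC r = x := by
  obtain ⟨a, b, hb, h⟩ := hx
  have hb0 : (b : ℂ) ≠ 0 := by
    intro h0
    rw [Int.cast_eq_zero] at h0
    subst h0
    exact absurd hb (by decide)
  refine ⟨IsLocalization.mk' R2 a (⟨b, mem_compl.2 hb⟩ : P2.primeCompl), ?_⟩
  have h1 := IsLocalization.mk'_spec R2 a (⟨b, mem_compl.2 hb⟩ : P2.primeCompl)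
  have h2 := congrArg toC h1
  rw [map_mul] at h2
  have h3 : ∀ n : ℤ, toC (algebraMap ℤ R2 n) = n := fun n => by simp
  rw [h3, h3] at h2
  apply mul_left_cancel₀ hb0
  rw [h, ← h2, mul_comm]

theorem red_eq_zero {r : R2} (hr : red r = 0) : ∃ r', r = 2 * r' := by
  obtain ⟨a, b, hb, h⟩ := exists_frac r
  have h1 := congrArg red h
  rw [map_mul, hr, zero_mul, map_intCast] at h1
  have h2 : (2 : ℤ) ∣ a := by
    have := (ZMod.intCast_zmod_eq_zero_iff_dvd a 2).1 h1.symm
    exact_mod_cast this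
  obtain ⟨a', rfl⟩ := h2
  refine ⟨IsLocalization.mk' R2 a' (⟨b, mem_compl.2 hb⟩ : P2.primeCompl), ?_⟩
  have h3 := IsLocalization.mk'_spec R2 a' (⟨b, mem_compl.2 hb⟩ : P2.primeCompl)
  have h4 : r * (b : R2) = (2 * IsLocalization.mk' R2 a' (⟨b, mem_compl.2 hb⟩ : P2.primeCompl)) * (b : R2) := by
    rw [h, mul_assoc]
    have : (IsLocalization.mk' R2 a' (⟨b, mem_compl.2 hb⟩ : P2.primeCompl)) * (b : R2) = (a' : R2) := by
      simpa using h3
    rw [this]
    push_cast
    ring
  have hb0 : (b : R2) ≠ 0 := by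
    intro h0
    have h5 := congrArg toC h0
    rw [map_intCast, map_zero, Int.cast_eq_zero] at h5
    subst h5
    exact absurd hb (by decide)
  exact mul_right_cancel₀ hb0 h4

/-- **Lifting.** -/
theorem exists_lift {A J : Type*} [AddCommGroup A] [Finite J] (Θ : A →+ (J → ℂ))
    (hinj : Function.Injective Θ)
    (hint : ∀ s j, ∃ a b : ℤ, Odd b ∧ (b : ℂ) * Θ s j = a) (φ : A →+ ZMod 2) :
    ∃ ψ : A →+ ℂ, ∀ s, ∃ a b : ℤ, Odd b ∧ (b : ℂ) * ψ s = a ∧ ((a : ℤ) : ZMod 2) = φ s := by
  classical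
  choose θ hθ using fun s j => exists_toC (hint s j)
  let Θ' : A →+ (J → R2) :=
    { toFun := θ
      map_zero' := by
        funext j
        apply toC_injective
        rw [hθ, map_zero]; simp
      map_add' := fun s t => by
        funext j
        apply toC_injective
        rw [Pi.add_apply, map_add, hθ, hθ, hθ, map_add]; rfl }
  have hinj' : Function.Injective Θ' := by
    intro s t hst
    apply hinj
    funext j
    rw [← hθ, ← hθ]
    exact congrArg toC (congrFun hst j)
  let M : Submodule R2 (J → R2) := Submodule.span R2 (Set.range Θ')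
  obtain ⟨n, ⟨e⟩⟩ := Submodule.nonempty_basis_of_pid (Pi.basisFun R2 J) M
  let m : A →+ M :=
    { toFun := fun s => ⟨Θ' s, Submodule.subset_span ⟨s, rfl⟩⟩
      map_zero' := Subtype.ext (map_zero Θ')
      map_add' := fun s t => Subtype.ext (map_add Θ' s t) }
  have hz : ∀ (c : ℤ) (a : A), Θ' (c • a) = (c : R2) • Θ' a := fun c a => by
    rw [map_zsmul]
    exact (Int.cast_smul_eq_zsmul R2 c (Θ' a)).symm
  -- odd multiples of elements of `M` come from `A`
  have hM : ∀ x ∈ M, ∃ c : ℤ, Odd c ∧ ∃ a : A, (c : R2) • x = Θ' a := by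
    intro x hx
    induction hx using Submodule.span_induction with
    | mem x hx =>
      obtain ⟨a, rfl⟩ := hx
      exact ⟨1, odd_one, a, by rw [Int.cast_one, one_smul]⟩
    | zero => exact ⟨1, odd_one, 0, by simp⟩
    | add x y _ _ hx hy =>
      obtain ⟨c, hc, a, ha⟩ := hx
      obtain ⟨d, hd, b, hb⟩ := hy
      refine ⟨c * d, hc.mul hd, d • a + c • b, ?_⟩
      rw [map_add, hz, hz, ← ha, ← hb, smul_add, smul_smul, smul_smul, ← Int.cast_mul,
        ← Int.cast_mul, mul_comm d c]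
    | smul r x _ hx =>
      obtain ⟨c, hc, a, ha⟩ := hx
      obtain ⟨p, q, hq, hpq⟩ := exists_frac r
      refine ⟨c * q, hc.mul hq, p • a, ?_⟩
      rw [hz, ← ha, smul_smul, smul_smul, ← hpq]
      congr 1
      push_cast
      ring
  -- reduced coordinates
  let ρ : A →+ (Fin n → ZMod 2) :=
    { toFun := fun s j => red (e.repr (m s) j)
      map_zero' := by funext j; simp
      map_add' := fun s t => by funext j; simp }
  have hρ : ∀ s, ρ s = 0 → φ s = 0 := by
    intro s hs
    have h1 : ∀ j, ∃ r', e.repr (m s) j = 2 * r' := fun j => red_eq_zero (congrFun hs j)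
    choose r' hr' using h1
    have h2 : m s = (2 : R2) • (∑ j, r' j • e j) := by
      rw [Finset.smul_sum]
      conv_lhs => rw [← e.sum_repr (m s)]
      refine Finset.sum_congr rfl fun j _ => ?_
      rw [hr' j, smul_smul]
    obtain ⟨c, hc, a, ha⟩ := hM _ (∑ j, r' j • e j : M).2
    have h3 : Θ' (c • s) = Θ' (a + a) := by
      rw [hz, map_add, ← ha]
      have h4 := congrArg Subtype.val h2
      change Θ' s = (2 : R2) • ((∑ j, r' j • e j : M) : J → R2) at h4
      rw [h4, smul_smul, ← two_smul R2, smul_smul, mul_comm]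
    have h5 := congrArg φ (hinj' h3)
    rw [map_zsmul, map_add, zsmul_eq_mul, odd_cast hc, one_mul] at h5
    rw [h5, ← two_mul]
    have : (2 : ZMod 2) = 0 := by decide
    rw [this, zero_mul]
  -- the functional
  let G : Submodule (ZMod 2) ((Fin n → ZMod 2) × ZMod 2) :=
    AddSubgroup.toZModSubmodule 2 (ρ.prod φ).range
  have hG : ((0, 1) : (Fin n → ZMod 2) × ZMod 2) ∉ G := by
    rintro ⟨s, hs⟩
    have h1 : ρ s = 0 := congrArg Prod.fst hs
    have h2 : φ s = 1 := congrArg Prod.snd hs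
    rw [hρ s h1] at h2
    exact absurd h2 (by decide)
  obtain ⟨f, hf1, hf2⟩ := Submodule.exists_le_ker_of_notMem hG
  have hf3 : f (0, 1) = 1 := by
    have : ∀ z : ZMod 2, z ≠ 0 → z = 1 := by decide
    exact this _ hf1
  have hf4 : ∀ s, φ s = f (ρ s, 0) := by
    intro s
    have h1 : f (ρ s, φ s) = 0 := hf2 (show (ρ s, φ s) ∈ G from ⟨s, rfl⟩)
    have h2 : ((ρ s, φ s) : (Fin n → ZMod 2) × ZMod 2) = (ρ s, 0) + φ s • ((0, 1) : (Fin n → ZMod 2) × ZMod 2) := by
      ext <;> simp
    rw [h2, map_add, map_smul, hf3, smul_eq_mul, mul_one] at h1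
    have : ∀ x y : ZMod 2, x + y = 0 → y = x := by decide
    exact this _ _ h1
  let ℓ : Fin n → ℕ := fun j => (f (Pi.single j 1, 0)).val
  have hf5 : ∀ w : Fin n → ZMod 2, f (w, 0) = ∑ j, w j * (ℓ j : ZMod 2) := by
    intro w
    have h1 : ((w, 0) : (Fin n → ZMod 2) × ZMod 2) = ∑ j, w j • ((Pi.single j 1, 0) : (Fin n → ZMod 2) × ZMod 2) := by
      ext i
      · simp [Prod.fst_sum, Finset.sum_apply, Pi.single_apply]
      · simp [Prod.snd_sum]
    rw [h1, map_sum]
    refine Finset.sum_congr rfl fun j _ => ?_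
    rw [map_smul, smul_eq_mul, ZMod.natCast_zmod_val]
  let ψ : A →+ R2 :=
    { toFun := fun s => ∑ j, e.repr (m s) j * (ℓ j : R2)
      map_zero' := by simp
      map_add' := fun s t => by
        rw [← Finset.sum_add_distrib]
        refine Finset.sum_congr rfl fun j _ => ?_
        rw [map_add, map_add, Finsupp.add_apply]
        ring }
  refine ⟨toC.toAddMonoidHom.comp ψ, fun s => ?_⟩
  obtain ⟨a, b, hb, h1, h2⟩ := toC_frac (ψ s)
  refine ⟨a, b, hb, h1, ?_⟩
  rw [h2, hf4, hf5]
  change red (∑ j, e.repr (m s) j * (ℓ j : R2)) = _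
  rw [map_sum]
  refine Finset.sum_congr rfl fun j _ => ?_
  rw [map_mul, map_natCast]
  rfl

end Crest.Agent.R007.LiftTwo
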