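import Crest.Agent.R007.Realise
import Crest.Agent.R007.LiftTwo

/-! Row 7, node (I1): every additive map `stage → ZMod 2` is the reduction of
`s ↦ a₁(s F)` with `F` a tuple of forms with rational coefficients and `a₁(s F) ∈ ℤ_(2)`. -/

set_option autoImplicit false

namespace Crest.Agent.R007.Realise

open Matrix UpperHalfPlane ModularForm CongruenceSubgroup Matrix.SpecialLinearGroup
open scoped MatrixGroups ModularForm Manifold Pointwise
open Crest.NumberTheoryR.HeckeTwoAdic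
open Crest.Agent.R007.Op

variable {N : ℕ} [NeZero N] {k : ℕ}

/-- all coefficients of `f` and of its diamond translates lie in the subring `S` -/
def IsS (S : Subring ℂ) (f : MF N k) : Prop :=
  ∀ (g : SL(2, ℤ)) (hg : g ∈ Gamma0 N) (n : ℕ), Op.an (Dop N k g hg f) n ∈ S

theorem IsS.an {S : Subring ℂ} {f : MF N k} (hf : IsS S f) (n : ℕ) : Op.an f n ∈ S := by
  have h := hf 1 (Gamma0 N).one_mem n
  rwa [Dop_one] at h

theorem IsS.zero (S : Subring ℂ) : IsS S (0 : MF N k) := fun g hg n => by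
  rw [map_zero, an_zero']; exact S.zero_mem

theorem IsS.add {S : Subring ℂ} {f f' : MF N k} (hf : IsS S f) (hf' : IsS S f') :
    IsS S (f + f') := fun g hg n => by
  rw [map_add, an_add]; exact S.add_mem (hf g hg n) (hf' g hg n)

theorem IsS.smul {S : Subring ℂ} {c : ℂ} (hc : c ∈ S) {f : MF N k} (hf : IsS S f) :
    IsS S (c • f) := fun g hg n => by
  rw [map_smul, an_smul]; exact S.mul_mem hc (hf g hg n)

theorem IsS.neg {S : Subring ℂ} {f : MF N k} (hf : IsS S f) : IsS S (-f) := by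
  have := hf.smul (S.neg_mem S.one_mem)
  simpa using this

theorem IsS.sum {S : Subring ℂ} {ι : Type*} (s : Finset ι) (f : ι → MF N k)
    (h : ∀ i ∈ s, IsS S (f i)) : IsS S (∑ i ∈ s, f i) := by
  classical
  induction s using Finset.induction_on with
  | empty => simpa using IsS.zero S
  | insert i s hi ih =>
    rw [Finset.sum_insert hi]
    exact (h i (Finset.mem_insert_self _ _)).add (ih fun j hj => h j (Finset.mem_insert_of_mem hj))

theorem IsS.dop {S : Subring ℂ} {f : MF N k} (hf : IsS S f) {g : SL(2, ℤ)} (hg : g ∈ Gamma0 N) :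
    IsS S (Dop N k g hg f) := fun g' hg' n => by
  rw [Dop_mul hg hg' ((Gamma0 N).mul_mem hg hg')]
  exact hf _ _ n

theorem IsS.top {S : Subring ℂ} {i : ℕ} {f : MF N (i + 1)} (hf : IsS S f) {l : ℕ} (hl : l.Prime)
    (hN : ¬ l ∣ N) {g : SL(2, ℤ)} (hg : IsDiam N l g) : IsS S (Top N (i + 1) l hl hN g hg f) :=
  fun g' hg' n => by
    rw [Top_Dop hl hN hg hg', an_Top]
    refine S.add_mem (hf _ _ _) ?_
    split_ifs
    · refine S.mul_mem ?_ ?_
      · have : ((l : ℂ)) ^ (((i + 1 : ℕ) : ℤ) - 1) = (l : ℂ) ^ i := by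
          rw [show (((i + 1 : ℕ) : ℤ) - 1) = (i : ℤ) by push_cast; ring, zpow_natCast]
        rw [this]
        exact pow_mem (natCast_mem S l) _
      · exact (hf.dop hg').dop hg.1 |>.an _
    · exact S.zero_mem

section stage

variable {T D : ℕ → (i : ℕ) → (MF N i →ₗ[ℂ] MF N i)}

theorem stage_isS (S : Subring ℂ) (hD : IsDiamondFamily N D) (hT : IsHeckeFamily N T D) {k : ℕ}
    {a : EndProd N k} (ha : a ∈ stage N T D k) :
    ∀ (i : Fin k) (f : MF N ((i : ℕ) + 1)), IsS S f → IsS S (a i f) := by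
  unfold stage at ha
  induction ha using Subring.closure_induction with
  | mem x hx =>
    obtain ⟨l, hl, h2, hx⟩ := hx
    have hN : ¬ l ∣ N := fun h => h2 (h.mul_left 2)
    obtain ⟨g, hg⟩ := exists_isDiam ((Nat.Prime.coprime_iff_not_dvd hl).mpr hN)
    rcases hx with rfl | rfl
    · intro i f hf
      change IsS S (T l ((i : ℕ) + 1) f)
      rw [T_eq_Top hD hT hl h2 hN hg]
      exact hf.top hl hN hg
    · intro i f hf
      change IsS S (((l : ℂ) ^ (i : ℕ)) • D l ((i : ℕ) + 1) f)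
      rw [D_eq_Dop hD hg]
      exact (hf.dop hg.1).smul (pow_mem (natCast_mem S l) _)
  | zero => exact fun i f _ => IsS.zero S
  | one => exact fun i f hf => hf
  | add x y _ _ hx hy => exact fun i f hf => (hx i f hf).add (hy i f hf)
  | neg x _ hx => exact fun i f hf => (hx i f hf).neg
  | mul x y _ _ hx hy => exact fun i f hf => hx i _ (hy i f hf)

/-- `ℤ_(2)` inside `ℂ` -/
def Z2 : Subring ℂ where
  carrier := {x | ∃ a b : ℤ, Odd b ∧ (b : ℂ) * x = a}
  zero_mem' := ⟨0, 1, odd_one, by simp⟩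
  one_mem' := ⟨1, 1, odd_one, by simp⟩
  add_mem' := by
    rintro x y ⟨a, b, hb, h⟩ ⟨c, d, hd, h'⟩
    refine ⟨a * d + c * b, b * d, hb.mul hd, ?_⟩
    push_cast
    linear_combination (d : ℂ) * h + (b : ℂ) * h'
  mul_mem' := by
    rintro x y ⟨a, b, hb, h⟩ ⟨c, d, hd, h'⟩
    refine ⟨a * c, b * d, hb.mul hd, ?_⟩
    push_cast
    linear_combination ((d : ℂ) * y) * h + (a : ℂ) * h'
  neg_mem' := by
    rintro x ⟨a, b, hb, h⟩
    refine ⟨-a, b, hb, ?_⟩
    push_cast
    linear_combination -h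

theorem mem_Z2 {x : ℂ} : x ∈ Z2 ↔ ∃ a b : ℤ, Odd b ∧ (b : ℂ) * x = a := Iff.rfl

/-- bounded denominators at `2` of rational forms of level `Γ₁(N)` -/
def BDen (N : ℕ) [NeZero N] : Prop :=
  ∀ (i : ℕ) (f : MF N i), IsK ⊥ f → ∃ r : ℕ, ∀ (g : SL(2, ℤ)) (hg : g ∈ Gamma0 N) (n : ℕ),
    ∃ a b : ℤ, Odd b ∧ (b : ℂ) * (2 ^ r * Op.an (Dop N i g hg f) n) = a

/-- a lattice containing the Hecke algebra: an embedding of `stage` in `ℤ_(2)^J`, `J` finite,
given by `a₁(s f)` for finitely many forms `f` with rational coefficients. -/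
theorem exists_embedding (hfin : ∀ i, FiniteDimensional ℂ (MF N i))
    (hD : IsDiamondFamily N D) (hT : IsHeckeFamily N T D)
    (hspan : ∀ i, Submodule.span ℂ {f : MF N i | IsK ⊥ f} = ⊤) (hbd : BDen N) (k : ℕ) :
    ∃ (J : Type) (_ : Finite J) (Θ : stage N T D k →+ (J → ℂ)), Function.Injective Θ ∧
      ∀ s j, Θ s j ∈ Z2 := by
  classical
  have hfg : ∀ i : Fin k, ∃ S : Finset (MF N ((i : ℕ) + 1)),
      (↑S ⊆ {f : MF N ((i : ℕ) + 1) | IsK ⊥ f}) ∧ Submodule.span ℂ (S : Set (MF N ((i : ℕ) + 1))) = ⊤ := by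
    intro i
    have := hfin ((i : ℕ) + 1)
    have h1 : (Submodule.span ℂ {f : MF N ((i : ℕ) + 1) | IsK ⊥ f}).FG := by
      rw [hspan _]; exact Module.Finite.fg_top
    rw [Submodule.fg_span_iff_fg_span_finset_subset] at h1
    obtain ⟨S, hS, hS2⟩ := h1
    exact ⟨S, hS, by rw [← hS2, hspan _]⟩
  choose S hS hS2 using hfg
  choose r hr using fun (i : Fin k) (x : {x // x ∈ S i}) => hbd ((i : ℕ) + 1) x.1 (hS i x.2)
  let J := Σ i : Fin k, {x // x ∈ S i}
  let fj : ∀ j : J, MF N ((j.1 : ℕ) + 1) := fun j => ((2 : ℂ) ^ r j.1 j.2) • (j.2 : MF N ((j.1 : ℕ) + 1))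
  have hfj : ∀ j : J, IsS Z2 (fj j) := by
    intro j g hg n
    rw [map_smul, an_smul]
    exact hr j.1 j.2 g hg n
  let Θ : stage N T D k →+ (J → ℂ) :=
    { toFun := fun s j => Op.an ((s : EndProd N k) j.1 (fj j)) 1
      map_zero' := by
        funext j
        change Op.an ((0 : Module.End ℂ (MF N ((j.1 : ℕ) + 1))) _) 1 = 0
        rw [LinearMap.zero_apply, an_zero']
      map_add' := by
        intro s t
        funext j
        change Op.an (((s : EndProd N k) j.1 + (t : EndProd N k) j.1) _) 1 = _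
        rw [LinearMap.add_apply, an_add]; rfl }
  refine ⟨J, inferInstance, Θ, ?_, ?_⟩
  · rw [injective_iff_map_eq_zero]
    intro s hs
    apply Subtype.ext
    apply left_nondeg hD hT (Submodule.subset_span s.2)
    intro F
    refine Finset.sum_eq_zero fun i _ => ?_
    have h1 : ∀ f : MF N ((i : ℕ) + 1), Op.an ((s : EndProd N k) i f) 1 = 0 := by
      intro f
      have hf : f ∈ Submodule.span ℂ (S i : Set (MF N ((i : ℕ) + 1))) := by
        rw [hS2]; trivial
      induction hf using Submodule.span_induction with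
      | mem x hx =>
        have h2 : Op.an ((s : EndProd N k) i (((2 : ℂ) ^ r i ⟨x, hx⟩) • x)) 1 = 0 :=
          congrFun hs ⟨i, x, hx⟩
        rw [map_smul, an_smul] at h2
        rcases mul_eq_zero.1 h2 with h3 | h3
        · exact absurd h3 (pow_ne_zero _ two_ne_zero)
        · exact h3
      | zero => rw [map_zero, an_zero']
      | add x y _ _ hx hy => rw [map_add, an_add, hx, hy, add_zero]
      | smul c x _ hx => rw [map_smul, an_smul, hx, mul_zero]
    exact h1 _
  · intro s j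
    exact (stage_isS Z2 hD hT s.2 j.1 _ (hfj j)).an 1

/-- **(I1)** -/
theorem exists_I1 (hfin : ∀ i, FiniteDimensional ℂ (MF N i))
    (hD : IsDiamondFamily N D) (hT : IsHeckeFamily N T D)
    (hspan : ∀ i, Submodule.span ℂ {f : MF N i | IsK ⊥ f} = ⊤) (hbd : BDen N) {k : ℕ}
    (φ : stage N T D k →+ ZMod 2) :
    ∃ F : (i : Fin k) → MF N ((i : ℕ) + 1), (∀ i, IsK ⊥ (F i)) ∧
      ∀ s : stage N T D k, ∃ a b : ℤ, Odd b ∧
        (b : ℂ) * ∑ i : Fin k, Op.an ((s : EndProd N k) i (F i)) 1 = a ∧ ((a : ℤ) : ZMod 2) = φ s := by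
  obtain ⟨J, hJ, Θ, hΘ, hint⟩ := exists_embedding hfin hD hT hspan hbd k
  obtain ⟨ψ, hψ⟩ := LiftTwo.exists_lift Θ hΘ hint φ
  obtain ⟨F, hF, hFψ⟩ := realise hfin hD hT (fun i => hspan _) ⊥ ψ (by
    intro s
    obtain ⟨a, b, hb, h, _⟩ := hψ s
    rw [mem_bot_iff]
    refine ⟨a / b, ?_⟩
    have hb0 : (b : ℂ) ≠ 0 := by
      intro h0
      rw [Int.cast_eq_zero] at h0
      subst h0
      exact absurd hb (by decide)
    push_cast
    rw [← h]
    field_simp)
  refine ⟨F, hF, fun s => ?_⟩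
  obtain ⟨a, b, hb, h1, h2⟩ := hψ s
  exact ⟨a, b, hb, by rw [← hFψ s]; exact h1, h2⟩

end stage

end Crest.Agent.R007.Realise
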