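import Crest.Agent.R007.RatBDN
import Crest.Agent.R007.Fin3
import Crest.Agent.R007.I1

/-!
Row 7 (S0007): the nodes FIN and (I1) without hypotheses (`N` odd).
-/

set_option autoImplicit false

namespace Crest.Agent.R007.Rat

open UpperHalfPlane ModularForm CongruenceSubgroup Matrix.SpecialLinearGroup
open scoped MatrixGroups Manifold TensorProduct
open Crest.NumberTheoryR.HeckeTwoAdic

variable {N : ℕ} [NeZero N] {T D : ℕ → (i : ℕ) → (MF N i →ₗ[ℂ] MF N i)}

theorem bddDen (hN : Odd N) : Fin.BddDen N := fun _ f hf => by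
  obtain ⟨r, hr⟩ := bd_MF_rat hN f hf
  exact ⟨r, fun g hg n => Fin.mem_Z2C.2 (hr g hg n)⟩

theorem bDen (hN : Odd N) : Realise.BDen N := fun _ f hf => bd_MF_rat hN f hf

/-- **FIN**, `N` odd. -/
theorem stage_twoFG (hN : Odd N) (hD : IsDiamondFamily N D) (hT : IsHeckeFamily N T D) (k : ℕ) :
    Fin.TwoFG (stage N T D k) := Fin.stage_twoFG_of_bdd hD hT (bddDen hN) k

/-- **FIN**, `N` odd. -/
theorem finite_stage (hN : Odd N) (hD : IsDiamondFamily N D) (hT : IsHeckeFamily N T D) (k : ℕ) :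
    Module.Finite ℤ_[2] (ℤ_[2] ⊗[ℤ] (stage N T D k)) :=
  Fin.finite_stage hD hT (bddDen hN) k

/-- embedding of the stages in lattices, `N` odd. -/
theorem exists_embedding (hN : Odd N) (hD : IsDiamondFamily N D) (hT : IsHeckeFamily N T D)
    (k : ℕ) : ∃ (J : Type) (_ : Finite J) (Θ : stage N T D k →+ (J → ℂ)), Function.Injective Θ ∧
      ∀ s j, Θ s j ∈ Realise.Z2 :=
  Realise.exists_embedding (fun i => finite_MF N i) hD hT (fun i => span_rat N i) (bDen hN) k

/-- **(I1)**, `N` odd. -/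
theorem exists_I1 (hN : Odd N) (hD : IsDiamondFamily N D) (hT : IsHeckeFamily N T D) {k : ℕ}
    (φ : stage N T D k →+ ZMod 2) :
    ∃ F : (i : Fin k) → MF N ((i : ℕ) + 1), (∀ i, Realise.IsK ⊥ (F i)) ∧
      ∀ s : stage N T D k, ∃ a b : ℤ, Odd b ∧
        (b : ℂ) * ∑ i : Fin k, Op.an ((s : EndProd N k) i (F i)) 1 = a ∧ ((a : ℤ) : ZMod 2) = φ s :=
  Realise.exists_I1 (fun i => finite_MF N i) hD hT (fun i => span_rat N i) (bDen hN) φ

end Crest.Agent.R007.Rat
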