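import Crest.Agent.R007.Emb6
import Crest.Agent.R007.EmbBD
import Crest.Agent.R007.EmbDia
import Crest.Agent.R007.DepEmb
import Crest.Agent.R007.RatBDF
import Crest.Agent.R007.Mix5

/-! Row 7, node EMB (helper7), part 7: the instance of `Ctx`. -/

set_option autoImplicit false

namespace Crest.Agent.R007.Emb

open UpperHalfPlane ModularForm CongruenceSubgroup Matrix
open scoped MatrixGroups Manifold ModularForm
open Crest.NumberTheoryR.HeckeTwoAdic Crest.Agent.R007.Op Crest.Agent.R007.Lat Crest.Agent.R007.Mix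
open Crest.Agent.R007.Coef

variable {N : ℕ} [NeZero N] {T D : ℕ → (i : ℕ) → (MF N i →ₗ[ℂ] MF N i)}

lemma half_mem_K0 : (2 : ℂ)⁻¹ ∈ K0.toSubring := K0.inv_mem (OO_le_K0 two_mem)

/-- the depletion operators exist. -/
theorem exists_Dep (hN : Odd N) (hD : IsDiamondFamily N D) (m k : ℕ) :
    Nonempty (Dep N (Nrad N) D m k) := by
  have hN2 : ¬ 2 ∣ N := hN.not_two_dvd_nat
  obtain ⟨w, hw, P, -, h2, h3, -, h5⟩ := exists_dep_fin N hN2 m k
  refine ⟨⟨w, hw, P, fun i f f₁ g hg e => h2 i g hg f f₁ e, fun i f hf n => ?_, fun i f hf n => ?_⟩⟩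
  · obtain ⟨c, hc, e⟩ := h3 OO i f ((allS_iff_diam hD).2 hf) n
    exact ⟨c, hc, by rw [e]; ring⟩
  · have h6 := h5 K0.toSubring half_mem_K0 i f ((allS_iff_diam hD).2 hf)
    rw [allS_iff_an] at h6
    have h7 := h6 1 (one_mem _) n
    rwa [Realise.Dop_one] at h7

/-- realisation of functionals. -/
theorem exists_real (hN : Odd N) (hD : IsDiamondFamily N D) (hT : IsHeckeFamily N T D) (k : ℕ)
    (φ : stage N T D k →+ ZMod 2) : ∃ F : Mix N k, RatM D F ∧ Lift φ F := by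
  obtain ⟨F, hF, hs⟩ := Rat.exists_I1 hN hD hT φ
  refine ⟨F, fun i d hd n => ?_, fun s => ?_⟩
  · obtain ⟨g, hg⟩ := exists_isDiam hd
    rw [D_eq_Dop hD hg]
    exact (bot_le : (⊥ : Subfield ℂ) ≤ K0) (hF i g hg.1 n)
  · obtain ⟨a, b, hb, e, ea⟩ := hs s
    have e' : (b : ℂ) * aM (act s.1 F) 1 = a := e
    have hb0 : (b : ℂ) ≠ 0 := by
      intro h0
      have : b = 0 := by exact_mod_cast h0
      rw [this] at hb
      exact absurd hb (by decide)
    have hbu : (b : ℂ)⁻¹ ∈ OO := by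
      have := isUnit_iff.1 (isUnit_odd_int hb)
      simpa using this.2
    have hx : aM (act s.1 F) 1 - toC (φ s) = (b : ℂ)⁻¹ * (a - b * toC (φ s)) := by
      rw [mul_sub, ← e', ← mul_assoc, ← mul_assoc, inv_mul_cancel₀ hb0, one_mul, one_mul]
    rw [hx]
    apply mul_mem_T2 hbu
    rw [← ea]
    obtain ⟨c, rfl⟩ := hb
    rcases Int.even_or_odd a with ⟨t, ht⟩ | ⟨t, ht⟩
    · have h0 : ((a : ℤ) : ZMod 2) = 0 := by
        rw [ht]; push_cast
        have : ∀ x : ZMod 2, x + x = 0 := by decide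
        exact this _
      rw [h0, toC_zero, mul_zero, sub_zero, ht]
      refine mem_T2.2 ⟨t, intCast_mem OO t, ?_⟩
      push_cast; ring
    · have h1 : ((a : ℤ) : ZMod 2) = 1 := by
        rw [ht]; push_cast
        have : ∀ x : ZMod 2, 2 * x + 1 = 1 := by decide
        exact this _
      rw [h1, toC_one, ht]
      refine mem_T2.2 ⟨((t - c : ℤ) : ℂ), intCast_mem OO _, ?_⟩
      push_cast; ring

/-- **the instance.** -/
theorem exists_ctx (hN : Odd N) {M : ℕ} [NeZero M] (hM : Odd M) (h3 : 3 ∣ M)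
    (hNM : Nrad N ∣ M) (hD : IsDiamondFamily N D) (hT : IsHeckeFamily N T D)
    {D' : ℕ → (i : ℕ) → (MF (Nrad N) i →ₗ[ℂ] MF (Nrad N) i)} (hD' : IsDiamondFamily (Nrad N) D')
    {l₀ n₀ : ℕ} (hl : l₀.Prime) (hlN : ¬ l₀ ∣ 2 * N) (hl8 : l₀ % 8 = 5) (hl1 : (l₀ : ZMod N) = 1)
    (hn : n₀.Prime) (hnN : ¬ n₀ ∣ 2 * N) (hn4 : n₀ % 4 = 3) (hn1 : (n₀ : ZMod N) = 1) :
    Ctx N (Nrad N) M T D D' l₀ n₀ where
  hM := hM
  h3 := h3
  hN'M := hNM
  hNN' := dvd_Nrad N
  hD := hD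
  hT := hT
  hD' := hD'
  c1 := fun F hF h => Mix.C1 hF h
  pure := fun n F hF hint hinv => Mix.I5 hM h3 hF hint hinv
  bd := fun j f hf => emb_bd' hN hD f hf
  bd' := fun j f hf => emb_bd' (Nat.not_even_iff_odd.1 fun h => Nrad_odd hN.not_two_dvd_nat h.two_dvd) hD' f hf
  dep := exists_Dep hN hD
  real := exists_real hN hD hT
  l_prime := hl
  l_N := hlN
  l_eight := hl8
  l_one := hl1
  n_prime := hn
  n_N := hnN
  n_four := hn4
  n_one := hn1

end Crest.Agent.R007.Emb
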