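import Crest.Agent.R007.Mix4
import Crest.Agent.R007.EmbDia
import Crest.Agent.R007.EmbDens

/-! Row 7, node EMB (helper782): (I5) in `Cg` wording, and the passage from the two diamonds
`l ≡ 5 mod 8`, `l' ≡ 3 mod 4` to a pure weight form and to all odd scalars. -/

set_option autoImplicit false

namespace Crest.Agent.R007.Emb

open UpperHalfPlane ModularForm CongruenceSubgroup Matrix
open scoped MatrixGroups Manifold ModularForm
open Crest.Agent.R007.Lat Crest.Agent.R007.Mix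
open Crest.Agent.R007.Coef (OO)

/-- (I5), `Cg` wording. -/
theorem exists_pure {M : ℕ} [NeZero M] (hM : Odd M) (h3 : 3 ∣ M) {n : ℕ} {G : ℕ → X → ℂ}
    (hG : ∀ k, G k ∈ MX M k) (hint : ∑ j ∈ Finset.range n, G j ∈ VV OO)
    (hinv : ∀ R c : ℕ, Odd c → ∃ c' : ℕ, Odd c' ∧ c' ≡ c [MOD 2 ^ R] ∧
      Cg OO (∑ j ∈ Finset.range n, (c' : ℂ) ^ j • G j) (∑ j ∈ Finset.range n, G j)) :
    ∃ K, ∃ f ∈ Lk OO K, f ∈ MX M K ∧ Cg OO (∑ j ∈ Finset.range n, G j) f :=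
  Mix.exists_pure h3 hG hM hint hinv

/-- `hinv` from the two scalars `l ≡ 5 mod 8`, `l' ≡ 3 mod 4`. -/
theorem hinv_two {O : Subring ℂ} {n : ℕ} {G : ℕ → X → ℂ} (hG : ∀ k, G k ∈ Wt k) {l l' : ℕ}
    (hl : l % 8 = 5) (hl' : l' % 4 = 3)
    (h : Cg O (∑ j ∈ Finset.range n, (l : ℂ) ^ j • G j) (∑ j ∈ Finset.range n, G j))
    (h' : Cg O (∑ j ∈ Finset.range n, (l' : ℂ) ^ j • G j) (∑ j ∈ Finset.range n, G j)) :
    ∀ R c : ℕ, Odd c → ∃ c' : ℕ, Odd c' ∧ c' ≡ c [MOD 2 ^ R] ∧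
      Cg O (∑ j ∈ Finset.range n, (c' : ℂ) ^ j • G j) (∑ j ∈ Finset.range n, G j) := by
  have hlo : Odd l := by rw [Nat.odd_iff]; omega
  have hlo' : Odd l' := by rw [Nat.odd_iff]; omega
  have e := scal_one n G
  change Cg O (scal n G l) _ at h
  change Cg O (scal n G l') _ at h'
  rw [← e] at h h' ⊢
  exact hinv_of hG hlo hlo' (fun R c hc => EmbDens.dens hl hl' R c hc) h h'

/-- everything from the two scalars: all odd `c` act trivially mod `2 V`, and `v` is pure. -/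
theorem pure_two {M : ℕ} [NeZero M] (hM : Odd M) (h3 : 3 ∣ M) {n : ℕ} {G : ℕ → X → ℂ}
    (hG : ∀ k, G k ∈ MX M k) (hb : ∀ j, ∃ r : ℕ, ((2 : ℂ) ^ r) • G j ∈ VV OO)
    (hint : ∑ j ∈ Finset.range n, G j ∈ VV OO) {l l' : ℕ} (hl : l % 8 = 5) (hl' : l' % 4 = 3)
    (h : Cg OO (∑ j ∈ Finset.range n, (l : ℂ) ^ j • G j) (∑ j ∈ Finset.range n, G j))
    (h' : Cg OO (∑ j ∈ Finset.range n, (l' : ℂ) ^ j • G j) (∑ j ∈ Finset.range n, G j)) :
    (∃ K, ∃ f ∈ Lk OO K, f ∈ MX M K ∧ Cg OO (∑ j ∈ Finset.range n, G j) f) ∧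
    ∀ c : ℕ, Odd c →
      Cg OO (∑ j ∈ Finset.range n, (c : ℂ) ^ j • G j) (∑ j ∈ Finset.range n, G j) := by
  have hinv := hinv_two (fun k => MX_le_Wt (hG k)) hl hl' h h'
  exact ⟨exists_pure hM h3 hG hint hinv, fun c hc => inv_all hb hinv c hc⟩

end Crest.Agent.R007.Emb
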