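import Mathlib
import Crest.Agent.R007.Tlb1
import Crest.Agent.R007.Lat5

/-!
# Row 7, node N2 (TLB), part 2: `q`-expansion of `∑_δ F ∥ δ` modulo 2
-/

set_option autoImplicit false

namespace Crest.Agent.R007.Tlb

open UpperHalfPlane ModularForm CongruenceSubgroup Matrix
open scoped MatrixGroups Manifold ModularForm
open Crest.Agent.R007.Lat

lemma utU (l : ℕ) (hl : l ≠ 0) (j : ℕ) : 0 < (ut ((1 : ℕ) : ℤ) (j : ℤ) (l : ℤ)).det := by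
  rw [ut_det]; simp; omega

lemma utL (l : ℕ) (hl : l ≠ 0) : 0 < (ut (l : ℤ) ((0 : ℕ) : ℤ) ((1 : ℕ) : ℤ)).det := by
  rw [ut_det]; simp; omega

lemma dUp_eq (l : ℕ) (hl : l ≠ 0) (j : ℕ) : dUp l hl j = si l hl * iG (ut ((1 : ℕ) : ℤ) (j : ℤ) (l : ℤ)) (utU l hl j) := by
  rw [dUp]
  congr 1

lemma dLo_eq (l : ℕ) (hl : l ≠ 0) : dLo l hl = si l hl * iG (ut (l : ℤ) ((0 : ℕ) : ℤ) ((1 : ℕ) : ℤ)) (utL l hl) := by
  rw [dLo]
  congr 1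

lemma res_sl_dUp {k : ℕ} {F : X → ℂ} (hF : F ∈ Wt k) {l : ℕ} (hl : l ≠ 0) (j : ℕ) :
    res (sl F (dUp l hl j)) =
      fun τ => res F (iG (ut ((1 : ℕ) : ℤ) (j : ℤ) (l : ℤ)) (utU l hl j) • τ) := by
  have hl' : (l : ℂ) ≠ 0 := by exact_mod_cast hl
  funext τ
  rw [dUp_eq, sl_mul_right, sl_si hF hl, sl_smul, res_smul, Pi.smul_apply, res_sl_ut hF, smul_eq_mul,
    ← mul_assoc, ← mul_pow]
  simp [hl']

lemma res_sl_dLo {k : ℕ} {F : X → ℂ} (hF : F ∈ Wt k) {l : ℕ} (hl : l ≠ 0) :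
    res (sl F (dLo l hl)) = (l : ℂ) ^ k •
      fun τ => res F (iG (ut (l : ℤ) ((0 : ℕ) : ℤ) ((1 : ℕ) : ℤ)) (utL l hl) • τ) := by
  funext τ
  rw [dLo_eq, sl_mul_right, sl_si hF hl, sl_smul, res_smul, Pi.smul_apply, res_sl_ut hF]
  simp

/-- coefficients of `F ∥ (1/ℓ, j/ℓ; 0, 1)` -/
theorem coeff_dUp {k : ℕ} {F : X → ℂ} (hF : F ∈ MO k) {l : ℕ} (hl : l ≠ 0) (ho : Odd l) (j : ℕ)
    (r : ℚ) : (qf (res (sl F (dUp l hl j)))).coeff r = ee (r * j) * (qf (res F)).coeff (r * l) := by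
  have hl' : (l : ℚ) ≠ 0 := by exact_mod_cast hl
  rw [res_sl_dUp (MO_le_Wt hF)]
  have h1 := qf_comp_ut (res_mem_PO hF) (a := 1) (b := j) odd_one ho (utU l hl j) (r * l)
  have h2 : r * (l : ℚ) * ((1 : ℕ) : ℚ) / l = r := by push_cast; field_simp
  have h3 : r * (l : ℚ) * (j : ℚ) / l = r * j := by field_simp
  rw [h2, h3] at h1
  exact h1

/-- coefficients of `F ∥ (1, 0; 0, 1/ℓ)` -/
theorem coeff_dLo {k : ℕ} {F : X → ℂ} (hF : F ∈ MO k) {l : ℕ} (hl : l ≠ 0) (ho : Odd l) (r : ℚ) :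
    (qf (res (sl F (dLo l hl)))).coeff r = (l : ℂ) ^ k * (qf (res F)).coeff (r / l) := by
  have hl' : (l : ℚ) ≠ 0 := by exact_mod_cast hl
  have hPO : (fun τ => res F (iG (ut (l : ℤ) ((0 : ℕ) : ℤ) ((1 : ℕ) : ℤ)) (utL l hl) • τ)) ∈ PO := by
    obtain ⟨M, hM, hf⟩ := res_mem_PO hF
    have : NeZero M := ⟨hM.pos.ne'⟩
    refine ⟨M * 1, by simpa using hM, ?_⟩
    exact PB_comp_ut hf Nat.one_pos (utL l hl)
  rw [res_sl_dLo (MO_le_Wt hF), qf_smul _ hPO, HahnSeries.coeff_smul, smul_eq_mul]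
  have h1 := qf_comp_ut (res_mem_PO hF) (b := 0) ho odd_one (utL l hl) (r / l)
  have h2 : r / (l : ℚ) * (l : ℚ) / ((1 : ℕ) : ℚ) = r := by push_cast; field_simp
  have h3 : r / (l : ℚ) * ((0 : ℕ) : ℚ) / ((1 : ℕ) : ℚ) = 0 := by push_cast; simp
  rw [h2, h3] at h1
  rw [h1]
  have : ee 0 = 1 := by simp [ee]
  rw [this, one_mul]

lemma ee_int (n : ℤ) : ee n = 1 := by
  rw [ee, Complex.exp_eq_one_iff]
  exact ⟨n, by push_cast; ring⟩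

lemma ee_eq_one {r : ℚ} (h : ee r = 1) : ∃ n : ℤ, r = n := by
  rw [ee, Complex.exp_eq_one_iff] at h
  obtain ⟨n, hn⟩ := h
  refine ⟨n, ?_⟩
  have h2 : (2 * (Real.pi : ℂ) * Complex.I) ≠ 0 := Complex.two_pi_I_ne_zero
  have h3 : (2 * (Real.pi : ℂ) * Complex.I) * (r : ℂ) = (2 * (Real.pi : ℂ) * Complex.I) * (n : ℂ) := by
    rw [hn]; ring
  have h4 := mul_left_cancel₀ h2 h3
  exact_mod_cast h4

lemma sum_ee_int (n : ℤ) (l : ℕ) : ∑ j ∈ Finset.range l, ee ((n : ℚ) * j) = l := by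
  have : ∀ j ∈ Finset.range l, ee ((n : ℚ) * j) = 1 := by
    intro j _
    have := ee_int (n * j)
    push_cast at this
    exact this
  rw [Finset.sum_congr rfl this]
  simp

lemma sum_ee_not_int {r : ℚ} {l : ℕ} (hr : ¬ ∃ n : ℤ, r = n) (hrl : ∃ n : ℤ, r * l = n) :
    ∑ j ∈ Finset.range l, ee (r * j) = 0 := by
  have h1 : ∀ j : ℕ, ee (r * j) = ee r ^ j := by
    intro j
    rw [← ee_nsmul, mul_comm]
  simp only [h1]
  have h2 : ee r ≠ 1 := fun h => hr (ee_eq_one h)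
  rw [geom_sum_eq h2, ← h1]
  obtain ⟨n, hn⟩ := hrl
  rw [hn, ee_int, sub_self, zero_div]

lemma sum_ee_mem {O : Subring ℂ} (hO : ∀ n : ℕ, Odd n → ∀ z : ℂ, z ^ n = 1 → z ∈ O) {r : ℚ} {M : ℕ}
    (hM : Odd M) (hr : ∃ n : ℤ, r * M = n) (l : ℕ) : ∑ j ∈ Finset.range l, ee (r * j) ∈ O := by
  refine O.sum_mem fun j _ => hO M hM _ ?_
  rw [← ee_nsmul]
  obtain ⟨n, hn⟩ := hr
  have h1 : (M : ℚ) * (r * j) = ((n * j : ℤ) : ℚ) := by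
    rw [← mul_assoc, mul_comm (M : ℚ) r, hn]; push_cast; ring
  rw [h1, ee_int]

end Crest.Agent.R007.Tlb
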