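import Mathlib
import Crest.Agent.R007.Tlb2
import Crest.Agent.R007.Link

/-!
# Row 7, node N2 (TLB), part 3: `∑_δ F ∥ δ` modulo 2, in the language of `Link.Cong`
-/

set_option autoImplicit false

namespace Crest.Agent.R007.Tlb

open UpperHalfPlane ModularForm CongruenceSubgroup Matrix
open scoped MatrixGroups Manifold ModularForm
open Crest.Agent.R007.Lat Crest.Agent.R007.Link

variable {O : Subring ℂ}

lemma res_sum {ι : Type*} (s : Finset ι) (F : ι → X → ℂ) :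
    res (∑ i ∈ s, F i) = ∑ i ∈ s, res (F i) := by
  funext τ
  simp [res_apply, Finset.sum_apply]

lemma qf_sum {ι : Type*} (s : Finset ι) (F : ι → UpperHalfPlane → ℂ) (h : ∀ i ∈ s, F i ∈ PO) :
    (∑ i ∈ s, F i) ∈ PO ∧ qf (∑ i ∈ s, F i) = ∑ i ∈ s, qf (F i) := by
  classical
  induction s using Finset.induction_on with
  | empty => exact ⟨by simp, by simpa using qf_zero⟩
  | insert a s ha ih =>
    obtain ⟨h1, h2⟩ := ih fun i hi => h i (Finset.mem_insert_of_mem hi)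
    have h3 := h a (Finset.mem_insert_self _ _)
    rw [Finset.sum_insert ha, Finset.sum_insert ha]
    exact ⟨add_mem h3 h1, by rw [qf_add h3 h1, h2]⟩

lemma sum_up_MO {k : ℕ} {F : X → ℂ} (hF : F ∈ MO k) {l : ℕ} (hl : l ≠ 0) (ho : Odd l) :
    (∑ j ∈ Finset.range l, sl F (dUp l hl j)) ∈ MO k :=
  Submodule.sum_mem _ fun j _ => MO_sl hF (dUp_mem hl ho j)

open Classical in
theorem cong_up (hO : ∀ n : ℕ, Odd n → ∀ z : ℂ, z ^ n = 1 → z ∈ O) {k : ℕ} {F : X → ℂ}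
    (hF : F ∈ MO k) {l : ℕ} (hl : l ≠ 0) (ho : Odd l) (c : ℚ → ZMod 2)
    (hc : ∀ r, c r ≠ 0 → ∃ n : ℤ, r = n) (h : Cong O F c) :
    Cong O (∑ j ∈ Finset.range l, sl F (dUp l hl j))
      (fun r => if ∃ n : ℤ, r = n then c (r * l) else 0) := by
  intro r
  have hsum : (qf (res (∑ j ∈ Finset.range l, sl F (dUp l hl j)))).coeff r =
      (∑ j ∈ Finset.range l, ee (r * j)) * (qf (res F)).coeff (r * l) := by
    rw [res_sum, (qf_sum _ _ fun j _ => res_mem_PO (MO_sl hF (dUp_mem hl ho j))).2,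
      HahnSeries.coeff_sum, Finset.sum_mul]
    exact Finset.sum_congr rfl fun j _ => coeff_dUp hF hl ho j r
  rw [hsum]
  change ∃ a ∈ O, _ = (((if ∃ n : ℤ, r = n then c (r * l) else 0 : ZMod 2)).val : ℂ) + 2 * a
  obtain ⟨b, hb, eb⟩ := h (r * l)
  by_cases h1 : ∃ n : ℤ, r = n
  · obtain ⟨n, rfl⟩ := h1
    obtain ⟨m, hm⟩ := ho
    refine ⟨m * ((c ((n : ℚ) * l)).val : ℂ) + l * b, ?_, ?_⟩
    · exact O.add_mem (O.mul_mem (natCast_mem O _) (natCast_mem O _)) (O.mul_mem (natCast_mem O _) hb)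
    · rw [sum_ee_int, eb, if_pos ⟨n, rfl⟩]
      rw [hm]
      push_cast
      ring
  · rw [if_neg h1]
    by_cases h2 : ∃ n : ℤ, r * l = n
    · refine ⟨0, O.zero_mem, ?_⟩
      rw [sum_ee_not_int h1 h2]
      simp
    · have hc0 : c (r * l) = 0 := by
        by_contra hne
        exact h2 (hc _ hne)
      by_cases h3 : (qf (res F)).coeff (r * l) = 0
      · refine ⟨0, O.zero_mem, ?_⟩
        rw [h3]
        simp
      · obtain ⟨M, hM, hf⟩ := res_mem_PO hF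
        have h4 : ∃ n : ℕ, (n : ℚ) / M = r * l := by
          by_contra hcon
          push Not at hcon
          exact h3 (qf_coeff_of_notMem hM hf hcon)
        obtain ⟨n, hn⟩ := h4
        have hM0 : (M : ℚ) ≠ 0 := by exact_mod_cast hM.pos.ne'
        have h5 : ∑ j ∈ Finset.range l, ee (r * j) ∈ O := by
          refine sum_ee_mem hO (hM.mul ho) ⟨n, ?_⟩ l
          push_cast
          field_simp at hn
          rw [hn]; ring
        refine ⟨(∑ j ∈ Finset.range l, ee (r * j)) * b, O.mul_mem h5 hb, ?_⟩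
        rw [eb, hc0]
        simp
        ring

theorem cong_lo {k : ℕ} {G : X → ℂ} (hG : G ∈ MO k) {l : ℕ} (hl : l ≠ 0) (ho : Odd l)
    (c : ℚ → ZMod 2) (h : Cong O G c) :
    Cong O (sl G (dLo l hl)) (fun r => c (r / l)) := by
  intro r
  rw [coeff_dLo hG hl ho]
  obtain ⟨b, hb, eb⟩ := h (r / l)
  obtain ⟨m, hm⟩ := ho.pow (n := k)
  refine ⟨m * ((c (r / l)).val : ℂ) + l ^ k * b, ?_, ?_⟩
  · exact O.add_mem (O.mul_mem (natCast_mem O _) (natCast_mem O _))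
      (O.mul_mem (O.pow_mem (natCast_mem O _) _) hb)
  · rw [eb]
    have : (l : ℂ) ^ k = 2 * m + 1 := by exact_mod_cast hm
    rw [this]
    ring

/-- the list of matrices for `T_ℓ` -/
noncomputable def dlT (l : ℕ) (hl : l ≠ 0) (σ : SL(2, ℤ)) : List GL(2, ℝ)⁺ :=
  (List.range l).map (dUp l hl) ++ [sG σ * dLo l hl]

/-- the list of matrices for `ℓ S_ℓ` -/
noncomputable def dlS (σ : SL(2, ℤ)) : List GL(2, ℝ)⁺ := [sG σ]

lemma dlT_mem {l : ℕ} (hl : l ≠ 0) (ho : Odd l) (σ : SL(2, ℤ)) : ∀ g ∈ dlT l hl σ, g ∈ G2 := by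
  intro g hg
  rw [dlT, List.mem_append, List.mem_map, List.mem_singleton] at hg
  rcases hg with ⟨j, _, rfl⟩ | rfl
  · exact dUp_mem hl ho j
  · exact mul_mem (sG_mem_G2 σ) (dLo_mem hl ho)

lemma dlS_mem (σ : SL(2, ℤ)) : ∀ g ∈ dlS σ, g ∈ G2 := by
  intro g hg
  rw [dlS, List.mem_singleton] at hg
  rw [hg]; exact sG_mem_G2 σ

lemma dlT_sum (l : ℕ) (hl : l ≠ 0) (σ : SL(2, ℤ)) (F : X → ℂ) :
    ((dlT l hl σ).map (sl F)).sum =
      (∑ j ∈ Finset.range l, sl F (dUp l hl j)) + sl F (sG σ * dLo l hl) := by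
  rw [dlT, List.map_append, List.sum_append, List.map_map]
  congr 1
  simp

lemma dlS_sum (σ : SL(2, ℤ)) (F : X → ℂ) : ((dlS σ).map (sl F)).sum = sl F (sG σ) := by
  simp [dlS]

open Classical in
/-- **TLB modulo 2** (pure weight `k`). If `F ≡ ∑ c(r) q^r` and `F ∥ σ_ℓ ≡ ∑ c'(r) q^r` modulo
`2 O`, `c` supported on integers, then the sum over the `ℓ + 1` matrices is
`≡ ∑_{r ∈ ℤ} c(ℓ r) q^r + ∑ c'(r/ℓ) q^r`. -/
theorem tlb_cong (hO : ∀ n : ℕ, Odd n → ∀ z : ℂ, z ^ n = 1 → z ∈ O) {k : ℕ} {F : X → ℂ}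
    (hF : F ∈ MO k) {l : ℕ} (hl : l ≠ 0) (ho : Odd l) (σ : SL(2, ℤ)) (c c' : ℚ → ZMod 2)
    (hc : ∀ r, c r ≠ 0 → ∃ n : ℤ, r = n) (h : Cong O F c) (h' : Cong O (sl F (sG σ)) c') :
    Cong O ((dlT l hl σ).map (sl F)).sum
      (fun r => (if ∃ n : ℤ, r = n then c (r * l) else 0) + c' (r / l)) := by
  have hG : sl F (sG σ) ∈ MO k := MO_sl hF (sG_mem_G2 σ)
  rw [dlT_sum, sl_mul_right]
  exact Cong.add (res_mem_PO (sum_up_MO hF hl ho)) (res_mem_PO (MO_sl hG (dLo_mem hl ho)))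
    (cong_up hO hF hl ho c hc h) (cong_lo hG hl ho c' h')

end Crest.Agent.R007.Tlb
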