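import Crest.Agent.R007.Emb1
import Crest.Agent.R007.Tlb3

/-!
# Row 7, node EMB, part Q (helper669): the elements `T_n`, the map `Q`, the Hecke identity.

* `Pn x e j` (`= T_{ℓ^j}` as a polynomial in `x = T_ℓ`, `e = ℓ S_ℓ`), `Tn x e n` (multiplicative);
* `Tn_prime_mul`, `map_Tn`, `Tn_congr`;
* `aM_Tn` : `a_1(T_n F) = a_n(F)`;
* `Qm`, `Qm_T` (Hecke identity), `mkEmbOut`.
-/

set_option autoImplicit false

open scoped MatrixGroups

namespace Crest.Agent.R007.EmbQ

open Crest.NumberTheoryR.HeckeTwoAdic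

section Alg

variable {R S : Type*} [CommRing R] [CommRing S]

/-- `T_{ℓ^j}` as a polynomial in `x = T_ℓ` and `e = ℓ S_ℓ`. -/
def Pn (x e : R) : ℕ → R
  | 0 => 1
  | 1 => x
  | (j + 2) => x * Pn x e (j + 1) - e * Pn x e j

@[simp] theorem Pn_zero (x e : R) : Pn x e 0 = 1 := by simp [Pn]

@[simp] theorem Pn_one (x e : R) : Pn x e 1 = x := by simp [Pn]

theorem Pn_succ (x e : R) (j : ℕ) :
    Pn x e (j + 1) = x * Pn x e j - (if j = 0 then 0 else e * Pn x e (j - 1)) := by
  cases j with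
  | zero => simp
  | succ j => simp [Pn]

theorem map_Pn (f : R →+* S) (x e : R) (j : ℕ) : f (Pn x e j) = Pn (f x) (f e) j := by
  induction j using Nat.strong_induction_on with
  | _ j ih =>
    match j with
    | 0 => simp
    | 1 => simp
    | (j + 2) =>
      rw [Pn, Pn, map_sub, map_mul, map_mul, ih (j + 1) (by omega), ih j (by omega)]

/-- `T_n`. -/
noncomputable def Tn (x e : ℕ → R) (n : ℕ) : R := n.factorization.prod fun p j => Pn (x p) (e p) j

@[simp] theorem Tn_one (x e : ℕ → R) : Tn x e 1 = 1 := by simp [Tn]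

theorem map_Tn (f : R →+* S) (x e : ℕ → R) (n : ℕ) :
    f (Tn x e n) = Tn (fun l => f (x l)) (fun l => f (e l)) n := by
  rw [Tn, Tn, Finsupp.prod, Finsupp.prod, map_prod]
  exact Finset.prod_congr rfl fun p _ => map_Pn f _ _ _

/-- `T_n` depends only on the values of `x`, `e` at the primes dividing `n`. -/
theorem Tn_congr {x e x' e' : ℕ → R} {n : ℕ} (hx : ∀ p, p.Prime → p ∣ n → x p = x' p)
    (he : ∀ p, p.Prime → p ∣ n → e p = e' p) : Tn x e n = Tn x' e' n := by
  rw [Tn, Tn, Finsupp.prod, Finsupp.prod]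
  refine Finset.prod_congr rfl fun p hp => ?_
  have h := Nat.support_factorization n ▸ hp
  rw [hx p (Nat.prime_of_mem_primeFactors h) (Nat.dvd_of_mem_primeFactors h),
    he p (Nat.prime_of_mem_primeFactors h) (Nat.dvd_of_mem_primeFactors h)]

theorem Tn_split (x e : ℕ → R) (n l : ℕ) :
    Tn x e n = Pn (x l) (e l) (n.factorization l) *
      (n.factorization.erase l).prod fun p j => Pn (x p) (e p) j := by
  rw [Tn, ← Finsupp.mul_prod_erase' n.factorization l (fun p j => Pn (x p) (e p) j)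
    fun i => Pn_zero _ _]

theorem Tn_prime_mul (x e : ℕ → R) {l : ℕ} (hl : l.Prime) {n : ℕ} (hn : n ≠ 0) :
    Tn x e (l * n) = x l * Tn x e n - (if l ∣ n then e l * Tn x e (n / l) else 0) := by
  have h1 : (l * n).factorization = Finsupp.single l 1 + n.factorization := by
    rw [Nat.factorization_mul hl.ne_zero hn, hl.factorization]
  have e1 : (l * n).factorization.erase l = n.factorization.erase l := by
    rw [h1, Finsupp.erase_add, Finsupp.erase_single, zero_add]
  have v1 : (l * n).factorization l = n.factorization l + 1 := by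
    rw [h1, Finsupp.add_apply, Finsupp.single_eq_same, add_comm]
  rw [Tn_split x e (l * n) l, Tn_split x e n l, e1, v1, Pn_succ]
  by_cases hd : l ∣ n
  · have h2 : (n / l).factorization = n.factorization - Finsupp.single l 1 := by
      rw [Nat.factorization_div hd, hl.factorization]
    have e2 : (n / l).factorization.erase l = n.factorization.erase l := by
      ext p
      by_cases hp : p = l
      · subst hp; simp
      · rw [Finsupp.erase_ne hp, Finsupp.erase_ne hp, h2, Finsupp.tsub_apply,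
          Finsupp.single_eq_of_ne hp, Nat.sub_zero]
    have v2 : (n / l).factorization l = n.factorization l - 1 := by
      rw [h2, Finsupp.tsub_apply, Finsupp.single_eq_same]
    have v0 : n.factorization l ≠ 0 := by
      have := hl.factorization_pos_of_dvd hn hd
      omega
    rw [if_neg v0, if_pos hd, Tn_split x e (n / l) l, e2, v2]
    ring
  · have v0 : n.factorization l = 0 := Nat.factorization_eq_zero_of_not_dvd hd
    rw [if_pos v0, if_neg hd]
    ring

end Alg

section Coef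

open Crest.Agent.R007.Op Crest.Agent.R007.Emb

variable {N : ℕ} [NeZero N] {T D : ℕ → (i : ℕ) → (MF N i →ₗ[ℂ] MF N i)}

/-- `a_1(T_n F) = a_n(F)` for `n` prime to `2N`. -/
theorem aM_Tn (hT : IsHeckeFamily N T D) {k : ℕ} {A : Type*} [CommRing A] (ι : A →+* EndProd N k)
    (x e : ℕ → A) (hx : ∀ l : ℕ, l.Prime → ¬ l ∣ 2 * N → ι (x l) = gT T k l)
    (he : ∀ l : ℕ, l.Prime → ¬ l ∣ 2 * N → ι (e l) = gS D k l) (n : ℕ) :
    ∀ F : Mix N k, n.Coprime (2 * N) → aM (act (ι (Tn x e n)) F) 1 = aM F n := by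
  induction n using Nat.strong_induction_on with
  | _ n ih =>
    intro F hn
    have hn0 : n ≠ 0 := by
      rintro rfl
      rw [Nat.coprime_zero_left] at hn
      omega
    rcases Nat.lt_or_ge 1 n with h1 | h1
    · set l := n.minFac with hl
      have hlp : l.Prime := Nat.minFac_prime (by omega)
      obtain ⟨m, hm⟩ := Nat.minFac_dvd n
      rw [← hl] at hm
      have hlN : ¬ l ∣ 2 * N := fun hd =>
        hlp.one_lt.ne' (Nat.eq_one_of_dvd_coprimes hn (hl ▸ Nat.minFac_dvd n) hd)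
      have hm0 : m ≠ 0 := by
        rintro h0
        rw [h0, mul_zero] at hm; omega
      have hml : m < n := by
        rw [hm]
        exact lt_mul_of_one_lt_left (by omega) hlp.one_lt
      have hmc : m.Coprime (2 * N) := Nat.Coprime.coprime_dvd_left ⟨l, by rw [mul_comm]; exact hm⟩ hn
      have e0 := aM_gT hT hlp hlN F m
      rw [← hm] at e0
      have h2 := ih m hml (act (gT T k l) F) hmc
      have e1 : Tn x e n = Tn x e m * x l - (if l ∣ m then Tn x e (m / l) * e l else 0) := by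
        conv_lhs => rw [hm]
        rw [Tn_prime_mul x e hlp hm0]
        split_ifs <;> ring
      by_cases hd : l ∣ m
      · have h3 := ih (m / l) (lt_of_le_of_lt (Nat.div_le_self _ _) hml) (act (gS D k l) F)
          (Nat.Coprime.coprime_dvd_left (Nat.div_dvd_of_dvd hd) hmc)
        rw [if_pos hd] at e0 e1
        rw [e1, map_sub, map_mul, map_mul, hx l hlp hlN, he l hlp hlN]
        have e2 : act (ι (Tn x e m) * gT T k l - ι (Tn x e (m / l)) * gS D k l) F =
            act (ι (Tn x e m)) (act (gT T k l) F) - act (ι (Tn x e (m / l))) (act (gS D k l) F) := rfl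
        rw [e2, aM_sub, h2, h3, e0]
        ring
      · rw [if_neg hd] at e0 e1
        rw [e1, sub_zero, map_mul, hx l hlp hlN, act_mul, h2, e0, add_zero]
    · have : n = 1 := by omega
      subst this
      rw [Tn_one, map_one, act_one]

end Coef

section Q

variable {T0 W : Type*} [CommRing T0] [AddCommGroup W] [Module (ZMod 2) W] [Module T0 W]

open Classical in
/-- `Q w = ∑_{(n, 2N) = 1} a(T_n w) q^n`. -/
noncomputable def Qf (N : ℕ) (a : W →ₗ[ZMod 2] ZMod 2) (x e : ℕ → T0) (w : W) (r : ℚ) : ZMod 2 :=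
  if h : ∃ n : ℕ, n.Coprime (2 * N) ∧ r = n then a (Tn x e h.choose • w) else 0

theorem Qf_nat (N : ℕ) (a : W →ₗ[ZMod 2] ZMod 2) (x e : ℕ → T0) (w : W) {n : ℕ}
    (hn : n.Coprime (2 * N)) : Qf N a x e w n = a (Tn x e n • w) := by
  have h : ∃ m : ℕ, m.Coprime (2 * N) ∧ (n : ℚ) = m := ⟨n, hn, rfl⟩
  rw [Qf, dif_pos h]
  have h2 := h.choose_spec.2
  have h3 : h.choose = n := by exact_mod_cast h2.symm
  rw [h3]

theorem Qf_not (N : ℕ) (a : W →ₗ[ZMod 2] ZMod 2) (x e : ℕ → T0) (w : W) {r : ℚ}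
    (h : ∀ n : ℕ, n.Coprime (2 * N) → r ≠ n) : Qf N a x e w r = 0 := by
  rw [Qf, dif_neg]
  rintro ⟨n, h1, h2⟩
  exact h n h1 h2

theorem Qf_ne (N : ℕ) (a : W →ₗ[ZMod 2] ZMod 2) (x e : ℕ → T0) (w : W) {r : ℚ}
    (h : Qf N a x e w r ≠ 0) : ∃ n : ℕ, n.Coprime (2 * N) ∧ r = n := by
  by_contra hc
  push Not at hc
  exact h (Qf_not N a x e w hc)

/-- the map `Q` as an additive homomorphism. -/
noncomputable def Qm (N : ℕ) (a : W →ₗ[ZMod 2] ZMod 2) (x e : ℕ → T0) : W →+ (ℚ → ZMod 2) where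
  toFun w := Qf N a x e w
  map_zero' := by
    funext r
    by_cases h : ∃ n : ℕ, n.Coprime (2 * N) ∧ r = n
    · obtain ⟨n, hn, rfl⟩ := h
      rw [Qf_nat N a x e 0 hn, smul_zero, map_zero, Pi.zero_apply]
    · push Not at h
      rw [Qf_not N a x e 0 h, Pi.zero_apply]
  map_add' w w' := by
    funext r
    by_cases h : ∃ n : ℕ, n.Coprime (2 * N) ∧ r = n
    · obtain ⟨n, hn, rfl⟩ := h
      rw [Pi.add_apply, Qf_nat N a x e _ hn, Qf_nat N a x e _ hn, Qf_nat N a x e _ hn, smul_add,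
        map_add]
    · push Not at h
      rw [Pi.add_apply, Qf_not N a x e _ h, Qf_not N a x e _ h, Qf_not N a x e _ h, add_zero]

theorem Qm_apply (N : ℕ) (a : W →ₗ[ZMod 2] ZMod 2) (x e : ℕ → T0) (w : W) :
    Qm N a x e w = Qf N a x e w := rfl

theorem Qm_nat (N : ℕ) (a : W →ₗ[ZMod 2] ZMod 2) (x e : ℕ → T0) (w : W) {n : ℕ}
    (hn : n.Coprime (2 * N)) : Qm N a x e w n = a (Tn x e n • w) := Qf_nat N a x e w hn

theorem Qm_not (N : ℕ) (a : W →ₗ[ZMod 2] ZMod 2) (x e : ℕ → T0) (w : W) {r : ℚ}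
    (h : ∀ n : ℕ, n.Coprime (2 * N) → r ≠ n) : Qm N a x e w r = 0 := Qf_not N a x e w h

theorem not_coprime_zero (N : ℕ) : ¬ (0 : ℕ).Coprime (2 * N) := by
  rw [Nat.coprime_zero_left]; omega

theorem Qm_zero (N : ℕ) (a : W →ₗ[ZMod 2] ZMod 2) (x e : ℕ → T0) (w : W) :
    Qm N a x e w 0 = 0 := by
  refine Qf_not N a x e w fun n hn h0 => ?_
  have : n = 0 := by exact_mod_cast h0.symm
  exact not_coprime_zero N (this ▸ hn)

theorem Qm_one (N : ℕ) (a : W →ₗ[ZMod 2] ZMod 2) (x e : ℕ → T0) (w : W) :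
    Qm N a x e w 1 = a w := by
  have := Qf_nat N a x e w (Nat.coprime_one_left (2 * N))
  rw [Tn_one, one_smul, Nat.cast_one] at this
  exact this

open Classical in
/-- **The Hecke identity.** -/
theorem Qm_T (N : ℕ) (a : W →ₗ[ZMod 2] ZMod 2) (x e : ℕ → T0) (w : W) {l : ℕ} (hl : l.Prime)
    (hlN : ¬ l ∣ 2 * N) (r : ℚ) :
    Qm N a x e (x l • w) r =
      (if ∃ n : ℤ, r = n then Qm N a x e w (r * l) else 0) + Qm N a x e (e l • w) (r / l) := by
  have hl0 : (l : ℚ) ≠ 0 := by exact_mod_cast hl.ne_zero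
  have hlc : l.Coprime (2 * N) := (Nat.Prime.coprime_iff_not_dvd hl).2 hlN
  by_cases h : ∃ n : ℕ, n.Coprime (2 * N) ∧ r = n
  · obtain ⟨n, hn, rfl⟩ := h
    have hn0 : n ≠ 0 := by
      rintro rfl; exact not_coprime_zero N hn
    rw [if_pos ⟨(n : ℤ), by push_cast; rfl⟩, Qm_nat N a x e _ hn]
    have e1 : (n : ℚ) * l = ((l * n : ℕ) : ℚ) := by push_cast; ring
    have hc2 : (l * n).Coprime (2 * N) := Nat.Coprime.mul_left hlc hn
    rw [e1, Qm_nat N a x e _ hc2, Tn_prime_mul x e hl hn0]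
    by_cases hd : l ∣ n
    · obtain ⟨m, rfl⟩ := hd
      have hmc : m.Coprime (2 * N) := Nat.Coprime.coprime_dvd_left ⟨l, mul_comm _ _⟩ hn
      have e2 : ((l * m : ℕ) : ℚ) / l = (m : ℚ) := by
        push_cast; field_simp
      rw [e2, Qm_nat N a x e _ hmc, if_pos ⟨m, rfl⟩, Nat.mul_div_cancel_left _ hl.pos, sub_smul,
        map_sub, smul_smul, smul_smul, mul_comm (x l), mul_comm (e l)]
      ring
    · rw [if_neg hd, sub_zero]
      have e2 : Qm N a x e (e l • w) ((n : ℚ) / l) = 0 := by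
        refine Qm_not N a x e _ fun m hm hmn => ?_
        rw [div_eq_iff hl0] at hmn
        exact hd ⟨m, by rw [mul_comm]; exact_mod_cast hmn⟩
      rw [e2, add_zero, smul_smul, mul_comm (x l)]
  · push Not at h
    rw [Qm_not N a x e _ h]
    have e2 : Qm N a x e (e l • w) (r / l) = 0 := by
      refine Qm_not N a x e _ fun m hm hmn => ?_
      rw [div_eq_iff hl0] at hmn
      refine h (m * l) (Nat.Coprime.mul_left hm hlc) ?_
      rw [hmn]; push_cast; ring
    rw [e2, add_zero]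
    split_ifs with h1
    · obtain ⟨n, rfl⟩ := h1
      symm
      refine Qm_not N a x e _ fun m hm hmn => ?_
      have h2 : n * (l : ℤ) = (m : ℤ) := by exact_mod_cast hmn
      have hn0 : 0 ≤ n := by
        by_contra hneg
        push Not at hneg
        have h3 : (0 : ℤ) < l := by exact_mod_cast hl.pos
        have h4 : n * (l : ℤ) < 0 := mul_neg_of_neg_of_pos hneg h3
        have h5 : (0 : ℤ) ≤ m := Int.natCast_nonneg m
        omega
      obtain ⟨n', rfl⟩ := Int.eq_ofNat_of_zero_le hn0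
      have h3 : n' * l = m := by exact_mod_cast h2
      refine h n' (Nat.Coprime.coprime_dvd_left ⟨l, h3.symm⟩ hm) ?_
      push_cast; rfl
    · rfl

end Q

section Out

open Crest.Agent.R007.Lat Crest.Agent.R007.Link Crest.Agent.R007.Tlb

variable {T0 W : Type*} [CommRing T0] [Algebra (ZMod 2) T0] [AddCommGroup W]
  [Module (ZMod 2) W] [Module T0 W]

/-- the index set of the generators: `(ℓ, true)` is `T_ℓ`, `(ℓ, false)` is `ℓ S_ℓ`. -/
abbrev Gen (N : ℕ) : Type := {l : ℕ // l.Prime ∧ ¬ l ∣ 2 * N} × Bool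

/-- the generators. -/
def gen {N : ℕ} (x e : ℕ → T0) : Gen N → T0 := fun i => if i.2 then x i.1.1 else e i.1.1

/-- the matrices. -/
noncomputable def hk {N : ℕ} (s : ℕ → SL(2, ℤ)) : Gen N → List GL(2, ℝ)⁺ := fun i =>
  if i.2 then dlT i.1.1 i.1.2.1.ne_zero (s i.1.1) else dlS (s i.1.1)

theorem odd_of_not_dvd {N l : ℕ} (hl : l.Prime) (hlN : ¬ l ∣ 2 * N) : Odd l := by
  rcases hl.eq_two_or_odd' with rfl | h
  · exact absurd (dvd_mul_right 2 N) hlN
  · exact h

/-- **The output of EMB**, from the existence of the forms (`surj`) and the diamond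
operators (`dia`). -/
noncomputable def mkEmbOut (O : Subring ℂ) (M N : ℕ)
    (hO : ∀ n : ℕ, Odd n → ∀ z : ℂ, z ^ n = 1 → z ∈ O)
    (a : W →ₗ[ZMod 2] ZMod 2) (x e : ℕ → T0) (s : ℕ → SL(2, ℤ))
    (surj : ∀ w : W, ∃ k, ∃ F ∈ LL O k, F ∈ MX M k ∧ Cong O F (Qm N a x e w))
    (dia : ∀ l : ℕ, l.Prime → ¬ l ∣ 2 * N → ∀ (w : W) (k : ℕ) (F : Lat.X → ℂ), F ∈ LL O k →
      F ∈ MX M k → Cong O F (Qm N a x e w) → Cong O (sl F (sG (s l))) (Qm N a x e (e l • w))) :
    EmbOut O M (gen (N := N) x e) a where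
  Q := Qm N a x e
  Q_zero := Qm_zero N a x e
  Q_one := Qm_one N a x e
  surj := surj
  hk := hk s
  hk_mem := by
    rintro ⟨⟨l, hl, hlN⟩, b⟩ g hg
    cases b with
    | true => exact dlT_mem hl.ne_zero (odd_of_not_dvd hl hlN) (s l) g hg
    | false => exact dlS_mem (s l) g hg
  hecke := by
    classical
    rintro ⟨⟨l, hl, hlN⟩, b⟩ w k F hF hFM hc
    have hd := dia l hl hlN w k F hF hFM hc
    cases b with
    | true =>
      have h1 := tlb_cong hO (LL_MO hF) hl.ne_zero (odd_of_not_dvd hl hlN) (s l) _ _ (by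
        intro r hr
        obtain ⟨n, _, rfl⟩ := Qf_ne N a x e w hr
        exact ⟨n, by push_cast; rfl⟩) hc hd
      change Cong O ((dlT l hl.ne_zero (s l)).map (sl F)).sum (Qm N a x e (x l • w))
      have h2 : Qm N a x e (x l • w) = fun r : ℚ =>
          (if ∃ n : ℤ, r = n then Qm N a x e w (r * l) else 0) + Qm N a x e (e l • w) (r / l) :=
        funext fun r => Qm_T N a x e w hl hlN r
      rw [h2]
      exact h1
    | false =>
      change Cong O ((dlS (s l)).map (sl F)).sum (Qm N a x e (e l • w))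
      rw [dlS_sum]
      exact hd

end Out

end Crest.Agent.R007.EmbQ
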