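import Crest.Agent.R007.Emb3
import Crest.Agent.R007.EmbQ

/-!
# Row 7, node EMB, part Q2 (helper669): the Hecke identity for `Qf φ`, `hecke_T`.
-/

set_option autoImplicit false

open scoped MatrixGroups

namespace Crest.Agent.R007.EmbQ

open Crest.NumberTheoryR.HeckeTwoAdic Crest.Agent.R007.Op

/-- helper7's `T_n` agrees with the multiplicative formula in commutative rings. -/
theorem Tn_eq {R : Type*} [CommRing R] (t e : ℕ → R) {n : ℕ} (hn : n ≠ 0) :
    Emb.Tn t e n = Tn t e n := by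
  induction n using Nat.strong_induction_on with
  | _ n ih =>
    rcases Nat.lt_or_ge n 2 with h | h
    · have : n = 1 := by omega
      subst this
      rw [Emb.Tn_one, Tn_one]
    · have hp : n.minFac.Prime := Nat.minFac_prime (by omega)
      have hd : n.minFac ∣ n := Nat.minFac_dvd n
      have h1 : n / n.minFac < n := Nat.div_lt_self (by omega) hp.one_lt
      have h2 : n / n.minFac / n.minFac < n := lt_of_le_of_lt (Nat.div_le_self _ _) h1
      have h10 : n / n.minFac ≠ 0 := (Nat.div_pos (Nat.le_of_dvd (by omega) hd) hp.pos).ne'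
      have e1 : Tn t e n = Tn t e (n.minFac * (n / n.minFac)) := by
        rw [Nat.mul_div_cancel' hd]
      rw [Emb.Tn_of_two_le _ _ h, ih _ h1 h10, e1, Tn_prime_mul t e hp h10]
      by_cases hdd : n.minFac ∣ n / n.minFac
      · have h20 : n / n.minFac / n.minFac ≠ 0 :=
          (Nat.div_pos (Nat.le_of_dvd (Nat.pos_of_ne_zero h10) hdd) hp.pos).ne'
        rw [if_pos hdd, if_pos hdd, ih _ h2 h20]
        ring
      · rw [if_neg hdd, if_neg hdd]
        ring

section

open Crest.Agent.R007.Emb Crest.Agent.R007.Lat Crest.Agent.R007.Link Crest.Agent.R007.Tlb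

variable {N : ℕ} [NeZero N] {T D : ℕ → (i : ℕ) → (MF N i →ₗ[ℂ] MF N i)} {k : ℕ}

omit [NeZero N] in
theorem Qf_of_not (φ : stage N T D k →+ ZMod 2) {r : ℚ}
    (h : ∀ n : ℕ, n.Coprime (2 * N) → r ≠ n) : Emb.Qf φ r = 0 := by
  by_cases h1 : ∃ n : ℕ, (n : ℚ) = r
  · obtain ⟨n, rfl⟩ := h1
    rw [Emb.Qf_nat, if_neg]
    intro hn
    exact h n hn rfl
  · push Not at h1
    exact Emb.Qf_not_nat φ h1

omit [NeZero N] in
theorem Qf_of_coprime (φ : stage N T D k →+ ZMod 2) {n : ℕ} (hn : n.Coprime (2 * N)) :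
    Emb.Qf φ (n : ℚ) = φ (Emb.Tn (tS N T D k) (eS N T D k) n) := by
  rw [Emb.Qf_nat, if_pos hn]

theorem Lift.Qf_mem (hT : IsHeckeFamily N T D) {φ : stage N T D k →+ ZMod 2} {F : Mix N k}
    (h : Lift φ F) {n : ℕ} (hn : n.Coprime (2 * N)) : aM F n - toC (Emb.Qf φ (n : ℚ)) ∈ T2 := by
  rw [Qf_of_coprime φ hn]
  exact h.coef hT hn

open Classical in
/-- **The Hecke identity** for `Qf`. -/
theorem Qf_T (hT : IsHeckeFamily N T D) {φ : stage N T D k →+ ZMod 2} {F : Mix N k}
    (h : Lift φ F) {l : ℕ} (hl : l.Prime) (hlN : ¬ l ∣ 2 * N) (r : ℚ) :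
    Emb.Qf (mulR φ (tS N T D k l)) r =
      (if ∃ n : ℤ, r = n then Emb.Qf φ (r * l) else 0) +
        Emb.Qf (mulR φ (eS N T D k l)) (r / l) := by
  have hl0 : (l : ℚ) ≠ 0 := by exact_mod_cast hl.ne_zero
  have hlc : l.Coprime (2 * N) := (Nat.Prime.coprime_iff_not_dvd hl).2 hlN
  by_cases hr : ∃ n : ℕ, n.Coprime (2 * N) ∧ r = n
  · obtain ⟨n, hn, rfl⟩ := hr
    rw [if_pos ⟨(n : ℤ), by push_cast; rfl⟩]
    have e1 : (n : ℚ) * l = ((l * n : ℕ) : ℚ) := by push_cast; ring
    have hc2 : (l * n).Coprime (2 * N) := Nat.Coprime.mul_left hlc hn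
    have a1 := Lift.Qf_mem hT (h.act (tS N T D k l)) hn
    rw [coe_tS hl hlN, aM_gT hT hl hlN] at a1
    have a2 := Lift.Qf_mem hT h hc2
    rw [e1]
    have key : ∀ x y z : ZMod 2, toC x - toC y - toC z ∈ T2 → x = y + z := by
      intro x y z hxyz
      have b1 := toC_sub x (y + z)
      have b2 := toC_add y z
      have b3 : toC (x - (y + z)) ∈ T2 := by
        have b4 := T2.add_mem b1 hxyz
        have b5 := T2.sub_mem b4 b2
        have e5 : toC (x - (y + z)) - (toC x - toC (y + z)) + (toC x - toC y - toC z) -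
            (toC (y + z) - toC y - toC z) = toC (x - (y + z)) := by ring
        rwa [e5] at b5
      have b6 := eq_zero_of_toC b3
      exact sub_eq_zero.1 b6
    apply key
    by_cases hd : l ∣ n
    · obtain ⟨m, rfl⟩ := hd
      have hmc : m.Coprime (2 * N) := Nat.Coprime.coprime_dvd_left ⟨l, mul_comm _ _⟩ hn
      have e2 : ((l * m : ℕ) : ℚ) / l = (m : ℚ) := by
        push_cast; field_simp
      have a3 := Lift.Qf_mem hT (h.act (eS N T D k l)) hmc
      rw [coe_eS hl hlN] at a3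
      rw [if_pos ⟨m, rfl⟩, Nat.mul_div_cancel_left _ hl.pos] at a1
      rw [e2]
      have a4 := T2.sub_mem (T2.add_mem a2 a3) a1
      refine Eq.mp ?_ a4
      congr 1
      ring
    · rw [if_neg hd, add_zero] at a1
      have e2 : Emb.Qf (mulR φ (eS N T D k l)) ((n : ℚ) / l) = 0 := by
        refine Qf_of_not _ fun m hm hmn => ?_
        rw [div_eq_iff hl0] at hmn
        exact hd ⟨m, by rw [mul_comm]; exact_mod_cast hmn⟩
      rw [e2, toC_zero, sub_zero]
      have a4 := T2.sub_mem a2 a1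
      refine Eq.mp ?_ a4
      congr 1
      ring
  · push Not at hr
    rw [Qf_of_not _ hr]
    have e2 : Emb.Qf (mulR φ (eS N T D k l)) (r / l) = 0 := by
      refine Qf_of_not _ fun m hm hmn => ?_
      rw [div_eq_iff hl0] at hmn
      refine hr (m * l) (Nat.Coprime.mul_left hm hlc) ?_
      rw [hmn]; push_cast; ring
    rw [e2, add_zero]
    split_ifs with h1
    · obtain ⟨n, rfl⟩ := h1
      symm
      refine Qf_of_not _ fun m hm hmn => ?_
      have h2 : n * (l : ℤ) = (m : ℤ) := by exact_mod_cast hmn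
      have hn0 : 0 ≤ n := by
        by_contra hneg
        push Not at hneg
        have h3 : (0 : ℤ) < l := by exact_mod_cast hl.pos
        have h4 : n * (l : ℤ) < 0 := mul_neg_of_neg_of_pos hneg h3
        have h5 : (0 : ℤ) ≤ m := Int.natCast_nonneg m
        omega
      obtain ⟨n', rfl⟩ := Int.eq_ofNat_of_zero_le hn0
      have h3 : n' * l = m := by exact_mod_cast h2
      refine hr n' (Nat.Coprime.coprime_dvd_left ⟨l, h3.symm⟩ hm) ?_
      push_cast; rfl
    · rfl

/-- **Hecke step.** -/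
theorem hecke_T {O : Subring ℂ} (hO : ∀ n : ℕ, Odd n → ∀ z : ℂ, z ^ n = 1 → z ∈ O)
    (hT : IsHeckeFamily N T D) {φ : stage N T D k →+ ZMod 2} {F : Mix N k}
    (h : Lift φ F) {l : ℕ} (hl : l.Prime) (hlN : ¬ l ∣ 2 * N) {j : ℕ} {f : X → ℂ} (hf : f ∈ MO j)
    (s : SL(2, ℤ)) (hc : Cong O f (Emb.Qf φ))
    (hc' : Cong O (sl f (sG s)) (Emb.Qf (mulR φ (eS N T D k l)))) :
    Cong O ((dlT l hl.ne_zero s).map (sl f)).sum (Emb.Qf (mulR φ (tS N T D k l))) := by
  classical
  have h1 := tlb_cong hO hf hl.ne_zero (odd_of_not_dvd hl hlN) s _ _ (by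
    intro r hr
    by_contra hcon
    push Not at hcon
    refine hr (Emb.Qf_not_nat φ fun n hn => hcon n ?_)
    rw [← hn]; push_cast; rfl) hc hc'
  have h2 : Emb.Qf (mulR φ (tS N T D k l)) = fun r : ℚ =>
      (if ∃ n : ℤ, r = n then Emb.Qf φ (r * l) else 0) +
        Emb.Qf (mulR φ (eS N T D k l)) (r / l) := funext fun r => Qf_T hT h hl hlN r
  rw [h2]
  exact h1

omit [NeZero N] in
/-- comparison of the two `q`-expansions. -/
theorem Qm_eq_Qf {T0 W : Type*} [CommRing T0] [AddCommGroup W] [Module (ZMod 2) W] [Module T0 W]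
    (a : W →ₗ[ZMod 2] ZMod 2) (x e : ℕ → T0) (w : W) (φ : stage N T D k →+ ZMod 2)
    (h : ∀ n : ℕ, n.Coprime (2 * N) →
      a (Tn x e n • w) = φ (Emb.Tn (tS N T D k) (eS N T D k) n)) :
    Qm N a x e w = Emb.Qf φ := by
  funext r
  by_cases hr : ∃ n : ℕ, n.Coprime (2 * N) ∧ r = n
  · obtain ⟨n, hn, rfl⟩ := hr
    rw [Qm_nat N a x e w hn, Qf_of_coprime φ hn, h n hn]
  · push Not at hr
    rw [Qm_not N a x e w hr, Qf_of_not φ hr]

end

end Crest.Agent.R007.EmbQ
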