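import Crest.Agent.R007.Emb6
import Crest.Agent.R007.EmbQ2
import Crest.Agent.R007.EmbDia
import Crest.Agent.R007.Du8
import Crest.Agent.R007.Dep

/-!
# Row 7, node EMB, top (helper669): `Link.EmbOut` from `Emb.Ctx` (helper7) and `Du8` (helper707).
-/

set_option autoImplicit false

open scoped MatrixGroups

namespace Crest.Agent.R007.EmbQ

open Crest.NumberTheoryR.HeckeTwoAdic Crest.Agent.R007.Op Crest.Agent.R007.Lat
  Crest.Agent.R007.Emb Crest.Agent.R007.Link Crest.Agent.R007.Tlb Crest.Agent.R007.Mix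
  Crest.Agent.R007.Coef

theorem Cong_of_CC {F : X → ℂ} {c : ℚ → ZMod 2} (h : CC F c) : Cong OO F c := by
  intro r
  obtain ⟨y, hy, e⟩ := mem_T2.1 (h r)
  exact ⟨y, hy, by rw [toC] at e; linear_combination e⟩

theorem CC_of_Cong {F : X → ℂ} {c : ℚ → ZMod 2} (h : Cong OO F c) : CC F c := by
  intro r
  obtain ⟨y, hy, e⟩ := h r
  exact mem_T2.2 ⟨y, hy, by rw [toC, e]; ring⟩

variable (N : ℕ) [NeZero N]

open Classical in
/-- `T_ℓ` in `TT N`. -/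
noncomputable def xT (l : ℕ) : Du.TT N :=
  if h : l.Prime ∧ ¬ l ∣ 2 * N then Du.tT h.1 h.2 else 0

open Classical in
/-- `ℓ S_ℓ` in `TT N`. -/
noncomputable def eT (l : ℕ) : Du.TT N :=
  if h : l.Prime ∧ ¬ l ∣ 2 * N then Du.tE h.1 h.2 else 0

open Classical in
/-- `T_ℓ` in `A N k`. -/
noncomputable def xA (k l : ℕ) : Du.A N k :=
  if h : l.Prime ∧ ¬ l ∣ 2 * N then Du.gT h.1 h.2 k else 0

open Classical in
/-- `ℓ S_ℓ` in `A N k`. -/
noncomputable def eA (k l : ℕ) : Du.A N k :=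
  if h : l.Prime ∧ ¬ l ∣ 2 * N then Du.gE h.1 h.2 k else 0

theorem pr_xT (k l : ℕ) : Du.pr N k (xT N l) = Du.inc N k (xA N k l) := by
  rw [xT, xA]
  split_ifs with h
  · rfl
  · rw [map_zero, map_zero]

theorem pr_eT (k l : ℕ) : Du.pr N k (eT N l) = Du.inc N k (eA N k l) := by
  rw [eT, eA]
  split_ifs with h
  · rfl
  · rw [map_zero, map_zero]

theorem pr_Tn (k n : ℕ) :
    Du.pr N k (Tn (xT N) (eT N) n) = Du.inc N k (Tn (xA N k) (eA N k) n) := by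
  rw [map_Tn, map_Tn]
  congr 1
  · funext l; exact pr_xT N k l
  · funext l; exact pr_eT N k l

theorem eA_xA (k l : ℕ) :
    Du.eA N k (xA N k l) = tS N (HD.hecke N) (HD.dia N) k l := by
  rw [xA, tS]
  split_ifs with h
  · rfl
  · exact map_zero _

theorem eA_eA (k l : ℕ) :
    Du.eA N k (eA N k l) = eS N (HD.hecke N) (HD.dia N) k l := by
  rw [eA, eS]
  split_ifs with h
  · rfl
  · exact map_zero _

theorem eA_Tn (k : ℕ) {n : ℕ} (hn : n ≠ 0) :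
    Du.eA N k (Tn (xA N k) (eA N k) n) =
      Emb.Tn (tS N (HD.hecke N) (HD.dia N) k) (eS N (HD.hecke N) (HD.dia N) k) n := by
  rw [← Tn_eq _ _ hn]
  have h := Emb.map_Tn ((Du.eA N k : Du.A N k ≃+* stage N (HD.hecke N) (HD.dia N) k) :
    Du.A N k →+* stage N (HD.hecke N) (HD.dia N) k) (xA N k) (eA N k) n
  have h1 : ((Du.eA N k : Du.A N k ≃+* stage N (HD.hecke N) (HD.dia N) k) :
    Du.A N k →+* stage N (HD.hecke N) (HD.dia N) k) (Emb.Tn (xA N k) (eA N k) n) =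
    Du.eA N k (Emb.Tn (xA N k) (eA N k) n) := rfl
  rw [← h1, h]
  exact congrArg₂ (fun x e => Emb.Tn x e n) (funext fun l => eA_xA N k l)
    (funext fun l => eA_eA N k l)

variable {N}

/-- functionals of the stage from functionals of `A N k`. -/
noncomputable def toSt {k : ℕ} (φ : Du.A N k →+ ZMod 2) :
    stage N (HD.hecke N) (HD.dia N) k →+ ZMod 2 :=
  φ.comp ((Du.eA N k).symm : stage N (HD.hecke N) (HD.dia N) k →+ Du.A N k)

theorem toSt_apply {k : ℕ} (φ : Du.A N k →+ ZMod 2) (a : Du.A N k) :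
    toSt φ (Du.eA N k a) = φ a := by
  change φ ((Du.eA N k).symm (Du.eA N k a)) = φ a
  rw [RingEquiv.symm_apply_apply]

theorem toSt_symm {k : ℕ} (φ : Du.A N k →+ ZMod 2) (s : stage N (HD.hecke N) (HD.dia N) k) :
    ∃ a : Du.A N k, s = Du.eA N k a :=
  ⟨(Du.eA N k).symm s, ((Du.eA N k).apply_symm_apply s).symm⟩

section main

variable (c : Du.PP N) (hfin : ∀ k, Module.Finite ℤ_[2] (Du.R N k))

/-- `T_ℓ` in `T0`. -/
noncomputable def x0 (l : ℕ) : Du.T0 c := Du.mk0 c (xT N l)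

/-- `ℓ S_ℓ` in `T0`. -/
noncomputable def e0 (l : ℕ) : Du.T0 c := Du.mk0 c (eT N l)

theorem Tn_T0 (n : ℕ) : Tn (x0 c) (e0 c) n = Du.mk0 c (Tn (xT N) (eT N) n) := by
  rw [map_Tn]; rfl

/-- `φ` represents `w` at stage `k`. -/
def Rp (w : Du.WW c hfin) {k : ℕ} (φ : Du.A N k →+ ZMod 2) : Prop :=
  ∀ (s : Du.A N k) (t : Du.TT N), Du.pr N k t = Du.inc N k s →
    Du.W0.fn w (Du.mk0 c t) = φ s

variable {c hfin}

theorem Rp.a1 {w : Du.WW c hfin} {k : ℕ} {φ : Du.A N k →+ ZMod 2} (h : Rp c hfin w φ)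
    {s : Du.A N k} {t : Du.TT N} (hst : Du.pr N k t = Du.inc N k s) :
    Du.a1 c hfin (Du.mk0 c t • w) = φ s := by
  rw [Du.a1_smul, h s t hst]

theorem Rp.inv {w : Du.WW c hfin} {k : ℕ} {φ : Du.A N k →+ ZMod 2} (h : Rp c hfin w φ)
    {l : ℕ} (hl : l.Prime) (hlN : ¬ l ∣ 2 * N) (h1 : (l : ZMod N) = 1)
    (s : stage N (HD.hecke N) (HD.dia N) k) :
    toSt φ (s * eS N (HD.hecke N) (HD.dia N) k l) = toSt φ s := by
  obtain ⟨a, ha⟩ := toSt_symm φ s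
  rw [ha, ← eA_eA, ← map_mul, toSt_apply, toSt_apply]
  obtain ⟨u, hu, -⟩ := Du.lift_A c k a
  have h2 := h (a * eA N k l) (u * eT N l) (by rw [map_mul, map_mul, hu, pr_eT])
  rw [← h2, ← h a u hu, map_mul, eT, dif_pos ⟨hl, hlN⟩, Du.mk0_tE c hfin hl hlN h1, mul_one]

theorem Rp.Inv {w : Du.WW c hfin} {k : ℕ} {φ : Du.A N k →+ ZMod 2} (h : Rp c hfin w φ) :
    Emb.Inv c.l c.n (toSt φ) :=
  ⟨fun s => h.inv c.hl c.hlN c.lN s, fun s => h.inv c.hn c.hnN c.nN s⟩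

theorem Rp.Qm {w : Du.WW c hfin} {k : ℕ} {φ : Du.A N k →+ ZMod 2} (h : Rp c hfin w φ) :
    Qm N (Du.a1 c hfin) (x0 c) (e0 c) w = Emb.Qf (toSt φ) := by
  refine Qm_eq_Qf _ _ _ w _ fun n hn => ?_
  have hn0 : n ≠ 0 := by
    rintro rfl; exact not_coprime_zero N hn
  rw [Tn_T0, h.a1 (pr_Tn N k n), ← eA_Tn N k hn0, toSt_apply]

theorem Rp.Qm_e {w : Du.WW c hfin} {k : ℕ} {φ : Du.A N k →+ ZMod 2} (h : Rp c hfin w φ) (l : ℕ) :
    EmbQ.Qm N (Du.a1 c hfin) (x0 c) (e0 c) (e0 c l • w) =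
      Emb.Qf (mulR (toSt φ) (eS N (HD.hecke N) (HD.dia N) k l)) := by
  refine Qm_eq_Qf _ _ _ _ _ fun n hn => ?_
  have hn0 : n ≠ 0 := by
    rintro rfl; exact not_coprime_zero N hn
  rw [Tn_T0, smul_smul, e0, ← map_mul,
    h.a1 (s := Tn (xA N k) (eA N k) n * eA N k l) (by rw [map_mul, map_mul, pr_Tn, pr_eT]),
    mulR_apply, ← eA_Tn N k hn0, ← eA_eA, ← map_mul, toSt_apply]

variable (c hfin)

theorem gen_eq : Du.gen0 c = (gen (N := N) (x0 c) (e0 c) : Gen N → Du.T0 c) := by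
  funext i
  obtain ⟨⟨l, hl, hlN⟩, b⟩ := i
  cases b with
  | true =>
    change Du.mk0 c (Du.tT hl hlN) = x0 c l
    rw [x0, xT, dif_pos ⟨hl, hlN⟩]
  | false =>
    change Du.mk0 c (Du.tE hl hlN) = e0 c l
    rw [e0, eT, dif_pos ⟨hl, hlN⟩]

omit [NeZero N] in
/-- a prime not dividing `2N` is prime to `Nrad N`. -/
theorem coprime_Nrad {l : ℕ} (hl : l.Prime) (hlN : ¬ l ∣ 2 * N) : l.Coprime (Nrad N) := by
  have h1 : ¬ l ∣ N := fun h => hlN (Dvd.dvd.mul_left h 2)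
  rw [hl.coprime_iff_not_dvd, Nrad, hl.dvd_mul]
  rintro (h | h)
  · exact h1 h
  · obtain ⟨p, hp, hlp⟩ := (Prime.dvd_finsetProd_iff hl.prime _).1 h
    have h2 := (Nat.prime_dvd_prime_iff_eq hl (Nat.prime_of_mem_primeFactors hp)).1 hlp
    exact h1 (h2 ▸ Nat.dvd_of_mem_primeFactors hp)

open Classical in
/-- the matrices `σ_ℓ ∈ Γ₀(N')`. -/
noncomputable def sig (N' : ℕ) [NeZero N'] (l : ℕ) : SL(2, ℤ) :=
  if h : l.Coprime N' then (Base.exists_gamma N' l h).choose else 1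

theorem sig_spec {N' : ℕ} [NeZero N'] {l : ℕ} (h : l.Coprime N') :
    sig N' l ∈ CongruenceSubgroup.Gamma0 N' ∧ ((sig N' l 1 1 : ℤ) : ZMod N') = l := by
  rw [sig, dif_pos h]
  exact (Base.exists_gamma N' l h).choose_spec

/-- **EMB, top.** The output of EMB from helper7's `Ctx`. -/
noncomputable def embOut {N' M : ℕ} [NeZero N'] [NeZero M]
    {D' : ℕ → (i : ℕ) → (MF N' i →ₗ[ℂ] MF N' i)}
    (hcop : ∀ l : ℕ, l.Prime → ¬ l ∣ 2 * N → l.Coprime N')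
    (H : Ctx N N' M (HD.hecke N) (HD.dia N) D' c.l c.n) :
    EmbOut OO M (Du.gen0 c) (Du.a1 c hfin) :=
  (gen_eq c).symm ▸ mkEmbOut OO M N (fun _ hn _ hz => root_mem hn hz) (Du.a1 c hfin)
    (x0 c) (e0 c) (sig N')
    (fun w => by
      obtain ⟨k, φ, hφ⟩ := Du.exists_stage c hfin w
      have hR : Rp c hfin w φ := hφ
      obtain ⟨K, f, hf, hfM, hc⟩ := H.surj hR.Inv
      exact ⟨K, f, hf, hfM, by rw [hR.Qm]; exact Cong_of_CC hc⟩)
    (fun l hl hlN w K f hf _ hc => by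
      obtain ⟨k, φ, hφ⟩ := Du.exists_stage c hfin w
      have hR : Rp c hfin w φ := hφ
      rw [hR.Qm] at hc
      rw [hR.Qm_e l]
      obtain ⟨h1, h2⟩ := sig_spec (hcop l hl hlN)
      exact Cong_of_CC (H.dia (fun n G hG h c hc => inv_all hG h c hc) hR.Inv hf
        (CC_of_Cong hc) hl hlN h1 h2))

end main

end Crest.Agent.R007.EmbQ
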