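import Crest.Agent.R007.EmbTop1
import Crest.Agent.R007.Emb7
import Crest.Agent.R007.Du8

/-!
# Row 7, node EMB (helper604): `EmbTop`, the instance of `Link.EmbOut` for 707's `T0`, `W0`.
-/

set_option autoImplicit false

namespace Crest.Agent.R007.EmbTop

open Crest.NumberTheoryR.HeckeTwoAdic CongruenceSubgroup
open Crest.Agent.R007.Lat Crest.Agent.R007.Coef Crest.Agent.R007.Op
open scoped MatrixGroups TensorProduct

theorem cong_iff_CC {F : X → ℂ} {c : ℚ → ZMod 2} : Link.Cong OO F c ↔ Emb.CC F c := by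
  constructor
  · intro h r
    obtain ⟨a, ha, e⟩ := h r
    refine Emb.mem_T2.2 ⟨a, ha, ?_⟩
    rw [e, Emb.toC]; ring
  · intro h r
    obtain ⟨a, ha, e⟩ := Emb.mem_T2.1 (h r)
    refine ⟨a, ha, ?_⟩
    rw [← e, Emb.toC]; ring

variable (N : ℕ) [NeZero N]

open Classical in
/-- representatives of the diamonds at level `N rad N` -/
noncomputable def sD (l : ℕ) : SL(2, ℤ) :=
  if h : l.Coprime (Nrad N) then (Base.exists_gamma (Nrad N) l h).choose else 1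

lemma sD_spec {l : ℕ} (h : l.Coprime (Nrad N)) :
    sD N l ∈ Gamma0 (Nrad N) ∧ ((sD N l 1 1 : ℤ) : ZMod (Nrad N)) = l := by
  rw [sD, dif_pos h]
  exact (Base.exists_gamma (Nrad N) l h).choose_spec

lemma coprime_Nrad {l : ℕ} (hl : l.Prime) (hlN : ¬ l ∣ 2 * N) : l.Coprime (Nrad N) := by
  rw [hl.coprime_iff_not_dvd, Nrad]
  intro h
  rcases hl.dvd_mul.1 h with h | h
  · exact hlN (dvd_mul_of_dvd_right h 2)
  · obtain ⟨p, hp, hlp⟩ := (hl.prime.dvd_finsetProd_iff _).1 h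
    exact hlN (dvd_mul_of_dvd_right (hlp.trans (Nat.dvd_of_mem_primeFactors hp)) 2)

/-- **EMB**: the instance of `Link.EmbOut`. -/
theorem embOut (hN : Odd N) (c : Du.PP N) (hfin : ∀ k, Module.Finite ℤ_[2] (Du.R N k)) :
    ∃ (M : ℕ) (_ : NeZero M), 3 ∣ M ∧ Nonempty (Link.EmbOut OO M (Du.gen0 c) (Du.a1 c hfin)) := by
  have hN2 : ¬ 2 ∣ Nrad N := Nrad_odd hN.not_two_dvd_nat
  have hNo : Odd (Nrad N) := Nat.not_even_iff_odd.1 fun h => hN2 h.two_dvd
  have hM : Odd (3 * Nrad N) := Odd.mul (by decide) hNo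
  have : NeZero (3 * Nrad N) := ⟨hM.pos.ne'⟩
  refine ⟨3 * Nrad N, this, dvd_mul_right _ _, ⟨?_⟩⟩
  have H := Emb.exists_ctx hN hM (dvd_mul_right 3 _) (dvd_mul_left (Nrad N) 3) (HD.isDiamondFamily N)
    (HD.isHeckeFamily N) (HD.isDiamondFamily (Nrad N)) c.hl c.hlN c.l8 c.lN c.hn c.hnN c.n4 c.nN
  -- stage functionals
  have hst : ∀ w : Du.WW c hfin, ∃ (k : ℕ) (φ : St N k →+ ZMod 2), Rep (Du.mk0 c) (Du.a1 c hfin) w φ ∧
      Emb.Inv c.l c.n φ := by
    intro w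
    obtain ⟨k, hk⟩ := Du.exists_stage_ge c hfin w
    obtain ⟨φ, hφ⟩ := hk k le_rfl
    have hR : Rep (Du.mk0 c) (Du.a1 c hfin) w (φ.comp (toA N k).toAddMonoidHom) := by
      intro t s hts
      rw [Du.a1_smul]
      exact hφ _ t hts
    refine ⟨k, _, hR, fun s => hR.inv ?_ s, fun s => hR.inv ?_ s⟩
    · rw [eT'_eq N c.hl c.hlN]
      exact Du.mk0_tE c hfin c.hl c.hlN c.lN
    · rw [eT'_eq N c.hn c.hnN]
      exact Du.mk0_tE c hfin c.hn c.hnN c.nN
  have E := EmbQ.mkEmbOut OO (3 * Nrad N) N (fun n hn z hz => root_mem hn hz) (Du.a1 c hfin)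
    (fun l => Du.mk0 c (tT' N l)) (fun l => Du.mk0 c (eT' N l)) (sD N)
    (by
      intro w
      obtain ⟨k, φ, hR, hI⟩ := hst w
      obtain ⟨K, f, hf, hfM, hfc⟩ := H.surj hI
      refine ⟨K, f, hf, hfM, ?_⟩
      rw [hR.Q_eq, cong_iff_CC]
      exact hfc)
    (by
      intro l hl hlN w k F hF hFM hc
      obtain ⟨k', φ, hR, hI⟩ := hst w
      obtain ⟨hs1, hs2⟩ := sD_spec N (coprime_Nrad N hl hlN)
      rw [(hR.mulR l).Q_eq, cong_iff_CC]
      rw [hR.Q_eq, cong_iff_CC] at hc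
      exact H.dia (fun n G hG h c hc => Emb.inv_all hG h c hc) hI hF hc hl hlN hs1 hs2)
  have hg : EmbQ.gen (N := N) (fun l => Du.mk0 c (tT' N l)) (fun l => Du.mk0 c (eT' N l)) =
      Du.gen0 c := by
    funext ⟨⟨l, hl, hlN⟩, b⟩
    cases b with
    | true => exact congrArg (Du.mk0 c) (tT'_eq N hl hlN)
    | false => exact congrArg (Du.mk0 c) (eT'_eq N hl hlN)
  exact hg ▸ E

end Crest.Agent.R007.EmbTop
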