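import Crest.Agent.R007.Emb3
import Crest.Agent.R007.EmbQ
import Crest.Agent.R007.Du3

/-!
# Row 7, node EMB (helper604): `EmbTop1`, the bridge between functionals on `T0` (707), functionals
on the stages (7) and the `Q`-map of 669.
-/

set_option autoImplicit false

namespace Crest.Agent.R007.EmbTop

open Crest.NumberTheoryR.HeckeTwoAdic
open scoped MatrixGroups

/-! ### the two definitions of `T_n` agree -/

theorem Tn_eq {R : Type*} [CommRing R] (x e : ℕ → R) (n : ℕ) (hn : n ≠ 0) :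
    EmbQ.Tn x e n = Emb.Tn x e n := by
  induction n using Nat.strong_induction_on with
  | _ n ih =>
    rcases Nat.lt_or_ge n 2 with h | h
    · have : n = 1 := by omega
      subst this
      rw [EmbQ.Tn_one, Emb.Tn_one]
    · set l := n.minFac with hl
      have hlp : l.Prime := Nat.minFac_prime (by omega)
      obtain ⟨m, hm⟩ := Nat.minFac_dvd n
      rw [← hl] at hm
      have hm0 : m ≠ 0 := by
        rintro rfl
        simp at hm
        omega
      have hml : m < n := by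
        rw [hm]
        exact lt_mul_of_one_lt_left (by omega) hlp.one_lt
      have hdiv : n / l = m := by rw [hm, Nat.mul_div_cancel_left _ hlp.pos]
      rw [Emb.Tn_of_two_le _ _ h, ← hl, hdiv]
      conv_lhs => rw [hm]
      rw [EmbQ.Tn_prime_mul x e hlp hm0, ih m hml hm0]
      by_cases hd : l ∣ m
      · obtain ⟨m', rfl⟩ := hd
        have hm'0 : m' ≠ 0 := by
          rintro rfl
          simp at hm0
        have h1 : l * m' / l = m' := Nat.mul_div_cancel_left _ hlp.pos
        have h2 : m' < n := lt_of_le_of_lt (Nat.le_mul_of_pos_left _ hlp.pos) hml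
        rw [if_pos (Dvd.intro _ rfl), if_pos (Dvd.intro _ rfl), h1, ih m' h2 hm'0]
        ring
      · rw [if_neg hd, if_neg hd]
        ring

variable (N : ℕ) [NeZero N]

/-- the stage of the standard families -/
noncomputable abbrev St (k : ℕ) := stage N (HD.hecke N) (HD.dia N) k

/-- the identity, as a ring homomorphism to 707's commutative ring -/
noncomputable def toA (k : ℕ) : St N k →+* Du.A N k where
  toFun s := s
  map_one' := rfl
  map_zero' := rfl
  map_mul' _ _ := rfl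
  map_add' _ _ := rfl

lemma toA_surjective (k : ℕ) : Function.Surjective (toA N k) := fun a => ⟨a, rfl⟩

open Classical in
/-- `T_l` in `T` -/
noncomputable def tT' (l : ℕ) : Du.TT N :=
  if h : l.Prime ∧ ¬ l ∣ 2 * N then Du.tT h.1 h.2 else 0

open Classical in
/-- `l S_l` in `T` -/
noncomputable def eT' (l : ℕ) : Du.TT N :=
  if h : l.Prime ∧ ¬ l ∣ 2 * N then Du.tE h.1 h.2 else 0

lemma tT'_eq {l : ℕ} (hl : l.Prime) (hN : ¬ l ∣ 2 * N) : tT' N l = Du.tT hl hN := by
  rw [tT', dif_pos ⟨hl, hN⟩]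

lemma eT'_eq {l : ℕ} (hl : l.Prime) (hN : ¬ l ∣ 2 * N) : eT' N l = Du.tE hl hN := by
  rw [eT', dif_pos ⟨hl, hN⟩]

/-- `T_l` in the stage -/
noncomputable abbrev tS (k l : ℕ) : St N k := Emb.tS N (HD.hecke N) (HD.dia N) k l

/-- `l S_l` in the stage -/
noncomputable abbrev eS (k l : ℕ) : St N k := Emb.eS N (HD.hecke N) (HD.dia N) k l

lemma pr_tT' (k l : ℕ) : Du.pr N k (tT' N l) = Du.inc N k (toA N k (tS N k l)) := by
  by_cases h : l.Prime ∧ ¬ l ∣ 2 * N
  · rw [tT'_eq N h.1 h.2, Du.pr_tT]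
    congr 1
    apply Subtype.ext
    exact (Emb.coe_tS (N := N) (T := HD.hecke N) (D := HD.dia N) (k := k) h.1 h.2).symm
  · rw [tT', dif_neg h, tS, Emb.tS, dif_neg h, map_zero, map_zero, map_zero]

lemma pr_eT' (k l : ℕ) : Du.pr N k (eT' N l) = Du.inc N k (toA N k (eS N k l)) := by
  by_cases h : l.Prime ∧ ¬ l ∣ 2 * N
  · rw [eT'_eq N h.1 h.2, Du.pr_tE]
    congr 1
    apply Subtype.ext
    exact (Emb.coe_eS (N := N) (T := HD.hecke N) (D := HD.dia N) (k := k) h.1 h.2).symm
  · rw [eT', dif_neg h, eS, Emb.eS, dif_neg h, map_zero, map_zero, map_zero]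

theorem pr_Tn (k n : ℕ) (hn : n ≠ 0) : Du.pr N k (EmbQ.Tn (tT' N) (eT' N) n) =
    Du.inc N k (toA N k (Emb.Tn (tS N k) (eS N k) n)) := by
  rw [EmbQ.map_Tn, Tn_eq _ _ _ hn]
  have h := Emb.map_Tn ((Du.inc N k).comp (toA N k)) (tS N k) (eS N k) n
  rw [RingHom.comp_apply] at h
  rw [h]
  simp only [pr_tT', pr_eT', RingHom.comp_apply]

/-- every element of the stage lifts to `T` -/
theorem exists_lift (k : ℕ) (s : St N k) : ∃ t : Du.TT N, Du.pr N k t = Du.inc N k (toA N k s) := by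
  have h : (⊤ : Subring (Du.A N k)) ≤ ((Du.pr N k).range).comap (Du.inc N k) := by
    rw [← Du.closure_gens, Subring.closure_le]
    rintro _ ⟨l, hl, hlN, rfl | rfl⟩
    · exact ⟨Du.tT hl hlN, rfl⟩
    · exact ⟨Du.tE hl hlN, rfl⟩
  obtain ⟨t, ht⟩ := h (Subring.mem_top (toA N k s))
  exact ⟨t, ht⟩

/-! ### functionals -/

section Fn

variable {N}
variable {T0 W : Type*} [CommRing T0] [AddCommGroup W]
  [Module (ZMod 2) W] [Module T0 W] (mk : Du.TT N →+* T0) (a : W →ₗ[ZMod 2] ZMod 2)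

/-- `φ` on the stage `k` represents the functional `t ↦ a (t w)` -/
def Rep (w : W) {k : ℕ} (φ : St N k →+ ZMod 2) : Prop :=
  ∀ (t : Du.TT N) (s : St N k), Du.pr N k t = Du.inc N k (toA N k s) → a (mk t • w) = φ s

variable {mk a}

lemma Rep.mulR {w : W} {k : ℕ} {φ : St N k →+ ZMod 2} (h : Rep mk a w φ) (l : ℕ) :
    Rep mk a (mk (eT' N l) • w) (Emb.mulR φ (eS N k l)) := by
  intro t s hts
  rw [smul_smul, ← map_mul, Emb.mulR_apply]
  apply h
  rw [map_mul, hts, pr_eT', map_mul, map_mul]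

lemma Rep.inv {w : W} {k : ℕ} {φ : St N k →+ ZMod 2} (h : Rep mk a w φ) {l : ℕ}
    (hl : mk (eT' N l) = 1) (s : St N k) : φ (s * eS N k l) = φ s := by
  obtain ⟨t, ht⟩ := exists_lift N k s
  have h1 := h.mulR l t s ht
  rw [hl, one_smul, h t s ht, Emb.mulR_apply] at h1
  exact h1.symm

theorem Rep.Q_eq {w : W} {k : ℕ} {φ : St N k →+ ZMod 2} (h : Rep mk a w φ) :
    EmbQ.Qm N a (fun l => mk (tT' N l)) (fun l => mk (eT' N l)) w = Emb.Qf φ := by
  funext r
  by_cases hr : ∃ n : ℕ, (n : ℚ) = r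
  · obtain ⟨n, rfl⟩ := hr
    rw [Emb.Qf_nat]
    split_ifs with hn
    · rw [EmbQ.Qm_nat N a _ _ w hn]
      have hn0 : n ≠ 0 := by
        rintro rfl
        exact EmbQ.not_coprime_zero N hn
      rw [← h _ _ (pr_Tn N k n hn0)]
      rw [EmbQ.map_Tn]
    · apply EmbQ.Qm_not
      intro m hm e
      have : n = m := by exact_mod_cast e
      exact hn (this ▸ hm)
  · push Not at hr
    rw [Emb.Qf_not_nat φ hr]
    apply EmbQ.Qm_not
    intro m _ e
    exact hr m e.symm

end Fn

end Crest.Agent.R007.EmbTop
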