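import Crest.Agent.R007.FRig
import Crest.Agent.R007.FAct

/-!
Row 7, section F (helper507): the multiplications `[c]` (`c` odd) as elements of `𝒢`, and the
smoothness statement: pairs whose reduction is close to some `[c]` act trivially modulo a high power
of `t`.
-/

set_option autoImplicit false

open PowerSeries Crest.LubinTate

namespace Crest.Agent.R007.F

section

variable {A : Type*} [CommRing A]

theorem fgMap_id (Φ : FormalGroup A) : Φ.map (RingHom.id A) = Φ := by
  ext1
  change MvPowerSeries.map (RingHom.id A) Φ.toPowerSeries = Φ.toPowerSeries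
  rw [MvPowerSeries.map_id]
  rfl

end

variable {κ : Type*} [Field κ] [CharP κ 2]

theorem hom_mul (D : FData κ) (c : ℕ) (s : PowerSeries κ →+* PowerSeries κ) (hs : s = RingHom.id _) :
    IsFGHom D.Φ (D.Φ.map s) (mulSeries D.Φ c) := by
  have := D.comm
  subst hs
  rw [fgMap_id]
  exact R227.IsFGHom.mulSeries D.Φ c

theorem unit_mul (D : FData κ) {c : ℕ} (hc : Odd c) :
    IsUnit (coeff 1 (mulSeries D.Φ c)) := by
  rw [R227.coeff_one_mulSeries]
  obtain ⟨k, rfl⟩ := hc
  have h2 : (2 : PowerSeries κ) = 0 := CharTwo.two_eq_zero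
  push_cast
  rw [h2, zero_mul, zero_add]
  exact isUnit_one

/-- the central element `[c]` of `𝒢`, `c` odd -/
noncomputable def cen (D : FData κ) {c : ℕ} (hc : Odd c) : Pr D where
  s := AlgEquiv.refl
  H := mulSeries D.Φ c
  hom := hom_mul D c _ rfl
  unit := unit_mul D hc

theorem cen_red (D : FData κ) {c : ℕ} (hc : Odd c) : (cen D hc).red = mulSeries D.Φ0 c :=
  R227.mulSeries_map _ _ _

/-- pairs whose reduction agrees with `[c]` (`c` odd) below `2^m` act trivially modulo `t^{m+1}` -/
theorem dvd_of_cong (D : FData κ) (p : Pr D) {c : ℕ} (hc : Odd c) {m : ℕ} (hm : 1 ≤ m)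
    (h : ∀ i < 2 ^ m, coeff i p.red = coeff i (mulSeries D.Φ0 c)) (a : PowerSeries κ) :
    X ^ (m + 1) ∣ p.s a - a := by
  have := cont D (s := (p.s : PowerSeries κ →ₐ[κ] PowerSeries κ)) (s' := AlgHom.id κ _) p.hom p.unit
    (hom_mul D c _ rfl) (unit_mul D hc) hm (fun i hi => by
      have h1 := h i hi
      rw [← cen_red D hc] at h1
      simpa only [Pr.red, PowerSeries.coeff_map, cen] using h1) a
  exact this

end Crest.Agent.R007.F
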