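import Crest.Agent.R227.FG2

/-!
Row 7, section F, node F3 (helper2): the endomorphism ring of a commutative formal group law, and for a
formal group of height 2 over a field of characteristic 2 which is invariant under Frobenius: no
2-torsion, `#E/2E ≤ 16`, congruences, and the quaternion relation (Q).

Multiplication is in DIAGRAMMATIC order: `(φ * ψ)(z) = ψ (φ (z))`.
-/

set_option autoImplicit false
set_option linter.unusedSectionVars false

open PowerSeries Crest.LubinTate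

namespace Crest.Agent.R007.F

theorem endfg_coeff_one_subst {R : Type*} [CommRing R] {φ ψ : PowerSeries R}
    (hφ : constantCoeff φ = 0) : coeff 1 (subst φ ψ) = coeff 1 φ * coeff 1 ψ := by
  have hs : HasSubst φ := HasSubst.of_constantCoeff_zero' hφ
  have hcc : ∀ θ : PowerSeries R, constantCoeff (subst φ θ) = constantCoeff θ := by
    intro θ
    have h2 : θ = C (constantCoeff θ) + (θ - C (constantCoeff θ)) := by ring
    have h4 : constantCoeff (subst φ (θ - C (constantCoeff θ))) = 0 :=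
      R227.constantCoeff_psubst hφ (by simp)
    have h5 : subst φ (C (constantCoeff θ)) = C (constantCoeff θ) := subst_C _
    conv_lhs => rw [h2]
    rw [subst_add hs, map_add, h4, add_zero, h5, constantCoeff_C]
  have hψ : ψ = C (constantCoeff ψ) + X * mk (fun m => coeff (m + 1) ψ) := by
    ext m
    rcases m with _ | m
    · simp
    · rw [map_add, coeff_succ_X_mul, coeff_mk, coeff_C]
      simp
  have h1 : subst φ ψ = C (constantCoeff ψ) + φ * subst φ (mk (fun m => coeff (m + 1) ψ)) := by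
    conv_lhs => rw [hψ]
    rw [subst_add hs, subst_mul hs, subst_X hs]
    congr 1
    exact subst_C _
  rw [h1, map_add, coeff_mul, Finset.Nat.antidiagonal_succ]
  have hc := hcc (mk (fun m => coeff (m + 1) ψ))
  rw [← coeff_zero_eq_constantCoeff_apply, ← coeff_zero_eq_constantCoeff_apply, coeff_mk] at hc
  simp [hφ, hc]

section
variable {A : Type*} [Ring A] {S W v : A}

theorem endfg_quat1 (hWS : W * S = S * (W * W)) (hvS : v * S = S * v) (hvW : v * W = W * v)
    (hW3 : W * W * W = 1) (hW2 : W * W = -W - 1) (h2 : (2:A) = S * (S * v)) :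
    (W * S * v) * S - S * (W * S * v) = 2 * (2 * W + 1) := by
  have hWS' : ∀ x, W * (S * x) = S * (W * (W * x)) := fun x => by
    rw [← mul_assoc, hWS]; simp only [mul_assoc]
  have hvS' : ∀ x, v * (S * x) = S * (v * x) := fun x => by
    rw [← mul_assoc, hvS]; simp only [mul_assoc]
  have hvW' : ∀ x, v * (W * x) = W * (v * x) := fun x => by
    rw [← mul_assoc, hvW]; simp only [mul_assoc]
  have hW3' : ∀ x, W * (W * (W * x)) = x := fun x => by
    rw [← mul_assoc, ← mul_assoc, hW3, one_mul]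
  have hW2' : ∀ x, W * (W * x) = -(W * x) - x := fun x => by
    rw [← mul_assoc, hW2, sub_mul, neg_mul, one_mul]
  have e1 : (W * S * v) * S = S * (S * (W * v)) := by
    simp only [mul_assoc, hWS', hvS, hW3']
  have e2 : S * (W * S * v) = S * (S * (W * (W * v))) := by
    simp only [mul_assoc, hWS']
  have e3 : (2:A) * W = S * (S * (W * v)) := by
    rw [h2]; simp only [mul_assoc, hvW]
  have e4 : (2:A) * (2 * W + 1) = 2 * (2 * W) + 2 := by rw [mul_add, mul_one]
  rw [e1, e2, hW2', e4, e3]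
  conv_rhs => rw [h2]
  have e5 : S * (S * v) * (S * (S * (W * v))) = S * (S * (W * v)) + S * (S * (W * v)) := by
    rw [← h2, two_mul]
  rw [e5]
  conv_rhs => enter [2]; rw [← h2]
  conv_lhs => enter [2]; rw [mul_sub, mul_sub, ← h2, mul_neg, mul_neg]
  abel

theorem endfg_quat2 (hWS : W * S = S * (W * W)) (hW2 : W * W = -W - 1) {b : A} (hb : b * W = W * b) :
    W * (S * (4 * (b * (2 * W + 1)))) - S * (4 * (b * (2 * W + 1))) * W = 12 * (S * b) := by
  have hWS' : ∀ x, W * (S * x) = S * (W * (W * x)) := fun x => by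
    rw [← mul_assoc, hWS]; simp only [mul_assoc]
  have hW2' : ∀ x, W * (W * x) = -(W * x) - x := fun x => by
    rw [← mul_assoc, hW2, sub_mul, neg_mul, one_mul]
  have hb' : ∀ x, b * (W * x) = W * (b * x) := fun x => by
    rw [← mul_assoc, hb, mul_assoc]
  have e1 : b * (2 * W + 1) = 2 * (W * b) + b := by rw [mul_add, mul_one, ← hb]; noncomm_ring
  rw [e1, hWS', hW2']
  have e2 : W * (4 * (2 * (W * b) + b)) = 8 * (W * (W * b)) + 4 * (W * b) := by noncomm_ring
  have e3 : S * (4 * (2 * (W * b) + b)) * W = S * (8 * (W * (W * b)) + 4 * (W * b)) := by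
    have : (4 * (2 * (W * b) + b)) * W = 8 * (W * (b * W)) + 4 * (b * W) := by noncomm_ring
    rw [mul_assoc, this, hb]
  rw [e2, e3, hW2']
  noncomm_ring
end
section
variable {A : Type*} [Ring A] {S W v : A}

/-- the relation (Q) -/
theorem endfg_quatQ (hWS : W * S = S * (W * W)) (hvS : v * S = S * v) (hvW : v * W = W * v)
    (hW3 : W * W * W = 1) (hW2 : W * W = -W - 1) (h2 : (2:A) = S * (S * v))
    {a b z : A} (ha : ∃ a0 a1 : ℤ, a = a0 + a1 * W) (hb : ∃ b0 b1 : ℤ, b = b0 + b1 * W) :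
    ∃ c : ℤ, ∃ l : List (A × A), ∃ w : A, (2:A) ^ 2 * (a + S * b + 2 * z) =
      c + (l.map fun p => p.1 * p.2 - p.2 * p.1).sum + 2 ^ 3 * w := by
  obtain ⟨a0, a1, rfl⟩ := ha
  have hbW : b * W = W * b := by
    obtain ⟨b0, b1, rfl⟩ := hb
    exact ((Int.cast_commute b0 W).add_left
      ((Int.cast_commute b1 W).mul_left (Commute.refl W))).eq
  refine ⟨4 * a0 - 2 * a1, [((a1 : A) * (W * S * v), S), (W, S * (4 * (b * (2 * W + 1))))],
    z - S * b, ?_⟩
  have h1 := endfg_quat1 hWS hvS hvW hW3 hW2 h2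
  have h3 := endfg_quat2 hWS hW2 hbW
  have h4 : (a1 : A) * (W * S * v) * S - S * ((a1 : A) * (W * S * v)) =
      a1 * (2 * (2 * W + 1)) := by
    rw [← h1, mul_sub, mul_assoc (a1 : A), ← mul_assoc S (a1 : A), ← Int.cast_comm a1 S,
      mul_assoc (a1 : A) S]
  simp only [List.map_cons, List.map_nil, List.sum_cons, List.sum_nil, add_zero]
  rw [h4, h3]
  push_cast
  have h5 : (2:A) * a1 = a1 * 2 := by noncomm_ring
  noncomm_ring
end

section ring

variable {R : Type*} [CommRing R]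

/-- endomorphisms of a formal group law -/
@[ext]
structure EndFG (Φ : FormalGroup R) where
  val : PowerSeries R
  hom : IsFGHom Φ Φ val

namespace EndFG

variable {Φ : FormalGroup R}

theorem cc (a : EndFG Φ) : constantCoeff a.val = 0 := a.hom.1

noncomputable instance : Zero (EndFG Φ) := ⟨⟨0, R227.IsFGHom.zero Φ Φ⟩⟩
noncomputable instance : One (EndFG Φ) := ⟨⟨X, R227.IsFGHom.id Φ⟩⟩
noncomputable instance : Mul (EndFG Φ) :=
  ⟨fun a b => ⟨subst a.val b.val, R227.IsFGHom.comp a.hom b.hom⟩⟩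

theorem zero_val : (0 : EndFG Φ).val = 0 := rfl
theorem one_val : (1 : EndFG Φ).val = X := rfl
theorem mul_val (a b : EndFG Φ) : (a * b).val = subst a.val b.val := rfl

variable [Φ.IsComm]

noncomputable instance : Add (EndFG Φ) :=
  ⟨fun a b => ⟨R227.fadd Φ a.val b.val, R227.IsFGHom.fadd a.hom b.hom⟩⟩
noncomputable instance : Neg (EndFG Φ) := ⟨fun a => ⟨R227.fneg Φ a.val, R227.IsFGHom.fneg a.hom⟩⟩

theorem add_val (a b : EndFG Φ) : (a + b).val = R227.fadd Φ a.val b.val := rfl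
theorem neg_val (a : EndFG Φ) : (-a).val = R227.fneg Φ a.val := rfl

noncomputable instance : Ring (EndFG Φ) where
  add_assoc a b c := EndFG.ext (R227.fadd_assoc Φ a.val b.val c.val a.cc b.cc c.cc)
  zero_add a := EndFG.ext (R227.zero_fadd Φ a.val a.cc)
  add_zero a := EndFG.ext (R227.fadd_zero Φ a.val a.cc)
  nsmul := nsmulRec
  zsmul := zsmulRec
  neg_add_cancel a := EndFG.ext (R227.fneg_fadd Φ a.val a.cc)
  add_comm a b := EndFG.ext (R227.fadd_comm Φ a.val b.val a.cc b.cc)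
  left_distrib a b c := EndFG.ext (R227.psubst_fadd Φ b.val c.val b.cc c.cc a.val a.cc)
  right_distrib a b c := EndFG.ext (R227.IsFGHom.subst_fadd c.hom a.val b.val a.cc b.cc)
  zero_mul a := EndFG.ext (PowerSeries.subst_zero_of_constantCoeff_zero a.cc)
  mul_zero a := EndFG.ext (R227.psubst_zero (τ := Unit) a.val a.cc)
  mul_assoc a b c := EndFG.ext (R227.psubst_psubst' (τ := Unit) a.cc b.cc)
  one_mul a := EndFG.ext (X_subst _)
  mul_one a := EndFG.ext (R227.psubst_X a.cc)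

/-- linear coefficient -/
noncomputable def lc : EndFG Φ →+* R where
  toFun a := coeff 1 a.val
  map_one' := coeff_one_X
  map_zero' := map_zero _
  map_add' a b := R227.coeff_one_fadd Φ a.val b.val a.cc b.cc
  map_mul' a _ := endfg_coeff_one_subst a.cc

theorem lc_apply (a : EndFG Φ) : lc a = coeff 1 a.val := rfl

theorem natCast_val (n : ℕ) : (n : EndFG Φ).val = mulSeries Φ n := by
  induction n with
  | zero => rw [Nat.cast_zero]; rfl
  | succ n ih => rw [Nat.cast_succ, add_val, ih, one_val, R227.mulSeries_succ]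

theorem isUnit_of_lc {a : EndFG Φ} (h : IsUnit (lc a)) : IsUnit a := by
  obtain ⟨ψ, hψ, h1, h2, _⟩ := R227.IsFGHom.exists_inv a.hom h
  exact ⟨⟨a, ⟨ψ, hψ⟩, EndFG.ext h1, EndFG.ext h2⟩, rfl⟩

end EndFG

end ring

section height

variable {κ : Type*} [Field κ]

theorem endfg_expand_two_eq (ψ : PowerSeries κ) :
    expand 2 two_ne_zero ψ = subst (X ^ 2 : PowerSeries κ) ψ := by
  rw [expand_apply]

theorem endfg_subst_Xsq_inj {f g : PowerSeries κ}
    (h : subst (X ^ 2 : PowerSeries κ) f = subst (X ^ 2 : PowerSeries κ) g) : f = g := by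
  rw [← endfg_expand_two_eq, ← endfg_expand_two_eq] at h
  exact R227.expand_inj (τ := Unit) 2 two_ne_zero h

variable [CharP κ 2]

/-- coefficientwise Frobenius -/
theorem endfg_sq_eq (ψ : PowerSeries κ) :
    ψ ^ 2 = subst (X ^ 2 : PowerSeries κ) (ψ.map (frobenius κ 2)) := by
  rw [← endfg_expand_two_eq]
  have h1 := MvPowerSeries.map_frobenius_expand (R := κ) (σ := Unit) 2 two_ne_zero (f := ψ)
  rw [MvPowerSeries.map_expand] at h1
  exact h1.symm

/-- A commutative formal group law over a field of characteristic 2, Frobenius invariant, of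
height 2. -/
structure HtTwo (Φ : FormalGroup κ) : Prop where
  frob : Φ.map (frobenius κ 2) = Φ
  ht : ∃ g : PowerSeries κ, R227.fadd Φ (X : PowerSeries κ) X = expand 2 two_ne_zero g ∧
    coeff 1 g = 0 ∧ coeff 2 g ≠ 0

namespace HtTwo

variable {Φ : FormalGroup κ} (h : HtTwo Φ)

/-- Frobenius -/
noncomputable def S : EndFG Φ := ⟨X ^ 2, by
  have := R227.isFGHom_frob (p := 2) Φ 1
  rwa [iterateFrobenius_one, h.frob, pow_one] at this⟩

theorem S_val : h.S.val = X ^ 2 := rfl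

/-- coefficientwise Frobenius of an endomorphism -/
noncomputable def fr (x : EndFG Φ) : EndFG Φ := ⟨x.val.map (frobenius κ 2), by
  have := R227.IsFGHom.map (frobenius κ 2) x.hom
  rwa [h.frob] at this⟩

theorem fr_val (x : EndFG Φ) : (h.fr x).val = x.val.map (frobenius κ 2) := rfl

theorem mul_S (x : EndFG Φ) : x * h.S = h.S * h.fr x := by
  apply EndFG.ext
  rw [EndFG.mul_val, EndFG.mul_val, S_val, fr_val, ← endfg_sq_eq,
    subst_pow (HasSubst.of_constantCoeff_zero' x.cc), subst_X (HasSubst.of_constantCoeff_zero' x.cc)]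

theorem S_cancel {x y : EndFG Φ} (hxy : h.S * x = h.S * y) : x = y := by
  apply EndFG.ext
  have := congrArg EndFG.val hxy
  rw [EndFG.mul_val, EndFG.mul_val, S_val] at this
  exact endfg_subst_Xsq_inj this

variable [Φ.IsComm]

theorem lc_S : EndFG.lc h.S = 0 := by
  rw [EndFG.lc_apply, S_val, coeff_X_pow]
  simp

theorem lc_fr (x : EndFG Φ) : EndFG.lc (h.fr x) = EndFG.lc x ^ 2 := by
  rw [EndFG.lc_apply, EndFG.lc_apply, fr_val, coeff_map, frobenius_def]

theorem exists_S {x : EndFG Φ} (hx : EndFG.lc x = 0) : ∃ y, x = h.S * y := by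
  obtain ⟨ψ, hψ, h1⟩ := R227.IsFGHom.exists_frob (p := 2) x.hom hx
  rw [h.frob] at hψ
  exact ⟨⟨ψ, hψ⟩, EndFG.ext h1⟩

theorem exists_v : ∃ v : EndFG Φ, EndFG.lc v ≠ 0 ∧ (2 : EndFG Φ) = h.S * (h.S * v) := by
  obtain ⟨g, hg, hg1, hg2⟩ := h.ht
  have h2 : EndFG.lc (2 : EndFG Φ) = 0 := by
    rw [map_ofNat]
    exact CharTwo.two_eq_zero
  obtain ⟨y, hy⟩ := h.exists_S h2
  have hyg : y.val = g := by
    have h3 := congrArg EndFG.val hy
    rw [EndFG.mul_val, S_val] at h3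
    have h4 : (2 : EndFG Φ).val = R227.fadd Φ (X : PowerSeries κ) X := by
      rw [← one_add_one_eq_two]
      rfl
    rw [h4, hg, endfg_expand_two_eq] at h3
    exact (endfg_subst_Xsq_inj h3).symm
  have hy1 : EndFG.lc y = 0 := by rw [EndFG.lc_apply, hyg, hg1]
  obtain ⟨v, hv⟩ := h.exists_S hy1
  refine ⟨v, ?_, by rw [hy, hv]⟩
  have h5 := congrArg EndFG.val hv
  rw [EndFG.mul_val, S_val, hyg, ← endfg_expand_two_eq] at h5
  rw [EndFG.lc_apply]
  intro h6
  apply hg2
  rw [h5, coeff_expand, if_pos (dvd_refl 2)]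
  exact h6

/-- `2 = S S v` -/
noncomputable def v : EndFG Φ := h.exists_v.choose

theorem lc_v : EndFG.lc h.v ≠ 0 := h.exists_v.choose_spec.1

theorem two_eq : (2 : EndFG Φ) = h.S * (h.S * h.v) := h.exists_v.choose_spec.2

theorem isUnit_v : IsUnit h.v := EndFG.isUnit_of_lc (isUnit_iff_ne_zero.2 h.lc_v)

theorem v_mul (x : EndFG Φ) : h.v * x = h.fr (h.fr x) * h.v := by
  apply h.S_cancel
  apply h.S_cancel
  have h1 : (2 : EndFG Φ) * x = x * 2 := (Nat.cast_commute 2 x)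
  rw [h.two_eq] at h1
  calc h.S * (h.S * (h.v * x)) = h.S * (h.S * h.v) * x := by simp only [mul_assoc]
    _ = x * (h.S * (h.S * h.v)) := h1
    _ = (x * h.S) * (h.S * h.v) := by simp only [mul_assoc]
    _ = h.S * (h.fr x * h.S) * h.v := by rw [h.mul_S]; simp only [mul_assoc]
    _ = h.S * (h.S * (h.fr (h.fr x) * h.v)) := by rw [h.mul_S]; simp only [mul_assoc]

include h in
theorem lc_pow (x : EndFG Φ) : EndFG.lc x ^ 4 = EndFG.lc x := by
  have h1 := congrArg EndFG.lc (h.v_mul x)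
  rw [map_mul, map_mul, lc_fr, lc_fr] at h1
  have h2 := h.lc_v
  have h3 : EndFG.lc h.v * EndFG.lc x = EndFG.lc h.v * EndFG.lc x ^ 4 := by
    rw [h1]; ring
  exact (mul_left_cancel₀ h2 h3).symm

include h in
/-- **no 2-torsion** -/
theorem tf (x : EndFG Φ) (hx : 2 * x = 0) : x = 0 := by
  have h1 : h.v * x = 0 := by
    apply h.S_cancel
    apply h.S_cancel
    rw [mul_zero, mul_zero, ← hx, h.two_eq]
    simp only [mul_assoc]
  exact (h.isUnit_v.mul_right_eq_zero).1 h1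

/-- **`1` is not divisible by `2`** -/
theorem one_ne (x : EndFG Φ) : (1 : EndFG Φ) ≠ 2 * x := by
  intro hx
  have h1 := congrArg EndFG.lc hx
  rw [map_one, map_mul, map_ofNat, CharTwo.two_eq_zero, zero_mul] at h1
  exact one_ne_zero h1

/-! ### congruences -/

theorem X_dvd (x : EndFG Φ) : (X : PowerSeries κ) ∣ x.val := X_dvd_iff.2 x.cc

theorem dvd_S_mul {m : ℕ} {x : EndFG Φ} (hx : (X : PowerSeries κ) ^ m ∣ x.val) :
    (X : PowerSeries κ) ^ (2 * m) ∣ (h.S * x).val := by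
  obtain ⟨q, hq⟩ := hx
  have hs : HasSubst (X ^ 2 : PowerSeries κ) := HasSubst.X_pow two_ne_zero
  rw [EndFG.mul_val, S_val, hq, subst_mul hs, subst_pow hs, subst_X hs, ← pow_mul]
  exact dvd_mul_right _ _

theorem dvd_of_S_mul {m : ℕ} {x : EndFG Φ} (hx : (X : PowerSeries κ) ^ (2 * m) ∣ (h.S * x).val) :
    (X : PowerSeries κ) ^ m ∣ x.val := by
  rw [X_pow_dvd_iff] at hx ⊢
  intro i hi
  have h1 := hx (2 * i) (by omega)
  rw [EndFG.mul_val, S_val, ← endfg_expand_two_eq, coeff_expand, if_pos (dvd_mul_right 2 i),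
    Nat.mul_div_cancel_left _ two_pos] at h1
  exact h1

theorem dvd_S_pow_mul (k : ℕ) (x : EndFG Φ) : (X : PowerSeries κ) ^ (2 ^ k) ∣ (h.S ^ k * x).val := by
  induction k generalizing x with
  | zero => rw [pow_zero, pow_zero, pow_one, one_mul]; exact X_dvd x
  | succ k ih =>
    rw [pow_succ' h.S, mul_assoc, pow_succ' 2]
    exact h.dvd_S_mul (ih x)

theorem exists_S_pow (k : ℕ) {x : EndFG Φ} (hx : (X : PowerSeries κ) ^ (2 ^ k) ∣ x.val) :
    ∃ y, x = h.S ^ k * y := by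
  induction k generalizing x with
  | zero => exact ⟨x, by rw [pow_zero, one_mul]⟩
  | succ k ih =>
    have h1 : EndFG.lc x = 0 := by
      rw [EndFG.lc_apply]
      rw [X_pow_dvd_iff] at hx
      exact hx 1 (Nat.one_lt_two_pow (by omega))
    obtain ⟨y, rfl⟩ := h.exists_S h1
    rw [pow_succ' 2] at hx
    obtain ⟨z, rfl⟩ := ih (h.dvd_of_S_mul hx)
    exact ⟨z, by rw [pow_succ' h.S, mul_assoc]⟩

theorem v_comm_S : h.v * h.S = h.S * h.v := by
  have h1 : h.fr h.S = h.S := by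
    apply EndFG.ext
    rw [fr_val, S_val, map_pow, map_X]
  rw [h.v_mul, h1, h1]

theorem two_pow_mul (n : ℕ) (x : EndFG Φ) : (2:EndFG Φ) ^ n * x = h.S ^ (2 * n) * (h.v ^ n * x) := by
  have hc : Commute h.v h.S := h.v_comm_S
  have h2 : (2 : EndFG Φ) = h.S ^ 2 * h.v := by rw [h.two_eq, pow_two, mul_assoc]
  have h3 : (2 : EndFG Φ) ^ n = h.S ^ (2 * n) * h.v ^ n := by
    rw [h2, (hc.symm.pow_left 2).mul_pow, pow_mul]
  rw [h3, mul_assoc]

include h in
theorem dvd_two_pow_mul (n : ℕ) (x : EndFG Φ) :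
    (X : PowerSeries κ) ^ (4 ^ n) ∣ ((2:EndFG Φ) ^ n * x).val := by
  rw [h.two_pow_mul, show (4:ℕ) ^ n = 2 ^ (2 * n) by rw [pow_mul]; norm_num]
  exact h.dvd_S_pow_mul _ _

include h in
theorem exists_two_pow (n : ℕ) {x : EndFG Φ} (hx : (X : PowerSeries κ) ^ (4 ^ n) ∣ x.val) :
    ∃ y, x = (2:EndFG Φ) ^ n * y := by
  rw [show (4:ℕ) ^ n = 2 ^ (2 * n) by rw [pow_mul]; norm_num] at hx
  obtain ⟨y, hy⟩ := h.exists_S_pow _ hx
  obtain ⟨u, hu⟩ := h.isUnit_v.pow n
  refine ⟨(↑u⁻¹ : EndFG Φ) * y, ?_⟩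
  rw [h.two_pow_mul, ← hu, ← mul_assoc (u : EndFG Φ), Units.mul_inv, one_mul, hy]

theorem add_val_sub (x u : EndFG Φ) : ∃ w : PowerSeries κ, IsUnit w ∧
    (x + u).val - x.val = u.val * w := by
  obtain ⟨w, hw, he⟩ := R227.fadd_sub_fadd (τ := Unit) Φ x.val u.val 0 x.cc u.cc (map_zero _)
  refine ⟨w, ?_, ?_⟩
  · rw [PowerSeries.isUnit_iff_constantCoeff]
    have hw' : PowerSeries.constantCoeff (R := κ) w = 1 := hw
    rw [hw']
    exact isUnit_one
  · rw [R227.fadd_zero (τ := Unit) Φ x.val x.cc, sub_zero] at he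
    exact he

include h in
/-- congruent modulo `2^n` implies congruent modulo `z^(4^n)` -/
theorem cong (n : ℕ) {x y z : EndFG Φ} (hx : x = y + 2 ^ n * z) :
    (X : PowerSeries κ) ^ (4 ^ n) ∣ x.val - y.val := by
  obtain ⟨w, _, he⟩ := add_val_sub y (2 ^ n * z)
  rw [hx, he]
  exact (h.dvd_two_pow_mul n z).mul_right w

include h in
/-- congruent modulo `z^(4^n)` implies congruent modulo `2^n` -/
theorem cong' (n : ℕ) {x y : EndFG Φ} (hx : (X : PowerSeries κ) ^ (4 ^ n) ∣ x.val - y.val) :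
    ∃ z, x = y + 2 ^ n * z := by
  obtain ⟨w, hw, he⟩ := add_val_sub y (x - y)
  rw [add_sub_cancel] at he
  rw [he] at hx
  obtain ⟨z, hz⟩ := h.exists_two_pow n (hw.dvd_mul_right.1 hx)
  exact ⟨z, by rw [← hz, add_sub_cancel]⟩

theorem isUnit_odd {c : ℤ} (hc : Odd c) : IsUnit (c : EndFG Φ) := by
  apply EndFG.isUnit_of_lc
  obtain ⟨k, rfl⟩ := hc
  rw [map_intCast]
  push_cast
  rw [CharTwo.two_eq_zero, zero_mul, zero_add]
  exact isUnit_one

end HtTwo

/-! ### the quaternion structure -/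

/-- `z ↦ w z` is an automorphism, `w` a primitive cube root of unity -/
structure HasW (Φ : FormalGroup κ) (w : κ) : Prop where
  eq : w ^ 2 + w + 1 = 0
  hom : IsFGHom Φ Φ (C w * X)

namespace HasW

variable {Φ : FormalGroup κ} {w : κ} (hw : HasW Φ w)

/-- multiplication by `w` -/
noncomputable def W : EndFG Φ := ⟨C w * X, hw.hom⟩

theorem W_val : hw.W.val = C w * X := rfl

theorem mul_W_val (x : EndFG Φ) : (x * hw.W).val = C w * x.val := by
  have hs := HasSubst.of_constantCoeff_zero' x.cc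
  rw [EndFG.mul_val, W_val, subst_mul hs, subst_X hs]
  congr 1
  exact subst_C _

include hw in
theorem w_cube : w * (w * w) = 1 := by
  have := hw.eq
  linear_combination (w - 1) * this

theorem W_cube : hw.W * hw.W * hw.W = 1 := by
  apply EndFG.ext
  rw [mul_W_val, mul_W_val, W_val, EndFG.one_val, ← mul_assoc, ← mul_assoc, ← map_mul, ← map_mul,
    mul_assoc, hw.w_cube, map_one, one_mul]

theorem fr_W (h : HtTwo Φ) : h.fr hw.W = hw.W * hw.W := by
  apply EndFG.ext
  rw [h.fr_val, mul_W_val, W_val, map_mul, map_C, map_X, ← mul_assoc, ← map_mul, frobenius_def,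
    pow_two]

theorem W_mul_S (h : HtTwo Φ) : hw.W * h.S = h.S * (hw.W * hw.W) := by
  rw [h.mul_S, hw.fr_W]

variable [Φ.IsComm]

theorem lc_W : EndFG.lc hw.W = w := by
  rw [EndFG.lc_apply, W_val, coeff_C_mul, coeff_one_X, mul_one]

theorem fr_fr_W (h : HtTwo Φ) : h.fr (h.fr hw.W) = hw.W := by
  apply EndFG.ext
  rw [h.fr_val, h.fr_val, W_val, map_mul, map_C, map_X, map_mul, map_C, map_X, frobenius_def,
    frobenius_def]
  congr 2
  have := hw.w_cube
  calc (w ^ 2) ^ 2 = w * (w * (w * w)) := by ring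
    _ = w := by rw [this, mul_one]

theorem v_comm_W (h : HtTwo Φ) : h.v * hw.W = hw.W * h.v := by
  rw [h.v_mul, hw.fr_fr_W]

theorem W_sq : hw.W * hw.W = -hw.W - 1 := by
  have h1 : (hw.W - 1) * (hw.W * hw.W + hw.W + 1) = 0 := by
    have : (hw.W - 1) * (hw.W * hw.W + hw.W + 1) = hw.W * hw.W * hw.W - 1 := by noncomm_ring
    rw [this, hw.W_cube, sub_self]
  have h2 : IsUnit (hw.W - 1) := by
    apply EndFG.isUnit_of_lc
    rw [map_sub, map_one, lc_W, isUnit_iff_ne_zero]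
    intro h3
    have h4 : w = 1 := sub_eq_zero.1 h3
    have h5 := hw.eq
    rw [h4] at h5
    have h6 : (1:κ) = 0 := by
      have := CharTwo.two_eq_zero (R := κ)
      linear_combination h5 - this
    exact one_ne_zero h6
  have h3 := (h2.mul_right_eq_zero).1 h1
  have h4 : hw.W * hw.W = (hw.W * hw.W + hw.W + 1) - hw.W - 1 := by noncomm_ring
  rw [h4, h3]
  noncomm_ring

/-- digits -/
theorem exists_digit (h : HtTwo Φ) (x : EndFG Φ) :
    ∃ a y : EndFG Φ, (a = 0 ∨ a = 1 ∨ a = hw.W ∨ a = 1 + hw.W) ∧ x = a + h.S * y := by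
  have h1 := h.lc_pow x
  have h2 := CharTwo.two_eq_zero (R := κ)
  have h3 : EndFG.lc x * ((EndFG.lc x - 1) * ((EndFG.lc x - w) * (EndFG.lc x - (1 + w)))) = 0 := by
    set c := EndFG.lc x
    have h4 := hw.eq
    linear_combination h1 + (c ^ 2 - c) * h4 + (-c ^ 3 * w - c ^ 3 + c ^ 2 * w + c ^ 2 - c ^ 2 + c - 0) * h2
  have key : ∀ a : EndFG Φ, EndFG.lc x = EndFG.lc a → ∃ y, x = a + h.S * y := by
    intro a ha
    obtain ⟨y, hy⟩ := h.exists_S (x := x - a) (by rw [map_sub, ha, sub_self])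
    exact ⟨y, by rw [← hy, add_sub_cancel]⟩
  rcases mul_eq_zero.1 h3 with h4 | h4
  · obtain ⟨y, hy⟩ := key 0 (by rw [h4, map_zero])
    exact ⟨0, y, Or.inl rfl, hy⟩
  rcases mul_eq_zero.1 h4 with h4 | h4
  · obtain ⟨y, hy⟩ := key 1 (by rw [sub_eq_zero.1 h4, map_one])
    exact ⟨1, y, Or.inr (Or.inl rfl), hy⟩
  rcases mul_eq_zero.1 h4 with h4 | h4
  · obtain ⟨y, hy⟩ := key hw.W (by rw [sub_eq_zero.1 h4, lc_W])
    exact ⟨hw.W, y, Or.inr (Or.inr (Or.inl rfl)), hy⟩
  · obtain ⟨y, hy⟩ := key (1 + hw.W) (by rw [sub_eq_zero.1 h4, map_add, map_one, lc_W])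
    exact ⟨1 + hw.W, y, Or.inr (Or.inr (Or.inr rfl)), hy⟩

theorem exists_rep (h : HtTwo Φ) (x : EndFG Φ) :
    ∃ a b z : EndFG Φ, (a = 0 ∨ a = 1 ∨ a = hw.W ∨ a = 1 + hw.W) ∧
      (b = 0 ∨ b = 1 ∨ b = hw.W ∨ b = 1 + hw.W) ∧ x = a + h.S * b + 2 * z := by
  obtain ⟨a, y, ha, hx⟩ := hw.exists_digit h x
  obtain ⟨b, y', hb, hy⟩ := hw.exists_digit h y
  obtain ⟨u, hu⟩ := h.isUnit_v
  refine ⟨a, b, (↑u⁻¹ : EndFG Φ) * y', ha, hb, ?_⟩
  have h1 : 2 * ((↑u⁻¹ : EndFG Φ) * y') = h.S * (h.S * y') := by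
    rw [h.two_eq, ← hu]
    simp only [mul_assoc]
    rw [← mul_assoc (u : EndFG Φ), Units.mul_inv, one_mul]
  rw [h1, hx, hy, mul_add, add_assoc]

include hw in
/-- **`#E/2E ≤ 16`** -/
theorem fin (h : HtTwo Φ) : ∃ s : Finset (EndFG Φ), s.card ≤ 16 ∧ ∀ x : EndFG Φ, ∃ y ∈ s, ∃ z,
    x = y + 2 * z := by
  classical
  let A : Finset (EndFG Φ) := {0, 1, hw.W, 1 + hw.W}
  refine ⟨(A ×ˢ A).image fun p => p.1 + h.S * p.2, ?_, fun x => ?_⟩
  · refine Finset.card_image_le.trans ?_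
    rw [Finset.card_product]
    have : A.card ≤ 4 := Finset.card_le_four
    nlinarith
  · obtain ⟨a, b, z, ha, hb, hx⟩ := hw.exists_rep h x
    refine ⟨a + h.S * b, ?_, z, hx⟩
    rw [Finset.mem_image]
    refine ⟨(a, b), ?_, rfl⟩
    rw [Finset.mem_product]
    constructor
    · simp only [A, Finset.mem_insert, Finset.mem_singleton]; exact ha
    · simp only [A, Finset.mem_insert, Finset.mem_singleton]; exact hb

include hw in
/-- **relation (Q)** (with `e = 2`) -/
theorem quat (h : HtTwo Φ) (x : EndFG Φ) : ∃ c : ℤ, ∃ l : List (EndFG Φ × EndFG Φ),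
    ∃ y : EndFG Φ, (2:EndFG Φ) ^ 2 * x =
      c + (l.map fun p => p.1 * p.2 - p.2 * p.1).sum + 2 ^ (2 + 1) * y := by
  obtain ⟨a, b, z, ha, hb, rfl⟩ := hw.exists_rep h x
  have key : ∀ a : EndFG Φ, (a = 0 ∨ a = 1 ∨ a = hw.W ∨ a = 1 + hw.W) →
      ∃ a0 a1 : ℤ, a = a0 + a1 * hw.W := by
    rintro a (rfl | rfl | rfl | rfl)
    · exact ⟨0, 0, by simp⟩
    · exact ⟨1, 0, by simp⟩
    · exact ⟨0, 1, by simp⟩
    · exact ⟨1, 1, by simp⟩
  exact endfg_quatQ (hw.W_mul_S h) h.v_comm_S (hw.v_comm_W h) hw.W_cube hw.W_sq h.two_eq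
    (key a ha) (key b hb)

end HasW

end height

end Crest.Agent.R007.F
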