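import Crest.Agent.R007.FEnd
import Crest.Agent.R007.FTop

/-!
Row 7, section F (helper2): link between `FData`/`Pr` (helper360) and the endomorphism ring of `Φ₀`
(FEnd), the filtration of helper686 and the smoothness of the action on `κ⟦t⟧` (helper507's FCen).
-/

set_option autoImplicit false

open PowerSeries Crest.LubinTate

namespace Crest.Agent.R007.F

variable {κ : Type*} [Field κ] [CharP κ 2]

instance instCommΦ (D : FData κ) : D.Φ.IsComm := D.comm

theorem isComm_map {R S : Type*} [CommRing R] [CommRing S] (Φ : FormalGroup R) [Φ.IsComm]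
    (f : R →+* S) : (Φ.map f).IsComm := by
  apply R227.isComm_of
  have h0 := MvPowerSeries.constantCoeff_X (R := R) (0 : Fin 2)
  have h1 := MvPowerSeries.constantCoeff_X (R := R) (1 : Fin 2)
  have h := congrArg (MvPowerSeries.map f) (R227.fadd_comm Φ _ _ h0 h1)
  rw [R227.map_fadd f Φ _ _ h0 h1, R227.map_fadd f Φ _ _ h1 h0] at h
  simpa using h

instance instCommΦ0 (D : FData κ) : D.Φ0.IsComm := isComm_map D.Φ _

theorem FData.htTwo (D : FData κ) : HtTwo D.Φ0 where
  frob := D.frob
  ht := by
    refine ⟨D.g.map (constantCoeff (R := κ)), ?_, ?_, ?_⟩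
    · have h := congrArg (PowerSeries.map (constantCoeff (R := κ))) D.two
      have h1 := R227.map_fadd (τ := Unit) (constantCoeff (R := κ)) D.Φ
        (X : PowerSeries (PowerSeries κ)) X constantCoeff_X constantCoeff_X
      have h2 : (MvPowerSeries.map (constantCoeff (R := κ)) (X : PowerSeries (PowerSeries κ)) :
          MvPowerSeries Unit κ) = (X : PowerSeries κ) := PowerSeries.map_X _
      rw [h2] at h1
      have h3 : PowerSeries.map (constantCoeff (R := κ)) (expand 2 two_ne_zero D.g) =
          expand 2 two_ne_zero (D.g.map (constantCoeff (R := κ))) :=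
        MvPowerSeries.map_expand (σ := Unit) 2 two_ne_zero (constantCoeff (R := κ)) D.g
      rw [h3] at h
      rw [← h]
      exact h1.symm
    · rw [PowerSeries.coeff_map, D.g_one, constantCoeff_X]
    · rw [PowerSeries.coeff_map]
      exact isUnit_iff_cc.1 D.g_two

/-- reduction modulo `t` as a monoid homomorphism -/
noncomputable def redHom (D : FData κ) : Pr D →* EndFG D.Φ0 where
  toFun p := ⟨p.red, p.red_hom⟩
  map_one' := EndFG.ext Pr.red_one
  map_mul' p q := EndFG.ext (Pr.red_mul p q)

theorem redHom_val (D : FData κ) (p : Pr D) : (redHom D p).val = p.red := rfl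

/-- the data needed by helper507's `sectionF` -/
noncomputable def endData (D : FData κ) {w : κ} (hw : HasW D.Φ0 w) : EndData D (EndFG D.Φ0) where
  io := redHom D
  hone := HtTwo.one_ne
  hfin := hw.fin D.htTwo
  hQ := ⟨2, hw.quat D.htTwo⟩
  near := by
    intro p c _ n _ y h1 i hi
    have h2 := D.htTwo.cong n h1
    rw [EndFG.natCast_val, redHom_val] at h2
    rw [X_pow_dvd_iff] at h2
    have h4 := h2 i hi
    rw [map_sub, sub_eq_zero] at h4
    exact h4

/-- **OUTPUT OF SECTION F** (only hypothesis: `z ↦ w z` is an automorphism of `Φ₀`, `w² + w + 1 = 0`) -/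
theorem sectionF_main (k : Type*) [Field k] [Algebra k κ] (D : FData κ) {w : κ}
    (hw : HasW D.Φ0 w) :
    ∃ (Gam : ℕ → Subgroup (Pr D)) (d : ℕ) (u : Fin d → Gam 0), d ≤ 3 ∧
      (∀ n, (Gam n).Normal) ∧ (∀ n, (Gam n).FiniteIndex) ∧
      (∀ n, ∀ g ∈ Gam 0, ∃ m : ℕ, g ^ (2 ^ m) ∈ Gam n) ∧ Antitone Gam ∧
      (∀ v : KR κ, ∃ n, ∀ g ∈ Gam n, act k D g v = v) ∧
      H.FiltGroup (fun j => (Gam j).subgroupOf (Gam 0)) d u ∧
      (d = 3 → H.H4 (fun j => (Gam j).subgroupOf (Gam 0))) :=
  sectionF k (endData D hw)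

end Crest.Agent.R007.F
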