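import Crest.Agent.R007.FDefs

/-!
Row 7, section F (helper360): rigidity and continuity (F1), (F2) of note 13120 (helper2).

`κ` a field of characteristic 2, `R = κ⟦t⟧`, `Φ` a commutative formal group law over `R` whose
`[2]`-series is `g(z²)`, `g = t w + u w² + …`, `u` a unit.
-/

set_option autoImplicit false

open PowerSeries Crest.LubinTate

namespace Crest.Agent.R007.F

/-! ### substitution and ideals -/

section gen

variable {R : Type*} [CommRing R]

theorem coeff_pow_of_lt {f : PowerSeries R} (hf : constantCoeff f = 0) {i d : ℕ} (h : i < d) :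
    coeff i (f ^ d) = 0 := by
  have h1 : (X : PowerSeries R) ∣ f := by rwa [PowerSeries.X_dvd_iff]
  have h2 : (X : PowerSeries R) ^ d ∣ f ^ d := pow_dvd_pow_of_dvd h1 d
  exact (PowerSeries.X_pow_dvd_iff.1 h2) i h

theorem coeff_subst_range {f : PowerSeries R} (hf : constantCoeff f = 0) (G : PowerSeries R) (i : ℕ) :
    coeff i (subst f G : PowerSeries R) = ∑ d ∈ Finset.range (i + 1), coeff d G * coeff i (f ^ d) := by
  have hs : HasSubst f := HasSubst.of_constantCoeff_zero' hf
  rw [PowerSeries.coeff_subst' hs]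
  rw [finsum_eq_sum_of_support_subset (s := Finset.range (i + 1))]
  · simp only [smul_eq_mul]
  · intro d hd
    rw [Function.mem_support] at hd
    simp only [Finset.coe_range, Set.mem_Iio]
    by_contra hlt
    apply hd
    rw [coeff_pow_of_lt hf (by omega), smul_zero]

/-- series whose coefficients below `n` lie in `I` -/
def J (I : Ideal R) (n : ℕ) : Ideal (PowerSeries R) where
  carrier := {F | ∀ i < n, coeff i F ∈ I}
  add_mem' := fun {a b} ha hb i hi => by
    rw [map_add]; exact I.add_mem (ha i hi) (hb i hi)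
  zero_mem' := fun i _ => by rw [map_zero]; exact I.zero_mem
  smul_mem' := fun c a ha i hi => by
    rw [smul_eq_mul, coeff_mul]
    refine Ideal.sum_mem _ fun x hx => I.mul_mem_left _ (ha _ ?_)
    have := Finset.HasAntidiagonal.mem_antidiagonal.1 hx
    omega

theorem mem_J {I : Ideal R} {n : ℕ} {F : PowerSeries R} : F ∈ J I n ↔ ∀ i < n, coeff i F ∈ I :=
  Iff.rfl

theorem pow_sub_pow_mem {A : Type*} [CommRing A] (I : Ideal A) {a b : A} (h : a - b ∈ I) (d : ℕ) :
    a ^ d - b ^ d ∈ I := by
  obtain ⟨c, hc⟩ := sub_dvd_pow_sub_pow a b d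
  rw [hc]; exact I.mul_mem_right _ h

/-- congruence in the outer series -/
theorem subst_outer {I : Ideal R} {n : ℕ} {f : PowerSeries R} (hf : constantCoeff f = 0)
    {G G' : PowerSeries R} (h : G - G' ∈ J I n) :
    (subst f G : PowerSeries R) - subst f G' ∈ J I n := by
  intro i hi
  rw [map_sub, coeff_subst_range hf, coeff_subst_range hf, ← Finset.sum_sub_distrib]
  refine Ideal.sum_mem _ fun d hd => ?_
  rw [← sub_mul, ← map_sub]
  refine I.mul_mem_right _ (h d ?_)
  have := Finset.mem_range.1 hd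
  omega

/-- congruence in the inner series -/
theorem subst_inner {I : Ideal R} {n : ℕ} {f f' : PowerSeries R} (hf : constantCoeff f = 0)
    (hf' : constantCoeff f' = 0) (G : PowerSeries R) (h : f - f' ∈ J I n) :
    (subst f G : PowerSeries R) - subst f' G ∈ J I n := by
  intro i hi
  rw [map_sub, coeff_subst_range hf, coeff_subst_range hf', ← Finset.sum_sub_distrib]
  refine Ideal.sum_mem _ fun d _ => ?_
  rw [← mul_sub, ← map_sub]
  exact I.mul_mem_left _ (pow_sub_pow_mem (J I n) h d i hi)

/-- the squaring formula in characteristic two: `H(z)² = H^{(2)}(z²)` -/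
theorem sq_eq [CharP R 2] (H : PowerSeries R) :
    H ^ 2 = PowerSeries.expand 2 two_ne_zero (H.map (frobenius R 2)) := by
  rw [← PowerSeries.map_expand]
  exact (MvPowerSeries.map_frobenius_expand 2 two_ne_zero).symm

theorem expand_inj {f g : PowerSeries R}
    (h : PowerSeries.expand 2 two_ne_zero f = PowerSeries.expand 2 two_ne_zero g) : f = g := by
  ext m
  have := congrArg (coeff (2 * m)) h
  rwa [PowerSeries.coeff_expand_mul, PowerSeries.coeff_expand_mul] at this

theorem subst_expand {f : PowerSeries R} (hf : constantCoeff f = 0) (G : PowerSeries R) :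
    (subst (PowerSeries.expand 2 two_ne_zero f) G : PowerSeries R) =
      PowerSeries.expand 2 two_ne_zero (subst f G) := by
  have h2 : HasSubst (X ^ 2 : PowerSeries R) := HasSubst.X_pow two_ne_zero
  rw [PowerSeries.expand_apply, PowerSeries.expand_apply]
  exact (PowerSeries.subst_comp_subst_apply (HasSubst.of_constantCoeff_zero' hf) h2 G).symm

end gen

/-! ### the base ring `κ⟦t⟧` -/

section base

variable {κ : Type*} [Field κ]

local notation "R" => PowerSeries κ

theorem isUnit_iff_cc {a : R} : IsUnit a ↔ constantCoeff a ≠ 0 := by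
  rw [PowerSeries.isUnit_iff_constantCoeff, isUnit_iff_ne_zero]

/-- a `κ`-algebra endomorphism of `κ⟦t⟧` is local -/
theorem X_dvd_map_X (s : R →ₐ[κ] R) : (X : R) ∣ s X := by
  rw [PowerSeries.X_dvd_iff]
  by_contra h
  set c : κ := constantCoeff (s X) with hc
  have h1 : IsUnit ((X : R) - C c) := by
    rw [isUnit_iff_cc, map_sub, constantCoeff_X, constantCoeff_C, zero_sub, neg_ne_zero]
    exact h
  have h2 : IsUnit (s ((X : R) - C c)) := h1.map s
  have h3 : s (C c) = C c := s.commutes c
  rw [isUnit_iff_cc, map_sub, h3, map_sub, constantCoeff_C, ← hc, sub_self] at h2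
  exact h2 rfl

theorem cc_map (s : R →ₐ[κ] R) (a : R) : constantCoeff (s a) = constantCoeff a := by
  obtain ⟨b, hb⟩ : (X : R) ∣ a - C (constantCoeff a) := by
    rw [PowerSeries.X_dvd_iff, map_sub, constantCoeff_C, sub_self]
  have h1 : a = C (constantCoeff a) + X * b := by rw [← hb]; ring
  have h2 : s (C (constantCoeff a)) = C (constantCoeff a) := s.commutes _
  have h3 : constantCoeff (s X) = 0 := by
    rw [← PowerSeries.X_dvd_iff]; exact X_dvd_map_X s
  conv_lhs => rw [h1]
  rw [map_add, map_mul, h2, map_add, map_mul, h3, constantCoeff_C, zero_mul, add_zero]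

theorem exists_trunc (a : R) (m : ℕ) : ∃ (P : Polynomial κ) (b : R), a = (P : R) + X ^ m * b := by
  refine ⟨trunc m a, ?_⟩
  obtain ⟨b, hb⟩ : (X : R) ^ m ∣ a - (trunc m a : R) := by
    rw [PowerSeries.X_pow_dvd_iff]
    intro i hi
    rw [map_sub, Polynomial.coeff_coe, coeff_trunc, if_pos hi, sub_self]
  exact ⟨b, by rw [← hb]; ring⟩

theorem map_coe (s : R →ₐ[κ] R) (P : Polynomial κ) : s (P : R) = Polynomial.aeval (s X) P := by
  have h : (P : R) = Polynomial.aeval (X : R) P := by
    rw [Polynomial.aeval_def, PowerSeries.algebraMap_eq, ← Polynomial.eval₂_C_X_eq_coe]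
  rw [h, Polynomial.aeval_algHom_apply]

/-- two endomorphisms which agree on `t` modulo `t^m` agree modulo `t^m` -/
theorem sub_dvd (s s' : R →ₐ[κ] R) (m : ℕ) (h : (X : R) ^ m ∣ s X - s' X) (a : R) :
    (X : R) ^ m ∣ s a - s' a := by
  obtain ⟨P, b, rfl⟩ := exists_trunc a m
  rw [map_add, map_add, map_mul, map_mul, map_pow, map_pow, map_coe, map_coe]
  have h1 : (X : R) ^ m ∣ Polynomial.aeval (s X) P - Polynomial.aeval (s' X) P := by
    refine h.trans ?_
    have := Polynomial.sub_dvd_eval_sub (s X) (s' X) (P.map (algebraMap κ R))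
    rwa [Polynomial.eval_map_algebraMap, Polynomial.eval_map_algebraMap] at this
  have h2 : (X : R) ^ m ∣ (s X) ^ m * s b := (pow_dvd_pow_of_dvd (X_dvd_map_X s) m).mul_right _
  have h3 : (X : R) ^ m ∣ (s' X) ^ m * s' b := (pow_dvd_pow_of_dvd (X_dvd_map_X s') m).mul_right _
  have : Polynomial.aeval (s X) P + s X ^ m * s b - (Polynomial.aeval (s' X) P + s' X ^ m * s' b) =
      (Polynomial.aeval (s X) P - Polynomial.aeval (s' X) P) + s X ^ m * s b - s' X ^ m * s' b := by
    ring
  rw [this]
  exact dvd_sub (dvd_add h1 h2) h3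

theorem ext_X {s s' : R →ₐ[κ] R} (h : s X = s' X) : s = s' := by
  ext a n
  have := sub_dvd s s' (n + 1) (by rw [h, sub_self]; exact dvd_zero _) a
  have := (PowerSeries.X_pow_dvd_iff.1 this) n (Nat.lt_succ_self n)
  rwa [map_sub, sub_eq_zero] at this

end base

/-! ### (F1) and (F2) -/

section rig

variable {κ : Type*} [Field κ] [CharP κ 2]

local notation "R" => PowerSeries κ

instance : CharP (PowerSeries κ) 2 := charP_of_injective_algebraMap
  (show Function.Injective (algebraMap κ (PowerSeries κ)) from PowerSeries.C_injective) 2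

/-- `H ∘ g = (s g) ∘ H^{(2)}` -/
theorem hom_g (D : FData κ) (s : R →+* R) {H : PowerSeries R}
    (hH : IsFGHom D.Φ (D.Φ.map s) H) :
    (subst D.g H : PowerSeries R) = subst (H.map (frobenius R 2)) (D.g.map s) := by
  have hH0 : constantCoeff H = 0 := hH.1
  have hX0 : MvPowerSeries.constantCoeff (X : PowerSeries R) = 0 := R227.ccPX
  have h1 := R227.IsFGHom.subst_fadd hH (X : PowerSeries R) X hX0 hX0
  have hXs : (subst (X : PowerSeries R) H : PowerSeries R) = H := PowerSeries.X_subst H
  rw [hXs, D.two] at h1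
  have hmap : R227.fadd (D.Φ.map s) (X : PowerSeries R) X =
      PowerSeries.expand 2 two_ne_zero (D.g.map s) := by
    have h3 := R227.map_fadd s D.Φ (X : PowerSeries R) X hX0 hX0
    have h4 : (MvPowerSeries.map s (X : PowerSeries R)) = (X : PowerSeries R) := PowerSeries.map_X s
    rw [h4] at h3
    rw [← h3, D.two]
    exact PowerSeries.map_expand 2 two_ne_zero s D.g
  have h2 : R227.fadd (D.Φ.map s) H H =
      (PowerSeries.expand 2 two_ne_zero (subst (H.map (frobenius R 2)) (D.g.map s)) : PowerSeries R) := by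
    have h5 := R227.psubst_fadd (D.Φ.map s) (X : PowerSeries R) X constantCoeff_X constantCoeff_X H hH0
    have h6 : (subst H (X : PowerSeries R) : PowerSeries R) = H :=
      PowerSeries.subst_X (HasSubst.of_constantCoeff_zero' hH0)
    rw [h6, hmap, PowerSeries.expand_apply] at h5
    rw [← h5]
    have h7 : HasSubst (X ^ 2 : PowerSeries R) := HasSubst.X_pow two_ne_zero
    have h8 := PowerSeries.subst_comp_subst_apply h7 (HasSubst.of_constantCoeff_zero' hH0) (D.g.map s)
    refine h8.trans ?_
    rw [PowerSeries.subst_pow (HasSubst.of_constantCoeff_zero' hH0), h6, sq_eq]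
    refine subst_expand ?_ _
    rw [← PowerSeries.coeff_zero_eq_constantCoeff_apply, PowerSeries.coeff_map,
      PowerSeries.coeff_zero_eq_constantCoeff_apply, hH0, map_zero]
  rw [h2, subst_expand D.g_zero] at h1
  exact expand_inj h1

/-- (F1) `t' h₁ = t` -/
theorem F1 (D : FData κ) (s : R →+* R) {H : PowerSeries R}
    (hH : IsFGHom D.Φ (D.Φ.map s) H) (hu : IsUnit (coeff 1 H)) :
    s X * coeff 1 H = X := by
  have h := congrArg (coeff 1) (hom_g D s hH)
  have h0 : constantCoeff (H.map (frobenius R 2)) = 0 := by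
    rw [← PowerSeries.coeff_zero_eq_constantCoeff_apply, PowerSeries.coeff_map,
      PowerSeries.coeff_zero_eq_constantCoeff_apply, hH.1, map_zero]
  rw [coeff_subst_range D.g_zero, coeff_subst_range h0] at h
  simp only [Finset.sum_range_succ, Finset.sum_range_zero, pow_zero, pow_one, zero_add,
    PowerSeries.coeff_map, D.g_one, frobenius_def] at h
  have h1 : coeff 1 (1 : PowerSeries R) = 0 := by
    rw [PowerSeries.coeff_one, if_neg one_ne_zero]
  rw [h1, mul_zero, mul_zero, zero_add, zero_add] at h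
  obtain ⟨u, hu⟩ := hu
  rw [← hu] at h ⊢
  have h2 : (u : R) * X = (u : R) * (s X * (u : R)) := by rw [h]; ring
  exact (Units.mul_right_inj u).1 h2.symm

theorem exists_bar (D : FData κ) : ∃ v : PowerSeries κ, D.g.map (@constantCoeff κ _) = X ^ 2 * v ∧
    constantCoeff v ≠ 0 := by
  obtain ⟨v, hv⟩ : (X : PowerSeries κ) ^ 2 ∣ D.g.map (@constantCoeff κ _) := by
    rw [PowerSeries.X_pow_dvd_iff]
    intro i hi
    rw [PowerSeries.coeff_map]
    interval_cases i
    · rw [PowerSeries.coeff_zero_eq_constantCoeff_apply, D.g_zero, map_zero]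
    · rw [D.g_one, constantCoeff_X]
  refine ⟨v, hv, ?_⟩
  have h := congrArg (coeff 2) hv
  rw [PowerSeries.coeff_map, PowerSeries.coeff_X_pow_mul', if_pos le_rfl, Nat.sub_self,
    PowerSeries.coeff_zero_eq_constantCoeff_apply] at h
  rw [← h]
  exact isUnit_iff_cc.1 D.g_two

theorem coeff_pow_gt (D : FData κ) {i d : ℕ} (h : i < d) : (X : R) ∣ coeff (2 * i) (D.g ^ d) := by
  obtain ⟨v, hv, -⟩ := exists_bar D
  rw [PowerSeries.X_dvd_iff]
  have h1 := PowerSeries.coeff_map (@constantCoeff κ _) (2 * i) (D.g ^ d)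
  rw [← h1, map_pow, hv, mul_pow, ← pow_mul, PowerSeries.coeff_X_pow_mul', if_neg (by omega)]

theorem coeff_pow_self (D : FData κ) (i : ℕ) : IsUnit (coeff (2 * i) (D.g ^ i)) := by
  obtain ⟨v, hv, hv0⟩ := exists_bar D
  rw [isUnit_iff_cc]
  have h1 := PowerSeries.coeff_map (@constantCoeff κ _) (2 * i) (D.g ^ i)
  rw [← h1, map_pow, hv, mul_pow, ← pow_mul, PowerSeries.coeff_X_pow_mul', if_pos le_rfl,
    Nat.sub_self, PowerSeries.coeff_zero_eq_constantCoeff_apply, map_pow]
  exact pow_ne_zero _ hv0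

theorem descend (D : FData κ) {k n : ℕ} {E : PowerSeries R}
    (hE : ∀ i < n, (X : R) ^ k ∣ coeff i E)
    (hs : ∀ i < n, (X : R) ^ (k + 1) ∣ coeff i (subst D.g E : PowerSeries R)) :
    ∀ i, 2 * i < n → (X : R) ^ (k + 1) ∣ coeff i E := by
  intro i
  induction i using Nat.strong_induction_on with
  | _ i ih =>
    intro hi
    have h1 := hs (2 * i) hi
    rw [coeff_subst_range D.g_zero, ← Finset.add_sum_erase _ _
      (Finset.mem_range.2 (show i < 2 * i + 1 by omega))] at h1
    have h2 : (X : R) ^ (k + 1) ∣ ∑ d ∈ (Finset.range (2 * i + 1)).erase i,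
        coeff d E * coeff (2 * i) (D.g ^ d) := by
      refine Finset.dvd_sum fun d hd => ?_
      rw [Finset.mem_erase, Finset.mem_range] at hd
      rcases lt_or_gt_of_ne hd.1 with hlt | hgt
      · exact (ih d hlt (by omega)).mul_right _
      · rw [pow_succ]
        exact mul_dvd_mul (hE d (by omega)) (coeff_pow_gt D hgt)
    have h3 := (dvd_add_left h2).1 h1
    exact (IsUnit.dvd_mul_right (coeff_pow_self D i)).1 h3

theorem cc_frob {H : PowerSeries R} (h : constantCoeff H = 0) :
    constantCoeff (H.map (frobenius R 2)) = 0 := by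
  rw [← PowerSeries.coeff_zero_eq_constantCoeff_apply, PowerSeries.coeff_map,
    PowerSeries.coeff_zero_eq_constantCoeff_apply, h, map_zero]

/-- one step of (F2) -/
theorem step (D : FData κ) {s s' : R →ₐ[κ] R} {H K : PowerSeries R}
    (hH : IsFGHom D.Φ (D.Φ.map (s : R →+* R)) H) (uH : IsUnit (coeff 1 H))
    (hK : IsFGHom D.Φ (D.Φ.map (s' : R →+* R)) K) (uK : IsUnit (coeff 1 K)) {k n : ℕ}
    (hk : 1 ≤ k) (hn : 2 ≤ n) (h : ∀ i < n, (X : R) ^ k ∣ coeff i H - coeff i K) :
    (X : R) ^ (k + 1) ∣ s X - s' X ∧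
      ∀ i, 2 * i < n → (X : R) ^ (k + 1) ∣ coeff i H - coeff i K := by
  have f1 : s X * coeff 1 H = X := F1 D (s : R →+* R) hH uH
  have f2 : s' X * coeff 1 K = X := F1 D (s' : R →+* R) hK uK
  have hX : (X : R) ^ (k + 1) ∣ s X - s' X := by
    have h1 : (s X - s' X) * coeff 1 H = - (s' X * (coeff 1 H - coeff 1 K)) := by
      linear_combination f1 - f2
    rw [← IsUnit.dvd_mul_right uH, h1, dvd_neg, pow_succ, mul_comm]
    exact mul_dvd_mul (X_dvd_map_X s') (h 1 (by omega))
  refine ⟨hX, ?_⟩
  have e1 := hom_g D (s : R →+* R) hH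
  have e2 := hom_g D (s' : R →+* R) hK
  have cH := cc_frob hH.1
  have cK := cc_frob hK.1
  set I : Ideal R := Ideal.span {(X : R) ^ (k + 1)} with hI
  have m1 : H.map (frobenius R 2) - K.map (frobenius R 2) ∈ J I n := by
    intro i hi
    rw [map_sub, PowerSeries.coeff_map, PowerSeries.coeff_map, ← map_sub, frobenius_def, hI,
      Ideal.mem_span_singleton]
    refine (pow_dvd_pow (X : R) (show k + 1 ≤ k * 2 by omega)).trans ?_
    rw [pow_mul]
    exact pow_dvd_pow_of_dvd (h i hi) 2
  have m2 : D.g.map (s : R →+* R) - D.g.map (s' : R →+* R) ∈ J I n := by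
    intro i _
    rw [map_sub, PowerSeries.coeff_map, PowerSeries.coeff_map, hI, Ideal.mem_span_singleton]
    exact sub_dvd s s' _ hX _
  have m3 := subst_inner cH cK (D.g.map (s : R →+* R)) m1
  have m4 := subst_outer cK m2
  have m5 : (subst D.g (H - K) : PowerSeries R) ∈ J I n := by
    have hsub : (subst D.g (H - K) : PowerSeries R) = subst D.g H - subst D.g K := by
      have hs : HasSubst D.g := HasSubst.of_constantCoeff_zero' D.g_zero
      rw [← PowerSeries.coe_substAlgHom hs, map_sub]
    rw [hsub, e1, e2]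
    have := (J I n).add_mem m3 m4
    have e : (subst (H.map (frobenius R 2)) (D.g.map (s : R →+* R)) : PowerSeries R) -
        subst (K.map (frobenius R 2)) (D.g.map (s : R →+* R)) +
        (subst (K.map (frobenius R 2)) (D.g.map (s : R →+* R)) -
        subst (K.map (frobenius R 2)) (D.g.map (s' : R →+* R))) =
        subst (H.map (frobenius R 2)) (D.g.map (s : R →+* R)) -
        subst (K.map (frobenius R 2)) (D.g.map (s' : R →+* R)) := by ring
    rwa [e] at this
  intro i hi
  have := descend D (k := k) (n := n) (E := H - K) (fun i hi => by rw [map_sub]; exact h i hi)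
    (fun i hi => by
      have := m5 i hi
      rwa [hI, Ideal.mem_span_singleton] at this) i hi
  rwa [map_sub] at this

/-- iterated (F2): start from a congruence modulo `t` below `2^m` -/
theorem cong (D : FData κ) {s s' : R →ₐ[κ] R} {H K : PowerSeries R}
    (hH : IsFGHom D.Φ (D.Φ.map (s : R →+* R)) H) (uH : IsUnit (coeff 1 H))
    (hK : IsFGHom D.Φ (D.Φ.map (s' : R →+* R)) K) (uK : IsUnit (coeff 1 K)) {m : ℕ}
    (h : ∀ i < 2 ^ m, constantCoeff (coeff i H) = constantCoeff (coeff i K)) :
    ∀ j ≤ m, ∀ i < 2 ^ (m - j), (X : R) ^ (j + 1) ∣ coeff i H - coeff i K := by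
  intro j
  induction j with
  | zero =>
    intro _ i hi
    rw [zero_add, pow_one, PowerSeries.X_dvd_iff, map_sub, h i (by simpa using hi), sub_self]
  | succ j ih =>
    intro hj i hi
    have hlt : 2 ^ (m - j) = 2 * 2 ^ (m - (j + 1)) := by
      rw [← pow_succ']; congr 1; omega
    have h1 := ih (by omega)
    refine (step D hH uH hK uK (k := j + 1) (n := 2 ^ (m - j)) (by omega) ?_ h1).2 i (by omega)
    rw [hlt]
    have := Nat.one_le_two_pow (n := m - (j + 1))
    omega

/-- CONTINUITY: agreement modulo `(t, z^{2^m})`, `m ≥ 1`, implies `s = s'` modulo `t^{m+1}` -/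
theorem cont (D : FData κ) {s s' : R →ₐ[κ] R} {H K : PowerSeries R}
    (hH : IsFGHom D.Φ (D.Φ.map (s : R →+* R)) H) (uH : IsUnit (coeff 1 H))
    (hK : IsFGHom D.Φ (D.Φ.map (s' : R →+* R)) K) (uK : IsUnit (coeff 1 K)) {m : ℕ} (hm : 1 ≤ m)
    (h : ∀ i < 2 ^ m, constantCoeff (coeff i H) = constantCoeff (coeff i K)) :
    ∀ a : R, (X : R) ^ (m + 1) ∣ s a - s' a := by
  intro a
  have h1 := cong D hH uH hK uK h (m - 1) (by omega)
  have h2 : m - (m - 1) = 1 := by omega
  rw [h2] at h1
  have h3 := (step D hH uH hK uK (k := m - 1 + 1) (n := 2 ^ 1) (by omega) (by norm_num) h1).1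
  have h4 : m - 1 + 1 + 1 = m + 1 := by omega
  rw [h4] at h3
  exact sub_dvd s s' _ h3 a

theorem eq_zero_of_dvd {a : R} (h : ∀ m : ℕ, (X : R) ^ m ∣ a) : a = 0 := by
  ext n
  rw [(PowerSeries.X_pow_dvd_iff.1 (h (n + 1))) n (Nat.lt_succ_self n), map_zero]

/-- RIGIDITY -/
theorem rigid (D : FData κ) {s s' : R →ₐ[κ] R} {H K : PowerSeries R}
    (hH : IsFGHom D.Φ (D.Φ.map (s : R →+* R)) H) (uH : IsUnit (coeff 1 H))
    (hK : IsFGHom D.Φ (D.Φ.map (s' : R →+* R)) K) (uK : IsUnit (coeff 1 K))
    (h : H.map (@constantCoeff κ _) = K.map (@constantCoeff κ _)) : s = s' ∧ H = K := by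
  have h0 : ∀ i, constantCoeff (coeff i H) = constantCoeff (coeff i K) := by
    intro i
    have := congrArg (coeff i) h
    rwa [PowerSeries.coeff_map, PowerSeries.coeff_map] at this
  constructor
  · apply ext_X
    rw [← sub_eq_zero]
    apply eq_zero_of_dvd
    intro m
    refine (pow_dvd_pow (X : R) (show m ≤ m + 1 + 1 by omega)).trans ?_
    exact cont D hH uH hK uK (m := m + 1) (by omega) (fun i _ => h0 i) X
  · ext1 i
    rw [← sub_eq_zero]
    apply eq_zero_of_dvd
    intro j
    have h1 := cong D hH uH hK uK (m := j + i) (fun i _ => h0 i) j (by omega) i (by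
      rw [Nat.add_sub_cancel_left]; exact Nat.lt_two_pow_self)
    exact (pow_dvd_pow (X : R) (Nat.le_succ j)).trans h1

end rig

end Crest.Agent.R007.F
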