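import Mathlib

/-!
# Row 7, E-FG, file 1: the universal ODE `z' = 1 - a z - 2 b s`, `s' = 3 z² + a s`

(the expansions of `z = -x/y`, `s = -1/y` on `y² + a x y + b y = x³` in the invariant parameter `w`).
-/

set_option autoImplicit false

noncomputable section

namespace Crest.Agent.R007.Fg

open PowerSeries

section defs

variable {K : Type*} [CommRing K] [Algebra ℚ K]

/-- coefficients of the solution -/
def cf (a b : K) : ℕ → K × K
  | 0 => (0, 0)
  | n + 1 =>
    ( (algebraMap ℚ K (1 / ((n : ℚ) + 1))) *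
        ((if n = 0 then 1 else 0) - a * (cf a b n).1 - 2 * b * (cf a b n).2),
      (algebraMap ℚ K (1 / ((n : ℚ) + 1))) *
        (3 * (∑ i : Fin (n + 1), (cf a b i.1).1 * (cf a b (n - i.1)).1) + a * (cf a b n).2) )
  termination_by n => n
  decreasing_by
    all_goals omega

/-- the series `z(w)` -/
def zs (a b : K) : PowerSeries K := PowerSeries.mk fun n => (cf a b n).1

/-- the series `s(w)` -/
def ss (a b : K) : PowerSeries K := PowerSeries.mk fun n => (cf a b n).2

theorem cf_zero (a b : K) : cf a b 0 = (0, 0) := by rw [cf]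

theorem coeff_zs (a b : K) (n : ℕ) : coeff n (zs a b) = (cf a b n).1 := by simp [zs]

theorem coeff_ss (a b : K) (n : ℕ) : coeff n (ss a b) = (cf a b n).2 := by simp [ss]

@[simp] theorem constantCoeff_zs (a b : K) : constantCoeff (zs a b) = 0 := by
  rw [← coeff_zero_eq_constantCoeff_apply, coeff_zs, cf_zero]

@[simp] theorem constantCoeff_ss (a b : K) : constantCoeff (ss a b) = 0 := by
  rw [← coeff_zero_eq_constantCoeff_apply, coeff_ss, cf_zero]

theorem inv_mul (n : ℕ) : (algebraMap ℚ K (1 / ((n : ℚ) + 1))) * ((n : K) + 1) = 1 := by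
  have h : ((n : K) + 1) = algebraMap ℚ K ((n : ℚ) + 1) := by simp
  rw [h, ← map_mul, one_div, inv_mul_cancel₀ (by positivity), map_one]

theorem natInv (n : ℕ) {x y : K} (h : x * ((n : K) + 1) = y) :
    x = algebraMap ℚ K (1 / ((n : ℚ) + 1)) * y := by
  rw [← h]
  calc x = x * ((algebraMap ℚ K (1 / ((n : ℚ) + 1))) * ((n : K) + 1)) := by
        rw [inv_mul, mul_one]
    _ = _ := by ring

/-- the system of differential equations -/
structure IsSol (a b : K) (z s : PowerSeries K) : Prop where
  z0 : constantCoeff z = 0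
  s0 : constantCoeff s = 0
  dz : d⁄dX K z = 1 - C a * z - 2 * C b * s
  ds : d⁄dX K s = 3 * z ^ 2 + C a * s

theorem coeff_rhs_z (a b : K) (z s : PowerSeries K) (n : ℕ) :
    coeff n (1 - C a * z - 2 * C b * s) =
      (if n = 0 then 1 else 0) - a * coeff n z - 2 * b * coeff n s := by
  have : (2 : PowerSeries K) * C b = C (2 * b) := by
    rw [map_mul, map_ofNat]
  rw [this]
  simp only [map_sub, coeff_C_mul, coeff_one]

theorem coeff_rhs_s (a : K) (z s : PowerSeries K) (n : ℕ) :
    coeff n (3 * z ^ 2 + C a * s) =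
      3 * (∑ i : Fin (n + 1), coeff i.1 z * coeff (n - i.1) z) + a * coeff n s := by
  have : (3 : PowerSeries K) = C 3 := by rw [map_ofNat]
  rw [this]
  simp only [map_add, coeff_C_mul]
  rw [pow_two, coeff_mul, Finset.Nat.sum_antidiagonal_eq_sum_range_succ
    (fun i j => coeff i z * coeff j z), Finset.sum_range]

theorem isSol_zs (a b : K) : IsSol a b (zs a b) (ss a b) where
  z0 := constantCoeff_zs a b
  s0 := constantCoeff_ss a b
  dz := by
    ext n
    rw [coeff_rhs_z, PowerSeries.coeff_derivative, coeff_zs, coeff_zs, coeff_ss, cf]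
    have := inv_mul (K := K) n
    calc _ = (algebraMap ℚ K (1 / ((n : ℚ) + 1)) * ((n : K) + 1)) *
          ((if n = 0 then 1 else 0) - a * (cf a b n).1 - 2 * b * (cf a b n).2) := by ring
      _ = _ := by rw [this, one_mul]
  ds := by
    ext n
    rw [coeff_rhs_s, PowerSeries.coeff_derivative, coeff_ss, coeff_ss, cf]
    simp only [coeff_zs]
    have := inv_mul (K := K) n
    calc _ = (algebraMap ℚ K (1 / ((n : ℚ) + 1)) * ((n : K) + 1)) *
          (3 * (∑ i : Fin (n + 1), (cf a b i.1).1 * (cf a b (n - i.1)).1) +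
            a * (cf a b n).2) := by ring
      _ = _ := by rw [this, one_mul]

theorem IsSol.coeff_eq {a b : K} {z s : PowerSeries K} (h : IsSol a b z s) (n : ℕ) :
    coeff n z = (cf a b n).1 ∧ coeff n s = (cf a b n).2 := by
  induction n using Nat.strong_induction_on with
  | _ n ih =>
    cases n with
    | zero =>
      rw [cf_zero]
      exact ⟨by simpa using h.z0, by simpa using h.s0⟩
    | succ n =>
      have hz := congrArg (coeff n) h.dz
      have hs := congrArg (coeff n) h.ds
      rw [coeff_rhs_z, PowerSeries.coeff_derivative] at hz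
      rw [coeff_rhs_s, PowerSeries.coeff_derivative] at hs
      have h1 := natInv n hz
      have h2 := natInv n hs
      rw [cf]
      refine ⟨?_, ?_⟩
      · rw [h1, (ih n (by omega)).1, (ih n (by omega)).2]
      · rw [h2, (ih n (by omega)).2]
        congr 3
        refine Finset.sum_congr rfl fun i _ => ?_
        rw [(ih i.1 (by have := i.2; omega)).1, (ih (n - i.1) (by omega)).1]

theorem IsSol.eq {a b : K} {z s : PowerSeries K} (h : IsSol a b z s) :
    z = zs a b ∧ s = ss a b := by
  refine ⟨?_, ?_⟩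
  · ext n
    rw [coeff_zs, (h.coeff_eq n).1]
  · ext n
    rw [coeff_ss, (h.coeff_eq n).2]

theorem dzs (a b : K) : d⁄dX K (zs a b) = 1 - C a * zs a b - 2 * C b * ss a b := (isSol_zs a b).dz

theorem dss (a b : K) : d⁄dX K (ss a b) = 3 * zs a b ^ 2 + C a * ss a b := (isSol_zs a b).ds

@[simp] theorem coeff_one_zs (a b : K) : coeff 1 (zs a b) = 1 := by
  have h := congrArg (coeff 0) (dzs a b)
  rw [coeff_rhs_z, PowerSeries.coeff_derivative] at h
  simpa using h

omit [Algebra ℚ K] in
theorem map_deriv {K' : Type*} [CommRing K'] (f : K →+* K') (g : PowerSeries K) :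
    (d⁄dX K g).map f = d⁄dX K' (g.map f) := by
  ext n
  simp [PowerSeries.coeff_derivative]

theorem zs_map {K' : Type*} [CommRing K'] [Algebra ℚ K'] (f : K →+* K') (a b : K) :
    (zs a b).map f = zs (f a) (f b) ∧ (ss a b).map f = ss (f a) (f b) := by
  have h := isSol_zs a b
  refine IsSol.eq ⟨?_, ?_, ?_, ?_⟩
  · rw [← coeff_zero_eq_constantCoeff_apply, PowerSeries.coeff_map, coeff_zero_eq_constantCoeff_apply,
      h.z0, map_zero]
  · rw [← coeff_zero_eq_constantCoeff_apply, PowerSeries.coeff_map, coeff_zero_eq_constantCoeff_apply,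
      h.s0, map_zero]
  · rw [← map_deriv, h.dz]
    simp only [map_sub, map_mul, map_one, map_ofNat, map_C]
  · rw [← map_deriv, h.ds]
    simp only [map_add, map_mul, map_pow, map_ofNat, map_C]

theorem map_zs {K' : Type*} [CommRing K'] [Algebra ℚ K'] (f : K →+* K') (a b : K) :
    (zs a b).map f = zs (f a) (f b) := (zs_map f a b).1

theorem map_ss {K' : Type*} [CommRing K'] [Algebra ℚ K'] (f : K →+* K') (a b : K) :
    (ss a b).map f = ss (f a) (f b) := (zs_map f a b).2

omit [Algebra ℚ K] in
theorem deriv_rescale (c : K) (g : PowerSeries K) :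
    d⁄dX K (rescale c g) = C c * rescale c (d⁄dX K g) := by
  ext n
  simp only [PowerSeries.coeff_derivative, coeff_rescale, coeff_C_mul]
  ring

/-- scaling -/
theorem zs_scale (c : Kˣ) (a b : K) :
    zs (c * a) (c ^ 3 * b) = C ((c⁻¹ : Kˣ) : K) * rescale (c : K) (zs a b) ∧
    ss (c * a) (c ^ 3 * b) = C (((c⁻¹ : Kˣ) : K) ^ 3) * rescale (c : K) (ss a b) := by
  have h := isSol_zs a b
  have hc : (C ((c⁻¹ : Kˣ) : K) : PowerSeries K) * C (c : K) = 1 := by
    rw [← map_mul, Units.inv_mul, map_one]
  have key : IsSol ((c : K) * a) ((c : K) ^ 3 * b) (C ((c⁻¹ : Kˣ) : K) * rescale (c : K) (zs a b))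
      (C (((c⁻¹ : Kˣ) : K) ^ 3) * rescale (c : K) (ss a b)) := by
    have h2 : ∀ x : PowerSeries K, rescale (c : K) (2 : PowerSeries K) = 2 := fun _ => map_ofNat _ 2
    have hC : ∀ x : K, rescale (c : K) (C x) = C x := by
      intro x
      ext n
      rw [coeff_rescale, coeff_C]
      split_ifs with hn
      · simp [hn]
      · simp
    have h0 : ∀ g : PowerSeries K, constantCoeff (rescale (c : K) g) = constantCoeff g := by
      intro g
      rw [← coeff_zero_eq_constantCoeff_apply, coeff_rescale, pow_zero, one_mul,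
        coeff_zero_eq_constantCoeff_apply]
    refine ⟨?_, ?_, ?_, ?_⟩
    · simp [h0]
    · simp [h0]
    · have h1 : d⁄dX K (C ((c⁻¹ : Kˣ) : K) * rescale (c : K) (zs a b)) =
          C ((c⁻¹ : Kˣ) : K) * (C (c : K) * rescale (c : K) (d⁄dX K (zs a b))) := by
        rw [Derivation.leibniz, deriv_rescale]
        simp
      rw [h1, dzs]
      simp only [map_sub, map_mul, map_one, map_pow, map_ofNat, hC] at *
      set u := (C ((c⁻¹ : Kˣ) : K) : PowerSeries K)
      set v := (C (c : K) : PowerSeries K)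
      set Z := (rescale (c : K)) (zs a b)
      set S := (rescale (c : K)) (ss a b)
      have hc3 : u ^ 3 * v ^ 3 = 1 := by rw [← mul_pow, hc, one_pow]
      linear_combination (1 - C a * Z - 2 * C b * S) * hc + (C a * Z) * hc + 2 * C b * S * hc3 
    · have h1 : d⁄dX K (C (((c⁻¹ : Kˣ) : K) ^ 3) * rescale (c : K) (ss a b)) =
          C ((((c⁻¹ : Kˣ) : K)) ^ 3) * (C (c : K) * rescale (c : K) (d⁄dX K (ss a b))) := by
        rw [Derivation.leibniz, deriv_rescale]
        simp
      rw [h1, dss]
      simp only [map_add, map_mul, map_one, map_pow, map_ofNat, hC] at *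
      set u := (C ((c⁻¹ : Kˣ) : K) : PowerSeries K)
      set v := (C (c : K) : PowerSeries K)
      set Z := (rescale (c : K)) (zs a b)
      set S := (rescale (c : K)) (ss a b)
      linear_combination (3 * u ^ 2 * Z ^ 2 + C a * S * u ^ 2 - C a * S * u ^ 2) * hc
  exact ⟨key.eq.1.symm, key.eq.2.symm⟩

end defs

end Crest.Agent.R007.Fg
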