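import Crest.Agent.R007.Fg1
import Crest.Agent.R227.FG2

/-!
# Row 7, E-FG, file 2: the series `W`, the addition formula for the solution of the ODE
-/

set_option autoImplicit false

noncomputable section

namespace Crest.Agent.R007.Fg

open PowerSeries

/-! ## the series `W = z³ + a z W + b W²` over any commutative ring -/

section W

variable {A : Type*} [CommRing A]

/-- coefficients of `W` -/
def wf (a b : A) : ℕ → A
  | 0 => 0
  | n + 1 => (if n = 2 then 1 else 0) + a * wf a b n +
      b * ∑ i : Fin n, wf a b (i.1 + 1) * wf a b (n - i.1)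
  termination_by n => n
  decreasing_by
    all_goals (try (have := i.2)); omega

theorem wf_zero (a b : A) : wf a b 0 = 0 := by rw [wf]

theorem wf_succ (a b : A) (n : ℕ) : wf a b (n + 1) = (if n = 2 then 1 else 0) + a * wf a b n +
    b * ∑ i : Fin n, wf a b (i.1 + 1) * wf a b (n - i.1) := by
  rw [wf]

/-- `W(z)` -/
def Ws (a b : A) : PowerSeries A := PowerSeries.mk (wf a b)

@[simp] theorem constantCoeff_Ws (a b : A) : constantCoeff (Ws a b) = 0 := by
  rw [← coeff_zero_eq_constantCoeff_apply, Ws, coeff_mk, wf]

theorem Ws_eq (a b : A) : Ws a b = X ^ 3 + C a * X * Ws a b + C b * Ws a b ^ 2 := by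
  ext n
  cases n with
  | zero => simp
  | succ n =>
    simp only [map_add, mul_assoc, coeff_C_mul, coeff_succ_X_mul]
    rw [pow_two, coeff_mul, Finset.Nat.sum_antidiagonal_eq_sum_range_succ
      (fun i j => coeff i (Ws a b) * coeff j (Ws a b)), Finset.sum_range_succ,
      Finset.sum_range_succ', coeff_X_pow]
    simp only [Ws, coeff_mk]
    simp only [Nat.sub_self, wf_zero, mul_zero, add_zero, zero_mul]
    rw [Finset.sum_range, wf_succ]
    have h1 : (if n = 2 then (1 : A) else 0) = if n + 1 = 3 then 1 else 0 := by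
      by_cases h : n = 2
      · simp [h]
      · rw [if_neg h, if_neg (by omega)]
    rw [h1]
    congr 2
    refine Finset.sum_congr rfl fun i _ => ?_
    congr 2
    omega

theorem Ws_unique {a b : A} {W : PowerSeries A} (h0 : constantCoeff W = 0)
    (h : W = X ^ 3 + C a * X * W + C b * W ^ 2) : W = Ws a b := by
  have h2 := Ws_eq a b
  have h3 : (W - Ws a b) * (1 - C a * X - C b * (W + Ws a b)) = 0 := by
    linear_combination h - h2
  have hu : IsUnit (1 - C a * X - C b * (W + Ws a b)) := by
    rw [PowerSeries.isUnit_iff_constantCoeff]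
    simp [h0]
  have := (hu.mul_left_eq_zero).1 h3
  exact sub_eq_zero.1 this

theorem map_Ws {B : Type*} [CommRing B] (f : A →+* B) (a b : A) :
    (Ws a b).map f = Ws (f a) (f b) := by
  apply Ws_unique
  · rw [← coeff_zero_eq_constantCoeff_apply, PowerSeries.coeff_map,
      coeff_zero_eq_constantCoeff_apply, constantCoeff_Ws, map_zero]
  · conv_lhs => rw [Ws_eq a b]
    simp only [map_add, map_mul, map_pow, map_C, map_X]

end W

/-! ## one variable identities over a `ℚ`-algebra -/

section one

variable {K : Type*} [CommRing K] [Algebra ℚ K]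

theorem eq_zero_of_deriv {g : PowerSeries K} (h0 : constantCoeff g = 0) (hd : d⁄dX K g = 0) :
    g = 0 := by
  ext n
  cases n with
  | zero => simpa using h0
  | succ n =>
    have := congrArg (coeff n) hd
    rw [PowerSeries.coeff_derivative, map_zero] at this
    rw [natInv n this, mul_zero, map_zero]

/-- the first integral -/
theorem cubic (a b : K) : ss a b = zs a b ^ 3 + C a * zs a b * ss a b + C b * ss a b ^ 2 := by
  rw [← sub_eq_zero]
  apply eq_zero_of_deriv
  · simp
  · have h1 := dzs a b
    have h2 := dss a b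
    simp only [map_sub, map_add, Derivation.leibniz, Derivation.leibniz_pow, smul_eq_mul,
      PowerSeries.derivative_C, mul_zero, add_zero, h1, h2, nsmul_eq_mul]
    push_cast
    ring

/-- the inverse factor -/
def uu (a b : K) : PowerSeries K := 1 - C a * zs a b - C b * ss a b

theorem isUnit_uu (a b : K) : IsUnit (uu a b) := by
  rw [PowerSeries.isUnit_iff_constantCoeff]
  simp [uu]

theorem ss_mul_uu (a b : K) : ss a b * uu a b = zs a b ^ 3 := by
  have := cubic a b
  rw [uu]
  linear_combination this

/-- `w ↦ -w` -/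
def neg (g : PowerSeries K) : PowerSeries K := rescale (-1) g

omit [Algebra ℚ K] in
theorem deriv_neg (g : PowerSeries K) : d⁄dX K (neg g) = - neg (d⁄dX K g) := by
  rw [neg, deriv_rescale]
  simp [neg]

omit [Algebra ℚ K] in
theorem neg_neg' (g : PowerSeries K) : neg (neg g) = g := by
  ext n
  simp [neg, coeff_rescale, ← mul_assoc, ← mul_pow]

omit [Algebra ℚ K] in
theorem constantCoeff_neg (g : PowerSeries K) : constantCoeff (neg g) = constantCoeff g := by
  rw [← coeff_zero_eq_constantCoeff_apply, neg, coeff_rescale]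
  simp

omit [Algebra ℚ K] in
theorem neg_C (x : K) : neg (C x) = C x := by
  ext n
  rw [neg, coeff_rescale, coeff_C]
  split_ifs with h
  · simp [h]
  · simp

theorem neg_zs_aux (a b : K) : ∃ Z S : PowerSeries K, Z * uu a b = - zs a b ∧
    S * uu a b = - ss a b ∧ neg (zs a b) = Z ∧ neg (ss a b) = S := by
  obtain ⟨v, hv⟩ := (isUnit_uu a b).exists_right_inv
  -- `uu * v = 1`
  set z := zs a b with hz
  set s := ss a b with hs
  have h1 : d⁄dX K z = 1 - C a * z - 2 * C b * s := dzs a b
  have h2 : d⁄dX K s = 3 * z ^ 2 + C a * s := dss a b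
  have hu : uu a b = 1 - C a * z - C b * s := rfl
  have hsu : s * uu a b = z ^ 3 := ss_mul_uu a b
  have hdu : d⁄dX K (uu a b) = - C a * (1 - C a * z - 2 * C b * s) - C b * (3 * z ^ 2 + C a * s) := by
    rw [hu]
    simp only [map_sub, Derivation.leibniz, smul_eq_mul, PowerSeries.derivative_C, mul_zero,
      add_zero, h1, h2, PowerSeries.derivative_one]
    ring
  have hdv : d⁄dX K v * uu a b ^ 2 = - d⁄dX K (uu a b) := by
    have := congrArg (d⁄dX K) hv
    rw [Derivation.leibniz, PowerSeries.derivative_one] at this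
    simp only [smul_eq_mul] at this
    calc d⁄dX K v * uu a b ^ 2 = uu a b * (uu a b * d⁄dX K v + v * d⁄dX K (uu a b))
          - (uu a b * v) * d⁄dX K (uu a b) := by ring
      _ = _ := by rw [this, hv]; ring
  have hu2 : IsUnit (uu a b ^ 2) := (isUnit_uu a b).pow 2
  refine ⟨- z * v, - s * v, by linear_combination (-z) * hv, by linear_combination (-s) * hv, ?_⟩
  have key : IsSol a b (neg (- z * v)) (neg (- s * v)) := by
    refine ⟨?_, ?_, ?_, ?_⟩
    · rw [constantCoeff_neg]; simp [hz]
    · rw [constantCoeff_neg]; simp [hs]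
    · rw [deriv_neg]
      have h3 : d⁄dX K (- z * v) = - (1 - C a * (- z * v) - 2 * C b * (- s * v)) := by
        rw [← hu2.mul_left_inj]
        rw [Derivation.leibniz]
        simp only [smul_eq_mul, map_neg, h1]
        have e1 : (-z * d⁄dX K v + v * -(1 - C a * z - 2 * C b * s)) * uu a b ^ 2 =
          -z * (d⁄dX K v * uu a b ^ 2) - (uu a b * v) * (1 - C a * z - 2 * C b * s) * uu a b := by
          ring
        rw [e1, hdv, hdu, hv]
        have e2 : -(1 - C a * (-z * v) - 2 * C b * (-s * v)) * uu a b ^ 2 =
          - (uu a b ^ 2 + C a * z * (uu a b * v) * uu a b + 2 * C b * s * (uu a b * v) * uu a b) := by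
          ring
        rw [e2, hv]
        rw [hu] at hsu ⊢
        linear_combination (3 * C b) * hsu
      rw [h3]
      simp only [neg, map_neg, map_sub, map_mul, map_one, map_ofNat]
      have := neg_C a
      have := neg_C b
      simp only [neg] at *
      simp only [*]
      ring
    · rw [deriv_neg]
      have h3 : d⁄dX K (- s * v) = - (3 * (- z * v) ^ 2 + C a * (- s * v)) := by
        rw [← hu2.mul_left_inj]
        rw [Derivation.leibniz]
        simp only [smul_eq_mul, map_neg, h2]
        have e1 : (-s * d⁄dX K v + v * -(3 * z ^ 2 + C a * s)) * uu a b ^ 2 =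
          -s * (d⁄dX K v * uu a b ^ 2) - (uu a b * v) * (3 * z ^ 2 + C a * s) * uu a b := by
          ring
        rw [e1, hdv, hdu, hv]
        have e2 : -(3 * (-z * v) ^ 2 + C a * (-s * v)) * uu a b ^ 2 =
          - (3 * z ^ 2 * (uu a b * v) ^ 2 - C a * s * (uu a b * v) * uu a b) := by
          ring
        rw [e2, hv]
        rw [hu] at hsu ⊢
        linear_combination (-3 * C a) * hsu
      rw [h3]
      simp only [neg, map_neg, map_add, map_mul, map_pow, map_ofNat]
      have := neg_C a
      simp only [neg] at *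
      simp only [*]
      ring
  have := key.eq
  exact ⟨by rw [hz, ← this.1, neg_neg', this.1], by rw [hs, ← this.2, neg_neg', this.2]⟩

theorem neg_zs (a b : K) : neg (zs a b) * uu a b = - zs a b := by
  obtain ⟨Z, S, h1, h2, h3, h4⟩ := neg_zs_aux a b
  rw [h3, h1]

theorem neg_ss (a b : K) : neg (ss a b) * uu a b = - ss a b := by
  obtain ⟨Z, S, h1, h2, h3, h4⟩ := neg_zs_aux a b
  rw [h4, h2]

/-- `W(z(w)) = s(w)` -/
theorem Ws_subst (a b : K) : (Ws a b).subst (zs a b) = ss a b := by
  have hz : HasSubst (zs a b) := HasSubst.of_constantCoeff_zero' (constantCoeff_zs a b)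
  have h1 := congrArg (PowerSeries.subst (zs a b)) (Ws_eq a b)
  rw [subst_add hz, subst_add hz, subst_mul hz, subst_mul hz, subst_mul hz, subst_pow hz,
    subst_pow hz, subst_X hz] at h1
  have hC : ∀ x : K, PowerSeries.subst (zs a b) (C x) = (C x : PowerSeries K) := fun x =>
    PowerSeries.subst_C x
  rw [hC, hC] at h1
  have h2 := cubic a b
  set W := (Ws a b).subst (zs a b) with hW
  have hW0 : constantCoeff W = 0 :=
    PowerSeries.constantCoeff_subst_eq_zero (constantCoeff_zs a b) _ (constantCoeff_Ws a b)
  have h3 : (W - ss a b) * (1 - C a * zs a b - C b * (W + ss a b)) = 0 := by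
    linear_combination h1 - h2
  have hu : IsUnit (1 - C a * zs a b - C b * (W + ss a b)) := by
    rw [PowerSeries.isUnit_iff_constantCoeff]
    simp [hW0]
  exact sub_eq_zero.1 ((hu.mul_left_eq_zero).1 h3)

end one

end Crest.Agent.R007.Fg
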