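import Crest.Agent.R007.Fg2

/-!
# Row 7, E-FG, file 3: the formal group law of `y² + a x y + b y = x³` over any commutative ring
-/

set_option autoImplicit false

noncomputable section

namespace Crest.Agent.R007.Fg

open MvPowerSeries Crest.LubinTate

/-! ## abstract differential identities -/

section abs

variable {k P : Type*} [CommRing k] [CommRing P] [IsDomain P] [Algebra k P]

theorem rel_m {a b z1 z2 s1 s2 m : P} (h1 : s1 = z1 ^ 3 + a * z1 * s1 + b * s1 ^ 2)
    (h2 : s2 = z2 ^ 3 + a * z2 * s2 + b * s2 ^ 2) (hm : (z2 - z1) * m = s2 - s1)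
    (hne : z2 - z1 ≠ 0) :
    m = z1 ^ 2 + z1 * z2 + z2 ^ 2 + a * (z2 * m + s1) + b * m * (s1 + s2) := by
  apply mul_left_cancel₀ hne
  linear_combination h2 - h1 + (1 - a * z2 - b * (s1 + s2)) * hm

theorem deriv_m (D : Derivation k P P) {a b z1 z2 s1 s2 m : P}
    (h1 : s1 = z1 ^ 3 + a * z1 * s1 + b * s1 ^ 2)
    (h2 : s2 = z2 ^ 3 + a * z2 * s2 + b * s2 ^ 2) (hm : (z2 - z1) * m = s2 - s1)
    (hne : z2 - z1 ≠ 0)
    (dz1 : D z1 = 1 - a * z1 - 2 * b * s1) (ds1 : D s1 = 3 * z1 ^ 2 + a * s1)
    (dz2 : D z2 = - (1 - a * z2 - 2 * b * s2)) (ds2 : D s2 = - (3 * z2 ^ 2 + a * s2)) :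
    D m = - (z2 - z1) := by
  have h := congrArg D hm
  rw [Derivation.leibniz, map_sub, map_sub, dz1, dz2, ds1, ds2] at h
  simp only [smul_eq_mul] at h
  have hr := rel_m h1 h2 hm hne
  apply mul_left_cancel₀ hne
  linear_combination h + 2 * hr + a * hm 

theorem deriv_Z3 (D : Derivation k P P) {a b z1 z2 s1 s2 m : P}
    (Da : D a = 0) (Db : D b = 0)
    (h1 : s1 = z1 ^ 3 + a * z1 * s1 + b * s1 ^ 2)
    (h2 : s2 = z2 ^ 3 + a * z2 * s2 + b * s2 ^ 2) (hm : (z2 - z1) * m = s2 - s1)
    (hne : z2 - z1 ≠ 0)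
    (dz1 : D z1 = 1 - a * z1 - 2 * b * s1) (ds1 : D s1 = 3 * z1 ^ 2 + a * s1)
    (dz2 : D z2 = - (1 - a * z2 - 2 * b * s2)) (ds2 : D s2 = - (3 * z2 ^ 2 + a * s2)) :
    D (- (z1 + z2) - (a * m + b * m ^ 2)) = 0 := by
  have h := deriv_m D h1 h2 hm hne dz1 ds1 dz2 ds2
  simp only [map_sub, map_neg, map_add, Derivation.leibniz, Derivation.leibniz_pow, smul_eq_mul,
    Da, Db, h, dz1, dz2, mul_zero, add_zero, nsmul_eq_mul]
  push_cast
  linear_combination (2 * b) * hm

theorem deriv_S3 (D : Derivation k P P) {a b z1 z2 s1 s2 m : P}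
    (Da : D a = 0) (Db : D b = 0)
    (h1 : s1 = z1 ^ 3 + a * z1 * s1 + b * s1 ^ 2)
    (h2 : s2 = z2 ^ 3 + a * z2 * s2 + b * s2 ^ 2) (hm : (z2 - z1) * m = s2 - s1)
    (hne : z2 - z1 ≠ 0)
    (dz1 : D z1 = 1 - a * z1 - 2 * b * s1) (ds1 : D s1 = 3 * z1 ^ 2 + a * s1)
    (dz2 : D z2 = - (1 - a * z2 - 2 * b * s2)) (ds2 : D s2 = - (3 * z2 ^ 2 + a * s2)) :
    D (m * (- (z1 + z2) - (a * m + b * m ^ 2)) + (s1 - m * z1)) = 0 := by
  have h := deriv_m D h1 h2 hm hne dz1 ds1 dz2 ds2
  have h3 := deriv_Z3 D Da Db h1 h2 hm hne dz1 ds1 dz2 ds2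
  have hr := rel_m h1 h2 hm hne
  rw [map_add, Derivation.leibniz, h3, map_sub, Derivation.leibniz, h, dz1, ds1]
  simp only [smul_eq_mul, mul_zero, zero_add]
  linear_combination (-1) * hr + (b * m) * hm

end abs

/-! ## divided differences -/

section dd

variable {A : Type*} [CommRing A]

/-- `(f(Y) - f(X)) / (Y - X)` -/
def dd (f : PowerSeries A) : MvPowerSeries (Fin 2) A := fun d => PowerSeries.coeff (d 0 + d 1 + 1) f

theorem coeff_dd (f : PowerSeries A) (d : Fin 2 →₀ ℕ) :
    coeff d (dd f) = PowerSeries.coeff (d 0 + d 1 + 1) f := rfl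

theorem dd_mul (f : PowerSeries A) : (X 1 - X 0) * dd f =
    PowerSeries.subst (X 1 : MvPowerSeries (Fin 2) A) f -
      PowerSeries.subst (X 0 : MvPowerSeries (Fin 2) A) f := by
  classical
  ext d
  rw [map_sub, PowerSeries.coeff_subst_single, PowerSeries.coeff_subst_single, sub_mul, map_sub,
    X_def, X_def, coeff_monomial_mul, coeff_monomial_mul]
  simp only [one_mul, Finsupp.single_le_iff, coeff_dd]
  have h1 : d = Finsupp.single 1 (d 1) ↔ d 0 = 0 := by
    constructor
    · intro h; rw [h]; simp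
    · intro h; ext i; fin_cases i <;> simp [h]
  have h0 : d = Finsupp.single 0 (d 0) ↔ d 1 = 0 := by
    constructor
    · intro h; rw [h]; simp
    · intro h; ext i; fin_cases i <;> simp [h]
  rw [if_congr h1 rfl rfl, if_congr h0 rfl rfl]
  rcases Nat.eq_zero_or_pos (d 0) with e0 | e0 <;> rcases Nat.eq_zero_or_pos (d 1) with e1 | e1
  · simp [e0, e1]
  · rw [if_pos (by omega), if_neg (by omega), if_pos e0, if_neg (by omega), sub_zero, sub_zero]
    have : d 0 + d 1 = (d - Finsupp.single 1 1 : Fin 2 →₀ ℕ) 0 +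
        (d - Finsupp.single 1 1 : Fin 2 →₀ ℕ) 1 + 1 := by
      simp [e0]; omega
    rw [← this, e0, zero_add]
  · rw [if_neg (by omega), if_pos (by omega), if_neg (by omega), if_pos e1, zero_sub, zero_sub]
    have : d 0 + d 1 = (d - Finsupp.single 0 1 : Fin 2 →₀ ℕ) 0 +
        (d - Finsupp.single 0 1 : Fin 2 →₀ ℕ) 1 + 1 := by
      simp [e1]; omega
    rw [← this, e1, add_zero]
  · rw [if_pos (by omega), if_pos (by omega), if_neg (by omega), if_neg (by omega), sub_zero]
    rw [sub_eq_zero]
    have h2 : d 0 + d 1 = (d - Finsupp.single 1 1 : Fin 2 →₀ ℕ) 0 +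
        (d - Finsupp.single 1 1 : Fin 2 →₀ ℕ) 1 + 1 := by
      simp; omega
    have h3 : d 0 + d 1 = (d - Finsupp.single 0 1 : Fin 2 →₀ ℕ) 0 +
        (d - Finsupp.single 0 1 : Fin 2 →₀ ℕ) 1 + 1 := by
      simp; omega
    rw [← h2, ← h3]

theorem map_dd {B : Type*} [CommRing B] (f : A →+* B) (g : PowerSeries A) :
    (dd g).map f = dd (g.map f) := by
  ext d
  rw [coeff_map, coeff_dd, coeff_dd, PowerSeries.coeff_map]

theorem constantCoeff_dd (g : PowerSeries A) : constantCoeff (dd g) = PowerSeries.coeff 1 g := by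
  rw [← coeff_zero_eq_constantCoeff_apply, coeff_dd]
  simp

/-- the slope -/
def mm (a b : A) : MvPowerSeries (Fin 2) A := dd (Ws a b)

/-- `z`-coordinate of the third point -/
def Z3 (a b : A) : MvPowerSeries (Fin 2) A := - (X 0 + X 1) - (C a * mm a b + C b * mm a b ^ 2)

/-- `s`-coordinate of the third point -/
def S3 (a b : A) : MvPowerSeries (Fin 2) A :=
  mm a b * Z3 a b + (PowerSeries.subst (X 0 : MvPowerSeries (Fin 2) A) (Ws a b) - mm a b * X 0)

/-- denominator -/
def U3 (a b : A) : MvPowerSeries (Fin 2) A := 1 - C a * Z3 a b - C b * S3 a b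

theorem constantCoeff_mm (a b : A) : constantCoeff (mm a b) = 0 := by
  rw [mm, constantCoeff_dd, Ws, PowerSeries.coeff_mk, wf_succ, wf_zero]
  simp

theorem constantCoeff_Z3 (a b : A) : constantCoeff (Z3 a b) = 0 := by
  simp [Z3, constantCoeff_mm]

theorem constantCoeff_S3 (a b : A) : constantCoeff (S3 a b) = 0 := by
  have : constantCoeff (PowerSeries.subst (X 0 : MvPowerSeries (Fin 2) A) (Ws a b)) = 0 :=
    PowerSeries.constantCoeff_subst_eq_zero (constantCoeff_X 0) _ (constantCoeff_Ws a b)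
  simp [S3, constantCoeff_mm, this]

theorem constantCoeff_U3 (a b : A) : constantCoeff (U3 a b) = 1 := by
  simp [U3, constantCoeff_Z3, constantCoeff_S3]

theorem isUnit_U3 (a b : A) : IsUnit (U3 a b) := by
  rw [MvPowerSeries.isUnit_iff_constantCoeff, constantCoeff_U3]
  exact isUnit_one

/-- the formal group law, as a power series -/
def FF (a b : A) : MvPowerSeries (Fin 2) A := - Z3 a b * ((isUnit_U3 a b).unit⁻¹ : (MvPowerSeries (Fin 2) A)ˣ)

theorem FF_mul (a b : A) : FF a b * U3 a b = - Z3 a b := by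
  rw [FF, mul_assoc, IsUnit.val_inv_mul, mul_one]

theorem map_mm {B : Type*} [CommRing B] (f : A →+* B) (a b : A) :
    (mm a b).map f = mm (f a) (f b) := by
  rw [mm, map_dd, map_Ws, mm]

theorem map_Z3 {B : Type*} [CommRing B] (f : A →+* B) (a b : A) :
    (Z3 a b).map f = Z3 (f a) (f b) := by
  simp only [Z3, map_sub, map_neg, map_add, map_mul, map_pow, map_C, map_X, map_mm]

theorem map_S3 {B : Type*} [CommRing B] (f : A →+* B) (a b : A) :
    (S3 a b).map f = S3 (f a) (f b) := by
  simp only [S3, map_sub, map_add, map_mul, map_X, map_mm, map_Z3]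
  rw [PowerSeries.map_subst (PowerSeries.HasSubst.X 0), map_Ws, map_X]

theorem map_U3 {B : Type*} [CommRing B] (f : A →+* B) (a b : A) :
    (U3 a b).map f = U3 (f a) (f b) := by
  simp only [U3, map_sub, map_one, map_mul, map_C, map_Z3, map_S3]

theorem map_FF {B : Type*} [CommRing B] (f : A →+* B) (a b : A) :
    (FF a b).map f = FF (f a) (f b) := by
  rw [← (isUnit_U3 (f a) (f b)).mul_left_inj, FF_mul, ← map_U3, ← map_mul, FF_mul, map_neg, map_Z3]

end dd

/-! ## the addition formula over a `ℚ`-algebra -/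

section add

variable {K : Type*} [CommRing K] [Algebra ℚ K]

/-- kernel of `∂₀ - ∂₁` -/
theorem ker_ext {f : MvPowerSeries (Fin 2) K} (hD : pderiv K 0 f = pderiv K 1 f)
    (h0 : ∀ n : ℕ, coeff (Finsupp.single 0 n) f = 0) : f = 0 := by
  have key : ∀ j : ℕ, ∀ i : ℕ, coeff (Finsupp.single 0 i + Finsupp.single 1 j) f = 0 := by
    intro j
    induction j with
    | zero => intro i; simpa using h0 i
    | succ j ih =>
      intro i
      have h := congrArg (coeff (Finsupp.single 0 i + Finsupp.single 1 j)) hD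
      rw [coeff_pderiv, coeff_pderiv] at h
      have e1 : (Finsupp.single (0 : Fin 2) i + Finsupp.single 1 j + Finsupp.single 0 1) =
          Finsupp.single 0 (i + 1) + Finsupp.single 1 j := by
        rw [Finsupp.single_add]; abel
      have e2 : (Finsupp.single (0 : Fin 2) i + Finsupp.single 1 j + Finsupp.single 1 1) =
          Finsupp.single 0 i + Finsupp.single 1 (j + 1) := by
        rw [Finsupp.single_add]; abel
      rw [e1, e2, ih (i + 1), zero_mul] at h
      have h' : coeff (Finsupp.single 0 i + Finsupp.single 1 (j + 1)) f * ((j : K) + 1) = 0 := by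
        rw [h]; simp
      rw [natInv j h', mul_zero]
  ext d
  have hd : d = Finsupp.single 0 (d 0) + Finsupp.single 1 (d 1) := by
    ext i; fin_cases i <;> simp
  rw [hd, key, map_zero]

omit [Algebra ℚ K] in
theorem pderiv_subst_X (i j : Fin 2) (g : PowerSeries K) :
    pderiv K i (PowerSeries.subst (X j : MvPowerSeries (Fin 2) K) g) =
      if i = j then PowerSeries.subst (X j : MvPowerSeries (Fin 2) K) (PowerSeries.derivative K g)
        else 0 := by
  rw [R227.pderiv_subst_one (PowerSeries.HasSubst.X j)]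
  split_ifs with h
  · subst h
    rw [pderiv_X_self, mul_one]
  · rw [pderiv_X_of_ne (Ne.symm h), mul_zero]

/-- the derivation `∂₀ - ∂₁` -/
def DD : Derivation K (MvPowerSeries (Fin 2) K) (MvPowerSeries (Fin 2) K) :=
  pderiv K 0 - pderiv K 1

omit [Algebra ℚ K] in
theorem DD_X0 (g : PowerSeries K) :
    DD (PowerSeries.subst (X 0 : MvPowerSeries (Fin 2) K) g) =
      PowerSeries.subst (X 0 : MvPowerSeries (Fin 2) K) (PowerSeries.derivative K g) := by
  rw [DD, Derivation.sub_apply, pderiv_subst_X, pderiv_subst_X]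
  simp

omit [Algebra ℚ K] in
theorem DD_X1 (g : PowerSeries K) :
    DD (PowerSeries.subst (X 1 : MvPowerSeries (Fin 2) K) g) =
      - PowerSeries.subst (X 1 : MvPowerSeries (Fin 2) K) (PowerSeries.derivative K g) := by
  rw [DD, Derivation.sub_apply, pderiv_subst_X, pderiv_subst_X]
  simp

omit [Algebra ℚ K] in
theorem DD_add (g : PowerSeries K) :
    DD (PowerSeries.subst (X 0 + X 1 : MvPowerSeries (Fin 2) K) g) = 0 := by
  have h : PowerSeries.HasSubst (X 0 + X 1 : MvPowerSeries (Fin 2) K) :=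
    PowerSeries.HasSubst.of_constantCoeff_zero (by simp)
  rw [DD, Derivation.sub_apply, R227.pderiv_subst_one h, R227.pderiv_subst_one h]
  simp

omit [Algebra ℚ K] in
theorem subst_X0_zero_psubst (g : PowerSeries K) (p : MvPowerSeries (Fin 2) K)
    (hp : constantCoeff p = 0) :
    MvPowerSeries.subst ![(PowerSeries.X : PowerSeries K), 0] (PowerSeries.subst p g) =
      PowerSeries.subst (MvPowerSeries.subst ![(PowerSeries.X : PowerSeries K), 0] p) g :=
  R227.subst_psubst hp HasSubst.X_zero g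

omit [Algebra ℚ K] in
/-- coefficients of `P(X, 0)` -/
theorem coeff_subst_X_zero (P : MvPowerSeries (Fin 2) K) (j : ℕ) :
    PowerSeries.coeff j (P.subst ![(PowerSeries.X : PowerSeries K), 0]) =
      coeff (Finsupp.single 0 j) P := by
  have hXZ : HasSubst ![(PowerSeries.X : PowerSeries K), 0] := HasSubst.X_zero
  rw [PowerSeries.coeff, coeff_subst hXZ, finsum_eq_single _ (Finsupp.single 0 j)]
  · simp [← PowerSeries.coeff_def]
  · intro d hd
    by_cases hd₁ : d 1 = 0
    · have hd0 : d 0 ≠ j := by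
        intro h
        apply hd
        ext i
        fin_cases i
        · simpa using h
        · simpa using hd₁
      have : PowerSeries.coeff j ((PowerSeries.X : PowerSeries K) ^ (d 0)) = 0 := by
        rw [PowerSeries.coeff_X_pow, if_neg (Ne.symm hd0)]
      rw [Finsupp.prod_fintype _ _ (by simp)]
      simp only [Fin.prod_univ_two, Matrix.cons_val_zero, Matrix.cons_val_one, hd₁, pow_zero,
        mul_one]
      rw [PowerSeries.coeff] at this
      rw [this, smul_zero]
    · rw [Finsupp.prod_fintype _ _ (by simp)]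
      simp [Fin.prod_univ_two, zero_pow hd₁]

theorem ker_eq {f g : MvPowerSeries (Fin 2) K} (hf : DD f = 0) (hg : DD g = 0)
    (h : MvPowerSeries.subst ![(PowerSeries.X : PowerSeries K), 0] f =
      (MvPowerSeries.subst ![(PowerSeries.X : PowerSeries K), 0] g : PowerSeries K)) : f = g := by
  rw [← sub_eq_zero]
  apply ker_ext
  · have : DD (f - g) = 0 := by rw [map_sub, hf, hg, sub_zero]
    rw [DD, Derivation.sub_apply, sub_eq_zero] at this
    exact this
  · intro n
    rw [map_sub, ← coeff_subst_X_zero, ← coeff_subst_X_zero, h, sub_self]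

variable [IsDomain K]

theorem third (a b : K) :
    let σ := ![PowerSeries.subst (X 0 : MvPowerSeries (Fin 2) K) (zs a b),
      PowerSeries.subst (X 1 : MvPowerSeries (Fin 2) K) (zs a b)]
    (Z3 a b).subst σ = PowerSeries.subst (X 0 + X 1 : MvPowerSeries (Fin 2) K) (neg (zs a b)) ∧
    (S3 a b).subst σ = PowerSeries.subst (X 0 + X 1 : MvPowerSeries (Fin 2) K) (neg (ss a b)) := by
  intro σ
  have : IsDomain (MvPowerSeries (Fin 2) K) := NoZeroDivisors.to_isDomain _
  set z1 : MvPowerSeries (Fin 2) K := PowerSeries.subst (X 0 : MvPowerSeries (Fin 2) K) (zs a b)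
    with hz1
  set z2 : MvPowerSeries (Fin 2) K := PowerSeries.subst (X 1 : MvPowerSeries (Fin 2) K) (zs a b)
    with hz2
  set s1 : MvPowerSeries (Fin 2) K := PowerSeries.subst (X 0 : MvPowerSeries (Fin 2) K) (ss a b)
    with hs1
  set s2 : MvPowerSeries (Fin 2) K := PowerSeries.subst (X 1 : MvPowerSeries (Fin 2) K) (ss a b)
    with hs2
  have cz1 : constantCoeff z1 = 0 := R227.constantCoeff_psubst (constantCoeff_X 0)
    (constantCoeff_zs a b)
  have cz2 : constantCoeff z2 = 0 := R227.constantCoeff_psubst (constantCoeff_X 1)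
    (constantCoeff_zs a b)
  have cs1 : constantCoeff s1 = 0 := R227.constantCoeff_psubst (constantCoeff_X 0)
    (constantCoeff_ss a b)
  have hσ : HasSubst σ := R227.hasSubst_pair cz1 cz2
  have hX := fun i : Fin 2 => PowerSeries.HasSubst.X (S := K) i
  have hCs : ∀ (i : Fin 2) (x : K), PowerSeries.subst (X i : MvPowerSeries (Fin 2) K)
      (PowerSeries.C x) = (C x : MvPowerSeries (Fin 2) K) := fun i x => PowerSeries.subst_C x
  set m : MvPowerSeries (Fin 2) K := (mm a b).subst σ with hm
  have hW : ∀ i : Fin 2, (PowerSeries.subst (X i : MvPowerSeries (Fin 2) K) (Ws a b)).subst σ =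
      PowerSeries.subst (X i : MvPowerSeries (Fin 2) K) (ss a b) := by
    intro i
    rw [R227.subst_psubst (constantCoeff_X i) hσ, subst_X hσ]
    have : σ i = PowerSeries.subst (X i : MvPowerSeries (Fin 2) K) (zs a b) := by
      fin_cases i <;> rfl
    rw [this, R227.psubst_psubst' (constantCoeff_X i) (constantCoeff_zs a b), Ws_subst]
  have hmul : (z2 - z1) * m = s2 - s1 := by
    have := congrArg (MvPowerSeries.subst σ) (dd_mul (Ws a b))
    rw [subst_mul hσ, subst_sub hσ, subst_sub hσ, subst_X hσ, subst_X hσ, hW, hW] at this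
    exact this
  -- cubic relations
  have hc : ∀ i : Fin 2, PowerSeries.subst (X i : MvPowerSeries (Fin 2) K) (ss a b) =
      (PowerSeries.subst (X i : MvPowerSeries (Fin 2) K) (zs a b)) ^ 3 +
        C a * (PowerSeries.subst (X i : MvPowerSeries (Fin 2) K) (zs a b)) *
          PowerSeries.subst (X i : MvPowerSeries (Fin 2) K) (ss a b) +
        C b * (PowerSeries.subst (X i : MvPowerSeries (Fin 2) K) (ss a b)) ^ 2 := by
    intro i
    have := congrArg (PowerSeries.subst (X i : MvPowerSeries (Fin 2) K)) (cubic a b)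
    rw [PowerSeries.subst_add (hX i), PowerSeries.subst_add (hX i), PowerSeries.subst_mul (hX i),
      PowerSeries.subst_mul (hX i), PowerSeries.subst_mul (hX i), PowerSeries.subst_pow (hX i),
      PowerSeries.subst_pow (hX i), hCs, hCs] at this
    exact this
  have hdz : ∀ i : Fin 2, PowerSeries.subst (X i : MvPowerSeries (Fin 2) K)
      (PowerSeries.derivative K (zs a b)) = 1 -
        C a * (PowerSeries.subst (X i : MvPowerSeries (Fin 2) K) (zs a b)) -
        2 * C b * PowerSeries.subst (X i : MvPowerSeries (Fin 2) K) (ss a b) := by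
    intro i
    have h2 : (2 : PowerSeries K) * PowerSeries.C b = PowerSeries.C (2 * b) := by
      rw [map_mul, map_ofNat]
    have h3 : (2 : MvPowerSeries (Fin 2) K) * C b = C (2 * b) := by
      rw [map_mul, map_ofNat]
    have h1 : (1 : PowerSeries K) = PowerSeries.C 1 := by rw [map_one]
    rw [dzs, h2, h3, PowerSeries.subst_sub (hX i), PowerSeries.subst_sub (hX i),
      PowerSeries.subst_mul (hX i), PowerSeries.subst_mul (hX i), h1, hCs, hCs, hCs, map_one]
  have hds : ∀ i : Fin 2, PowerSeries.subst (X i : MvPowerSeries (Fin 2) K)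
      (PowerSeries.derivative K (ss a b)) = 
        3 * (PowerSeries.subst (X i : MvPowerSeries (Fin 2) K) (zs a b)) ^ 2 +
        C a * PowerSeries.subst (X i : MvPowerSeries (Fin 2) K) (ss a b) := by
    intro i
    have h2 : (3 : PowerSeries K) = PowerSeries.C 3 := by
      rw [map_ofNat]
    have h3 : (3 : MvPowerSeries (Fin 2) K) = C 3 := by
      rw [map_ofNat]
    rw [dss, h2, h3, PowerSeries.subst_add (hX i),
      PowerSeries.subst_mul (hX i), PowerSeries.subst_mul (hX i), PowerSeries.subst_pow (hX i),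
      hCs, hCs]
  have hne : z2 - z1 ≠ 0 := by
    intro h
    have := congrArg (coeff (Finsupp.single 1 1)) h
    classical
    rw [map_sub, hz1, hz2, PowerSeries.coeff_subst_single, PowerSeries.coeff_subst_single] at this
    simp at this
  have Da : (DD : Derivation K _ _) (C a : MvPowerSeries (Fin 2) K) = 0 := by
    simp [DD, Derivation.sub_apply]
  have Db : (DD : Derivation K _ _) (C b : MvPowerSeries (Fin 2) K) = 0 := by
    simp [DD, Derivation.sub_apply]
  have dz1 := (DD_X0 (zs a b)).trans (hdz 0)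
  have ds1 := (DD_X0 (ss a b)).trans (hds 0)
  have dz2 := (DD_X1 (zs a b)).trans (congrArg Neg.neg (hdz 1))
  have ds2 := (DD_X1 (ss a b)).trans (congrArg Neg.neg (hds 1))
  have hD1 := deriv_Z3 DD Da Db (hc 0) (hc 1) hmul hne dz1 ds1 dz2 ds2
  have hD2 := deriv_S3 DD Da Db (hc 0) (hc 1) hmul hne dz1 ds1 dz2 ds2
  have hZ3 : (Z3 a b).subst σ = - (z1 + z2) - (C a * m + C b * m ^ 2) := by
    rw [Z3, subst_sub hσ, subst_add hσ, subst_mul hσ, subst_mul hσ, subst_pow hσ]
    have hn : MvPowerSeries.subst σ (-(X 0 + X 1) : MvPowerSeries (Fin 2) K) = - (z1 + z2) := by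
      rw [← coe_substAlgHom hσ, map_neg, map_add, coe_substAlgHom hσ, subst_X hσ, subst_X hσ]
      rfl
    rw [hn, subst_C, subst_C]
  have hS3 : (S3 a b).subst σ = m * (- (z1 + z2) - (C a * m + C b * m ^ 2)) + (s1 - m * z1) := by
    rw [S3, subst_add hσ, subst_sub hσ, subst_mul hσ, subst_mul hσ, hZ3, hW 0, subst_X hσ]
    rfl
  -- put the second variable equal to zero
  have hX0 : HasSubst ![(PowerSeries.X : PowerSeries K), 0] := HasSubst.X_zero
  have eX0 : MvPowerSeries.subst ![(PowerSeries.X : PowerSeries K), 0]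
      (X 0 : MvPowerSeries (Fin 2) K) = (PowerSeries.X : PowerSeries K) := by
    rw [subst_X hX0]; rfl
  have eX1 : MvPowerSeries.subst ![(PowerSeries.X : PowerSeries K), 0]
      (X 1 : MvPowerSeries (Fin 2) K) = (0 : PowerSeries K) := by
    rw [subst_X hX0]; rfl
  set ε : MvPowerSeries (Fin 2) K → PowerSeries K :=
    MvPowerSeries.subst ![(PowerSeries.X : PowerSeries K), 0] with hε
  have εadd : ∀ x y, ε (x + y) = ε x + ε y := fun x y => subst_add hX0 x y
  have εmul : ∀ x y, ε (x * y) = ε x * ε y := fun x y => subst_mul hX0 x y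
  have εsub : ∀ x y, ε (x - y) = ε x - ε y := fun x y => subst_sub hX0 x y
  have εneg : ∀ x, ε (-x) = - ε x := by
    intro x
    have := εsub 0 x
    rw [zero_sub] at this
    rw [this]
    have h0 : ε 0 = 0 := by rw [hε, ← coe_substAlgHom hX0, map_zero]
    rw [h0, zero_sub]
  have εpow : ∀ x n, ε (x ^ n) = ε x ^ n := fun x n => subst_pow hX0 x n
  have εC : ∀ x : K, ε (C x) = PowerSeries.C x := fun x => subst_C x
  have εp : ∀ (g : PowerSeries K) (p : MvPowerSeries (Fin 2) K), constantCoeff p = 0 →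
      ε (PowerSeries.subst p g) = PowerSeries.subst (ε p) g := fun g p hp =>
    subst_X0_zero_psubst g p hp
  have ez1 : ε z1 = zs a b := by
    rw [hz1, εp _ _ (constantCoeff_X 0), eX0, PowerSeries.X_subst]
  have es1 : ε s1 = ss a b := by
    rw [hs1, εp _ _ (constantCoeff_X 0), eX0, PowerSeries.X_subst]
  have ez2 : ε z2 = 0 := by
    rw [hz2, εp _ _ (constantCoeff_X 1), eX1]
    exact PowerSeries.subst_zero_of_constantCoeff_zero (constantCoeff_zs a b)
  have es2 : ε s2 = 0 := by
    rw [hs2, εp _ _ (constantCoeff_X 1), eX1]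
    exact PowerSeries.subst_zero_of_constantCoeff_zero (constantCoeff_ss a b)
  have em : zs a b * ε m = ss a b := by
    have := congrArg ε hmul
    rw [εmul, εsub, εsub, ez1, ez2, es1, es2] at this
    linear_combination -this
  have hzne : zs a b ≠ 0 := by
    intro h
    have := coeff_one_zs a b
    rw [h, map_zero] at this
    exact zero_ne_one this
  have e01 : ε (X 0 + X 1) = PowerSeries.X := by
    rw [εadd, eX0, eX1, add_zero]
  have hcc : constantCoeff (X 0 + X 1 : MvPowerSeries (Fin 2) K) = 0 := by simp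
  have hu := isUnit_uu a b
  have hsu := ss_mul_uu a b
  have hcu := cubic a b
  have huu : uu a b = 1 - PowerSeries.C a * zs a b - PowerSeries.C b * ss a b := rfl
  have hns := neg_ss a b
  have hnz := neg_zs a b
  have eZ : ε (- (z1 + z2) - (C a * m + C b * m ^ 2)) = neg (zs a b) := by
    rw [εsub, εneg, εadd, εadd, εmul, εmul, εpow, εC, εC, ez1, ez2, add_zero]
    rw [← hu.mul_left_inj, ← mul_right_inj' (pow_ne_zero 2 hzne)]
    have e1 : zs a b ^ 2 * ((-zs a b - (PowerSeries.C a * ε m + PowerSeries.C b * ε m ^ 2)) * uu a b)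
      = (- zs a b ^ 3 - PowerSeries.C a * zs a b * (zs a b * ε m) -
          PowerSeries.C b * (zs a b * ε m) ^ 2) * uu a b := by ring
    rw [e1, em, hnz]
    linear_combination (-uu a b) * (-hcu) - hsu
  have eS : ε (m * (- (z1 + z2) - (C a * m + C b * m ^ 2)) + (s1 - m * z1)) = neg (ss a b) := by
    rw [εadd, εmul, eZ, εsub, εmul, ez1, es1]
    rw [← hu.mul_left_inj, ← mul_right_inj' hzne]
    have e1 : zs a b * ((ε m * neg (zs a b) + (ss a b - ε m * zs a b)) * uu a b)
      = (zs a b * ε m) * (neg (zs a b) * uu a b) + (ss a b - (zs a b * ε m)) * zs a b * uu a b := by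
        ring
    rw [e1, em, hnz, hns]
    ring
  constructor
  · refine ker_eq ?_ (DD_add _) ?_
    · rw [hZ3]; exact hD1
    · change ε _ = ε _
      rw [hZ3, eZ, εp _ _ hcc, e01, PowerSeries.X_subst]
  · refine ker_eq ?_ (DD_add _) ?_
    · rw [hS3]; exact hD2
    · change ε _ = ε _
      rw [hS3, eS, εp _ _ hcc, e01, PowerSeries.X_subst]

/-- **the addition formula** -/
theorem FF_subst (a b : K) :
    (FF a b).subst ![PowerSeries.subst (X 0 : MvPowerSeries (Fin 2) K) (zs a b),
      PowerSeries.subst (X 1 : MvPowerSeries (Fin 2) K) (zs a b)] =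
    PowerSeries.subst (X 0 + X 1 : MvPowerSeries (Fin 2) K) (zs a b) := by
  have hσ : HasSubst ![PowerSeries.subst (X 0 : MvPowerSeries (Fin 2) K) (zs a b),
      PowerSeries.subst (X 1 : MvPowerSeries (Fin 2) K) (zs a b)] :=
    R227.hasSubst_pair (R227.constantCoeff_psubst (constantCoeff_X 0) (constantCoeff_zs a b))
      (R227.constantCoeff_psubst (constantCoeff_X 1) (constantCoeff_zs a b))
  obtain ⟨hZ, hS⟩ := third a b
  have h01 : PowerSeries.HasSubst (X 0 + X 1 : MvPowerSeries (Fin 2) K) :=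
    PowerSeries.HasSubst.of_constantCoeff_zero (by simp)
  have hCs : ∀ (x : K), PowerSeries.subst (X 0 + X 1 : MvPowerSeries (Fin 2) K)
      (PowerSeries.C x) = (C x : MvPowerSeries (Fin 2) K) := fun x => PowerSeries.subst_C x
  have h1 := congrArg (MvPowerSeries.subst (![PowerSeries.subst (X 0 : MvPowerSeries (Fin 2) K)
    (zs a b), PowerSeries.subst (X 1 : MvPowerSeries (Fin 2) K) (zs a b)] :
      Fin 2 → MvPowerSeries (Fin 2) K)) (FF_mul a b)
  have hone : MvPowerSeries.subst (![PowerSeries.subst (X 0 : MvPowerSeries (Fin 2) K)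
    (zs a b), PowerSeries.subst (X 1 : MvPowerSeries (Fin 2) K) (zs a b)] :
      Fin 2 → MvPowerSeries (Fin 2) K) (1 : MvPowerSeries (Fin 2) K) = 1 := by
    rw [← coe_substAlgHom hσ, map_one]
  have hneg : ∀ p, MvPowerSeries.subst (![PowerSeries.subst (X 0 : MvPowerSeries (Fin 2) K)
    (zs a b), PowerSeries.subst (X 1 : MvPowerSeries (Fin 2) K) (zs a b)] :
      Fin 2 → MvPowerSeries (Fin 2) K) (-p : MvPowerSeries (Fin 2) K) = - MvPowerSeries.subst
      (![PowerSeries.subst (X 0 : MvPowerSeries (Fin 2) K)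
    (zs a b), PowerSeries.subst (X 1 : MvPowerSeries (Fin 2) K) (zs a b)] :
      Fin 2 → MvPowerSeries (Fin 2) K) p := by
    intro p
    rw [← coe_substAlgHom hσ, map_neg]
  rw [subst_mul hσ, U3, subst_sub hσ, subst_sub hσ, subst_mul hσ, subst_mul hσ, hone, hneg,
    hZ, hS, subst_C, subst_C] at h1
  -- the negated relation
  have h2 : zs a b * neg (uu a b) = - neg (zs a b) := by
    have := congrArg (PowerSeries.rescale (-1 : K)) (neg_zs a b)
    rw [map_mul, map_neg] at this
    have e := neg_neg' (zs a b)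
    rw [neg] at e
    rw [e] at this
    exact this
  have h3 := congrArg (PowerSeries.subst (X 0 + X 1 : MvPowerSeries (Fin 2) K)) h2
  have hnu : neg (uu a b) = 1 - PowerSeries.C a * neg (zs a b) - PowerSeries.C b * neg (ss a b) := by
    have e1 := neg_C a
    have e2 := neg_C b
    rw [uu]
    simp only [neg, map_sub, map_one, map_mul] at *
    rw [e1, e2]
  have hone' : (1 : PowerSeries K) = PowerSeries.C 1 := by rw [map_one]
  have hneg' : ∀ p : PowerSeries K, PowerSeries.subst (X 0 + X 1 : MvPowerSeries (Fin 2) K) (-p) =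
      - PowerSeries.subst (X 0 + X 1 : MvPowerSeries (Fin 2) K) p := by
    intro p
    rw [← PowerSeries.coe_substAlgHom h01, map_neg]
  rw [PowerSeries.subst_mul h01, hnu, PowerSeries.subst_sub h01, PowerSeries.subst_sub h01,
    PowerSeries.subst_mul h01, PowerSeries.subst_mul h01, hneg', hone', hCs, hCs, hCs, map_one]
    at h3
  have hu : IsUnit (1 - C a * PowerSeries.subst (X 0 + X 1 : MvPowerSeries (Fin 2) K)
      (neg (zs a b)) - C b * PowerSeries.subst (X 0 + X 1 : MvPowerSeries (Fin 2) K)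
      (neg (ss a b))) := by
    rw [MvPowerSeries.isUnit_iff_constantCoeff]
    have c1 : constantCoeff (PowerSeries.subst (X 0 + X 1 : MvPowerSeries (Fin 2) K)
      (neg (zs a b))) = 0 := R227.constantCoeff_psubst (by simp)
        (by rw [constantCoeff_neg, constantCoeff_zs])
    have c2 : constantCoeff (PowerSeries.subst (X 0 + X 1 : MvPowerSeries (Fin 2) K)
      (neg (ss a b))) = 0 := R227.constantCoeff_psubst (by simp)
        (by rw [constantCoeff_neg, constantCoeff_ss])
    simp [c1, c2]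
  exact hu.mul_left_injective (h1.trans h3.symm)

end add

end Crest.Agent.R007.Fg
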