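import Crest.Agent.R007.Fg3

/-!
# Row 7, E-FG, file 4: the formal group `Phi a b` over any commutative ring, and the homomorphisms
-/

set_option autoImplicit false

noncomputable section

namespace Crest.Agent.R007.Fg

open MvPowerSeries Crest.LubinTate

section inj

variable {A B : Type*} [CommRing A] [CommRing B]

theorem map_injective {σ : Type*} {f : A →+* B} (hf : Function.Injective f) :
    Function.Injective (MvPowerSeries.map (σ := σ) f) := by
  intro p q h
  ext d
  apply hf
  have := congrArg (coeff d) h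
  rwa [coeff_map, coeff_map] at this

theorem pmap_injective {f : A →+* B} (hf : Function.Injective f) :
    Function.Injective (PowerSeries.map f) := by
  intro p q h
  ext d
  apply hf
  have := congrArg (PowerSeries.coeff d) h
  rwa [PowerSeries.coeff_map, PowerSeries.coeff_map] at this

theorem map_psubst_X (f : A →+* B) (i : Fin 2) (φ : PowerSeries A) :
    MvPowerSeries.map f (PowerSeries.subst (X i : MvPowerSeries (Fin 2) A) φ) =
      PowerSeries.subst (X i : MvPowerSeries (Fin 2) B) (PowerSeries.map f φ) := by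
  rw [PowerSeries.map_subst (PowerSeries.HasSubst.X i), map_X]

/-- descent of homomorphisms along an injective ring homomorphism -/
theorem isFGHom_of_map {F G : FormalGroup A} {φ : PowerSeries A} {f : A →+* B}
    (hf : Function.Injective f) (h : IsFGHom (F.map f) (G.map f) (φ.map f)) : IsFGHom F G φ := by
  have h0 : PowerSeries.constantCoeff φ = 0 := by
    apply hf
    have := h.1
    rw [← PowerSeries.coeff_zero_eq_constantCoeff_apply, PowerSeries.coeff_map,
      PowerSeries.coeff_zero_eq_constantCoeff_apply] at this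
    rw [this, map_zero]
  refine ⟨h0, map_injective hf ?_⟩
  have hF : PowerSeries.HasSubst F.toPowerSeries :=
    PowerSeries.HasSubst.of_constantCoeff_zero F.zero_constantCoeff
  have hc := fun i => R227.constantCoeff_psubst (R227.ccX (R := A) i) h0
  rw [PowerSeries.map_subst hF, MvPowerSeries.map_subst (R227.hasSubst_pair (hc 0) (hc 1))]
  have e : (fun i => (![PowerSeries.subst (X 0 : MvPowerSeries (Fin 2) A) φ,
      PowerSeries.subst (X 1 : MvPowerSeries (Fin 2) A) φ] i).map f) =
      ![PowerSeries.subst (X 0 : MvPowerSeries (Fin 2) B) (φ.map f),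
      PowerSeries.subst (X 1 : MvPowerSeries (Fin 2) B) (φ.map f)] := by
    funext i
    fin_cases i
    · exact map_psubst_X f 0 φ
    · exact map_psubst_X f 1 φ
  rw [e]
  exact h.2

end inj

/-! ## general `ℚ`-algebras -/

/-- `ℚ[a,b]` -/
abbrev K0 := MvPolynomial (Fin 2) ℚ

/-- `ℤ[a,b]` -/
abbrev A0 := MvPolynomial (Fin 2) ℤ

section Kalg

variable {K : Type*} [CommRing K] [Algebra ℚ K]

/-- evaluation -/
def evK (a b : K) : K0 →+* K := (MvPolynomial.aeval ![a, b] : K0 →ₐ[ℚ] K).toRingHom

theorem evK_X0 (a b : K) : evK a b (MvPolynomial.X 0) = a := by simp [evK]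
theorem evK_X1 (a b : K) : evK a b (MvPolynomial.X 1) = b := by simp [evK]

theorem FF_subst' (a b : K) :
    (FF a b).subst ![PowerSeries.subst (X 0 : MvPowerSeries (Fin 2) K) (zs a b),
      PowerSeries.subst (X 1 : MvPowerSeries (Fin 2) K) (zs a b)] =
    PowerSeries.subst (X 0 + X 1 : MvPowerSeries (Fin 2) K) (zs a b) := by
  have h := congrArg (MvPowerSeries.map (evK a b))
    (FF_subst (K := K0) (MvPolynomial.X 0) (MvPolynomial.X 1))
  have hc := fun i => R227.constantCoeff_psubst (R227.ccX (R := K0) i)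
    (constantCoeff_zs (K := K0) (MvPolynomial.X 0) (MvPolynomial.X 1))
  have h01 : PowerSeries.HasSubst (X 0 + X 1 : MvPowerSeries (Fin 2) K0) :=
    PowerSeries.HasSubst.of_constantCoeff_zero (by simp)
  rw [MvPowerSeries.map_subst (R227.hasSubst_pair (hc 0) (hc 1)), PowerSeries.map_subst h01,
    map_FF, map_zs, evK_X0, evK_X1, map_add, map_X, map_X] at h
  have e : (fun i => MvPowerSeries.map (evK a b) (![PowerSeries.subst (X 0 : MvPowerSeries (Fin 2) K0)
      (zs (MvPolynomial.X 0 : K0) (MvPolynomial.X 1)),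
      PowerSeries.subst (X 1 : MvPowerSeries (Fin 2) K0)
      (zs (MvPolynomial.X 0 : K0) (MvPolynomial.X 1))] i)) =
      ![PowerSeries.subst (X 0 : MvPowerSeries (Fin 2) K) (zs a b),
      PowerSeries.subst (X 1 : MvPowerSeries (Fin 2) K) (zs a b)] := by
    funext i
    fin_cases i
    · refine (map_psubst_X (evK a b) 0 _).trans ?_
      rw [map_zs, evK_X0, evK_X1]
      rfl
    · refine (map_psubst_X (evK a b) 1 _).trans ?_
      rw [map_zs, evK_X0, evK_X1]
      rfl
  rw [e] at h
  exact h

theorem exists_FG (a b : K) : ∃ G : FormalGroup K, G.IsComm ∧ G.toPowerSeries = FF a b ∧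
    IsFGHom FormalGroup.𝔾ₐ G (zs a b) := by
  have hu : IsUnit (PowerSeries.coeff 1 (zs a b)) := by rw [coeff_one_zs]; exact isUnit_one
  obtain ⟨G, hG⟩ := R227.exists_conj FormalGroup.𝔾ₐ (zs a b) (constantCoeff_zs a b) hu
  refine ⟨G, R227.IsFGHom.isComm hG hu, ?_, hG⟩
  obtain ⟨ψ, hψ0, hψu, h1, h2⟩ := R227.exists_sinv (constantCoeff_zs a b) hu
  have hc := fun i => R227.constantCoeff_psubst (R227.ccX (R := K) i) (constantCoeff_zs a b)
  have hd := fun i => R227.constantCoeff_psubst (R227.ccX (R := K) i) hψ0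
  have hσ := R227.hasSubst_pair (hc 0) (hc 1)
  have hτ := R227.hasSubst_pair (hd 0) (hd 1)
  have key : ∀ P : MvPowerSeries (Fin 2) K, (P.subst
      ![PowerSeries.subst (X 0 : MvPowerSeries (Fin 2) K) (zs a b),
      PowerSeries.subst (X 1 : MvPowerSeries (Fin 2) K) (zs a b)]).subst
      ![PowerSeries.subst (X 0 : MvPowerSeries (Fin 2) K) ψ,
      PowerSeries.subst (X 1 : MvPowerSeries (Fin 2) K) ψ] = P := by
    intro P
    rw [subst_comp_subst_apply hσ hτ]
    have e : (fun s => MvPowerSeries.subst ![PowerSeries.subst (X 0 : MvPowerSeries (Fin 2) K) ψ,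
      PowerSeries.subst (X 1 : MvPowerSeries (Fin 2) K) ψ]
      (![PowerSeries.subst (X 0 : MvPowerSeries (Fin 2) K) (zs a b),
      PowerSeries.subst (X 1 : MvPowerSeries (Fin 2) K) (zs a b)] s)) = X := by
      funext i
      fin_cases i
      · simp only [Fin.zero_eta, Matrix.cons_val_zero]
        rw [R227.subst_psubst (R227.ccX 0) hτ, subst_X hτ]
        simp only [Matrix.cons_val_zero]
        rw [R227.psubst_psubst' (R227.ccX 0) hψ0, h2, R227.psubst_X (R227.ccX 0)]
      · simp only [Fin.mk_one, Matrix.cons_val_one, Matrix.cons_val_fin_one]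
        rw [R227.subst_psubst (R227.ccX 1) hτ, subst_X hτ]
        simp only [Matrix.cons_val_one, Matrix.cons_val_fin_one]
        rw [R227.psubst_psubst' (R227.ccX 1) hψ0, h2, R227.psubst_X (R227.ccX 1)]
    rw [e, subst_self, id]
  rw [← key G.toPowerSeries, ← hG.2, ← key (FF a b), FF_subst']
  simp

end Kalg

/-! ## the universal law over `ℤ[a,b]` -/

/-- `ℤ[a,b] → ℚ[a,b]` -/
def iotaAK : A0 →+* K0 := MvPolynomial.map (Int.castRingHom ℚ)

theorem iotaAK_injective : Function.Injective iotaAK :=
  MvPolynomial.map_injective _ Int.cast_injective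

theorem iotaAK_X (i : Fin 2) : iotaAK (MvPolynomial.X i) = MvPolynomial.X i := by simp [iotaAK]

theorem constantCoeff_FF {A : Type*} [CommRing A] (a b : A) : constantCoeff (FF a b) = 0 := by
  rw [FF, map_mul, map_neg, constantCoeff_Z3]; simp

/-- the universal formal group law -/
def univ : FormalGroup A0 where
  toPowerSeries := FF (MvPolynomial.X 0) (MvPolynomial.X 1)
  zero_constantCoeff := constantCoeff_FF _ _
  lin_coeff_X := by
    obtain ⟨G, -, hG, -⟩ := exists_FG (K := K0) (MvPolynomial.X 0) (MvPolynomial.X 1)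
    apply iotaAK_injective
    rw [← coeff_map, map_FF, iotaAK_X, iotaAK_X, ← hG, G.lin_coeff_X, map_one]
  lin_coeff_Y := by
    obtain ⟨G, -, hG, -⟩ := exists_FG (K := K0) (MvPolynomial.X 0) (MvPolynomial.X 1)
    apply iotaAK_injective
    rw [← coeff_map, map_FF, iotaAK_X, iotaAK_X, ← hG, G.lin_coeff_Y, map_one]
  assoc := by
    obtain ⟨G, -, hG, -⟩ := exists_FG (K := K0) (MvPolynomial.X 0) (MvPolynomial.X 1)
    apply map_injective iotaAK_injective
    have hz := constantCoeff_FF (A := A0) (MvPolynomial.X 0) (MvPolynomial.X 1)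
    have c3 : ∀ i : Fin 3, constantCoeff (X i : MvPowerSeries (Fin 3) A0) = 0 := by simp
    have a01 : constantCoeff ((FF (A := A0) (MvPolynomial.X 0) (MvPolynomial.X 1)).subst
      ![(X 0 : MvPowerSeries (Fin 3) A0), X 1]) = 0 :=
      constantCoeff_subst_eq_zero (R227.hasSubst_pair (c3 0) (c3 1))
        (by intro i; fin_cases i <;> simp) hz
    have a12 : constantCoeff ((FF (A := A0) (MvPolynomial.X 0) (MvPolynomial.X 1)).subst
      ![(X 1 : MvPowerSeries (Fin 3) A0), X 2]) = 0 :=
      constantCoeff_subst_eq_zero (R227.hasSubst_pair (c3 1) (c3 2))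
        (by intro i; fin_cases i <;> simp) hz
    have hG' := G.assoc
    rw [MvPowerSeries.map_subst (R227.hasSubst_pair a01 (c3 2)),
      MvPowerSeries.map_subst (R227.hasSubst_pair (c3 0) a12), map_FF, iotaAK_X, iotaAK_X, ← hG]
    have e1 : (fun i => (![(FF (A := A0) (MvPolynomial.X 0) (MvPolynomial.X 1)).subst
      ![(X 0 : MvPowerSeries (Fin 3) A0), X 1], X 2] i).map iotaAK) =
      ![G.toPowerSeries.subst ![(X 0 : MvPowerSeries (Fin 3) K0), X 1], X 2] := by
      funext i
      fin_cases i
      · simp only [Fin.zero_eta, Matrix.cons_val_zero]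
        rw [MvPowerSeries.map_subst (R227.hasSubst_pair (c3 0) (c3 1)), map_FF, iotaAK_X,
          iotaAK_X, ← hG]
        congr 1
        funext j
        fin_cases j <;> simp
      · simp
    have e2 : (fun i => (![(X 0 : MvPowerSeries (Fin 3) A0),
      (FF (A := A0) (MvPolynomial.X 0) (MvPolynomial.X 1)).subst
      ![(X 1 : MvPowerSeries (Fin 3) A0), X 2]] i).map iotaAK) =
      ![X 0, G.toPowerSeries.subst ![(X 1 : MvPowerSeries (Fin 3) K0), X 2]] := by
      funext i
      fin_cases i
      · simp
      · simp only [Fin.mk_one, Matrix.cons_val_one, Matrix.cons_val_fin_one]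
        rw [MvPowerSeries.map_subst (R227.hasSubst_pair (c3 1) (c3 2)), map_FF, iotaAK_X,
          iotaAK_X, ← hG]
        congr 1
        funext j
        fin_cases j <;> simp
    rw [e1, e2]
    exact hG'

section Phi

variable {A : Type*} [CommRing A]

/-- evaluation -/
def evA (a b : A) : A0 →+* A := MvPolynomial.eval₂Hom (Int.castRingHom A) ![a, b]

theorem evA_X0 (a b : A) : evA a b (MvPolynomial.X 0) = a := by simp [evA]
theorem evA_X1 (a b : A) : evA a b (MvPolynomial.X 1) = b := by simp [evA]

/-- the formal group law of `y² + a x y + b y = x³` -/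
def Phi (a b : A) : FormalGroup A := univ.map (evA a b)

theorem Phi_toPowerSeries (a b : A) : (Phi a b).toPowerSeries = FF a b := by
  change (FF (MvPolynomial.X 0) (MvPolynomial.X 1)).map (evA a b) = _
  rw [map_FF, evA_X0, evA_X1]

theorem Phi_map {B : Type*} [CommRing B] (f : A →+* B) (a b : A) :
    (Phi a b).map f = Phi (f a) (f b) := by
  apply FormalGroup.ext
  rw [Phi_toPowerSeries]
  change (Phi a b).toPowerSeries.map f = _
  rw [Phi_toPowerSeries, map_FF]

theorem isComm_map {B : Type*} [CommRing B] (f : A →+* B) {F : FormalGroup A} (h : F.IsComm) :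
    (F.map f).IsComm := by
  constructor
  have := congrArg (MvPowerSeries.map f) h.comm
  rw [MvPowerSeries.map_subst HasSubst.X_X] at this
  have e : (fun i => (![(X 1 : MvPowerSeries (Fin 2) A), X 0] i).map f) =
    ![(X 1 : MvPowerSeries (Fin 2) B), X 0] := by
    funext i
    fin_cases i <;> simp
  rw [e] at this
  exact this

theorem isComm_of_map {B : Type*} [CommRing B] {f : A →+* B} (hf : Function.Injective f)
    {F : FormalGroup A} (h : (F.map f).IsComm) : F.IsComm := by
  constructor
  apply map_injective hf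
  have := h.comm
  rw [MvPowerSeries.map_subst HasSubst.X_X]
  have e : (fun i => (![(X 1 : MvPowerSeries (Fin 2) A), X 0] i).map f) =
    ![(X 1 : MvPowerSeries (Fin 2) B), X 0] := by
    funext i
    fin_cases i <;> simp
  rw [e]
  exact this

instance univ_isComm : univ.IsComm := by
  apply isComm_of_map iotaAK_injective
  obtain ⟨G, hc, hG, -⟩ := exists_FG (K := K0) (MvPolynomial.X 0) (MvPolynomial.X 1)
  have : univ.map iotaAK = G := by
    apply FormalGroup.ext
    rw [hG]
    change (FF (MvPolynomial.X 0) (MvPolynomial.X 1)).map iotaAK = _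
    rw [map_FF, iotaAK_X, iotaAK_X]
  rw [this]
  exact hc

instance Phi_isComm (a b : A) : (Phi a b).IsComm := isComm_map _ univ_isComm

end Phi

section hom

variable {K : Type*} [CommRing K] [Algebra ℚ K]

/-- `z(w)` is a homomorphism from the additive group -/
theorem isFGHom_zs (a b : K) : IsFGHom FormalGroup.𝔾ₐ (Phi a b) (zs a b) := by
  obtain ⟨G, hc, hG, h⟩ := exists_FG a b
  have : Phi a b = G := by
    apply FormalGroup.ext
    rw [Phi_toPowerSeries, hG]
  rw [this]
  exact h

theorem isUnit_zs1 (a b : K) : IsUnit (PowerSeries.coeff 1 (zs a b)) := by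
  rw [coeff_one_zs]; exact isUnit_one

/-- the logarithm -/
def lg (a b : K) : PowerSeries K := (zs a b).substInvOfIsUnit (isUnit_zs1 a b)

theorem constantCoeff_lg (a b : K) : PowerSeries.constantCoeff (lg a b) = 0 := by
  simp [lg]

theorem coeff_one_lg (a b : K) : PowerSeries.coeff 1 (lg a b) = 1 := by
  rw [lg, PowerSeries.coeff_one_substInvOfIsUnit]
  have : (isUnit_zs1 a b).unit = 1 := Units.ext (coeff_one_zs a b)
  rw [this]; simp

theorem lg_zs (a b : K) : (lg a b).subst (zs a b) = (PowerSeries.X : PowerSeries K) :=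
  (zs a b).subst_substInvOfIsUnit_left (constantCoeff_zs a b) (isUnit_zs1 a b)

theorem zs_lg (a b : K) : (zs a b).subst (lg a b) = (PowerSeries.X : PowerSeries K) :=
  (zs a b).subst_substInvOfIsUnit_right (constantCoeff_zs a b) (isUnit_zs1 a b)

theorem isFGHom_lg (a b : K) : IsFGHom (Phi a b) FormalGroup.𝔾ₐ (lg a b) := by
  obtain ⟨ψ, hψ, h1, h2, -⟩ := R227.IsFGHom.exists_inv (isFGHom_zs a b) (isUnit_zs1 a b)
  have : ψ = lg a b := by
    have h3 := congrArg (PowerSeries.subst (lg a b)) h1
    rw [R227.psubst_psubst (constantCoeff_zs a b) (constantCoeff_lg a b), zs_lg,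
      PowerSeries.X_subst, R227.psubst_X (constantCoeff_lg a b)] at h3
    exact h3
  rw [← this]
  exact hψ

/-- the comparison `H = z_{a,b} ∘ z_{a',b'}⁻¹` -/
def HH (a' b' a b : K) : PowerSeries K := (zs a b).subst (lg a' b')

theorem isFGHom_HH (a' b' a b : K) : IsFGHom (Phi a' b') (Phi a b) (HH a' b' a b) :=
  R227.IsFGHom.comp (isFGHom_lg a' b') (isFGHom_zs a b)

end hom

end Crest.Agent.R007.Fg
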