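import Crest.Agent.R007.FgW
import Crest.Agent.R007.EIn

/-!
Row 7, section E (helper360): the formal-group fields of `EIn`.
-/

set_option autoImplicit false

noncomputable section

open PowerSeries Crest.LubinTate

namespace Crest.Agent.R007.Fg

/-! ### generalities on `HH` -/

section HH

variable {K : Type*} [CommRing K] [Algebra ℚ K] (a' b' a b : K)

theorem lg_eq : lg a b = Fz.lgS a b := by
  refine Fz.sinv_unique (φ := zs a b) (constantCoeff_zs a b) (constantCoeff_lg a b) ?_ (zs_lg a b)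
  rw [zs_eq]; exact Fz.lgS_exS a b

theorem HH_eq : HH a' b' a b = subst (Fz.lgS a' b') (Fz.exS a b) := by
  rw [HH, zs_eq, lg_eq]

theorem constantCoeff_HH : constantCoeff (HH a' b' a b) = 0 := (isFGHom_HH a' b' a b).1

theorem coeff_one_HH : coeff 1 (HH a' b' a b) = 1 := by
  rw [HH, F.coeff_one_subst (constantCoeff_lg a' b'), coeff_one_zs, coeff_one_lg, mul_one]

theorem map_HH {L : Type*} [CommRing L] [Algebra ℚ L] (f : K →+* L) :
    (HH a' b' a b).map f = HH (f a') (f b') (f a) (f b) := by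
  rw [HH_eq, HH_eq, ← Fz.map_lgS a' b' f, ← Fz.map_exS a b f]
  exact PowerSeries.map_subst (h := f) (HasSubst.of_constantCoeff_zero' (Fz.cc_lgS a' b')) _

theorem exS_scale (u : K) : (subst (C u * X : PowerSeries K) (Fz.exS a b) : PowerSeries K) =
    C u * Fz.exS (u * a) (u ^ 3 * b) := by
  have hu := Fz.cc_CX u
  have h0 : constantCoeff (C u * Fz.exS (u * a) (u ^ 3 * b)) = 0 := by
    rw [map_mul, Fz.cc_exS, mul_zero]
  have h1 : constantCoeff (subst (C u * X : PowerSeries K) (Fz.exS a b) : PowerSeries K) = 0 :=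
    R227.constantCoeff_psubst (τ := Unit) hu (Fz.cc_exS a b)
  refine Fz.lgS_inj (τ := Unit) a b h1 h0 ?_
  have e1 : (subst (subst (C u * X : PowerSeries K) (Fz.exS a b) : PowerSeries K) (Fz.lgS a b) :
      PowerSeries K) = C u * X := by
    rw [← R227.psubst_psubst (τ := Unit) (Fz.cc_exS a b) hu, Fz.lgS_exS]
    exact R227.psubst_X (τ := Unit) hu
  have e2 : (subst (C u * Fz.exS (u * a) (u ^ 3 * b) : PowerSeries K) (Fz.lgS a b) :
      PowerSeries K) = C u * X := by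
    have h2 : (subst (Fz.exS (u * a) (u ^ 3 * b)) (C u * X : PowerSeries K) : PowerSeries K) =
        C u * Fz.exS (u * a) (u ^ 3 * b) := Fz.subst_CX (τ := Unit) u (Fz.cc_exS _ _)
    rw [← h2, ← R227.psubst_psubst (τ := Unit) hu (Fz.cc_exS (u * a) (u ^ 3 * b)), Fz.lgS_scale,
      PowerSeries.subst_mul (HasSubst.of_constantCoeff_zero' (Fz.cc_exS _ _)), Fz.lgS_exS]
    congr 1
    exact PowerSeries.subst_C _
  exact e1.trans e2.symm

/-- homogeneity of `HH` -/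
theorem HH_scale (u : K) : (subst (C u * X : PowerSeries K) (HH a' b' a b) : PowerSeries K) =
    C u * HH (u * a') (u ^ 3 * b') (u * a) (u ^ 3 * b) := by
  have hu := Fz.cc_CX u
  have hl : constantCoeff (Fz.lgS (u * a') (u ^ 3 * b')) = 0 := Fz.cc_lgS _ _
  rw [HH_eq, HH_eq, R227.psubst_psubst (τ := Unit) (Fz.cc_lgS a' b') hu, Fz.lgS_scale]
  have h2 : (subst (Fz.lgS (u * a') (u ^ 3 * b')) (C u * X : PowerSeries K) : PowerSeries K) =
      C u * Fz.lgS (u * a') (u ^ 3 * b') := Fz.subst_CX (τ := Unit) u hl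
  rw [← h2, ← R227.psubst_psubst (τ := Unit) hu hl, exS_scale,
    PowerSeries.subst_mul (HasSubst.of_constantCoeff_zero' hl)]
  congr 1
  exact PowerSeries.subst_C _

theorem coeff_subst_CX (u : K) (f : PowerSeries K) (n : ℕ) :
    coeff n (subst (C u * X : PowerSeries K) f : PowerSeries K) = u ^ n * coeff n f := by
  have h : (C u * X : PowerSeries K) = u • (X : PowerSeries K) := by
    rw [PowerSeries.smul_eq_C_mul]
  rw [h, ← PowerSeries.rescale_eq_subst, PowerSeries.coeff_rescale]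

theorem coeff_HH_scale (u : Kˣ) (n : ℕ) :
    coeff (n + 1) (HH (u * a') (u ^ 3 * b') (u * a) (u ^ 3 * b)) =
      (u : K) ^ n * coeff (n + 1) (HH a' b' a b) := by
  have h := congrArg (coeff (n + 1)) (HH_scale a' b' a b u)
  rw [coeff_subst_CX, PowerSeries.coeff_C_mul, pow_succ'] at h
  have h2 : (u : K) * ((u : K) ^ n * coeff (n + 1) (HH a' b' a b)) =
    (u : K) * coeff (n + 1) (HH (u * a') (u ^ 3 * b') (u * a) (u ^ 3 * b)) := by
    rw [← h]; ring
  exact (u.isUnit.mul_left_cancel h2).symm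

end HH

/-! ### the fields -/

section fields

open UpperHalfPlane ModularForm CongruenceSubgroup Matrix
open Crest.Agent.R007.Lat Crest.Agent.R007.Mix Crest.Agent.R007.EL
open scoped MatrixGroups Manifold ModularForm

/-- homothety on functions on based lattices -/
def hom (c : ℂˣ) : (Lat.X → ℂ) →+* (Lat.X → ℂ) where
  toFun F := fun x => F ⟨x.t, c * x.w⟩
  map_one' := rfl
  map_mul' _ _ := rfl
  map_zero' := rfl
  map_add' _ _ := rfl

theorem hom_apply (c : ℂˣ) (F : Lat.X → ℂ) (x : Lat.X) : hom c F x = F ⟨x.t, c * x.w⟩ := rfl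

theorem mem_Wt_iff {k : ℕ} {F : Lat.X → ℂ} :
    F ∈ Wt k ↔ ∀ c : ℂˣ, hom c F = (fun _ => ((c⁻¹ : ℂˣ) : ℂ)) ^ k * F := by
  constructor
  · intro h c
    funext x
    exact h c x
  · intro h c x
    exact congrFun (h c) x

/-- coefficients of `HH` are homogeneous -/
theorem coeff_HH_mem_Wt {a' b' a b : Lat.X → ℂ} (ha' : a' ∈ Wt 1) (hb' : b' ∈ Wt 3) (ha : a ∈ Wt 1)
    (hb : b ∈ Wt 3) (n : ℕ) : coeff (n + 1) (HH a' b' a b) ∈ Wt n := by
  rw [mem_Wt_iff]
  intro c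
  let u : (Lat.X → ℂ)ˣ :=
    { val := fun _ => ((c⁻¹ : ℂˣ) : ℂ)
      inv := fun _ => (c : ℂ)
      val_inv := by funext x; simp
      inv_val := by funext x; simp }
  have hu : ((u : (Lat.X → ℂ)ˣ) : Lat.X → ℂ) = fun _ => ((c⁻¹ : ℂˣ) : ℂ) := rfl
  rw [← PowerSeries.coeff_map, map_HH, mem_Wt_iff.1 ha', mem_Wt_iff.1 hb', mem_Wt_iff.1 ha,
    mem_Wt_iff.1 hb, ← hu, pow_one]
  exact coeff_HH_scale a' b' a b u n

theorem MM_inter_Wt {k : ℕ} {F : Lat.X → ℂ} (hF : F ∈ MM) (h : F ∈ Wt k) : F ∈ MO k := by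
  have h1 : comp k F = F := by
    have := comp_eq (n := k + 1) (G := fun j => if j = k then F else 0) (fun j => ?_) hF
      (by simp) (fun j hj => by rw [if_neg]; omega) k
    · simpa using this
    · split_ifs with hj
      · subst hj; exact h
      · exact zero_mem _
  rw [← h1]
  exact comp_mem k

theorem VV_inter_Wt {O : Subring ℂ} {k : ℕ} {F : Lat.X → ℂ} (hF : F ∈ VV O) (h : F ∈ Wt k) :
    F ∈ Lk O k := ⟨MM_inter_Wt hF.1 h, hF.2⟩

theorem coeff_HH_mem_LL {O : Subring ℂ} {a' b' a b : Lat.X → ℂ} (ha' : a' ∈ Wt 1) (hb' : b' ∈ Wt 3)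
    (ha : a ∈ Wt 1) (hb : b ∈ Wt 3) (hint : ∀ n, coeff n (HH a' b' a b) ∈ VV O) (n : ℕ) :
    coeff n (HH a' b' a b) ∈ LL O := by
  rcases n with _ | n
  · rw [PowerSeries.coeff_zero_eq_constantCoeff_apply, constantCoeff_HH]
    exact zero_mem _
  · exact le_SR (famL O) (VV_inter_Wt (hint (n + 1)) (coeff_HH_mem_Wt ha' hb' ha hb n))

/-- `H` over `L` -/
theorem exists_HL {O : Subring ℂ} (a' b' a b : LL O) (ha' : (a' : Lat.X → ℂ) ∈ Wt 1)
    (hb' : (b' : Lat.X → ℂ) ∈ Wt 3) (ha : (a : Lat.X → ℂ) ∈ Wt 1) (hb : (b : Lat.X → ℂ) ∈ Wt 3)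
    (hint : ∀ n, coeff n (HH (a' : Lat.X → ℂ) b' a b) ∈ VV O) :
    ∃ H : PowerSeries (LL O), IsFGHom (Phi a' b') (Phi a b) H ∧ coeff 1 H = 1 := by
  refine ⟨PowerSeries.mk fun n => ⟨coeff n (HH (a' : Lat.X → ℂ) b' a b),
    coeff_HH_mem_LL ha' hb' ha hb hint n⟩, ?_, ?_⟩
  · have hinj : Function.Injective (LL O).subtype := Subtype.val_injective
    apply Fz.isFGHom_of_map hinj
    rw [Phi_map, Phi_map]
    have : (PowerSeries.mk fun n => (⟨coeff n (HH (a' : Lat.X → ℂ) b' a b),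
      coeff_HH_mem_LL ha' hb' ha hb hint n⟩ : LL O)).map (LL O).subtype =
      HH (a' : Lat.X → ℂ) b' a b := by
      ext1 n
      rw [PowerSeries.coeff_map, PowerSeries.coeff_mk]
      rfl
    rw [this]
    exact isFGHom_HH _ _ _ _
  · apply Subtype.ext
    rw [PowerSeries.coeff_mk]
    exact coeff_one_HH _ _ _ _

variable {κ : Type*} [Field κ] [CharP κ 2]

/-- the field `fg` of `EIn` -/
theorem fg_field {O : Subring ℂ} (ρ : O →+* κ) {A1 A3 : Lat.X → ℂ} (h1 : A1 ∈ Lk O 1)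
    (h3 : A3 ∈ Lk O 3)
    (hint : ∀ δ ∈ G2, ∀ n, coeff n (HH (sl A1 δ) (sl A3 δ) A1 A3) ∈ VV O)
    (e : LL O →+* PowerSeries κ) (he : IsPt ρ (mkL O A1 h1) (mkL O A3 h3) e)
    (δ : GL(2, ℝ)⁺) (hδ : δ ∈ G2) : ∃ H,
      IsFGHom (Phi (e (slL O δ hδ (mkL O A1 h1))) (e (slL O δ hδ (mkL O A3 h3))))
        (Phi PowerSeries.X 1) H ∧ IsUnit (PowerSeries.coeff 1 H) := by
  obtain ⟨H, hH, hc⟩ := exists_HL (slL O δ hδ (mkL O A1 h1)) (slL O δ hδ (mkL O A3 h3))
    (mkL O A1 h1) (mkL O A3 h3) (Wt_sl (MO_le_Wt h1.1) δ) (Wt_sl (MO_le_Wt h3.1) δ)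
    (MO_le_Wt h1.1) (MO_le_Wt h3.1) (hint δ hδ)
  have h2 := R227.IsFGHom.map e hH
  rw [Phi_map, Phi_map, he.A1, he.A3] at h2
  refine ⟨_, h2, ?_⟩
  rw [PowerSeries.coeff_map, hc, map_one]
  exact isUnit_one

/-- the field `Phi_sc` of `EIn`, over every ring -/
theorem Phi_sc {A : Type*} [CommRing A] (u a b : A) (hu : IsUnit u) :
    ∃ G, IsFGHom (Phi a b) (Phi (u * a) (u ^ 3 * b)) G ∧ IsUnit (PowerSeries.coeff 1 G) := by
  have h1 : PowerSeries.coeff 1 (PowerSeries.C u * PowerSeries.X : PowerSeries A) = u := by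
    rw [PowerSeries.coeff_C_mul, PowerSeries.coeff_one_X, mul_one]
  obtain ⟨ψ, hψ, -, -, hc⟩ := R227.IsFGHom.exists_inv (scale u a b) (by rw [h1]; exact hu)
  exact ⟨ψ, hψ, hc⟩

end fields

end Crest.Agent.R007.Fg
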