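import Crest.Agent.R007.FgE
import Crest.Agent.R007.Tw3
import Crest.Agent.R007.OOInst

/-!
Row 7, section E (helper360): the field `fg` of `EIn` over `Coef.OO`, from `tate_inf`.
-/

set_option autoImplicit false

noncomputable section

open PowerSeries Crest.LubinTate

namespace Crest.Agent.R007.Fg

open UpperHalfPlane ModularForm CongruenceSubgroup Matrix
open Crest.Agent.R007.Lat Crest.Agent.R007.Mix Crest.Agent.R007.EL Crest.Agent.R007.Tc Crest.Agent.R007.PsInt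
open scoped MatrixGroups Manifold ModularForm

/-- the field `fg` of `EIn` for `A₁, A₃` attached to any vector of order 3 -/
theorem fg_OO
    (hinf : ∀ v : Fin 2 → ℤ, NZ 3 v → ∃ P : PowerSeries (ℍ → ℂ), CIn (IntO Coef.OO) P ∧
      PowerSeries.constantCoeff P = 0 ∧ PowerSeries.coeff 1 P = 1 ∧
      zs (A1 v) (A3 v) = PowerSeries.subst (PowerSeries.exp (ℍ → ℂ) - 1) P)
    {v : Fin 2 → ℤ} (hv : NZ 3 v) (h1 : Lat.lift 1 (A1 v) ∈ Lk Coef.OO 1)
    (h3 : Lat.lift 3 (A3 v) ∈ Lk Coef.OO 3)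
    (e : LL Coef.OO →+* PowerSeries Coef.kappa)
    (he : IsPt Coef.res (mkL Coef.OO (Lat.lift 1 (A1 v)) h1) (mkL Coef.OO (Lat.lift 3 (A3 v)) h3) e)
    (δ : GL(2, ℝ)⁺) (hδ : δ ∈ G2) : ∃ H,
      IsFGHom (Phi (e (slL Coef.OO δ hδ (mkL Coef.OO (Lat.lift 1 (A1 v)) h1)))
        (e (slL Coef.OO δ hδ (mkL Coef.OO (Lat.lift 3 (A3 v)) h3))))
        (Phi PowerSeries.X 1) H ∧ IsUnit (PowerSeries.coeff 1 H) :=
  fg_field Coef.res h1 h3 (fun _ hδ n => Tw.H_int Crest.Agent.R007.OOI.hodd Crest.Agent.R007.OOI.hroot hinf hv hδ n) e he δ hδ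

end Crest.Agent.R007.Fg
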