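import Crest.Agent.R007.Tate4

/-!
Row 7, section E (formal Tate curve), part 5: integrality and the final statement `tate_formal`.
-/

set_option autoImplicit false

namespace Crest.Agent.R007.Tate

open Crest.Agent.R007.Wp Crest.Agent.R007.Rat Crest.Agent.R007.Tc
open PowerSeries

noncomputable section

variable {O : Subring ℂ}

/-! ### integrality of one variable series -/

lemma cin_C {c : ℂ} (hc : c ∈ O) : CoeffIn O (C c) := fun n => by
  rw [coeff_C]; split_ifs
  · exact hc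
  · exact O.zero_mem

lemma cin_X : CoeffIn O (X : PowerSeries ℂ) := fun n => by
  rw [coeff_X]; split_ifs
  · exact O.one_mem
  · exact O.zero_mem

lemma cin_natCast (n : ℕ) : CoeffIn O (n : PowerSeries ℂ) := by
  rw [← map_natCast C]; exact cin_C (natCast_mem O n)

lemma cin_pow {p : PowerSeries ℂ} (hp : CoeffIn O p) (n : ℕ) : CoeffIn O (p ^ n) := by
  induction n with
  | zero => rw [pow_zero]; exact CoeffIn.one
  | succ n ih => rw [pow_succ]; exact ih.mul hp

lemma cin_sum {ι : Type*} (s : Finset ι) (F : ι → PowerSeries ℂ) (h : ∀ i ∈ s, CoeffIn O (F i)) :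
    CoeffIn O (∑ i ∈ s, F i) := fun n => by
  rw [map_sum]; exact O.sum_mem fun i hi => h i hi n

lemma cin_wt_pow (d : ℕ) : CoeffIn O ((wt ^ d : (PowerSeries ℂ)ˣ) : PowerSeries ℂ) := by
  rw [Units.val_pow_eq_pow_val, wt_val]
  exact cin_pow (CoeffIn.one.add cin_X) d

lemma cin_wt_inv_pow (d : ℕ) : CoeffIn O ((wt⁻¹ ^ d : (PowerSeries ℂ)ˣ) : PowerSeries ℂ) := by
  rw [Units.val_pow_eq_pow_val, wt_inv_val]
  refine cin_pow (fun n => ?_) d
  rw [coeff_mk]
  exact O.pow_mem (O.neg_mem O.one_mem) n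

/-! ### integrality of two variable series -/

/-- all coefficients lie in `O` -/
def CIn2 (O : Subring ℂ) (F : PowerSeries (PowerSeries ℂ)) : Prop := ∀ i, CoeffIn O (coeff i F)

variable {F G : PowerSeries (PowerSeries ℂ)}

lemma CIn2.add (hF : CIn2 O F) (hG : CIn2 O G) : CIn2 O (F + G) := fun i => by
  rw [map_add]; exact (hF i).add (hG i)

lemma CIn2.neg (hF : CIn2 O F) : CIn2 O (-F) := fun i => by
  rw [map_neg]; exact (hF i).neg

lemma CIn2.sub (hF : CIn2 O F) (hG : CIn2 O G) : CIn2 O (F - G) := fun i => by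
  rw [map_sub]; exact (hF i).sub (hG i)

lemma CIn2.mul (hF : CIn2 O F) (hG : CIn2 O G) : CIn2 O (F * G) := fun i => by
  rw [coeff_mul]
  exact cin_sum _ _ fun x _ => (hF _).mul (hG _)

lemma CIn2.C {p : PowerSeries ℂ} (hp : CoeffIn O p) : CIn2 O (PowerSeries.C p) := fun i => by
  rw [coeff_C]; split_ifs
  · exact hp
  · exact CoeffIn.zero

lemma CIn2.one : CIn2 O 1 := fun i => by
  rw [coeff_one]; split_ifs
  · exact CoeffIn.one
  · exact CoeffIn.zero

lemma CIn2.X : CIn2 O (PowerSeries.X : PowerSeries (PowerSeries ℂ)) := fun i => by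
  rw [coeff_X]; split_ifs
  · exact CoeffIn.one
  · exact CoeffIn.zero

lemma CIn2.pow (hF : CIn2 O F) (n : ℕ) : CIn2 O (F ^ n) := by
  induction n with
  | zero => rw [pow_zero]; exact CIn2.one
  | succ n ih => rw [pow_succ]; exact ih.mul hF

lemma CIn2.swap (h : ∀ j, CoeffIn O (coeff j F)) : CIn2 O (swap F) := fun i j => by
  rw [coeff_swap]; exact h j i

lemma cin_T1 : CIn2 O T1 := CIn2.swap fun j => by
  rw [S1, coeff_mk]
  split_ifs
  · refine cin_sum _ _ fun d _ => (cin_natCast d).mul (((cin_wt_pow d).add (cin_wt_inv_pow d)).sub ?_)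
    exact_mod_cast cin_natCast 2
  · exact CoeffIn.zero

/-- `(T1 - T2) / 2` -/
def W : PowerSeries (PowerSeries ℂ) := swap (PowerSeries.mk fun n =>
  if 3 ∣ n then ∑ d ∈ (n / 3).divisors,
    (((d + 1).choose 2 : ℕ) * ((wt⁻¹ ^ d : (PowerSeries ℂ)ˣ) : PowerSeries ℂ) -
      (d.choose 2 : ℕ) * ((wt ^ d : (PowerSeries ℂ)ˣ) : PowerSeries ℂ) - (d : ℕ)) else 0)

lemma cin_W : CIn2 O W := CIn2.swap fun j => by
  rw [coeff_mk]
  split_ifs
  · exact cin_sum _ _ fun d _ => (((cin_natCast _).mul (cin_wt_inv_pow d)).sub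
      ((cin_natCast _).mul (cin_wt_pow d))).sub (cin_natCast d)
  · exact CoeffIn.zero

lemma two_W : 2 * W = T1 - T2 := by
  have h2 : (2 : PowerSeries (PowerSeries ℂ)) = swap 2 := by rw [map_ofNat]
  rw [W, T1, T2, h2, ← map_mul, ← map_sub]
  congr 1
  ext1 n
  have h3 : (2 : PowerSeries (PowerSeries ℂ)) = PowerSeries.C 2 := by rw [map_ofNat]
  rw [h3, coeff_C_mul, map_sub, S1, S2, coeff_mk, coeff_mk, coeff_mk]
  split_ifs
  · rw [Finset.mul_sum, ← Finset.sum_sub_distrib]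
    refine Finset.sum_congr rfl fun d _ => ?_
    have c1 : (2 : PowerSeries ℂ) * ((d + 1).choose 2 : ℕ) = (d : PowerSeries ℂ) ^ 2 + d := by
      have : 2 * (d + 1).choose 2 = d ^ 2 + d := by
        rw [Nat.choose_two_right, Nat.add_sub_cancel, Nat.mul_div_cancel']
        · ring
        · rw [mul_comm]; exact (Nat.even_mul_succ_self d).two_dvd
      exact_mod_cast congrArg (Nat.cast (R := PowerSeries ℂ)) this
    have c2 : (2 : PowerSeries ℂ) * (d.choose 2 : ℕ) = (d : PowerSeries ℂ) ^ 2 - d := by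
      have : 2 * d.choose 2 + d = d ^ 2 := by
        rw [Nat.choose_two_right, Nat.mul_div_cancel']
        · cases d with
          | zero => rfl
          | succ d => rw [Nat.add_sub_cancel]; ring
        · exact (Nat.even_mul_pred_self d).two_dvd
      have h4 := congrArg (Nat.cast (R := PowerSeries ℂ)) this
      push_cast at h4
      linear_combination h4
    linear_combination ((wt⁻¹ ^ d : (PowerSeries ℂ)ˣ) : PowerSeries ℂ) * c1 -
      ((wt ^ d : (PowerSeries ℂ)ˣ) : PowerSeries ℂ) * c2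
  · simp

/-! ### the constants -/

variable {v : Fin 2 → ℤ}

/-- `c = (1 - a²)/12` -/
def cc (v : Fin 2 → ℤ) : PowerSeries ℂ := C (1 / 12) - sP 3 v

lemma a_sq (hv : NZ 3 v) : C (1 / 12 : ℂ) * qe 3 (A1 v) ^ 2 = sP 3 v := by
  rw [qe_A1_sq hv, smul_eq_C_mul, ← mul_assoc, ← map_mul]
  norm_num

lemma cc_cin (hO : OddRing O) (hv : NZ 3 v) : CoeffIn O (cc v) := by
  have := (sP_coeffIn hO (by decide) hv (M := 3)).neg
  rwa [neg_sub] at this

lemma sQ_add_cc (hO : OddRing O) (hv : NZ 3 v) : In2 O (sQ 3 v + cc v) := fun n => by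
  have h3 : Odd 3 := by decide
  rw [cc, map_add, map_sub, sQ, sP, coeff_mk, coeff_mk, cQ, cP, coeff_C]
  have h1 : (∑ p ∈ n.divisorsAntidiagonal, chi 3 2 (v 0) (v 1) p.2 p.1 -
      ∑ p ∈ n.divisorsAntidiagonal, (chi 3 1 (v 0) (v 1) p.2 p.1 - chi 3 1 0 0 p.2 p.1)) / 2 ∈ O := by
    rw [← Finset.sum_sub_distrib, Finset.sum_div]
    refine O.sum_mem fun p _ => ?_
    have e1 := chi_sub_mem hO h3 (v 0) (v 1) p.2 p.1
    have e2 : chi 3 1 0 0 p.2 p.1 / 2 ∈ O := by
      rw [chi_v01]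
      split_ifs
      · rw [neg_zero, zpow_zero, one_pow]
        convert natCast_mem O p.2 using 1
        push_cast
        ring
      · rw [zero_div]; exact O.zero_mem
    convert O.add_mem e1 e2 using 1
    ring
  by_cases hn : n = 0
  · subst hn
    have h0 := cQ0_sub_cP0_mem hO h3 hv
    simp only [if_true]
    convert O.add_mem h0 h1 using 1
    ring
  · simp only [if_neg hn, zero_add, zero_sub]
    convert h1 using 1
    ring

/-- `f = (a - 1)/2` -/
def ff (v : Fin 2 → ℤ) : PowerSeries ℂ := (1 / 2 : ℂ) • (qe 3 (A1 v) - 1)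

/-- `g = (b + c)/2` -/
def gg (v : Fin 2 → ℤ) : PowerSeries ℂ := (1 / 2 : ℂ) • (sQ 3 v + cc v)

lemma ff_cin (hO : OddRing O) (hv : NZ 3 v) : CoeffIn O (ff v) := (hasse hO hv).half

lemma gg_cin (hO : OddRing O) (hv : NZ 3 v) : CoeffIn O (gg v) := (sQ_add_cc hO hv).half

lemma two_smul_half (p : PowerSeries ℂ) : 2 * ((1 / 2 : ℂ) • p) = p := by
  rw [smul_eq_C_mul, ← mul_assoc]
  have : (2 : PowerSeries ℂ) * C (1 / 2 : ℂ) = 1 := by
    rw [← map_ofNat C, ← map_mul]; norm_num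
  rw [this, one_mul]

lemma xi_eq (hv : NZ 3 v) : xi v = 1 + X + X ^ 2 * (T1 + C (cc v)) := by
  have h := a_sq hv
  rw [xi, Xi, cc, ← h, map_sub, map_mul, map_pow]
  ring

lemma eta_eq (hv : NZ 3 v) : eta v = (1 + X) ^ 2 + X * (1 + X) * C (ff v) +
    X ^ 3 * (C (ff v) * (T1 + C (cc v)) + W + C (gg v)) := by
  have h2 := two_eta v
  have h2' : (2 : PowerSeries (PowerSeries ℂ)) ≠ 0 := by
    have : (2 : PowerSeries (PowerSeries ℂ)) = C (C 2) := by rw [map_ofNat, map_ofNat]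
    rw [this]
    intro h
    have h1 := (PowerSeries.C_injective) (h.trans (map_zero C).symm)
    have h2 := (PowerSeries.C_injective) (h1.trans (map_zero C).symm)
    norm_num at h2
  apply mul_left_cancel₀ h2'
  rw [h2, xi_eq hv, Hh]
  have hf : (2 : PowerSeries (PowerSeries ℂ)) * C (ff v) = C (qe 3 (A1 v)) - 1 := by
    have := congrArg C (two_smul_half (qe 3 (A1 v) - 1))
    rwa [map_mul, map_ofNat, map_sub, map_one] at this
  have hg : (2 : PowerSeries (PowerSeries ℂ)) * C (gg v) = C (sQ 3 v) + C (cc v) := by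
    have := congrArg C (two_smul_half (sQ 3 v + cc v))
    rwa [map_mul, map_ofNat, map_add] at this
  have hW := two_W
  linear_combination (-(X * (1 + X) + X ^ 3 * (T1 + C (cc v)))) * hf - X ^ 3 * hg - X ^ 3 * hW

lemma xi_cin (hO : OddRing O) (hv : NZ 3 v) : CIn2 O (xi v) := by
  rw [xi_eq hv]
  exact (CIn2.one.add CIn2.X).add ((CIn2.X.pow 2).mul (cin_T1.add (CIn2.C (cc_cin hO hv))))

lemma eta_cin (hO : OddRing O) (hv : NZ 3 v) : CIn2 O (eta v) := by
  rw [eta_eq hv]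
  exact (((CIn2.one.add CIn2.X).pow 2).add ((CIn2.X.mul (CIn2.one.add CIn2.X)).mul
    (CIn2.C (ff_cin hO hv)))).add ((CIn2.X.pow 3).mul ((((CIn2.C (ff_cin hO hv)).mul
      (cin_T1.add (CIn2.C (cc_cin hO hv)))).add cin_W).add (CIn2.C (gg_cin hO hv))))

/-- **The formal Tate curve.** -/
theorem tate_formal (hO : OddRing O) (hv : NZ 3 v) : ∃ ξ η : PowerSeries (PowerSeries ℂ),
    constantCoeff ξ = 1 ∧ constantCoeff η = 1 ∧
    (∀ n, CoeffIn O (coeff n ξ)) ∧ (∀ n, CoeffIn O (coeff n η)) ∧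
    (1 + X) * (X * d⁄dX (PowerSeries ℂ) ξ - 2 * ξ) + 2 * η =
      X * C (qe 3 (A1 v)) * ξ + X ^ 3 * C (sQ 3 v) ∧
    η ^ 2 - C (qe 3 (A1 v)) * X * ξ * η - C (sQ 3 v) * X ^ 3 * η = ξ ^ 3 := by
  refine ⟨xi v, eta v, ?_, ?_, xi_cin hO hv, eta_cin hO hv, R1 v, R2 hv⟩
  · rw [xi_eq hv]; simp
  · rw [eta_eq hv]; simp

end

end Crest.Agent.R007.Tate
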