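import Crest.Agent.R007.Fg1
import Crest.Agent.R007.PsInt

/-!
Row 7, E-FG, node Tw1 (helper2): Tate parametrisations of `y² + a x y + b y = x³` and the
universal solution `zs a b` (helper801's `Fg1`).

* `TateData a b ξ η` : `x = ξ/T²`, `y = -η/T³` is a parametrisation of the curve with
  `(1+T) dx/dT = 2y + a x + b`;
* `TateData.zs_eq` : then `zs a b = (T ξ/η)(e^w - 1)`;
* `TateData.exists_int` : with coefficients of `ξ, η` in a subring `S`: `zs a b = P(e^w - 1)`,
  `P = T + …` with coefficients in `S`.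
-/

set_option autoImplicit false

open PowerSeries Crest.Agent.R007.Fg Crest.Agent.R007.PsInt

namespace Crest.Agent.R007.Tw

variable {A : Type*} [CommRing A]

theorem two_eq : (2 : PowerSeries A) = C (2 : A) := (map_ofNat C 2).symm
theorem three_eq : (3 : PowerSeries A) = C (3 : A) := (map_ofNat C 3).symm

/-- Tate parametrisation: `x = ξ/T²`, `y = -η/T³`, `D = (1+T) d/dT` -/
structure TateData (a b : A) (ξ η : PowerSeries A) : Prop where
  x0 : constantCoeff ξ = 1
  e0 : constantCoeff η = 1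
  R1 : (1 + X) * (X * d⁄dX A ξ - 2 * ξ) + 2 * η = X * (C a * ξ) + X ^ 3 * C b
  R2 : η ^ 2 - C a * X * ξ * η - C b * X ^ 3 * η = ξ ^ 3

theorem TateData.R3 [Algebra ℚ A] {a b : A} {ξ η : PowerSeries A} (h : TateData a b ξ η) :
    X * ((1 + X) * d⁄dX A η) = 3 * ((1 + X) * η) - 3 * ξ ^ 2 - C a * X * η := by
  set W : PowerSeries A := 2 * η - C a * X * ξ - C b * X ^ 3 with hW
  have hWu : IsUnit W := by
    rw [PowerSeries.isUnit_iff_constantCoeff]
    have : constantCoeff W = 2 := by
      rw [hW, two_eq]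
      simp [h.e0]
    rw [this]
    have : (2 : A) = algebraMap ℚ A 2 := (map_ofNat (algebraMap ℚ A) 2).symm
    rw [this]
    exact (IsUnit.mk0 (2 : ℚ) (by norm_num)).map _
  have hd := congrArg (d⁄dX A) h.R2
  simp only [map_sub, Derivation.leibniz, Derivation.leibniz_pow, smul_eq_mul, derivative_X,
    derivative_C, nsmul_eq_mul] at hd
  have hR1 := h.R1
  apply hWu.mul_left_cancel
  have hx : X * ((1 + X) * d⁄dX A ξ) = 2 * ((1 + X) * ξ) - W := by
    rw [hW]
    linear_combination hR1
  push_cast at hd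
  have hd' := congrArg (fun F : PowerSeries A => X * ((1 + X) * F)) hd
  rw [hW] at hx ⊢
  have hR2 := h.R2
  linear_combination hd' + (3 * ξ ^ 2 + C a * X * η) * hx - 6 * (1 + X) * hR2

/-- derivative of an inverse -/
theorem deriv_inv {η ηi : PowerSeries A} (hi : η * ηi = 1) :
    d⁄dX A ηi = - ηi ^ 2 * d⁄dX A η := by
  have hdi : ηi * d⁄dX A η + η * d⁄dX A ηi = 0 := by
    have := congrArg (d⁄dX A) hi
    rw [Derivation.leibniz, smul_eq_mul, smul_eq_mul] at this
    rw [show d⁄dX A (1 : PowerSeries A) = 0 from Derivation.map_one_eq_zero _] at this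
    linear_combination this
  linear_combination ηi * hdi - d⁄dX A ηi * hi

/-- the two identities for `P = T ξ/η`, `Q = T³/η` -/
theorem TateData.DP [Algebra ℚ A] {a b : A} {ξ η ηi : PowerSeries A} (h : TateData a b ξ η)
    (hi : η * ηi = 1) :
    (1 + X) * d⁄dX A (X * ξ * ηi) = 1 - C a * (X * ξ * ηi) - 2 * (C b * (X ^ 3 * ηi)) := by
  simp only [Derivation.leibniz, smul_eq_mul, derivative_X]
  rw [deriv_inv hi]
  have h2 := h.R2
  have h3 := h.R3
  have hx : X * ((1 + X) * d⁄dX A ξ) = 2 * ((1 + X) * ξ) - (2 * η - C a * X * ξ - C b * X ^ 3) := by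
    linear_combination h.R1
  linear_combination ηi * hx - ξ * ηi ^ 2 * h3 - 3 * ηi ^ 2 * h2 + (3 * (η * ηi) + 1 -
    3 * (1 + X) * ξ * ηi - 2 * C a * X * ξ * ηi - 3 * C b * X ^ 3 * ηi) * hi

theorem TateData.DQ [Algebra ℚ A] {a b : A} {ξ η ηi : PowerSeries A} (h : TateData a b ξ η)
    (hi : η * ηi = 1) :
    (1 + X) * d⁄dX A (X ^ 3 * ηi) = 3 * (X * ξ * ηi) ^ 2 + C a * (X ^ 3 * ηi) := by
  simp only [Derivation.leibniz, Derivation.leibniz_pow, smul_eq_mul, derivative_X, nsmul_eq_mul]
  rw [deriv_inv hi]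
  have h3 := h.R3
  push_cast
  linear_combination - X ^ 2 * ηi ^ 2 * h3 + (C a * X ^ 3 * ηi - 3 * (1 + X) * X ^ 2 * ηi) * hi

/-- **Tate parametrisation solves the system** -/
theorem TateData.isSol [Algebra ℚ A] {a b : A} {ξ η ηi : PowerSeries A} (h : TateData a b ξ η)
    (hi : η * ηi = 1) :
    IsSol a b ((X * ξ * ηi).subst (exp A - 1)) ((X ^ 3 * ηi).subst (exp A - 1)) := by
  have hs : HasSubst (exp A - 1) := HasSubst.exp_sub_one
  have hcc : constantCoeff (exp A - 1) = 0 := by simp [constantCoeff_exp]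
  have hde : d⁄dX A (exp A - 1) = exp A := by
    rw [map_sub, derivative_exp, show d⁄dX A (1 : PowerSeries A) = 0 from Derivation.map_one_eq_zero _,
      sub_zero]
  have hex : (1 + X : PowerSeries A).subst (exp A - 1) = exp A := by
    rw [← coe_substAlgHom hs, map_add, map_one, coe_substAlgHom, subst_X hs]
    ring
  have hCs : ∀ c : A, (C c : PowerSeries A).subst (exp A - 1) = (C c : PowerSeries A) := by
    intro c
    rw [← coe_substAlgHom hs]
    exact (substAlgHom hs).commutes c
  refine ⟨?_, ?_, ?_, ?_⟩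
  · exact constantCoeff_subst_eq_zero hcc _ (by simp)
  · exact constantCoeff_subst_eq_zero hcc _ (by simp)
  · have := congrArg (fun F : PowerSeries A => F.subst (exp A - 1)) (h.DP hi)
    simp only [← coe_substAlgHom hs, map_mul, map_sub, map_add, map_one, map_ofNat] at this
    simp only [coe_substAlgHom, hCs, subst_X hs] at this
    rw [derivative_subst hs, hde]
    simp only [← coe_substAlgHom hs, map_mul]
    simp only [coe_substAlgHom, subst_X hs]
    linear_combination this
  · have := congrArg (fun F : PowerSeries A => F.subst (exp A - 1)) (h.DQ hi)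
    simp only [← coe_substAlgHom hs, map_mul, map_add, map_one, map_ofNat, map_pow] at this
    simp only [coe_substAlgHom, hCs, subst_X hs] at this
    rw [derivative_subst hs, hde]
    simp only [← coe_substAlgHom hs, map_mul, map_pow]
    simp only [coe_substAlgHom, subst_X hs]
    rw [← this]
    ring

theorem TateData.zs_eq [Algebra ℚ A] {a b : A} {ξ η ηi : PowerSeries A} (h : TateData a b ξ η)
    (hi : η * ηi = 1) : zs a b = (X * ξ * ηi).subst (expm A) :=
  (h.isSol hi).eq.1.symm

/-- **integral Tate parametrisation** -/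
theorem TateData.exists_int [Algebra ℚ A] {S : Subring A} {a b : A} {ξ η : PowerSeries A}
    (h : TateData a b ξ η) (hξ : CIn S ξ) (hη : CIn S η) :
    ∃ P : PowerSeries A, CIn S P ∧ constantCoeff P = 0 ∧ coeff 1 P = 1 ∧
      zs a b = P.subst (expm A) := by
  have hu : IsUnit η := by
    rw [PowerSeries.isUnit_iff_constantCoeff, h.e0]; exact isUnit_one
  obtain ⟨ηi, hi⟩ := hu.exists_right_inv
  have hηi : CIn S ηi := hη.of_mul_eq_one ⟨1, S.one_mem, by rw [h.e0, one_mul]⟩ hi
  have hi0 : constantCoeff ηi = 1 := by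
    have := congrArg constantCoeff hi
    rwa [map_mul, h.e0, one_mul, map_one] at this
  refine ⟨X * ξ * ηi, (CIn_X.mul hξ).mul hηi, by simp, ?_, h.zs_eq hi⟩
  rw [mul_assoc, show (1 : ℕ) = 0 + 1 from rfl, coeff_succ_X_mul, coeff_zero_eq_constantCoeff_apply,
    map_mul, h.x0, hi0, one_mul]

end Crest.Agent.R007.Tw
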