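/-
Row 7 (S0007), section E-FG: `tate_inf` (helper377): the universal solution `zs (A1 v) (A3 v)` over
the function ring is `P(e^w - 1)` with `P` integral.  From 686's formal Tate curve over
`ℂ⟦q^{1/3}⟧`, helper2's `TateData.exists_int` and the functoriality of `zs`.
-/
import Mathlib
import Crest.Agent.R007.Tate5
import Crest.Agent.R007.Tw1
import Crest.Agent.R007.Tw3
import Crest.Agent.R007.EHasse

set_option autoImplicit false

noncomputable section

namespace Crest.Agent.R007.Tw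

open PowerSeries UpperHalfPlane ModularForm Matrix
open Crest.Agent.R007.PsInt Crest.Agent.R007.Lat Crest.Agent.R007.Mix Crest.Agent.R007.Tc
open Crest.Agent.R007.Fg (zs ss lg)
open scoped MatrixGroups

section gen

variable {K L : Type*} [CommRing K] [CommRing L] [Algebra ℚ K] [Algebra ℚ L]

variable (K) in
/-- the inverse series of `e^w - 1` -/
def lgm : PowerSeries K :=
  (expm K).substInvOfIsUnit (by rw [coeff_one_expm]; exact isUnit_one)

variable (K) in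
lemma constantCoeff_lgm : constantCoeff (lgm K) = 0 :=
  (expm K).constantCoeff_substInvOfIsUnit _

variable (K) in
lemma subst_lgm_expm : PowerSeries.subst (lgm K) (expm K) = PowerSeries.X :=
  (expm K).subst_substInvOfIsUnit_right (constantCoeff_expm K) _

variable (K) in
lemma subst_expm_lgm : PowerSeries.subst (expm K) (lgm K) = PowerSeries.X :=
  (expm K).subst_substInvOfIsUnit_left (constantCoeff_expm K) _

lemma map_expm (f : K →+* L) : PowerSeries.map f (expm K) = expm L := by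
  rw [expm, map_sub, map_one, PowerSeries.map_exp]; rfl

omit [Algebra ℚ K] [Algebra ℚ L] in
lemma map_psubst (f : K →+* L) {a : PowerSeries K} (ha : constantCoeff a = 0) (P : PowerSeries K) :
    PowerSeries.map f (PowerSeries.subst a P) =
      PowerSeries.subst (PowerSeries.map f a) (PowerSeries.map f P) := by
  have hs : HasSubst a := HasSubst.of_constantCoeff_zero' ha
  exact PowerSeries.map_subst (h := f) hs P

lemma map_lgm (f : K →+* L) : PowerSeries.map f (lgm K) = lgm L := by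
  have h0 : constantCoeff (PowerSeries.map f (lgm K)) = 0 := by
    rw [← coeff_zero_eq_constantCoeff_apply, coeff_map, coeff_zero_eq_constantCoeff_apply,
      constantCoeff_lgm, map_zero]
  refine substInv_unique (constantCoeff_expm L) h0 (constantCoeff_lgm L) ?_ (subst_expm_lgm L)
  have h := congrArg (PowerSeries.map f) (subst_lgm_expm K)
  rwa [map_psubst f (constantCoeff_lgm K), map_expm, PowerSeries.map_X] at h

/-- the Tate parametrisation in the variable `T = e^w - 1` -/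
def Lz (a b : K) : PowerSeries K := PowerSeries.subst (lgm K) (zs a b)

lemma map_Lz (f : K →+* L) (a b : K) : PowerSeries.map f (Lz a b) = Lz (f a) (f b) := by
  rw [Lz, map_psubst f (constantCoeff_lgm K), map_lgm, Fg.map_zs]
  rfl

lemma zs_eq_Lz (a b : K) : zs a b = PowerSeries.subst (expm K) (Lz a b) := by
  rw [Lz, subst_comp (constantCoeff_lgm K) (constantCoeff_expm K), subst_expm_lgm, subst_X_self]

lemma Lz_eq {a b : K} {P : PowerSeries K} (h : zs a b = PowerSeries.subst (expm K) P) :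
    Lz a b = P := by
  rw [Lz, h, subst_comp (constantCoeff_expm K) (constantCoeff_lgm K), subst_lgm_expm, subst_X_self]

end gen

/-! ### q-expansions -/

/-- the q-expansion homomorphism on `PB M` -/
def qeH (M : ℕ) [NeZero M] : PB (M : ℝ) →+* PowerSeries ℂ where
  toFun f := Rat.qe M f.1
  map_one' := qExpansion_one _
  map_zero' := qExpansion_zero _
  map_mul' f g := qExpansion_mul (PB_analytic (pos_of_neZero M) f.2) (PB_analytic (pos_of_neZero M) g.2)
  map_add' f g := qExpansion_add (PB_analytic (pos_of_neZero M) f.2) (PB_analytic (pos_of_neZero M) g.2)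

lemma mem_IntO_of_qe {O : Subring ℂ} {M : ℕ} [NeZero M] (hM : Odd M) {f : ℍ → ℂ} (hf : f ∈ PB (M : ℝ))
    (h : Rat.CoeffIn O (Rat.qe M f)) : f ∈ IntO O := by
  refine ⟨⟨M, hM, hf⟩, fun r => ?_⟩
  by_cases hr : ∃ n : ℕ, (n : ℚ) / M = r
  · obtain ⟨n, rfl⟩ := hr
    rw [qf_eq' M hM hf, emb_coeff]
    exact h n
  · push Not at hr
    rw [qf_coeff_of_notMem hM hf hr]
    exact O.zero_mem

/-- power series with coefficients in `O` -/
def cI (O : Subring ℂ) : Subring (PowerSeries ℂ) := (PowerSeries.map O.subtype).range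

lemma mem_cI {O : Subring ℂ} {p : PowerSeries ℂ} : p ∈ cI O ↔ Rat.CoeffIn O p := by
  rw [cI, RingHom.mem_range]
  exact (CIn_iff (S := O) (p := p)).symm

lemma A1_mem_PB {v : Fin 2 → ℤ} (hv : NZ 3 v) : A1 v ∈ PB ((3 : ℕ) : ℝ) :=
  ⟨(isF_A1 hv).periodic, (isF_A1 hv).holo, (isF_A1 hv).bdd_infty⟩

lemma A3_mem_PB (v : Fin 2 → ℤ) : A3 v ∈ PB ((3 : ℕ) : ℝ) :=
  ⟨(isF_A3 v).periodic, (isF_A3 v).holo, (isF_A3 v).bdd_infty⟩

lemma qe_A3 (v : Fin 2 → ℤ) : Rat.qe 3 (A3 v) = sQ 3 v := Wp.qe_Q (M := 3) v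

/-- integrality of the q-expansion of the Tate parametrisation -/
lemma exists_q {O : Subring ℂ} (hO : OddRing O) {v : Fin 2 → ℤ} (hv : NZ 3 v) :
    ∃ P : PowerSeries (PowerSeries ℂ), CIn (cI O) P ∧
      zs (Rat.qe 3 (A1 v)) (Rat.qe 3 (A3 v)) = PowerSeries.subst (expm (PowerSeries ℂ)) P := by
  obtain ⟨ξ, ζ, h1, h2, h3, h4, h5, h6⟩ := Tate.tate_formal hO hv
  rw [← qe_A3] at h5 h6
  have hT : TateData (Rat.qe 3 (A1 v)) (Rat.qe 3 (A3 v)) ξ ζ :=
    ⟨h1, h2, by rw [← mul_assoc]; exact h5, h6⟩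
  obtain ⟨P, hP, -, -, e⟩ := hT.exists_int (S := cI O) (fun n => mem_cI.2 (h3 n))
    (fun n => mem_cI.2 (h4 n))
  exact ⟨P, hP, e⟩

theorem good_inf {O : Subring ℂ} (hO : OddRing O) {v : Fin 2 → ℤ} (hv : NZ 3 v) :
    Good O (A1 v) (A3 v) := by
  have : NeZero (3 : ℕ) := ⟨by norm_num⟩
  refine ⟨Lz (A1 v) (A3 v), fun n => ?_, zs_eq_Lz _ _⟩
  obtain ⟨P, hP, e⟩ := exists_q hO hv
  have e1 := map_Lz ((PB ((3 : ℕ) : ℝ)).val : PB ((3 : ℕ) : ℝ) →ₐ[ℂ] (ℍ → ℂ)).toRingHom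
    ⟨A1 v, A1_mem_PB hv⟩ ⟨A3 v, A3_mem_PB v⟩
  have e2 := map_Lz (qeH 3) ⟨A1 v, A1_mem_PB hv⟩ ⟨A3 v, A3_mem_PB v⟩
  have e3 : Lz (qeH 3 ⟨A1 v, A1_mem_PB hv⟩) (qeH 3 ⟨A3 v, A3_mem_PB v⟩) = P := Lz_eq e
  rw [e3] at e2
  have e4 : coeff n (Lz (A1 v) (A3 v)) =
      (coeff n (Lz (⟨A1 v, A1_mem_PB hv⟩ : PB ((3 : ℕ) : ℝ)) ⟨A3 v, A3_mem_PB v⟩)).1 := by
    have := congrArg (coeff n) e1
    rw [coeff_map] at this
    exact this.symm
  rw [e4]
  refine mem_IntO_of_qe (M := 3) (by decide) (Subtype.prop _) ?_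
  have e5 := congrArg (coeff n) e2
  rw [coeff_map] at e5
  change Rat.qe 3 _ = _ at e5
  rw [e5]
  exact mem_cI.1 (hP n)

/-- **tate_inf** -/
theorem tate_inf {O : Subring ℂ} (hO : OddRing O) (v : Fin 2 → ℤ) (hv : NZ 3 v) :
    ∃ P : PowerSeries (ℍ → ℂ), CIn (IntO O) P ∧ constantCoeff P = 0 ∧ coeff 1 P = 1 ∧
      zs (A1 v) (A3 v) = PowerSeries.subst (PowerSeries.exp (ℍ → ℂ) - 1) P :=
  (good_inf hO hv).spec

/-- **Integrality of the comparison isomorphisms at all `G2`-cusps**, no hypothesis. -/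
theorem H_int' {O : Subring ℂ} (hO : OddRing O) {v : Fin 2 → ℤ} (hv : NZ 3 v)
    {δ : GL(2, ℝ)⁺} (hδ : δ ∈ G2) (n : ℕ) :
    coeff n (Fg.HH (sl (Lat.lift 1 (A1 v)) δ) (sl (Lat.lift 3 (A3 v)) δ)
      (Lat.lift 1 (A1 v)) (Lat.lift 3 (A3 v))) ∈ VV O :=
  H_int hO.inv_mem (EH.root_mem_of_oddRing hO) (tate_inf hO) hv hδ n

theorem tate_G2' {O : Subring ℂ} (hO : OddRing O) {v : Fin 2 → ℤ} (hv : NZ 3 v)
    {g : GL(2, ℝ)⁺} (hg : g ∈ G2) :
    ∃ P : PowerSeries (ℍ → ℂ), CIn (IntO O) P ∧ constantCoeff P = 0 ∧ coeff 1 P = 1 ∧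
      zs (res (sl (Lat.lift 1 (A1 v)) g)) (res (sl (Lat.lift 3 (A3 v)) g)) =
        PowerSeries.subst (PowerSeries.exp (ℍ → ℂ) - 1) P :=
  tate_G2 hO.inv_mem (EH.root_mem_of_oddRing hO) (tate_inf hO) hv hg

end Crest.Agent.R007.Tw
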