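/-
Row 7 (S0007), section E-FG, final form (helper377): `Main.fg : Main.FG`.
-/
import Crest.Agent.R007.Main2
import Crest.Agent.R007.FgE2
import Crest.Agent.R007.Tw4

set_option autoImplicit false

namespace Crest.Agent.R007.Main

open Lat

/-- **E-FG** -/
theorem fg : FG := fun e he δ hδ =>
  Fg.fg_OO (Tw.tate_inf oddRing) nz_v0 AA_mem BB_mem e he δ hδ

end Crest.Agent.R007.Main
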