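import Crest.Agent.R007.Tw1
import Crest.Agent.R007.FGrp

/-!
Row 7, E-FG, nodes T2 + T3 (helper2).

T2: over `K₀ = ℂ⟦q⟧` the Eisenstein expansion of `x = ℘ - ℘(b)` in `w` is
`(1+T)/T² + RT(T) + 1/12 - P₀` at `T = e^w - 1`, `RT ∈ ℤ⟦q⟧⟦T⟧`.
T3: the formal cubic in `w` gives an integral Tate parametrisation in `T`.
-/

set_option autoImplicit false

open PowerSeries Crest.Agent.R007.Fg Crest.Agent.R007.PsInt Crest.Agent.R007.Tw

namespace Crest.Agent.R007.FgT

noncomputable section

/-! ### the Bernoulli part -/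

section bern

variable (A : Type*) [CommRing A] [Algebra ℚ A]

/-- `w² e^w / (e^w - 1)² = B - w B'` -/
def bser : PowerSeries A := bernoulliPowerSeries A - X * d⁄dX A (bernoulliPowerSeries A)

theorem deriv_expm : d⁄dX A (expm A) = exp A := by
  rw [expm, map_sub, derivative_exp,
    show d⁄dX A (1 : PowerSeries A) = 0 from Derivation.map_one_eq_zero _, sub_zero]

theorem expm_sq_mul_bser : (expm A) ^ 2 * bser A = X ^ 2 * exp A := by
  have h : bernoulliPowerSeries A * expm A = X := bernoulliPowerSeries_mul_exp_sub_one A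
  have hd := congrArg (d⁄dX A) h
  rw [Derivation.leibniz, smul_eq_mul, smul_eq_mul, derivative_X, deriv_expm] at hd
  rw [bser]
  linear_combination (expm A) * h - X * (expm A) * hd + (X * exp A) * h

theorem coeff_bser (n : ℕ) : coeff n (bser A) =
    algebraMap ℚ A ((1 - n) * (bernoulli n / n.factorial)) := by
  have h : ∀ m, coeff m (bernoulliPowerSeries A) = algebraMap ℚ A (bernoulli m / m.factorial) := by
    intro m
    rw [bernoulliPowerSeries, coeff_mk]
  rw [bser, map_sub]
  cases n with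
  | zero => rw [coeff_zero_X_mul, h]; simp
  | succ n =>
    rw [coeff_succ_X_mul, coeff_derivative, h]
    have : ((n : A) + 1) = algebraMap ℚ A (n + 1) := by simp
    rw [this, ← map_mul, ← map_sub]
    congr 1
    push_cast
    ring

end bern

/-! ### substitution and coefficients -/

/-- the `q^n`-part of a series over `ℂ⟦q⟧` -/
def tr (n : ℕ) (G : PowerSeries (PowerSeries ℂ)) : PowerSeries ℂ :=
  PowerSeries.mk fun d => coeff n (coeff d G)

theorem expm_eq_map : expm (PowerSeries ℂ) = (expm ℂ).map (C (R := ℂ)) := by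
  rw [expm, expm, map_sub, map_exp, map_one]

theorem coeff_subst_expm (G : PowerSeries (PowerSeries ℂ)) (i n : ℕ) :
    coeff n (coeff i (G.subst (expm (PowerSeries ℂ)))) = coeff i ((tr n G).subst (expm ℂ)) := by
  rw [F.coeff_subst_range (constantCoeff_expm (K := PowerSeries ℂ)),
    F.coeff_subst_range (constantCoeff_expm (K := ℂ)), map_sum]
  refine Finset.sum_congr rfl fun d _ => ?_
  rw [expm_eq_map, ← map_pow, coeff_map, coeff_mul_C, tr, coeff_mk]

/-! ### the series `RT` -/

/-- `(1+T)⁻¹` -/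
def I1 (A : Type*) [CommRing A] : PowerSeries A := PowerSeries.mk fun n => (-1) ^ n

theorem one_add_X_mul_I1 (A : Type*) [CommRing A] : (1 + X) * I1 A = 1 := by
  ext n
  rw [add_mul, one_mul, map_add]
  cases n with
  | zero => rw [coeff_zero_X_mul, I1, coeff_mk]; simp
  | succ n =>
    rw [coeff_succ_X_mul, I1, coeff_mk, coeff_mk, coeff_one, if_neg (by omega)]
    ring

/-- the `q^n`-coefficient -/
def Rn (A : Type*) [CommRing A] (n : ℕ) : PowerSeries A :=
  ∑ m ∈ n.divisors, (m : PowerSeries A) * ((1 + X) ^ m + I1 A ^ m - 2)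

theorem map_I1 {A B : Type*} [CommRing A] [CommRing B] (f : A →+* B) : (I1 A).map f = I1 B := by
  ext n
  simp [I1]

theorem map_Rn {A B : Type*} [CommRing A] [CommRing B] (f : A →+* B) (n : ℕ) :
    (Rn A n).map f = Rn B n := by
  simp only [Rn, map_sum, map_mul, map_natCast, map_sub, map_add, map_pow, map_one, map_X, map_I1,
    map_ofNat]

/-- `RT = ∑ q^n ∑_{m ∣ n} m ((1+T)^m + (1+T)^{-m} - 2)` -/
def RT : PowerSeries (PowerSeries ℂ) := PowerSeries.mk fun d => PowerSeries.mk fun n => coeff d (Rn ℂ n)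

theorem tr_RT (n : ℕ) : tr n RT = Rn ℂ n := by
  ext d
  rw [tr, coeff_mk, RT, coeff_mk, coeff_mk]

theorem RT_int (d n : ℕ) : ∃ z : ℤ, coeff n (coeff d RT) = z := by
  refine ⟨coeff d (Rn ℤ n), ?_⟩
  rw [RT, coeff_mk, coeff_mk, ← map_Rn (Int.castRingHom ℂ) n, coeff_map]
  rfl

theorem subst_expm_one_add (A : Type*) [CommRing A] [Algebra ℚ A] :
    (1 + X : PowerSeries A).subst (expm A) = exp A := by
  have hs : HasSubst (expm A) := HasSubst.exp_sub_one
  rw [← coe_substAlgHom hs, map_add, map_one, coe_substAlgHom, subst_X hs, one_add_expm]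

theorem subst_expm_I1 (A : Type*) [CommRing A] [Algebra ℚ A] :
    (I1 A).subst (expm A) = rescale (-1) (exp A) := by
  have hs : HasSubst (expm A) := HasSubst.exp_sub_one
  have h := congrArg (fun F : PowerSeries A => F.subst (expm A)) (one_add_X_mul_I1 A)
  simp only [← coe_substAlgHom hs, map_mul, map_one] at h
  simp only [coe_substAlgHom] at h
  rw [subst_expm_one_add] at h
  have h2 : exp A * rescale (-1) (exp A) = 1 := exp_mul_exp_neg_eq_one
  linear_combination rescale (-1) (exp A) * h - (I1 A).subst (expm A) * h2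

theorem coeff_subst_Rn (i n : ℕ) : coeff i ((Rn ℂ n).subst (expm ℂ)) =
    ∑ m ∈ n.divisors, (m : ℂ) * (((m : ℂ) ^ i + (-m : ℂ) ^ i) / i.factorial - if i = 0 then 2 else 0) := by
  have hs : HasSubst (expm ℂ) := HasSubst.exp_sub_one
  rw [Rn, ← coe_substAlgHom hs, map_sum, map_sum]
  refine Finset.sum_congr rfl fun m _ => ?_
  rw [map_mul, map_natCast, map_sub, map_add, map_pow, map_pow, map_ofNat]
  simp only [coe_substAlgHom]
  rw [subst_expm_one_add, subst_expm_I1, ← map_pow, exp_pow_eq_rescale_exp]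
  rw [show ((m : PowerSeries ℂ)) = C (m : ℂ) from (map_natCast C m).symm, coeff_C_mul, map_sub, map_add,
    coeff_rescale, coeff_rescale, coeff_rescale, coeff_exp,
    show (2 : PowerSeries ℂ) = C (2 : ℂ) from (map_ofNat C 2).symm, coeff_C]
  congr 2
  have : (algebraMap ℚ ℂ (1 / (i.factorial : ℚ))) = 1 / (i.factorial : ℂ) := by
    simp
  rw [this, neg_pow (m : ℂ) i]
  ring

/-- the `w^i`-coefficient of `RT(e^w - 1)`, `i ≥ 1` even -/
def sg (i : ℕ) : PowerSeries ℂ :=
  PowerSeries.mk fun n => if Even i ∧ i ≠ 0 then 2 / (i.factorial : ℂ) * (ArithmeticFunction.sigma (i + 1) n : ℕ) else 0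

theorem coeff_RT_subst (i : ℕ) : coeff i (RT.subst (expm (PowerSeries ℂ))) = sg i := by
  ext n
  rw [coeff_subst_expm, tr_RT, coeff_subst_Rn, sg, coeff_mk]
  by_cases h0 : i = 0
  · subst h0
    rw [if_neg (fun h : Even 0 ∧ 0 ≠ 0 => h.2 rfl)]
    refine Finset.sum_eq_zero fun m _ => ?_
    rw [pow_zero, pow_zero, Nat.factorial_zero, if_pos rfl]
    push_cast
    ring
  · rw [if_neg h0]
    rcases Nat.even_or_odd i with he | ho
    · rw [if_pos ⟨he, h0⟩, ArithmeticFunction.sigma_apply]
      push_cast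
      rw [Finset.mul_sum]
      refine Finset.sum_congr rfl fun m _ => ?_
      rw [he.neg_pow]
      ring
    · rw [if_neg (fun h => (Nat.not_even_iff_odd.2 ho) h.1)]
      refine Finset.sum_eq_zero fun m _ => ?_
      rw [ho.neg_pow]
      ring

/-- the normalised Eisenstein series `(i+1) G_{i+2}/(2πi)^{i+2}` (for `i ≥ 1`) as a `q`-expansion -/
def eisQ (i : ℕ) : PowerSeries ℂ :=
  C ((-(i + 1 : ℂ)) * ((bernoulli (i + 2) : ℚ) : ℂ) / ((i + 2).factorial : ℂ)) + sg i

section T2

variable {K : Type*} [CommRing K] [Algebra ℚ K] (φ : PowerSeries ℂ →+* K) (P0 : K)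

/-- `ξ(w) = w² x(w)`, `x = w⁻² - P₀ + ∑_{i ≥ 1} (i+1) G_{i+2} w^i` -/
def xiw : PowerSeries K := 1 + X ^ 2 * PowerSeries.mk fun i => if i = 0 then - P0 else φ (eisQ i)

theorem bernoulli_two_inv : (bernoulli 2 : ℚ) = 1 / 6 := by
  rw [bernoulli_two]; norm_num

theorem xiw_eq : xiw φ P0 = bser K + X ^ 2 * ((RT.map φ).subst (expm K) +
    C (algebraMap ℚ K (1 / 12) - P0)) := by
  have hex : PowerSeries.map φ (expm (PowerSeries ℂ)) = expm K := by
    rw [expm, expm, map_sub, map_exp, map_one]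
  have hmap : (RT.map φ).subst (expm K) =
      PowerSeries.map φ (PowerSeries.subst (expm (PowerSeries ℂ)) RT) := by
    rw [F.pmap_subst φ (constantCoeff_expm (K := PowerSeries ℂ)), hex]
  ext n
  rw [xiw, map_add, map_add, hmap, coeff_bser]
  match n with
  | 0 => simp [coeff_X_pow_mul']
  | 1 => simp [coeff_X_pow_mul', coeff_one]
  | i + 2 =>
    rw [coeff_X_pow_mul, coeff_X_pow_mul, coeff_mk, map_add, coeff_map, coeff_RT_subst, coeff_one,
      if_neg (by omega), zero_add]
    by_cases h0 : i = 0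
    · subst h0
      rw [if_pos rfl, bernoulli_two_inv]
      have h1 : sg 0 = 0 := by
        ext n
        rw [sg, coeff_mk, if_neg (by simp), map_zero]
      rw [h1, map_zero, zero_add, coeff_zero_C]
      have : algebraMap ℚ K ((1 - ((0 + 2 : ℕ) : ℚ)) * (1 / 6 / ((0 + 2).factorial : ℚ))) =
          - algebraMap ℚ K (1 / 12) := by
        rw [← map_neg]
        congr 1
        norm_num [Nat.factorial]
      rw [this]
      ring
    · rw [if_neg h0, eisQ, map_add, coeff_C, if_neg h0, add_zero]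
      congr 1
      have h3 : (-(i + 1 : ℂ)) * ((bernoulli (i + 2) : ℚ) : ℂ) / ((i + 2).factorial : ℂ) =
          algebraMap ℚ ℂ ((1 - ((i + 2 : ℕ) : ℚ)) * (bernoulli (i + 2) / ((i + 2).factorial : ℚ))) := by
        simp only [eq_ratCast]
        push_cast
        ring
      rw [h3]
      have h4 : ∀ r : ℚ, φ (C (algebraMap ℚ ℂ r)) = algebraMap ℚ K r := by
        intro r
        exact RingHom.map_rat_algebraMap (φ.comp (C (R := ℂ))) r
      rw [h4]

/-- **T2** -/
theorem expm_sq_mul_xiw : (expm K) ^ 2 * xiw φ P0 = X ^ 2 * (exp K + (expm K) ^ 2 *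
    ((RT.map φ).subst (expm K) + C (algebraMap ℚ K (1 / 12) - P0))) := by
  rw [xiw_eq, mul_add, expm_sq_mul_bser]
  ring

/-- the `T`-form of `ξ` : `(1+T) + T² (RT + 1/12 - P₀)` -/
def xiT : PowerSeries K := (1 + X) + X ^ 2 * (RT.map φ + C (algebraMap ℚ K (1 / 12) - P0))

theorem subst_C {A : Type*} [CommRing A] {a : PowerSeries A} (ha : HasSubst a) (c : A) :
    (C c : PowerSeries A).subst a = (C c : PowerSeries A) := by
  rw [← coe_substAlgHom ha]
  exact (substAlgHom ha).commutes c

theorem subst_xiT : X ^ 2 * (xiT φ P0).subst (expm K) = (expm K) ^ 2 * xiw φ P0 := by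
  have hs : HasSubst (expm K) := HasSubst.exp_sub_one
  rw [expm_sq_mul_xiw, xiT, ← coe_substAlgHom hs, map_add, map_mul, map_pow, map_add (substAlgHom hs)
    (RT.map φ)]
  simp only [coe_substAlgHom]
  rw [subst_expm_one_add, subst_X hs, subst_C hs]

end T2

/-- **T2a** in helper801's form -/
theorem T2a (K : Type*) [CommRing K] [Algebra ℚ K] :
    X ^ 2 * exp K = expm K ^ 2 * (1 - C (algebraMap ℚ K (1 / 12)) * X ^ 2 -
      PowerSeries.mk (fun k => if 4 ≤ k then
        algebraMap ℚ K (((k : ℚ) - 1) * bernoulli k / (k.factorial : ℚ)) else 0)) := by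
  rw [← expm_sq_mul_bser]
  congr 1
  ext n
  rw [coeff_bser, map_sub, map_sub, coeff_one, coeff_C_mul, coeff_X_pow, coeff_mk]
  rcases Nat.lt_or_ge n 4 with h | h
  · interval_cases n
    · simp
    · simp
    · rw [bernoulli_two_inv]
      simp only [if_neg (show ¬ (2 = 0) by omega), if_neg (show ¬ (4 ≤ 2) by omega), if_true, mul_one,
        zero_sub, sub_zero]
      rw [← map_neg]
      congr 1
      norm_num [Nat.factorial]
    · rw [bernoulli_eq_zero_of_odd (by decide) (by norm_num)]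
      simp
  · have h0 : ¬ (n = 0) := by omega
    have h2 : ¬ (n = 2) := by omega
    simp only [if_neg h0, if_neg h2, if_pos h, mul_zero, sub_zero, zero_sub]
    rw [← map_neg]
    congr 1
    ring

/-- **T2b** in helper801's form -/
theorem T2b (n : ℕ) : ∃ R : PowerSeries ℂ, (∀ S : Subring ℂ, CIn S R) ∧
    R.subst (expm ℂ) = PowerSeries.mk (fun i => if Even i ∧ 2 ≤ i then
      2 / (i.factorial : ℂ) * ((ArithmeticFunction.sigma (i + 1) n : ℕ) : ℂ) else 0) := by
  refine ⟨Rn ℂ n, fun S d => ?_, ?_⟩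
  · rw [← map_Rn (Int.castRingHom ℂ) n, coeff_map]
    exact intCast_mem S _
  · ext i
    have h := congrArg (coeff n) (coeff_RT_subst i)
    rw [coeff_subst_expm, tr_RT] at h
    rw [h, sg, coeff_mk, coeff_mk]
    by_cases h1 : Even i ∧ i ≠ 0
    · rw [if_pos h1, if_pos ⟨h1.1, by rcases h1 with ⟨⟨k, hk⟩, h2⟩; omega⟩]
    · rw [if_neg h1, if_neg (fun h2 => h1 ⟨h2.1, by omega⟩)]

/-! ### T3: from the cubic in `w` to a Tate parametrisation -/

section T3

variable {K : Type*} [CommRing K]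

/-- `F² ∈ 2 S⟦X⟧ → F ∈ 2 S⟦X⟧` -/
theorem two_of_sq {S : Subring K} (hred : ∀ f ∈ S, ∀ g ∈ S, f ^ 2 = 2 * g → ∃ h ∈ S, f = 2 * h)
    {F G : PowerSeries K} (hF : CIn S F) (hG : CIn S G) (h : F ^ 2 = 2 * G) :
    ∃ H : PowerSeries K, CIn S H ∧ F = 2 * H := by
  have key : ∀ n : ℕ, ∃ h ∈ S, coeff n F = 2 * h := by
    intro n
    have h1 := congrArg (coeff (2 * n)) h
    rw [sq, coeff_mul, two_eq, coeff_C_mul,
      Finset.Nat.sum_antidiagonal_eq_sum_range_succ (fun i j => coeff i F * coeff j F)] at h1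
    have h2 : ∑ i ∈ Finset.range (2 * n + 1), coeff i F * coeff (2 * n - i) F =
        2 * ∑ i ∈ Finset.range n, coeff i F * coeff (2 * n - i) F + coeff n F ^ 2 := by
      rw [show 2 * n + 1 = n + (n + 1) by ring, Finset.sum_range_add, Finset.sum_range_succ' (fun x =>
        coeff (n + x) F * coeff (2 * n - (n + x)) F)]
      have h3 : ∑ k ∈ Finset.range n, coeff (n + (k + 1)) F * coeff (2 * n - (n + (k + 1))) F =
          ∑ i ∈ Finset.range n, coeff i F * coeff (2 * n - i) F := by
        rw [← Finset.sum_range_reflect (fun i => coeff i F * coeff (2 * n - i) F)]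
        refine Finset.sum_congr rfl fun k hk => ?_
        have := Finset.mem_range.1 hk
        rw [mul_comm]
        congr 3 <;> omega
      rw [h3]
      have h4 : 2 * n - (n + 0) = n := by omega
      rw [h4, add_zero]
      ring
    rw [show 2 * n + 1 = (2 * n).succ from rfl] at h2
    rw [h2] at h1
    refine hred _ (hF n) (coeff (2 * n) G - ∑ i ∈ Finset.range n, coeff i F * coeff (2 * n - i) F)
      (S.sub_mem (hG _) (S.sum_mem fun i _ => S.mul_mem (hF _) (hF _))) ?_
    linear_combination h1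
  choose H hH e using key
  refine ⟨PowerSeries.mk H, fun n => by rw [coeff_mk]; exact hH n, ?_⟩
  ext n
  rw [two_eq, coeff_C_mul, coeff_mk, e]

variable [Algebra ℚ K]

/-- substitution of `e^w - 1` is injective -/
theorem eq_zero_of_subst_expm {F : PowerSeries K} (h : F.subst (expm K) = (0 : PowerSeries K)) :
    F = 0 := by
  have hu : IsUnit (coeff 1 (expm K)) := by rw [coeff_one_expm]; exact isUnit_one
  have hc : constantCoeff ((expm K).substInvOfIsUnit hu) = 0 := by simp
  have h1 : PowerSeries.subst ((expm K).substInvOfIsUnit hu) (PowerSeries.subst (expm K) F) =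
      (PowerSeries.subst ((expm K).substInvOfIsUnit hu) (0 : PowerSeries K) : PowerSeries K) := by
    rw [h]
  rw [subst_comp (constantCoeff_expm K) hc,
    (expm K).subst_substInvOfIsUnit_right (constantCoeff_expm K) hu, subst_X_self] at h1
  rw [h1, ← coe_substAlgHom (HasSubst.of_constantCoeff_zero' hc), map_zero]

theorem T3 {S : Subring K} {a b : K} (ha : a ∈ S) (hb : b ∈ S)
    (hred : ∀ f ∈ S, ∀ g ∈ S, f ^ 2 = 2 * g → ∃ h ∈ S, f = 2 * h) {ρ ξw ηw : PowerSeries K}
    (hρ : CIn S ρ)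
    (hlink : expm K ^ 2 * ξw = X ^ 2 * exp K + X ^ 2 * expm K ^ 2 * ρ.subst (expm K))
    (W1 : X * d⁄dX K ξw - 2 * ξw + 2 * ηw = C a * X * ξw + C b * X ^ 3)
    (W2 : ηw ^ 2 - C a * X * ξw * ηw - C b * X ^ 3 * ηw = ξw ^ 3) :
    ∃ ξ η, TateData a b ξ η ∧ CIn S ξ ∧ CIn S η := by
  have hs : HasSubst (expm K) := HasSubst.exp_sub_one
  have h2 : (2 : PowerSeries K) * C (algebraMap ℚ K (1 / 2)) = 1 := by
    rw [two_eq, ← map_mul]
    have : (2 : K) * algebraMap ℚ K (1 / 2) = 1 := by
      have : (2 : K) = algebraMap ℚ K 2 := (map_ofNat (algebraMap ℚ K) 2).symm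
      rw [this, ← map_mul]
      norm_num
    rw [this, map_one]
  set ξ : PowerSeries K := (1 + X) + X ^ 2 * ρ with hξ
  set f : PowerSeries K := X * (C a * ξ) + X ^ 3 * C b - (1 + X) * (X * d⁄dX K ξ - 2 * ξ) with hf
  set η : PowerSeries K := C (algebraMap ℚ K (1 / 2)) * f with hη
  have hfη : 2 * η = f := by rw [hη, ← mul_assoc, h2, one_mul]
  have hCS : CIn S ξ := by
    rw [hξ]
    exact (CIn.one.add CIn_X).add ((CIn_X.pow 2).mul hρ)
  have hder : ∀ {F : PowerSeries K}, CIn S F → CIn S (d⁄dX K F) := by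
    intro F hF n
    rw [coeff_derivative]
    exact S.mul_mem (hF _) (S.add_mem (natCast_mem S n) S.one_mem)
  have h2S : CIn S (2 : PowerSeries K) := by
    have := CIn.natCast (S := S) 2
    exact_mod_cast this
  have hfS : CIn S f := by
    rw [hf]
    exact ((CIn_X.mul ((CIn_C ha).mul hCS)).add ((CIn_X.pow 3).mul (CIn_C hb))).sub
      ((CIn.one.add CIn_X).mul ((CIn_X.mul (hder hCS)).sub (h2S.mul hCS)))
  have R2 : η ^ 2 - C a * X * ξ * η - C b * X ^ 3 * η = ξ ^ 3 := by
    rw [← sub_eq_zero]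
    apply eq_zero_of_subst_expm
    set e : PowerSeries K := expm K with he
    have hE : exp K = 1 + e := (one_add_expm K).symm
    have hσX : PowerSeries.subst e (X : PowerSeries K) = e := subst_X hs
    have hσC : ∀ c : K, PowerSeries.subst e (C c : PowerSeries K) = (C c : PowerSeries K) :=
      fun c => subst_C hs c
    -- `X² σ(ξ) = e² ξw`
    have h1 : X ^ 2 * PowerSeries.subst e ξ = e ^ 2 * ξw := by
      rw [hlink, hξ, hE]
      simp only [← coe_substAlgHom hs, map_add, map_mul, map_pow, map_one]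
      simp only [coe_substAlgHom, hσX]
      ring
    have hder1 : d⁄dX K (PowerSeries.subst e ξ) = PowerSeries.subst e (d⁄dX K ξ) * exp K := by
      rw [derivative_subst hs, deriv_expm]
    have h1' := congrArg (d⁄dX K) h1
    simp only [Derivation.leibniz, Derivation.leibniz_pow, smul_eq_mul, derivative_X, nsmul_eq_mul] at h1'
    rw [hder1, deriv_expm, hE] at h1'
    push_cast at h1'
    -- `X³ σ(η) = e³ ηw`
    have h3 : X ^ 3 * PowerSeries.subst e η = e ^ 3 * ηw := by
      have hf2 : (PowerSeries.subst e (2 * η) : PowerSeries K) = PowerSeries.subst e f := by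
        rw [hfη]
      rw [hf] at hf2
      simp only [← coe_substAlgHom hs, map_add, map_mul, map_pow, map_one, map_sub, map_ofNat] at hf2
      simp only [coe_substAlgHom, hσX, hσC] at hf2
      have : 2 * (X ^ 3 * PowerSeries.subst e η) = 2 * (e ^ 3 * ηw) := by
        linear_combination X ^ 3 * hf2 + (C a * X * e + 2 * (1 + e) * X + 2 * e) * h1 - X * e * h1' -
          e ^ 3 * W1
      linear_combination C (algebraMap ℚ K (1 / 2)) * this - (X ^ 3 * PowerSeries.subst e η - e ^ 3 * ηw) * h2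
    apply X_pow_mul_cancel (k := 6)
    simp only [← coe_substAlgHom hs, map_mul, map_pow, map_sub]
    simp only [coe_substAlgHom, hσX, hσC]
    set u : PowerSeries K := PowerSeries.subst e ξ
    set v : PowerSeries K := PowerSeries.subst e η
    have t1 : X ^ 6 * v ^ 2 = e ^ 6 * ηw ^ 2 := by
      linear_combination (X ^ 3 * v + e ^ 3 * ηw) * h3
    have t2 : X ^ 5 * (u * v) = e ^ 5 * (ξw * ηw) := by
      linear_combination X ^ 3 * v * h1 + e ^ 2 * ξw * h3
    have t3 : X ^ 6 * u ^ 3 = e ^ 6 * ξw ^ 3 := by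
      linear_combination (X ^ 4 * u ^ 2 + X ^ 2 * u * (e ^ 2 * ξw) + e ^ 4 * ξw ^ 2) * h1
    linear_combination t1 - C a * e * X * t2 - C b * e ^ 3 * X ^ 3 * h3 - t3 + e ^ 6 * W2
  have hx0 : constantCoeff ξ = 1 := by rw [hξ]; simp
  refine ⟨ξ, η, ⟨hx0, ?_, ?_, R2⟩, hCS, ?_⟩
  · have h3 : constantCoeff f = 2 := by
      rw [hf, two_eq]
      simp [hx0]
    rw [hη, map_mul, constantCoeff_C, h3]
    have : (2 : K) = algebraMap ℚ K 2 := (map_ofNat (algebraMap ℚ K) 2).symm
    rw [this, ← map_mul]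
    norm_num
  · rw [hfη, hf]
    ring
  · obtain ⟨H, hH, e⟩ := two_of_sq hred hfS (G := C a * X * ξ * f + C b * X ^ 3 * f + 2 * ξ ^ 3)
      (((((CIn_C ha).mul CIn_X).mul hCS).mul hfS).add ((((CIn_C hb).mul (CIn_X.pow 3)).mul hfS)) |>.add
        (h2S.mul (hCS.pow 3))) (by
          rw [← hfη]
          linear_combination 4 * R2)
    have : η = H := by
      rw [e] at hfη
      linear_combination C (algebraMap ℚ K (1 / 2)) * hfη - (η - H) * h2
    rw [this]
    exact hH

end T3

end

end Crest.Agent.R007.FgT
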