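import Mathlib

/-! Row 7, part H, hypotheses (h1)-(h4): the filtration of a group mapping to the units of a
ring `O` of rank `4` over the 2-adic integers, by congruence to odd integers modulo `2^n`. -/

set_option autoImplicit false

open scoped commutatorElement

namespace Crest.Agent.R007.Filt

section Basic

variable {O : Type*} [Ring O]

/-- `x` is congruent to an odd integer modulo `2^n`. -/
def OddMod (n : ℕ) (x : O) : Prop := ∃ c : ℤ, Odd c ∧ ∃ y : O, x = (c : O) + (2 : O) ^ n * y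

theorem two_pow_mul (n : ℕ) (y : O) : (2 : O) ^ n * y = ((2 : ℤ) ^ n) • y := by
  rw [zsmul_eq_mul]; push_cast; rfl

theorem intCast_eq (c : ℤ) : (c : O) = c • (1 : O) := by simp

theorem oddMod_iff {n : ℕ} {x : O} :
    OddMod n x ↔ ∃ c : ℤ, Odd c ∧ ∃ y : O, x = c • (1 : O) + ((2 : ℤ) ^ n) • y := by
  unfold OddMod
  simp only [two_pow_mul, intCast_eq]

theorem exists_odd_inv (n : ℕ) (c : ℤ) (hc : Odd c) :
    ∃ c' m : ℤ, Odd c' ∧ c * c' = 1 + 2 ^ n * m := by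
  have h : IsCoprime c ((2 : ℤ) ^ (n + 1)) := by
    apply IsCoprime.pow_right
    rw [Int.isCoprime_iff_gcd_eq_one]
    have := Int.odd_iff.mp hc
    rw [Int.gcd_comm]
    have h2 : Nat.Coprime 2 c.natAbs := by
      rw [Nat.coprime_two_left]
      exact Int.natAbs_odd.mpr hc
    simpa [Int.gcd] using h2
  obtain ⟨a, b, hab⟩ := h
  refine ⟨a, -(2 * b), ?_, ?_⟩
  · have : Odd (a * c) := by
      have : a * c = 1 + 2 * (-(b * 2 ^ n)) := by
        rw [pow_succ] at hab; linear_combination hab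
      rw [this]; exact Odd.add_even odd_one (even_two_mul _)
    exact (Int.odd_mul.mp this).1
  · rw [pow_succ] at hab; linear_combination hab

end Basic

section Group

variable {G O : Type*} [Group G] [Ring O] (ι : G →* O)

theorem oddMod_mul {n : ℕ} {x x' : O} (h : OddMod n x) (h' : OddMod n x') : OddMod n (x * x') := by
  rw [oddMod_iff] at *
  obtain ⟨c, hc, y, rfl⟩ := h
  obtain ⟨c', hc', y', rfl⟩ := h'
  refine ⟨c * c', hc.mul hc', c • y' + c' • y + ((2 : ℤ) ^ n) • (y * y'), ?_⟩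
  simp only [add_mul, mul_add, smul_mul_assoc, mul_smul_comm, one_mul, mul_one]
  module

theorem oddMod_inv {n : ℕ} {x x' : O} (h : OddMod n x) (hx : x' * x = 1) : OddMod n x' := by
  rw [oddMod_iff] at *
  obtain ⟨c, hc, y, rfl⟩ := h
  obtain ⟨c', m, hc', hm⟩ := exists_odd_inv n c hc
  refine ⟨c', hc', -(c' • (x' * y)) - m • x', ?_⟩
  have h1 : c • x' = 1 - ((2 : ℤ) ^ n) • (x' * y) := by
    rw [← hx]; simp only [mul_add, mul_smul_comm, mul_one]; abel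
  have h2 : x' = (c * c') • x' - ((2 : ℤ) ^ n * m) • x' := by rw [hm]; module
  calc x' = (c * c') • x' - ((2 : ℤ) ^ n * m) • x' := h2
    _ = c' • (c • x') - ((2 : ℤ) ^ n * m) • x' := by rw [smul_smul, mul_comm c' c]
    _ = _ := by rw [h1]; module

/-- The filtration. -/
def F (n : ℕ) : Subgroup G where
  carrier := {g | OddMod n (ι g)}
  mul_mem' {a b} ha hb := by
    have : OddMod n (ι a * ι b) := oddMod_mul ha hb
    simpa [← map_mul] using this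
  one_mem' := by
    show OddMod n (ι 1)
    rw [map_one]
    exact ⟨1, odd_one, 0, by simp⟩
  inv_mem' {a} ha := by
    refine oddMod_inv (x' := ι a⁻¹) ha ?_
    rw [← map_mul]; simp

theorem mem_F {n : ℕ} {g : G} : g ∈ F ι n ↔ OddMod n (ι g) := Iff.rfl

theorem mem_F' {n : ℕ} {g : G} :
    g ∈ F ι n ↔ ∃ c : ℤ, Odd c ∧ ∃ y : O, ι g = c • (1 : O) + ((2 : ℤ) ^ n) • y :=
  oddMod_iff

theorem F_antitone : Antitone (F ι) := by
  apply antitone_nat_of_succ_le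
  intro n g hg
  rw [mem_F'] at *
  obtain ⟨c, hc, y, hy⟩ := hg
  exact ⟨c, hc, (2 : ℤ) • y, by rw [hy, smul_smul, pow_succ]⟩

theorem F_zero : F ι 0 = ⊤ := by
  rw [eq_top_iff]
  intro g _
  rw [mem_F']
  exact ⟨1, odd_one, ι g - 1, by simp⟩

theorem F_normal (n : ℕ) : (F ι n).Normal := by
  refine ⟨fun g hg h => ?_⟩
  rw [mem_F'] at *
  obtain ⟨c, hc, y, hy⟩ := hg
  refine ⟨c, hc, ι h * y * ι h⁻¹, ?_⟩
  have h1 : ι h * ι h⁻¹ = 1 := by rw [← map_mul]; simp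
  rw [map_mul, map_mul, hy]
  simp only [add_mul, mul_add, smul_mul_assoc, mul_smul_comm, mul_one, h1]

/-- The commutator formula. -/
theorem comm_eq (g h : G) :
    ι ⁅g, h⁆ = 1 + (ι g * ι h - ι h * ι g) * (ι g⁻¹ * ι h⁻¹) := by
  have h1 : ι h * ι g * (ι g⁻¹ * ι h⁻¹) = 1 := by
    rw [← map_mul, ← map_mul, ← map_mul]
    have : h * g * (g⁻¹ * h⁻¹) = 1 := by group
    rw [this, map_one]
  rw [sub_mul, h1, commutatorElement_def, map_mul, map_mul, map_mul]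
  noncomm_ring

/-- (h3) -/
theorem comm_le (i j : ℕ) : ⁅F ι i, F ι j⁆ ≤ F ι (i + j) := by
  rw [Subgroup.commutator_le]
  intro g hg h hh
  rw [mem_F'] at *
  obtain ⟨c, hc, y, hy⟩ := hg
  obtain ⟨c', hc', y', hy'⟩ := hh
  refine ⟨1, odd_one, (y * y' - y' * y) * (ι g⁻¹ * ι h⁻¹), ?_⟩
  rw [comm_eq]
  have : ι g * ι h - ι h * ι g = ((2 : ℤ) ^ (i + j)) • (y * y' - y' * y) := by
    rw [hy, hy']
    simp only [add_mul, mul_add, smul_mul_assoc, mul_smul_comm, mul_one, one_mul, pow_add]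
    module
  rw [this, smul_mul_assoc, one_smul]

/-- `y` is a leading term of `g` at level `n`. -/
def Lead (n : ℕ) (g : G) (y : O) : Prop :=
  ∃ c : ℤ, Odd c ∧ ∃ w : O, ι g = c • (1 : O) + ((2 : ℤ) ^ n) • y + ((2 : ℤ) ^ (n + 1)) • w

variable {ι}

theorem Lead.mem {n : ℕ} {g : G} {y : O} (h : Lead ι n g y) : g ∈ F ι n := by
  rw [mem_F']
  obtain ⟨c, hc, w, hw⟩ := h
  exact ⟨c, hc, y + (2 : ℤ) • w, by rw [hw, pow_succ]; module⟩

theorem exists_lead {n : ℕ} {g : G} (h : g ∈ F ι n) : ∃ y, Lead ι n g y := by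
  rw [mem_F'] at h
  obtain ⟨c, hc, y, hy⟩ := h
  exact ⟨y, c, hc, 0, by rw [hy]; simp⟩

theorem Lead.mul {n : ℕ} (hn : 1 ≤ n) {g h : G} {y z : O} (hg : Lead ι n g y) (hh : Lead ι n h z) :
    Lead ι n (g * h) (y + z) := by
  obtain ⟨c, hc, w, hw⟩ := hg
  obtain ⟨c', hc', w', hw'⟩ := hh
  obtain ⟨k, rfl⟩ := hc
  obtain ⟨k', rfl⟩ := hc'
  obtain ⟨m, rfl⟩ : ∃ m, n = m + 1 := ⟨n - 1, by omega⟩
  refine ⟨(2 * k + 1) * (2 * k' + 1), Odd.mul ⟨k, rfl⟩ ⟨k', rfl⟩,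
    k' • y + k • z + (2 * k + 1) • w' + (2 * k' + 1) • w +
      ((2 : ℤ) ^ m) • ((y + (2 : ℤ) • w) * (z + (2 : ℤ) • w')), ?_⟩
  rw [map_mul, hw, hw']
  simp only [add_mul, mul_add, smul_mul_assoc, mul_smul_comm, mul_one, one_mul, pow_succ]
  module

theorem Lead.inv {n : ℕ} (hn : 1 ≤ n) {g : G} {y : O} (hg : Lead ι n g y) :
    Lead ι n g⁻¹ y := by
  -- choose a lead `z` of `g⁻¹`; `y + z` is a lead of `1`, hence `y ≡ z` up to integers
  obtain ⟨c, hc, w, hw⟩ := hg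
  obtain ⟨c', m, hc', hm⟩ := exists_odd_inv (n + 1) c hc
  obtain ⟨k, rfl⟩ := hc'
  obtain ⟨l, rfl⟩ : ∃ l, n = l + 1 := ⟨n - 1, by omega⟩
  set x' := ι g⁻¹ with hx'
  have hx : x' * ι g = 1 := by rw [hx', ← map_mul]; simp
  -- x' = c' - 2^n c' x' y - ...
  have h1 : c • x' = 1 - ((2 : ℤ) ^ (l + 1)) • (x' * y) - ((2 : ℤ) ^ (l + 1 + 1)) • (x' * w) := by
    rw [← hx, hw]; simp only [mul_add, mul_smul_comm, mul_one]; abel
  have h2 : x' = (c * (2 * k + 1)) • x' - ((2 : ℤ) ^ (l + 1 + 1) * m) • x' := by rw [hm]; module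
  have h3 : x' = (2 * k + 1) • (1 : O) - ((2 : ℤ) ^ (l + 1) * (2 * k + 1)) • (x' * y)
      - ((2 : ℤ) ^ (l + 1 + 1) * (2 * k + 1)) • (x' * w) - ((2 : ℤ) ^ (l + 1 + 1) * m) • x' := by
    calc x' = (c * (2 * k + 1)) • x' - ((2 : ℤ) ^ (l + 1 + 1) * m) • x' := h2
      _ = (2 * k + 1) • (c • x') - ((2 : ℤ) ^ (l + 1 + 1) * m) • x' := by
        rw [smul_smul, mul_comm c]
      _ = _ := by rw [h1]; module
  -- `x' = 1 + 2 z0`
  obtain ⟨z0, hz0⟩ : ∃ z0, x' = (1 : O) + (2 : ℤ) • z0 := by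
    refine ⟨k • (1 : O) - ((2 : ℤ) ^ l * (2 * k + 1)) • (x' * y)
      - ((2 : ℤ) ^ (l + 1) * (2 * k + 1)) • (x' * w) - ((2 : ℤ) ^ (l + 1) * m) • x', ?_⟩
    conv_lhs => rw [h3]
    simp only [pow_succ]
    module
  refine ⟨2 * k + 1, ⟨k, rfl⟩, -(k + 1) • y - (2 * k + 1) • (z0 * y)
      - (2 * k + 1) • (x' * w) - m • x', ?_⟩
  refine h3.trans ?_
  have h4 : x' * y = y + (2 : ℤ) • (z0 * y) := by
    conv_lhs => rw [hz0]
    rw [add_mul, one_mul, smul_mul_assoc]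
  rw [h4]
  simp only [pow_succ]
  module

theorem Lead.sq {n : ℕ} (hn : 2 ≤ n) {g : G} {y : O} (hg : Lead ι n g y) :
    Lead ι (n + 1) (g ^ 2) y := by
  obtain ⟨c, hc, w, hw⟩ := hg
  obtain ⟨k, rfl⟩ := hc
  obtain ⟨m, rfl⟩ : ∃ m, n = m + 2 := ⟨n - 2, by omega⟩
  refine ⟨(2 * k + 1) * (2 * k + 1), Odd.mul ⟨k, rfl⟩ ⟨k, rfl⟩,
    k • y + (2 * k + 1) • w +
      ((2 : ℤ) ^ m) • ((y + (2 : ℤ) • w) * (y + (2 : ℤ) • w)), ?_⟩
  rw [pow_two, map_mul, hw]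
  simp only [add_mul, mul_add, smul_mul_assoc, mul_smul_comm, mul_one, one_mul, pow_succ]
  module

theorem Lead.pow_two_pow {n : ℕ} (hn : 2 ≤ n) {g : G} {y : O} (hg : Lead ι n g y) (k : ℕ) :
    Lead ι (n + k) (g ^ (2 ^ k)) y := by
  induction k with
  | zero => simpa using hg
  | succ k ih =>
    have := Lead.sq (by omega) ih
    rwa [← pow_mul, ← pow_succ] at this

theorem lead_one_two (n : ℕ) (z : O) : Lead ι n (1 : G) ((2 : ℤ) • z) :=
  ⟨1, odd_one, -z, by rw [map_one, pow_succ]; module⟩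

theorem lead_one_int {n : ℕ} (hn : 1 ≤ n) (m : ℤ) : Lead ι n (1 : G) (m • (1 : O)) := by
  obtain ⟨l, rfl⟩ : ∃ l, n = l + 1 := ⟨n - 1, by omega⟩
  refine ⟨1 - 2 ^ (l + 1) * m, ?_, 0, ?_⟩
  · refine Odd.sub_even odd_one ?_
    rw [pow_succ]
    exact ⟨2 ^ l * m, by ring⟩
  · rw [map_one]; module

/-- leading term in `ℤ + 2 O` means one step deeper. -/
theorem Lead.mem_succ {n : ℕ} (hn : 1 ≤ n) {g : G} {y z : O} {m : ℤ} (hg : Lead ι n g y)
    (hy : y = m • (1 : O) + (2 : ℤ) • z) : g ∈ F ι (n + 1) := by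
  rw [mem_F']
  obtain ⟨c, hc, w, hw⟩ := hg
  obtain ⟨l, rfl⟩ : ∃ l, n = l + 1 := ⟨n - 1, by omega⟩
  refine ⟨c + 2 ^ (l + 1) * m, ?_, z + w, ?_⟩
  · refine Odd.add_even hc ?_
    rw [pow_succ]
    exact ⟨2 ^ l * m, by ring⟩
  · rw [hw, hy]
    simp only [pow_succ]
    module

end Group

end Crest.Agent.R007.Filt
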