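import Crest.Agent.R007.Filt

/-! Row 7, part H, hypotheses (h1)-(h4): stabilisation of the graded pieces and the main theorem. -/

set_option autoImplicit false

open scoped commutatorElement

namespace Crest.Agent.R007.Filt

section Quot

variable (O : Type*) [Ring O]

/-- `ℤ + 2 O`. -/
def N0 : AddSubgroup O where
  carrier := {x | ∃ m : ℤ, ∃ z : O, x = m • (1 : O) + (2 : ℤ) • z}
  add_mem' := by
    rintro _ _ ⟨m, z, rfl⟩ ⟨m', z', rfl⟩
    exact ⟨m + m', z + z', by module⟩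
  zero_mem' := ⟨0, 0, by simp⟩
  neg_mem' := by
    rintro _ ⟨m, z, rfl⟩
    exact ⟨-m, -z, by module⟩

/-- `2 O`. -/
def N2 : AddSubgroup O where
  carrier := {x | ∃ z : O, x = (2 : ℤ) • z}
  add_mem' := by
    rintro _ _ ⟨z, rfl⟩ ⟨z', rfl⟩
    exact ⟨z + z', by module⟩
  zero_mem' := ⟨0, by simp⟩
  neg_mem' := by
    rintro _ ⟨z, rfl⟩
    exact ⟨-z, by module⟩

variable {O}

theorem mem_N0 {x : O} : x ∈ N0 O ↔ ∃ m : ℤ, ∃ z : O, x = m • (1 : O) + (2 : ℤ) • z := Iff.rfl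

theorem mem_N2 {x : O} : x ∈ N2 O ↔ ∃ z : O, x = (2 : ℤ) • z := Iff.rfl

theorem two_nsmul_mem_N0 (x : O) : 2 • x ∈ N0 O := ⟨0, x, by
  rw [zero_smul, zero_add, two_zsmul, two_nsmul]⟩

theorem two_nsmul_mem_N2 (x : O) : 2 • x ∈ N2 O := ⟨x, by
  rw [two_zsmul, two_nsmul]⟩

variable (O)

instance instModV : Module (ZMod 2) (O ⧸ N0 O) := QuotientAddGroup.zmodModule two_nsmul_mem_N0

instance instModQ : Module (ZMod 2) (O ⧸ N2 O) := QuotientAddGroup.zmodModule two_nsmul_mem_N2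

theorem N2_le : N2 O ≤ N0 O := by
  rintro _ ⟨z, rfl⟩
  exact ⟨0, z, by simp⟩

/-- the projection `O/2O → O/(ℤ+2O)`. -/
def projQV : (O ⧸ N2 O) →+ (O ⧸ N0 O) :=
  QuotientAddGroup.map (N2 O) (N0 O) (AddMonoidHom.id O) (by intro x hx; exact N2_le O hx)

variable {O}

theorem finite_Q (hfin : ∃ s : Finset O, s.card ≤ 16 ∧ ∀ x : O, ∃ y ∈ s, ∃ z : O, x = y + 2 * z) :
    Finite (O ⧸ N2 O) ∧ Nat.card (O ⧸ N2 O) ≤ 16 := by
  obtain ⟨s, hs, h⟩ := hfin
  have hsurj : Function.Surjective (fun y : s => ((y : O) : O ⧸ N2 O)) := by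
    intro q
    induction q using QuotientAddGroup.induction_on with
    | H x =>
      obtain ⟨y, hy, z, hz⟩ := h x
      refine ⟨⟨y, hy⟩, ?_⟩
      rw [QuotientAddGroup.eq]
      refine ⟨z, ?_⟩
      rw [hz]
      have : (2 : O) * z = (2 : ℤ) • z := by rw [zsmul_eq_mul]; push_cast; rfl
      rw [this]; abel
  refine ⟨Finite.of_surjective _ hsurj, ?_⟩
  calc Nat.card (O ⧸ N2 O) ≤ Nat.card s := Nat.card_le_card_of_surjective _ hsurj
    _ = s.card := by simp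
    _ ≤ 16 := hs

theorem finite_V (hfin : ∃ s : Finset O, s.card ≤ 16 ∧ ∀ x : O, ∃ y ∈ s, ∃ z : O, x = y + 2 * z) :
    Finite (O ⧸ N0 O) := by
  haveI := (finite_Q hfin).1
  refine Finite.of_surjective (projQV O) ?_
  intro q
  induction q using QuotientAddGroup.induction_on with
  | H x => exact ⟨(x : O ⧸ N2 O), rfl⟩

theorem finrank_V (hone : ∀ x : O, (1 : O) ≠ 2 * x)
    (hfin : ∃ s : Finset O, s.card ≤ 16 ∧ ∀ x : O, ∃ y ∈ s, ∃ z : O, x = y + 2 * z) :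
    Module.finrank (ZMod 2) (O ⧸ N0 O) ≤ 3 := by
  obtain ⟨h1, h2⟩ := finite_Q hfin
  haveI := h1
  haveI := finite_V hfin
  haveI : Module.Finite (ZMod 2) (O ⧸ N2 O) := Module.Finite.of_finite
  have h4 : Module.finrank (ZMod 2) (O ⧸ N2 O) ≤ 4 := by
    have h := Module.natCard_eq_pow_finrank (K := ZMod 2) (V := O ⧸ N2 O)
    rw [h, Nat.card_zmod] at h2
    by_contra hcon
    have : 2 ^ 5 ≤ 2 ^ Module.finrank (ZMod 2) (O ⧸ N2 O) := Nat.pow_le_pow_right (by norm_num)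
      (by omega)
    omega
  let f : (O ⧸ N2 O) →ₗ[ZMod 2] (O ⧸ N0 O) := (projQV O).toZModLinearMap 2
  have hf : Function.Surjective f := by
    intro q
    induction q using QuotientAddGroup.induction_on with
    | H x => exact ⟨(x : O ⧸ N2 O), rfl⟩
  have h5 := LinearMap.finrank_range_add_finrank_ker f
  rw [LinearMap.range_eq_top.mpr hf, finrank_top] at h5
  have h6 : 0 < Module.finrank (ZMod 2) (LinearMap.ker f) := by
    have hne : ((1 : O) : O ⧸ N2 O) ≠ 0 := by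
      intro h
      rw [QuotientAddGroup.eq_zero_iff] at h
      obtain ⟨z, hz⟩ := h
      apply hone z
      have : (2 : O) * z = (2 : ℤ) • z := by rw [zsmul_eq_mul]; push_cast; rfl
      rw [this]; exact hz
    have hmem : ((1 : O) : O ⧸ N2 O) ∈ LinearMap.ker f := by
      rw [LinearMap.mem_ker]
      show ((1 : O) : O ⧸ N0 O) = 0
      rw [QuotientAddGroup.eq_zero_iff]
      exact ⟨1, 0, by simp⟩
    haveI : Nontrivial (LinearMap.ker f) :=
      ⟨⟨⟨_, hmem⟩, 0, fun h => hne (congrArg Subtype.val h)⟩⟩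
    exact Module.finrank_pos
  omega

end Quot

section Stab

variable {G O : Type*} [Group G] [Ring O] (ι : G →* O)

/-- classes of leading terms at level `n` of elements of `H`. -/
def Lsub (H : Subgroup G) (n : ℕ) (hn : 1 ≤ n) : AddSubgroup (O ⧸ N0 O) where
  carrier := {v | ∃ g ∈ H, ∃ y : O, Lead ι n g y ∧ ((y : O ⧸ N0 O)) = v}
  add_mem' := by
    rintro _ _ ⟨g, hg, y, hy, rfl⟩ ⟨g', hg', y', hy', rfl⟩
    exact ⟨g * g', H.mul_mem hg hg', y + y', hy.mul hn hy', by simp⟩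
  zero_mem' := ⟨1, H.one_mem, (2 : ℤ) • (0 : O), lead_one_two n 0, by simp⟩
  neg_mem' := by
    rintro _ ⟨g, hg, y, hy, rfl⟩
    refine ⟨g, hg, y, hy, ?_⟩
    rw [← QuotientAddGroup.mk_neg, QuotientAddGroup.eq]
    exact ⟨0, -y, by module⟩

variable {ι}

theorem mem_Lsub {H : Subgroup G} {n : ℕ} {hn : 1 ≤ n} {v : O ⧸ N0 O} :
    v ∈ Lsub ι H n hn ↔ ∃ g ∈ H, ∃ y : O, Lead ι n g y ∧ ((y : O ⧸ N0 O)) = v := Iff.rfl

/-- equal classes: quotient one step deeper -/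
theorem div_mem_succ {n : ℕ} (hn : 1 ≤ n) {g h : G} {y y' : O} (hg : Lead ι n g y)
    (hh : Lead ι n h y') (he : (y : O ⧸ N0 O) = y') : h⁻¹ * g ∈ F ι (n + 1) := by
  have h1 := (hh.inv hn).mul hn hg
  rw [QuotientAddGroup.eq] at he
  obtain ⟨m, z, hmz⟩ := he
  refine Lead.mem_succ hn h1 (m := m) (z := y + z) ?_
  have : y' = y + (m • (1 : O) + (2 : ℤ) • z) := by rw [← hmz]; abel
  rw [this]; module

theorem Lsub_mono_succ (n : ℕ) (hn : 2 ≤ n) (H : Subgroup G) :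
    Lsub ι H n (by omega) ≤ Lsub ι H (n + 1) (by omega) := by
  rintro _ ⟨g, hg, y, hy, rfl⟩
  exact ⟨g ^ 2, H.pow_mem hg 2, y, hy.sq hn, rfl⟩

theorem exists_stab (ι : G →* O)
    (hfin : ∃ s : Finset O, s.card ≤ 16 ∧ ∀ x : O, ∃ y ∈ s, ∃ z : O, x = y + 2 * z) :
    ∃ k0, 2 ≤ k0 ∧ ∀ n (hn : k0 ≤ n) (h1 : 1 ≤ k0) (h2 : 1 ≤ n),
      Lsub ι ⊤ n h2 = Lsub ι ⊤ k0 h1 := by
  haveI := finite_V hfin
  haveI : Module.Finite (ZMod 2) (O ⧸ N0 O) := Module.Finite.of_finite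
  let f : ℕ →o Submodule (ZMod 2) (O ⧸ N0 O) :=
    { toFun := fun n => (AddSubgroup.toZModSubmodule 2) (Lsub ι ⊤ (n + 2) (by omega))
      monotone' := by
        apply monotone_nat_of_le_succ
        intro n
        apply (AddSubgroup.toZModSubmodule 2).monotone
        exact Lsub_mono_succ (n + 2) (by omega) ⊤ }
  obtain ⟨n, hn⟩ := monotone_stabilizes_iff_noetherian.mpr (inferInstance :
    IsNoetherian (ZMod 2) (O ⧸ N0 O)) f
  refine ⟨n + 2, by omega, ?_⟩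
  intro m hm h1 h2
  obtain ⟨l, rfl⟩ : ∃ l, m = l + 2 := ⟨m - 2, by omega⟩
  have := hn l (by omega)
  exact ((AddSubgroup.toZModSubmodule 2).injective this).symm

end Stab

end Crest.Agent.R007.Filt
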