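import Crest.Agent.R007.Filt2

/-! Row 7, part H, hypotheses (h1)-(h4) in ambient form. -/

set_option autoImplicit false

open scoped commutatorElement

namespace Crest.Agent.R007.Filt

variable {G O : Type*} [Group G] [Ring O] {ι : G →* O}

/-- stabilisation of the classes from level `k0` on -/
def Stab (ι : G →* O) (k0 : ℕ) : Prop :=
  2 ≤ k0 ∧ ∀ n (_ : k0 ≤ n) (h1 : 1 ≤ k0) (h2 : 1 ≤ n), Lsub ι ⊤ n h2 = Lsub ι ⊤ k0 h1

theorem Stab.exists_lead {k0 : ℕ} (hs : Stab ι k0) {n m : ℕ} (hn : k0 ≤ n) (hm : k0 ≤ m) {g : G}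
    {y : O} (hg : Lead ι n g y) :
    ∃ h : G, ∃ y' : O, Lead ι m h y' ∧ (y : O ⧸ N0 O) = y' := by
  have h2 := hs.1
  have h1 : (y : O ⧸ N0 O) ∈ Lsub ι ⊤ n (by omega) := ⟨g, Subgroup.mem_top _, y, hg, rfl⟩
  rw [hs.2 n hn (by omega) (by omega), ← hs.2 m hm (by omega) (by omega)] at h1
  obtain ⟨h, -, y', hy', he⟩ := h1
  exact ⟨h, y', hy', he.symm⟩

theorem sq_mem {n : ℕ} (hn : 1 ≤ n) {g : G} (hg : g ∈ F ι n) : g ^ 2 ∈ F ι (n + 1) := by
  obtain ⟨y, hy⟩ := Filt.exists_lead hg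
  have h := hy.mul hn hy
  rw [← pow_two] at h
  refine Lead.mem_succ hn h (m := 0) (z := y) ?_
  module

/-- (h1) in ambient form -/
theorem sqrt_amb {k0 : ℕ} (hs : Stab ι k0) (k n : ℕ) {g : G} (hg : g ∈ F ι (k0 + (k + 1))) :
    ∃ h ∈ F ι (k0 + k), g⁻¹ * h ^ 2 ∈ F ι (k0 + n) := by
  have hk2 := hs.1
  induction n with
  | zero =>
    refine ⟨1, Subgroup.one_mem _, ?_⟩
    rw [one_pow, mul_one]
    exact Subgroup.inv_mem _ (F_antitone ι (by omega) hg)
  | succ n ih =>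
    rcases Nat.lt_or_ge n (k + 1) with hlt | hge
    · refine ⟨1, Subgroup.one_mem _, ?_⟩
      rw [one_pow, mul_one]
      exact Subgroup.inv_mem _ (F_antitone ι (by omega) hg)
    · obtain ⟨h, hh, hr⟩ := ih
      -- `r = h^{-2} g`
      set r : G := (h ^ 2)⁻¹ * g with hrdef
      have hr' : r ∈ F ι (k0 + n) := by
        have := Subgroup.inv_mem _ hr
        simpa [hrdef, mul_inv_rev] using this
      obtain ⟨y, hy⟩ := Filt.exists_lead hr'
      obtain ⟨h', y', hy', he⟩ := hs.exists_lead (m := k0 + n - 1) (by omega) (by omega) hy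
      have hsq := hy'.sq (by omega)
      rw [show k0 + n - 1 + 1 = k0 + n by omega] at hsq
      have h3 : (h' ^ 2)⁻¹ * r ∈ F ι (k0 + n + 1) := div_mem_succ (by omega) hy hsq he
      have hh' : h' ∈ F ι (k0 + n - 1) := hy'.mem
      have hκ : ⁅h⁻¹, h'⁆ ∈ F ι (k0 + n + 1) := by
        have := comm_le ι (k0 + k) (k0 + n - 1)
          (Subgroup.commutator_mem_commutator (Subgroup.inv_mem _ hh) hh')
        exact F_antitone ι (by omega) this
      refine ⟨h * h', Subgroup.mul_mem _ hh (F_antitone ι (by omega) hh'), ?_⟩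
      have hN := F_normal ι (k0 + n + 1)
      have key : g⁻¹ * (h * h') ^ 2 =
          (r⁻¹ * ⁅h⁻¹, h'⁆ * r) * ((h' ^ 2)⁻¹ * r)⁻¹ := by
        rw [hrdef, commutatorElement_def]
        simp only [pow_two]
        group
      have e1 : r⁻¹ * ⁅h⁻¹, h'⁆ * r ∈ F ι (k0 + n + 1) := by
        have := hN.conj_mem _ hκ r⁻¹
        simpa using this
      rw [key]
      exact Subgroup.mul_mem _ e1 (Subgroup.inv_mem _ h3)

/-- (h2) in ambient form -/
theorem gen_amb {k0 : ℕ} (hs : Stab ι k0) {d : ℕ} {u : Fin d → G} {y : Fin d → O}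
    (hu : ∀ i, Lead ι k0 (u i) (y i))
    (hspan : Submodule.span (ZMod 2) (Set.range fun i => ((y i : O) : O ⧸ N0 O)) =
      (AddSubgroup.toZModSubmodule 2) (Lsub ι ⊤ k0 (by have := hs.1; omega)))
    (n : ℕ) {g : G} (hg : g ∈ F ι k0) :
    ∃ w ∈ Subgroup.closure (Set.range u), g⁻¹ * w ∈ F ι (k0 + n) := by
  have hk2 := hs.1
  -- every class at level `m ≥ k0` is the class of an element of the closure
  have key : ∀ m, k0 ≤ m → ∀ r ∈ F ι m, ∃ w ∈ Subgroup.closure (Set.range u),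
      w⁻¹ * r ∈ F ι (m + 1) := by
    intro m hm r hr
    obtain ⟨z, hz⟩ := Filt.exists_lead hr
    have h1 : (z : O ⧸ N0 O) ∈ Lsub ι ⊤ m (by omega) := ⟨r, Subgroup.mem_top _, z, hz, rfl⟩
    rw [hs.2 m hm (by omega) (by omega)] at h1
    have h2 : (z : O ⧸ N0 O) ∈ (AddSubgroup.toZModSubmodule 2) (Lsub ι ⊤ k0 (by omega)) := h1
    rw [← hspan] at h2
    have h3 : Submodule.span (ZMod 2) (Set.range fun i => ((y i : O) : O ⧸ N0 O)) ≤
        (AddSubgroup.toZModSubmodule 2)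
          (Lsub ι (Subgroup.closure (Set.range u)) m (by omega)) := by
      rw [Submodule.span_le]
      rintro _ ⟨i, rfl⟩
      show ((y i : O) : O ⧸ N0 O) ∈ Lsub ι (Subgroup.closure (Set.range u)) m (by omega)
      obtain ⟨l, rfl⟩ := Nat.exists_eq_add_of_le hm
      exact ⟨u i ^ (2 ^ l), Subgroup.pow_mem _ (Subgroup.subset_closure (Set.mem_range_self i)) _,
        y i, (hu i).pow_two_pow hk2 l, rfl⟩
    obtain ⟨w, hw, z', hz', he⟩ := h3 h2
    exact ⟨w, hw, div_mem_succ (by omega) hz hz' he.symm⟩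
  induction n with
  | zero =>
    exact ⟨1, Subgroup.one_mem _, by rw [mul_one]; exact Subgroup.inv_mem _ hg⟩
  | succ n ih =>
    obtain ⟨w, hw, hr⟩ := ih
    have hr' : w⁻¹ * g ∈ F ι (k0 + n) := by
      have := Subgroup.inv_mem _ hr
      simpa using this
    obtain ⟨w', hw', h4⟩ := key (k0 + n) (by omega) _ hr'
    refine ⟨w * w', Subgroup.mul_mem _ hw hw', ?_⟩
    have := Subgroup.inv_mem _ h4
    rw [show g⁻¹ * (w * w') = (w'⁻¹ * (w⁻¹ * g))⁻¹ by group]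
    exact this

/-- approximation: with full graded pieces, every `1 + 2^a x` is approximated up to scalars. -/
theorem approx {k0 : ℕ} (hs : Stab ι k0)
    (hfull : ∀ v : O ⧸ N0 O, v ∈ Lsub ι ⊤ k0 (by have := hs.1; omega))
    (a : ℕ) (ha : k0 ≤ a) (x : O) (N : ℕ) :
    ∃ g : G, ∃ c : ℤ, Odd c ∧ ∃ w : O,
      ι g = c • (1 : O) + (c * 2 ^ a) • x + ((2 : ℤ) ^ (a + N)) • w := by
  have hk2 := hs.1
  induction N with
  | zero => exact ⟨1, 1, odd_one, -x, by rw [map_one]; simp⟩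
  | succ N ih =>
    obtain ⟨g, c, ⟨k, rfl⟩, w, hw⟩ := ih
    have h1 : (w : O ⧸ N0 O) ∈ Lsub ι ⊤ (a + N) (by omega) := by
      rw [hs.2 (a + N) (by omega) (by omega) (by omega)]; exact hfull _
    obtain ⟨h, -, v, hv, he⟩ := h1
    rw [eq_comm, QuotientAddGroup.eq] at he
    obtain ⟨m, z, hmz⟩ := he
    have hv' : v = w + m • (1 : O) + (2 : ℤ) • z := by rw [add_assoc, ← hmz]; abel
    obtain ⟨c', ⟨k', rfl⟩, w', hw'⟩ := hv
    obtain ⟨a', rfl⟩ : ∃ a', a = a' + 1 := ⟨a - 1, by omega⟩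
    refine ⟨g * h, (2 * k + 1) * (2 * k' + 1) + 2 ^ (a' + 1 + N) * (2 * k + 1) * m, ?_,
      (k + k' + 1) • w + (2 * k + 1) • z + (2 * k + 1) • w' + ((2 * k + 1) * 2 ^ a') • (x * v)
        + ((2 * k + 1) * 2 ^ (a' + 1)) • (x * w') + ((2 : ℤ) ^ (a' + N)) • (w * v)
        + ((2 : ℤ) ^ (a' + 1 + N)) • (w * w') - ((2 * k + 1) * m * 2 ^ a') • x, ?_⟩
    · refine Odd.add_even (Odd.mul ⟨k, rfl⟩ ⟨k', rfl⟩) ?_
      exact ⟨2 ^ (a' + N) * (2 * k + 1) * m, by ring⟩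
    · rw [map_mul, hw, hw', hv']
      simp only [add_mul, mul_add, smul_mul_assoc, mul_smul_comm, mul_one, one_mul, pow_succ,
        pow_add]
      module

end Crest.Agent.R007.Filt
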