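import Crest.Prelude.Def_HeckeTwo

/-!
Row 7 (S0007), section B, node FIN, abstract part: finite generation of the finite stages
"up to odd multiples", hence finiteness of `ℤ₂ ⊗ stage` over `ℤ₂`.
-/

set_option autoImplicit false

namespace Crest.Agent.R007.Fin

open Crest.NumberTheoryR.HeckeTwoAdic
open scoped TensorProduct

/-- `M` is finitely generated up to odd multiples. -/
def TwoFG (M : Type*) [AddCommGroup M] : Prop :=
  ∃ G : Finset M, ∀ x : M, ∃ m : ℤ, Odd m ∧ m • x ∈ Submodule.span ℤ (G : Set M)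

theorem TwoFG.of_fg {M : Type*} [AddCommGroup M] (h : Module.Finite ℤ M) : TwoFG M := by
  obtain ⟨G, hG⟩ := h.fg_top
  exact ⟨G, fun x => ⟨1, odd_one, by rw [hG]; exact Submodule.mem_top⟩⟩

theorem TwoFG.of_submodule {M : Type*} [AddCommGroup M] (S : Submodule ℤ M) (hS : S.FG)
    (h : ∀ x : M, ∃ m : ℤ, Odd m ∧ m • x ∈ S) : TwoFG M := by
  obtain ⟨G, hG⟩ := hS
  exact ⟨G, fun x => by rw [hG]; exact h x⟩

theorem TwoFG.of_injective {M M' : Type*} [AddCommGroup M] [AddCommGroup M'] (f : M →+ M')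
    (hf : Function.Injective f) (h : TwoFG M') : TwoFG M := by
  obtain ⟨G, hG⟩ := h
  let S' : Submodule ℤ M' := Submodule.span ℤ (G : Set M')
  let fl : M →ₗ[ℤ] M' := f.toIntLinearMap
  let S : Submodule ℤ M := S'.comap fl
  have hS' : Module.Finite ℤ S' := Module.Finite.iff_fg.mpr ⟨G, rfl⟩
  have hN : IsNoetherian ℤ S' := isNoetherian_of_isNoetherianRing_of_finite ℤ S'
  let g : S →ₗ[ℤ] S' := fl.restrict (p := S) (q := S') (fun x hx => hx)
  have hg : Function.Injective g := by
    intro a b hab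
    apply Subtype.ext
    apply hf
    exact congrArg Subtype.val hab
  have hSf : Module.Finite ℤ S := Module.Finite.of_injective g hg
  refine TwoFG.of_submodule S (Module.Finite.iff_fg.mp hSf) ?_
  intro x
  obtain ⟨m, hm, hmx⟩ := hG (f x)
  refine ⟨m, hm, ?_⟩
  change fl (m • x) ∈ S'
  rw [map_zsmul]
  exact hmx

theorem exists_odd_of_finite {ι : Type*} [Fintype ι] {M : ι → Type*} [∀ i, AddCommGroup (M i)]
    (S : ∀ i, Submodule ℤ (M i)) (x : ∀ i, M i) (h : ∀ i, ∃ m : ℤ, Odd m ∧ m • x i ∈ S i) :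
    ∃ m : ℤ, Odd m ∧ ∀ i, m • x i ∈ S i := by
  classical
  choose m hm hmx using h
  refine ⟨∏ i, m i, ?_, ?_⟩
  · exact Finset.prod_induction m (fun z => Odd z) (fun a b => Odd.mul) odd_one (fun i _ => hm i)
  · intro i
    rw [← Finset.mul_prod_erase Finset.univ m (Finset.mem_univ i), mul_comm, mul_smul]
    exact Submodule.smul_mem _ _ (hmx i)

theorem TwoFG.pi {ι : Type*} [Finite ι] {M : ι → Type*} [∀ i, AddCommGroup (M i)]
    (h : ∀ i, TwoFG (M i)) : TwoFG (∀ i, M i) := by
  classical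
  have : Fintype ι := Fintype.ofFinite ι
  choose G hG using h
  refine TwoFG.of_submodule (Submodule.pi Set.univ fun i => Submodule.span ℤ (G i : Set (M i)))
    ?_ ?_
  · exact Submodule.fg_pi fun i => ⟨G i, rfl⟩
  · intro x
    obtain ⟨m, hm, hmx⟩ := exists_odd_of_finite (fun i => Submodule.span ℤ (G i : Set (M i))) x
      (fun i => hG i (x i))
    exact ⟨m, hm, by rw [Submodule.mem_pi]; exact fun i _ => hmx i⟩

/-- odd integers are units in `ℤ₂` -/
theorem isUnit_odd_padic (m : ℤ) (hm : Odd m) : IsUnit ((m : ℤ_[2])) := by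
  rw [PadicInt.isUnit_iff]
  have h1 : ‖((m : ℤ_[2]))‖ ≤ 1 := PadicInt.norm_le_one _
  rcases lt_or_eq_of_le h1 with h | h
  · exfalso
    rw [PadicInt.norm_int_lt_one_iff_dvd] at h
    exact (Int.not_even_iff_odd.mpr hm) (even_iff_two_dvd.mpr (by exact_mod_cast h))
  · exact h

/-- **`ℤ₂ ⊗ M` is finite over `ℤ₂`** -/
theorem TwoFG.finite_tensor {M : Type*} [AddCommGroup M] (h : TwoFG M) :
    Module.Finite ℤ_[2] (ℤ_[2] ⊗[ℤ] M) := by
  classical
  obtain ⟨G, hG⟩ := h
  let S : Submodule ℤ_[2] (ℤ_[2] ⊗[ℤ] M) :=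
    Submodule.span ℤ_[2] ((fun g : M => (1 : ℤ_[2]) ⊗ₜ[ℤ] g) '' (G : Set M))
  have hS : ∀ x ∈ Submodule.span ℤ (G : Set M), (1 : ℤ_[2]) ⊗ₜ[ℤ] x ∈ S := by
    intro x hx
    induction hx using Submodule.span_induction with
    | mem x hx => exact Submodule.subset_span ⟨x, hx, rfl⟩
    | zero => rw [TensorProduct.tmul_zero]; exact zero_mem _
    | add x y _ _ hx hy => rw [TensorProduct.tmul_add]; exact add_mem hx hy
    | smul a x _ hx =>
      rw [TensorProduct.tmul_smul]
      exact zsmul_mem hx a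
  have htop : S = ⊤ := by
    rw [eq_top_iff]
    rintro t -
    induction t using TensorProduct.induction_on with
    | zero => exact zero_mem _
    | add x y hx hy => exact add_mem hx hy
    | tmul a x =>
      obtain ⟨m, hm, hmx⟩ := hG x
      obtain ⟨u, hu⟩ := isUnit_odd_padic m hm
      have h1 : a ⊗ₜ[ℤ] x = (a * (↑u⁻¹ : ℤ_[2])) • ((1 : ℤ_[2]) ⊗ₜ[ℤ] (m • x)) := by
        rw [TensorProduct.tmul_smul, TensorProduct.smul_tmul', TensorProduct.smul_tmul',
          zsmul_eq_mul, mul_one, smul_eq_mul, ← hu, mul_assoc, Units.inv_mul, mul_one]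
      rw [h1]
      exact Submodule.smul_mem _ _ (hS _ hmx)
  exact ⟨⟨G.image (fun g : M => (1 : ℤ_[2]) ⊗ₜ[ℤ] g), by rw [Finset.coe_image]; exact htop⟩⟩

section stage

variable {N k : ℕ} {T D : ℕ → (i : ℕ) → (MF N i →ₗ[ℂ] MF N i)}

/-- the stage preserves every family of subgroups preserved by the generators -/
theorem stage_stable (Λ : ∀ i : Fin k, AddSubgroup (MF N (i + 1)))
    (hstab : ∀ a ∈ heckeGens N T D k, ∀ i, ∀ f ∈ Λ i, a i f ∈ Λ i) (s : EndProd N k)
    (hs : s ∈ stage N T D k) : ∀ i, ∀ f ∈ Λ i, s i f ∈ Λ i := by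
  unfold stage at hs
  induction hs using Subring.closure_induction with
  | mem a ha => exact hstab a ha
  | zero => intro i f _; exact zero_mem _
  | one => intro i f hf; exact hf
  | add a b _ _ ha hb => intro i f hf; exact add_mem (ha i f hf) (hb i f hf)
  | neg a _ ha => intro i f hf; exact neg_mem (ha i f hf)
  | mul a b _ _ ha hb => intro i f hf; exact ha i _ (hb i f hf)

/-- **FIN, abstract form**: the stage is finitely generated up to odd multiples. -/
theorem stage_twoFG (Λ : ∀ i : Fin k, AddSubgroup (MF N (i + 1))) (hΛ : ∀ i, TwoFG (Λ i))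
    (hspan : ∀ i : Fin k, Submodule.span ℂ ((Λ i : AddSubgroup _) : Set (MF N (i + 1))) = ⊤)
    (hstab : ∀ a ∈ heckeGens N T D k, ∀ i, ∀ f ∈ Λ i, a i f ∈ Λ i) :
    TwoFG (stage N T D k) := by
  classical
  have hΛ' := hΛ
  choose G hG using hΛ
  let φ : stage N T D k →+ (∀ i : Fin k, ∀ _ : G i, Λ i) :=
    { toFun := fun s i g => ⟨s.1 i g.1.1, stage_stable Λ hstab s.1 s.2 i g.1.1 g.1.2⟩
      map_zero' := by
        funext i g
        rfl
      map_add' := by
        intro a b
        funext i g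
        rfl }
  have hφ : Function.Injective φ := by
    rw [injective_iff_map_eq_zero]
    intro s hs
    apply Subtype.ext
    funext i
    -- s i vanishes on the generators
    have h1 : ∀ g ∈ G i, s.1 i (g : MF N (i + 1)) = 0 := by
      intro g hg
      have := congrFun (congrFun hs i) ⟨g, hg⟩
      exact congrArg Subtype.val this
    have h2 : ∀ x ∈ Submodule.span ℤ (G i : Set (Λ i)), s.1 i (x : MF N (i + 1)) = 0 := by
      intro x hx
      induction hx using Submodule.span_induction with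
      | mem x hx => exact h1 x hx
      | zero => exact map_zero _
      | add x y _ _ hx hy =>
        rw [AddSubgroup.coe_add, map_add, hx, hy, add_zero]
      | smul a x _ hx =>
        rw [AddSubgroup.coe_zsmul, map_zsmul, hx, smul_zero]
    have h3 : ∀ x ∈ Λ i, s.1 i x = 0 := by
      intro x hx
      obtain ⟨m, hm, hmx⟩ := hG i ⟨x, hx⟩
      have h4 := h2 _ hmx
      rw [AddSubgroup.coe_zsmul, map_zsmul] at h4
      have hm0 : m ≠ 0 := by
        rintro rfl
        exact (Int.not_odd_iff_even.mpr (by decide)) hm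
      rw [← Int.cast_smul_eq_zsmul ℂ, smul_eq_zero] at h4
      rcases h4 with h4 | h4
      · exact absurd (by exact_mod_cast h4) hm0
      · exact h4
    have h5 : (⊤ : Submodule ℂ (MF N (i + 1))) ≤ LinearMap.ker (s.1 i) := by
      rw [← hspan i, Submodule.span_le]
      intro x hx
      exact h3 x hx
    exact LinearMap.ker_eq_top.mp (top_le_iff.mp h5)
  exact TwoFG.of_injective φ hφ (TwoFG.pi fun i => TwoFG.pi fun _ => hΛ' i)

/-- **FIN, abstract form**: `ℤ₂ ⊗ stage` is finite over `ℤ₂`. -/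
theorem finite_of_lattice (Λ : ∀ i : Fin k, AddSubgroup (MF N (i + 1))) (hΛ : ∀ i, TwoFG (Λ i))
    (hspan : ∀ i : Fin k, Submodule.span ℂ ((Λ i : AddSubgroup _) : Set (MF N (i + 1))) = ⊤)
    (hstab : ∀ a ∈ heckeGens N T D k, ∀ i, ∀ f ∈ Λ i, a i f ∈ Λ i) :
    Module.Finite ℤ_[2] (ℤ_[2] ⊗[ℤ] (stage N T D k)) :=
  (stage_twoFG Λ hΛ hspan hstab).finite_tensor

end stage

end Crest.Agent.R007.Fin
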