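import Crest.Agent.R007.Fin1
import Crest.Agent.R007.OpQ
import Crest.Agent.R007.Base5

/-!
Row 7 (S0007), section B, node FIN: the lattice of forms all of whose diamond translates have
coefficients (at infinity) in a coefficient ring `O`.
-/

set_option autoImplicit false

namespace Crest.Agent.R007.Fin

open Crest.NumberTheoryR.HeckeTwoAdic Crest.Agent.R007.Op Crest.Agent.R007.Base
open scoped TensorProduct

variable {N : ℕ} [NeZero N] {T D : ℕ → (i : ℕ) → (MF N i →ₗ[ℂ] MF N i)}

/-- forms of weight `i` all of whose diamond translates have coefficients in `O` -/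
def Lam (O : Subring ℂ) (D : ℕ → (i : ℕ) → (MF N i →ₗ[ℂ] MF N i)) (i : ℕ) :
    AddSubgroup (MF N i) where
  carrier := {f | ∀ d : ℕ, d.Coprime N → ∀ n, an (D d i f) n ∈ O}
  zero_mem' := by
    intro d _ n
    rw [map_zero]
    have : an (0 : MF N i) n = 0 := by
      have := an_smul (0 : ℂ) (0 : MF N i) n
      simpa using this
    rw [this]; exact zero_mem _
  add_mem' := by
    intro f g hf hg d hd n
    rw [map_add, an_add]
    exact add_mem (hf d hd n) (hg d hd n)
  neg_mem' := by
    intro f hf d hd n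
    have h1 : an (D d i (-f)) n = - an (D d i f) n := by
      rw [← neg_one_smul ℂ f, map_smul, an_smul]; ring
    rw [h1]
    exact neg_mem (hf d hd n)

theorem mem_Lam {O : Subring ℂ} {i : ℕ} {f : MF N i} :
    f ∈ Lam O D i ↔ ∀ d : ℕ, d.Coprime N → ∀ n, an (D d i f) n ∈ O := Iff.rfl

theorem D_one (hD : IsDiamondFamily N D) (i : ℕ) (f : MF N i) : D 1 i f = f := by
  apply DFunLike.coe_injective
  have h := hD 1 i 1 (one_mem _) (by simp) f
  rw [h]
  simp

theorem an_mem_of_mem_Lam (hD : IsDiamondFamily N D) {O : Subring ℂ} {i : ℕ} {f : MF N i}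
    (hf : f ∈ Lam O D i) (n : ℕ) : an f n ∈ O := by
  have := hf 1 (Nat.coprime_one_left N) n
  rwa [D_one hD] at this

/-- finitely many coefficients separate the forms -/
theorem exists_sep_coeff (i : ℕ) [FiniteDimensional ℂ (MF N i)] :
    ∃ J : Finset ℕ, ∀ f : MF N i, (∀ n ∈ J, an f n = 0) → f = 0 := by
  classical
  have hfg : (Submodule.span ℂ (Set.range fun n => anL N i n)).FG := IsNoetherian.noetherian _
  rw [Submodule.fg_span_iff_fg_span_finset_subset] at hfg
  obtain ⟨s, hs, hspan⟩ := hfg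
  have hch : ∀ φ : s, ∃ n, anL N i n = φ.1 := fun φ => hs φ.2
  choose c hc using hch
  refine ⟨Finset.univ.image c, fun f hf => eq_zero_of_an f fun n => ?_⟩
  have h1 : anL N i n ∈ Submodule.span ℂ (s : Set _) := by
    rw [← hspan]; exact Submodule.subset_span ⟨n, rfl⟩
  have h2 : ∀ φ ∈ Submodule.span ℂ (s : Set (MF N i →ₗ[ℂ] ℂ)), φ f = 0 := by
    intro φ hφ
    induction hφ using Submodule.span_induction with
    | mem φ hφ =>
      have h3 := hf (c ⟨φ, hφ⟩) (Finset.mem_image_of_mem c (Finset.mem_univ _))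
      have h4 := hc ⟨φ, hφ⟩
      have h5 : φ = anL N i (c ⟨φ, hφ⟩) := h4.symm
      rw [h5]
      exact h3
    | zero => rfl
    | add a b _ _ ha hb => rw [LinearMap.add_apply, ha, hb, add_zero]
    | smul a b _ hb => rw [LinearMap.smul_apply, hb, smul_zero]
  exact h2 _ h1

/-- the lattice is finitely generated up to odd multiples -/
theorem Lam_twoFG (hD : IsDiamondFamily N D) (O : Subring ℂ) (hO : TwoFG O) (i : ℕ)
    [FiniteDimensional ℂ (MF N i)] : TwoFG (Lam O D i) := by
  obtain ⟨J, hJ⟩ := exists_sep_coeff (N := N) i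
  let φ : Lam O D i →+ (J → O) :=
    { toFun := fun f n => ⟨an f.1 n.1, an_mem_of_mem_Lam hD f.2 n.1⟩
      map_zero' := by
        funext n
        apply Subtype.ext
        have := an_smul (0 : ℂ) (0 : MF N i) n.1
        simpa using this
      map_add' := by
        intro f g
        funext n
        apply Subtype.ext
        exact an_add f.1 g.1 n.1 }
  have hφ : Function.Injective φ := by
    rw [injective_iff_map_eq_zero]
    intro f hf
    apply Subtype.ext
    apply hJ
    intro n hn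
    have := congrFun hf ⟨n, hn⟩
    exact congrArg Subtype.val this
  exact TwoFG.of_injective φ hφ (TwoFG.pi fun _ => hO)

theorem D_D_mem (hD : IsDiamondFamily N D) {O : Subring ℂ} {i : ℕ} {f : MF N i}
    (hf : f ∈ Lam O D i) {d e : ℕ} (hd : d.Coprime N) (he : e.Coprime N) (n : ℕ) :
    an (D e i (D d i f)) n ∈ O := by
  have h1 : D e i (D d i f) = D (d * e) i f := D_mul hD hd he (by push_cast; ring) i f
  rw [h1]
  exact hf _ (Nat.Coprime.mul_left hd he) n

/-- stability under the generators -/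
theorem Lam_stable (hD : IsDiamondFamily N D) (hT : IsHeckeFamily N T D) (O : Subring ℂ) {k : ℕ} :
    ∀ a ∈ heckeGens N T D k, ∀ i : Fin k, ∀ f ∈ Lam O D ((i : ℕ) + 1), a i f ∈ Lam O D ((i : ℕ) + 1) := by
  rintro a ⟨ℓ, hℓ, hℓN, ha | ha⟩ i f hf d hd n
  · subst ha
    have hℓc : ℓ.Coprime N := by
      rw [Nat.Prime.coprime_iff_not_dvd hℓ]
      exact fun h => hℓN (dvd_mul_of_dvd_right h 2)
    have h1 : D d ((i : ℕ) + 1) (T ℓ ((i : ℕ) + 1) f) = T ℓ ((i : ℕ) + 1) (D d ((i : ℕ) + 1) f) :=
      (T_D_comm hD hT hℓ hℓN hd ((i : ℕ) + 1) f).symm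
    rw [h1, an_hecke hT hℓ hℓN]
    apply add_mem (hf d hd _)
    split_ifs with hdiv
    · apply mul_mem
      · have : (ℓ : ℂ) ^ (((((i : ℕ) + 1 : ℕ)) : ℤ) - 1) = ((ℓ ^ (i : ℕ) : ℕ) : ℂ) := by
          rw [Nat.cast_add, Nat.cast_one, add_sub_cancel_right, zpow_natCast, Nat.cast_pow]
        rw [this]
        exact natCast_mem O _
      · exact D_D_mem hD hf hd hℓc _
    · exact zero_mem _
  · subst ha
    have hℓc : ℓ.Coprime N := by
      rw [Nat.Prime.coprime_iff_not_dvd hℓ]
      exact fun h => hℓN (dvd_mul_of_dvd_right h 2)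
    rw [LinearMap.smul_apply, map_smul, an_smul]
    apply mul_mem
    · have : (ℓ : ℂ) ^ (i : ℕ) = ((ℓ ^ (i : ℕ) : ℕ) : ℂ) := by rw [Nat.cast_pow]
      rw [this]
      exact natCast_mem O _
    · exact D_D_mem hD hf hℓc hd _

/-- **FIN** from a coefficient ring: `O` finitely generated up to odd multiples, `MF N i` finite
dimensional and spanned by forms integral over `O`. -/
theorem finite_of_ring (hD : IsDiamondFamily N D) (hT : IsHeckeFamily N T D) (O : Subring ℂ)
    (hO : TwoFG O) [∀ i, FiniteDimensional ℂ (MF N i)]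
    (hspan : ∀ i, Submodule.span ℂ ((Lam O D i : AddSubgroup _) : Set (MF N i)) = ⊤) (k : ℕ) :
    Module.Finite ℤ_[2] (ℤ_[2] ⊗[ℤ] (stage N T D k)) :=
  finite_of_lattice (fun i => Lam O D ((i : ℕ) + 1)) (fun i => Lam_twoFG hD O hO _)
    (fun i => hspan _) (Lam_stable hD hT O)

end Crest.Agent.R007.Fin
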