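import Crest.Agent.R227.FG2

/-!
Row 7, section E-FG (helper360): the curve `y² + a x y + b y = x³` at infinity:
`s = z³ + a z s + b s²`, the invariant differential `dz / (1 - a z - 2 b s)`, logarithm, exponential.
-/

set_option autoImplicit false

noncomputable section

open PowerSeries Crest.LubinTate

namespace Crest.Agent.R007.Fz

section fix

variable {A : Type*} [CommRing A]

/-- fixed point of an `X`-adic contraction -/
theorem exists_fix (G : PowerSeries A → PowerSeries A)
    (hG : ∀ (f g : PowerSeries A) (n : ℕ), (X : PowerSeries A) ^ n ∣ f - g → X ^ (n + 1) ∣ G f - G g) :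
    ∃ f, f = G f := by
  have h1 : ∀ n : ℕ, (X : PowerSeries A) ^ n ∣ G^[n + 1] 0 - G^[n] 0 := by
    intro n
    induction n with
    | zero => simp
    | succ n ih =>
      rw [Function.iterate_succ_apply' G (n + 1), Function.iterate_succ_apply' G n]
      exact hG _ _ _ (by rwa [← Function.iterate_succ_apply' G n])
  have h2 : ∀ n m : ℕ, (X : PowerSeries A) ^ n ∣ G^[n + m] 0 - G^[n] 0 := by
    intro n m
    induction m with
    | zero => simp
    | succ m ih =>
      have := (pow_dvd_pow (X : PowerSeries A) (Nat.le_add_right n m)).trans (h1 (n + m))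
      have h3 := dvd_add this ih
      rwa [sub_add_sub_cancel] at h3
  let f : PowerSeries A := PowerSeries.mk fun n => coeff n (G^[n + 1] 0)
  have h3 : ∀ n : ℕ, (X : PowerSeries A) ^ n ∣ f - G^[n] 0 := by
    intro n
    rw [PowerSeries.X_pow_dvd_iff]
    intro i hi
    rw [map_sub, PowerSeries.coeff_mk, sub_eq_zero]
    have h4 := h2 (i + 1) (n - (i + 1))
    rw [Nat.add_sub_cancel' (by omega), PowerSeries.X_pow_dvd_iff] at h4
    have h5 := h4 i (by omega)
    rw [map_sub, sub_eq_zero] at h5
    exact h5.symm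
  refine ⟨f, ?_⟩
  rw [← sub_eq_zero]
  ext n
  rw [map_zero]
  have h4 := h3 (n + 1)
  have h5 := hG _ _ _ (h3 n)
  rw [← Function.iterate_succ_apply' G n] at h5
  have h6 := dvd_sub h4 h5
  rw [sub_sub_sub_cancel_right] at h6
  exact (PowerSeries.X_pow_dvd_iff.1 h6) n (by omega)

theorem exists_u (a b : A) : ∃ u : PowerSeries A, u = 1 + C a * X * u + C b * X ^ 3 * u ^ 2 := by
  refine exists_fix _ fun f g n h => ?_
  obtain ⟨c, hc⟩ := h
  refine ⟨C a * c + C b * X ^ 2 * c * (f + g), ?_⟩
  linear_combination (C a * X + C b * X ^ 3 * (f + g)) * hc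

/-- `u = s / z³` -/
def uS (a b : A) : PowerSeries A := (exists_u a b).choose

theorem uS_eq (a b : A) : uS a b = 1 + C a * X * uS a b + C b * X ^ 3 * uS a b ^ 2 :=
  (exists_u a b).choose_spec

/-- `s = -1/y` as a series in `z = -x/y` -/
def sS (a b : A) : PowerSeries A := X ^ 3 * uS a b

theorem sS_eq (a b : A) : sS a b = X ^ 3 + C a * X * sS a b + C b * sS a b ^ 2 := by
  unfold sS
  linear_combination X ^ 3 * uS_eq a b

theorem cc_sS (a b : A) : constantCoeff (sS a b) = 0 := by
  rw [sS, map_mul, map_pow, PowerSeries.constantCoeff_X]; ring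

/-- uniqueness, abstract form -/
theorem uniq {M : Type*} [CommRing M] {a b z s t : M} (hs : s = z ^ 3 + a * z * s + b * s ^ 2)
    (ht : t = z ^ 3 + a * z * t + b * t ^ 2) (hu : IsUnit (1 - a * z - b * (s + t))) : s = t := by
  rw [← sub_eq_zero]
  refine (hu.mul_left_eq_zero).1 ?_
  linear_combination hs - ht

theorem isUnit_mv {τ : Type*} {f : MvPowerSeries τ A} (h : MvPowerSeries.constantCoeff f = 1) :
    IsUnit f := by
  rw [MvPowerSeries.isUnit_iff_constantCoeff, h]; exact isUnit_one

/-- uniqueness of `s(z)` in power series rings -/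
theorem uniq_mv {τ : Type*} (a b : A) {z s t : MvPowerSeries τ A}
    (hz : MvPowerSeries.constantCoeff z = 0)
    (hs0 : MvPowerSeries.constantCoeff s = 0) (ht0 : MvPowerSeries.constantCoeff t = 0)
    (hs : s = z ^ 3 + MvPowerSeries.C a * z * s + MvPowerSeries.C b * s ^ 2)
    (ht : t = z ^ 3 + MvPowerSeries.C a * z * t + MvPowerSeries.C b * t ^ 2) : s = t := by
  refine uniq hs ht (isUnit_mv ?_)
  simp [hz, hs0, ht0]

theorem subst_sS {τ : Type*} (a b : A) {z : MvPowerSeries τ A}
    (hz : MvPowerSeries.constantCoeff z = 0) :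
    (subst z (sS a b) : MvPowerSeries τ A) = z ^ 3 + MvPowerSeries.C a * z * subst z (sS a b) +
      MvPowerSeries.C b * (subst z (sS a b)) ^ 2 := by
  have h := congrArg (subst z : PowerSeries A → MvPowerSeries τ A) (sS_eq a b)
  have hz' := HasSubst.of_constantCoeff_zero hz
  have hC : ∀ c : A, (subst z (C c : PowerSeries A) : MvPowerSeries τ A) = MvPowerSeries.C c :=
    fun c => PowerSeries.subst_C _
  rw [PowerSeries.subst_add hz', PowerSeries.subst_add hz', PowerSeries.subst_mul hz',
    PowerSeries.subst_mul hz', PowerSeries.subst_mul hz', PowerSeries.subst_pow hz',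
    PowerSeries.subst_pow hz', PowerSeries.subst_X hz', hC, hC] at h
  exact h

theorem cc_subst_sS {τ : Type*} (a b : A) {z : MvPowerSeries τ A}
    (hz : MvPowerSeries.constantCoeff z = 0) :
    MvPowerSeries.constantCoeff (subst z (sS a b) : MvPowerSeries τ A) = 0 :=
  PowerSeries.constantCoeff_subst_eq_zero hz _ (cc_sS a b)

/-- uniqueness: a solution is `s(z)` -/
theorem eq_subst_sS {τ : Type*} (a b : A) {z s : MvPowerSeries τ A}
    (hz : MvPowerSeries.constantCoeff z = 0) (hs0 : MvPowerSeries.constantCoeff s = 0)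
    (hs : s = z ^ 3 + MvPowerSeries.C a * z * s + MvPowerSeries.C b * s ^ 2) :
    s = subst z (sS a b) :=
  uniq_mv a b hz hs0 (cc_subst_sS a b hz) hs (subst_sS a b hz)

theorem map_sS {B : Type*} [CommRing B] (f : A →+* B) (a b : A) :
    (sS a b).map f = sS (f a) (f b) := by
  have h := congrArg (PowerSeries.map f) (sS_eq a b)
  simp only [map_add, map_mul, map_pow, PowerSeries.map_X, PowerSeries.map_C] at h
  have h2 := eq_subst_sS (τ := Unit) (f a) (f b) (z := (X : PowerSeries B)) (s := (sS a b).map f)
    PowerSeries.constantCoeff_X (by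
      change constantCoeff _ = 0
      rw [← PowerSeries.coeff_zero_eq_constantCoeff_apply, PowerSeries.coeff_map,
        PowerSeries.coeff_zero_eq_constantCoeff_apply, cc_sS, map_zero]) h
  rw [h2]
  exact PowerSeries.X_subst _

/-- `p = dz/ω = 1 - a z - 2 b s` -/
def pS (a b : A) : PowerSeries A := 1 - C a * X - 2 * C b * sS a b

theorem cc_pS (a b : A) : constantCoeff (pS a b) = 1 := by
  simp [pS, cc_sS]

theorem map_pS {B : Type*} [CommRing B] (f : A →+* B) (a b : A) :
    (pS a b).map f = pS (f a) (f b) := by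
  simp only [pS, map_sub, map_one, map_mul, PowerSeries.map_C, PowerSeries.map_X, map_sS,
    map_ofNat]

theorem isUnit_pS (a b : A) : IsUnit (pS a b) := by
  rw [PowerSeries.isUnit_iff_constantCoeff, cc_pS]; exact isUnit_one

/-- the coefficient series of the invariant differential, `1/p` -/
def wS (a b : A) : PowerSeries A := PowerSeries.invOfUnit (pS a b) 1

theorem pS_mul_wS (a b : A) : pS a b * wS a b = 1 :=
  PowerSeries.mul_invOfUnit _ _ (by rw [cc_pS]; rfl)

theorem map_wS {B : Type*} [CommRing B] (f : A →+* B) (a b : A) :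
    (wS a b).map f = wS (f a) (f b) := by
  have h1 := congrArg (PowerSeries.map f) (pS_mul_wS a b)
  rw [map_mul, map_one, map_pS] at h1
  have h2 := pS_mul_wS (f a) (f b)
  calc (wS a b).map f = (pS (f a) (f b) * wS (f a) (f b)) * (wS a b).map f := by rw [h2, one_mul]
    _ = wS (f a) (f b) * (pS (f a) (f b) * (wS a b).map f) := by ring
    _ = wS (f a) (f b) := by rw [h1, mul_one]

theorem cc_wS (a b : A) : constantCoeff (wS a b) = 1 := by
  have := congrArg constantCoeff (pS_mul_wS a b)
  rwa [map_mul, cc_pS, one_mul, map_one] at this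

/-- `s' p = 3 z² + a s` -/
theorem deriv_sS (a b : A) : derivative A (sS a b) * pS a b = 3 * X ^ 2 + C a * sS a b := by
  have h := congrArg (derivative A) (sS_eq a b)
  simp only [map_add, Derivation.leibniz, Derivation.leibniz_pow, PowerSeries.derivative_X,
    PowerSeries.derivative_C, smul_eq_mul, nsmul_eq_mul, mul_zero, add_zero, mul_one] at h
  unfold pS
  push_cast at h
  linear_combination h

end fix

end Crest.Agent.R007.Fz
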