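import Crest.Agent.R007.Fz1

/-!
Row 7, section E-FG (helper360): the chord construction, abstract algebra.
-/

set_option autoImplicit false

noncomputable section

open PowerSeries Crest.LubinTate

namespace Crest.Agent.R007.Fz

section chord

variable {M : Type*} [CommRing M] [IsDomain M] {a b z1 z2 s1 s2 lam nu z3 w3 N P S : M}

/-- the cubic `C(T) = T³ + aT(λT+ν) + b(λT+ν)² - (λT+ν)` is `(T-z₁)(T-z₂)(T-z₃)` -/
theorem chord (hz : z1 ≠ z2)
    (h1 : s1 = z1 ^ 3 + a * z1 * s1 + b * s1 ^ 2) (h2 : s2 = z2 ^ 3 + a * z2 * s2 + b * s2 ^ 2)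
    (hs1 : s1 = lam * z1 + nu) (hs2 : s2 = lam * z2 + nu)
    (hz3 : z3 = -z1 - z2 - a * lam - b * lam ^ 2) :
    a * nu + 2 * b * lam * nu - lam = z1 * z2 + z1 * z3 + z2 * z3 ∧
      nu - b * nu ^ 2 = z1 * z2 * z3 := by
  rw [hs1] at h1
  rw [hs2] at h2
  have e1 : (a * nu + 2 * b * lam * nu - lam - (z1 * z2 + z1 * z3 + z2 * z3)) * z1 +
      (b * nu ^ 2 - nu + z1 * z2 * z3) = 0 := by
    rw [hz3]; linear_combination -h1
  have e2 : (a * nu + 2 * b * lam * nu - lam - (z1 * z2 + z1 * z3 + z2 * z3)) * z2 +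
      (b * nu ^ 2 - nu + z1 * z2 * z3) = 0 := by
    rw [hz3]; linear_combination -h2
  have e3 : (a * nu + 2 * b * lam * nu - lam - (z1 * z2 + z1 * z3 + z2 * z3)) * (z1 - z2) = 0 := by
    linear_combination e1 - e2
  have e4 : a * nu + 2 * b * lam * nu - lam - (z1 * z2 + z1 * z3 + z2 * z3) = 0 :=
    (mul_eq_zero.1 e3).resolve_right (sub_ne_zero.2 hz)
  rw [e4] at e1
  refine ⟨by linear_combination e4, by linear_combination -e1⟩

theorem chord_third (hz : z1 ≠ z2)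
    (h1 : s1 = z1 ^ 3 + a * z1 * s1 + b * s1 ^ 2) (h2 : s2 = z2 ^ 3 + a * z2 * s2 + b * s2 ^ 2)
    (hs1 : s1 = lam * z1 + nu) (hs2 : s2 = lam * z2 + nu)
    (hz3 : z3 = -z1 - z2 - a * lam - b * lam ^ 2) (hw3 : w3 = lam * z3 + nu) :
    w3 = z3 ^ 3 + a * z3 * w3 + b * w3 ^ 2 := by
  obtain ⟨e1, e2⟩ := chord hz h1 h2 hs1 hs2 hz3
  rw [hw3]
  linear_combination -z3 * e1 + e2 - z3 ^ 2 * hz3

/-- the inverse of the third point is on the curve -/
theorem chord_curve (h3 : w3 = z3 ^ 3 + a * z3 * w3 + b * w3 ^ 2)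
    (hN : N = 1 - a * z3 - b * w3) (hN0 : N ≠ 0) (hP : P * N = -z3) (hS : S * N = -w3) :
    S = P ^ 3 + a * P * S + b * S ^ 2 := by
  have h4 : w3 * N = z3 ^ 3 := by rw [hN]; linear_combination h3
  have e : N ^ 3 * S = N ^ 3 * (P ^ 3 + a * P * S + b * S ^ 2) := by
    have e1 : N ^ 3 * S = -(w3 * N) * N := by linear_combination N ^ 2 * hS
    have e2 : N ^ 3 * (P ^ 3 + a * P * S + b * S ^ 2) =
        -z3 ^ 3 + a * z3 * w3 * N + b * w3 ^ 2 * N := by
      have : N ^ 3 * (P ^ 3 + a * P * S + b * S ^ 2) =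
        (P * N) ^ 3 + a * (P * N) * (S * N) * N + b * (S * N) ^ 2 * N := by ring
      rw [this, hP, hS]; ring
    rw [e1, e2, ← h4]
    rw [hN]; ring
  exact mul_left_cancel₀ (pow_ne_zero 3 hN0) e

theorem chord_deriv {R : Type*} [CommRing R] [Algebra R M] (D : Derivation R M M) (hz : z1 ≠ z2)
    (h1 : s1 = z1 ^ 3 + a * z1 * s1 + b * s1 ^ 2) (h2 : s2 = z2 ^ 3 + a * z2 * s2 + b * s2 ^ 2)
    (hs1 : s1 = lam * z1 + nu) (hs2 : s2 = lam * z2 + nu)
    (hz3 : z3 = -z1 - z2 - a * lam - b * lam ^ 2) (hw3 : w3 = lam * z3 + nu)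
    (hN : N = 1 - a * z3 - b * w3) (hN0 : N ≠ 0) (hP : P * N = -z3) (hS : S * N = -w3)
    (Da : D a = 0) (Db : D b = 0) (Dz1 : D z1 = 1 - a * z1 - 2 * b * s1) (Dz2 : D z2 = 0)
    (Ds1 : D s1 = 3 * z1 ^ 2 + a * s1) (Ds2 : D s2 = 0) :
    D P = 1 - a * P - 2 * b * S := by
  obtain ⟨e1, e2⟩ := chord hz h1 h2 hs1 hs2 hz3
  have h3 := chord_third hz h1 h2 hs1 hs2 hz3 hw3
  have h4 : w3 * N = z3 ^ 3 := by rw [hN]; linear_combination h3
  -- `D λ = z₁ - z₃`
  have hl : (z1 - z2) * lam = s1 - s2 := by rw [hs1, hs2]; ring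
  have hDl := congrArg D hl
  simp only [Derivation.leibniz, map_sub, smul_eq_mul, Dz1, Dz2, Ds1, Ds2, sub_zero] at hDl
  have hC : 3 * z1 ^ 2 + a * s1 - lam * (1 - a * z1 - 2 * b * s1) = (z1 - z2) * (z1 - z3) := by
    rw [hs1]; linear_combination e1 + 2 * z1 * hz3
  have hD : D lam = z1 - z3 := by
    apply mul_left_cancel₀ (sub_ne_zero.2 hz)
    linear_combination hDl + hC
  have hnu : nu = s1 - lam * z1 := by rw [hs1]; ring
  have hDn : D nu = -z2 * (z1 - z3) := by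
    rw [hnu]
    simp only [Derivation.leibniz, map_sub, smul_eq_mul, Dz1, Ds1, hD]
    linear_combination hC
  have hDz3 : D z3 = -(1 - a * z3 - 2 * b * w3) := by
    have h := congrArg D hz3
    simp only [Derivation.leibniz, Derivation.leibniz_pow, map_sub, map_neg, smul_eq_mul,
      nsmul_eq_mul, Dz1, Dz2, Da, Db, hD] at h
    rw [h, hw3, hs1]; push_cast; ring
  have hDw3 : D w3 = -(3 * z3 ^ 2 + a * w3) := by
    have h := congrArg D hw3
    simp only [Derivation.leibniz, map_add, smul_eq_mul, hD, hDz3, hDn] at h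
    rw [h, hw3]
    linear_combination e1 + 2 * z3 * hz3
  have hDN : D N = a * (1 - a * z3 - 2 * b * w3) + b * (3 * z3 ^ 2 + a * w3) := by
    have h := congrArg D hN
    simp only [Derivation.leibniz, map_sub, smul_eq_mul, Derivation.map_one_eq_zero, Da, Db,
      hDz3, hDw3] at h
    rw [h]; ring
  have hDP := congrArg D hP
  simp only [Derivation.leibniz, map_neg, smul_eq_mul, hDN, hDz3] at hDP
  have e : N ^ 2 * D P = N ^ 2 * (1 - a * P - 2 * b * S) := by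
    have f1 : N ^ 2 * D P = N * (1 - a * z3 - 2 * b * w3) +
        z3 * (a * (1 - a * z3 - 2 * b * w3) + b * (3 * z3 ^ 2 + a * w3)) := by
      linear_combination N * hDP - (a * (1 - a * z3 - 2 * b * w3) + b * (3 * z3 ^ 2 + a * w3)) * hP
    have f2 : N ^ 2 * (1 - a * P - 2 * b * S) = N ^ 2 + a * z3 * N + 2 * b * w3 * N := by
      linear_combination (-a * N) * hP - 2 * b * N * hS
    rw [f1, f2]
    have f3 : z3 * (3 * z3 ^ 2) = 3 * (w3 * N) := by rw [h4]; ring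
    have f4 : 1 - a * z3 - 2 * b * w3 = N - b * w3 := by rw [hN]; ring
    have f5 : N = 1 - a * z3 - b * w3 := hN
    rw [f4]
    linear_combination b * f3
  exact mul_left_cancel₀ (pow_ne_zero 2 hN0) e

end chord

end Crest.Agent.R007.Fz
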