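import Crest.Agent.R007.Fz2

/-!
Row 7, section E-FG (helper360): the formal group law as a two-variable power series.
-/

set_option autoImplicit false

noncomputable section

open PowerSeries Crest.LubinTate

namespace Crest.Agent.R007.Fz

section two

variable {A : Type*} [CommRing A]

/-- divided difference `(f(X₀) - f(X₁)) / (X₀ - X₁)` -/
def dd (f : PowerSeries A) : MvPowerSeries (Fin 2) A := fun d => coeff (d 0 + d 1 + 1) f

theorem coeff_dd (f : PowerSeries A) (d : Fin 2 →₀ ℕ) :
    MvPowerSeries.coeff d (dd f) = coeff (d 0 + d 1 + 1) f := rfl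

theorem map_dd {B : Type*} [CommRing B] (g : A →+* B) (f : PowerSeries A) :
    (dd f).map g = dd (f.map g) := by
  ext d; simp [coeff_dd]

theorem coeff_subst_Xi (f : PowerSeries A) (i : Fin 2) (d : Fin 2 →₀ ℕ) :
    MvPowerSeries.coeff d (subst (MvPowerSeries.X i : MvPowerSeries (Fin 2) A) f :
      MvPowerSeries (Fin 2) A) = if d = Finsupp.single i (d i) then coeff (d i) f else 0 := by
  classical
  rw [PowerSeries.coeff_subst (HasSubst.X i)]
  simp_rw [MvPowerSeries.X_pow_eq, MvPowerSeries.coeff_monomial]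
  rw [finsum_eq_single _ (d i)]
  · split_ifs with h <;> simp
  · intro n hn
    rw [if_neg, smul_zero]
    intro h
    apply hn
    rw [h]; simp

theorem dd_mul (f : PowerSeries A) :
    (MvPowerSeries.X 0 - MvPowerSeries.X 1) * dd f =
      (subst (MvPowerSeries.X 0 : MvPowerSeries (Fin 2) A) f : MvPowerSeries (Fin 2) A) -
        subst (MvPowerSeries.X 1 : MvPowerSeries (Fin 2) A) f := by
  classical
  ext d
  rw [map_sub, coeff_subst_Xi, coeff_subst_Xi, sub_mul, map_sub, MvPowerSeries.X_def,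
    MvPowerSeries.X_def, MvPowerSeries.coeff_monomial_mul, MvPowerSeries.coeff_monomial_mul]
  simp only [one_mul]
  have hle : ∀ j : Fin 2, (Finsupp.single j 1 ≤ d) ↔ 1 ≤ d j := by
    intro j
    simp [Finsupp.single_le_iff]
  simp only [hle]
  have h1 : d = Finsupp.single 0 (d 0) ↔ d 1 = 0 := by
    constructor
    · intro h; rw [h]; simp
    · intro h; ext i; fin_cases i <;> simp [h]
  have h2 : d = Finsupp.single 1 (d 1) ↔ d 0 = 0 := by
    constructor
    · intro h; rw [h]; simp
    · intro h; ext i; fin_cases i <;> simp [h]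
  simp only [h1, h2, coeff_dd]
  have e1 : ∀ _ : 1 ≤ d 0, (d - Finsupp.single 0 1 : Fin 2 →₀ ℕ) 0 +
      (d - Finsupp.single 0 1 : Fin 2 →₀ ℕ) 1 + 1 = d 0 + d 1 := by
    intro h; simp [Finsupp.single_apply]; omega
  have e2 : ∀ _ : 1 ≤ d 1, (d - Finsupp.single 1 1 : Fin 2 →₀ ℕ) 0 +
      (d - Finsupp.single 1 1 : Fin 2 →₀ ℕ) 1 + 1 = d 0 + d 1 := by
    intro h; simp [Finsupp.single_apply]; omega
  by_cases hd1 : 1 ≤ d 0 <;> by_cases hd2 : 1 ≤ d 1
  · rw [if_pos hd1, if_pos hd2, e1 hd1, e2 hd2, if_neg (by omega), if_neg (by omega)]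
    simp
  · rw [if_pos hd1, if_neg hd2, e1 hd1, if_pos (by omega), if_neg (by omega)]
    simp [show d 1 = 0 by omega]
  · rw [if_neg hd1, if_pos hd2, e2 hd2, if_neg (by omega), if_pos (by omega)]
    simp [show d 0 = 0 by omega]
  · rw [if_neg hd1, if_neg hd2, if_pos (by omega), if_pos (by omega)]
    simp [show d 0 = 0 by omega, show d 1 = 0 by omega]

variable (a b : A)

/-- `s(z₁)` -/
def s1S : MvPowerSeries (Fin 2) A := subst (MvPowerSeries.X 0 : MvPowerSeries (Fin 2) A) (sS a b)
/-- `s(z₂)` -/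
def s2S : MvPowerSeries (Fin 2) A := subst (MvPowerSeries.X 1 : MvPowerSeries (Fin 2) A) (sS a b)
/-- slope -/
def lamS : MvPowerSeries (Fin 2) A := dd (sS a b)
/-- intercept -/
def nuS : MvPowerSeries (Fin 2) A := s1S a b - lamS a b * MvPowerSeries.X 0
/-- third point -/
def z3S : MvPowerSeries (Fin 2) A := -MvPowerSeries.X 0 - MvPowerSeries.X 1 -
  MvPowerSeries.C a * lamS a b - MvPowerSeries.C b * lamS a b ^ 2
/-- third point -/
def w3S : MvPowerSeries (Fin 2) A := lamS a b * z3S a b + nuS a b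
/-- denominator -/
def NS : MvPowerSeries (Fin 2) A :=
  1 - MvPowerSeries.C a * z3S a b - MvPowerSeries.C b * w3S a b
/-- inverse of the denominator -/
def NiS : MvPowerSeries (Fin 2) A := MvPowerSeries.invOfUnit (NS a b) 1
/-- the formal group law -/
def PS : MvPowerSeries (Fin 2) A := -z3S a b * NiS a b
/-- `s` of the sum -/
def SS : MvPowerSeries (Fin 2) A := -w3S a b * NiS a b

theorem cc_s1S : MvPowerSeries.constantCoeff (s1S a b) = 0 :=
  cc_subst_sS a b (MvPowerSeries.constantCoeff_X 0)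
theorem cc_s2S : MvPowerSeries.constantCoeff (s2S a b) = 0 :=
  cc_subst_sS a b (MvPowerSeries.constantCoeff_X 1)

theorem coeff_sS_one : coeff 1 (sS a b) = 0 := by
  rw [sS, PowerSeries.coeff_X_pow_mul', if_neg (by norm_num)]

theorem cc_lamS : MvPowerSeries.constantCoeff (lamS a b) = 0 := by
  rw [← MvPowerSeries.coeff_zero_eq_constantCoeff_apply, lamS, coeff_dd]
  simpa using coeff_sS_one a b

theorem cc_z3S : MvPowerSeries.constantCoeff (z3S a b) = 0 := by
  simp [z3S, cc_lamS]

theorem cc_w3S : MvPowerSeries.constantCoeff (w3S a b) = 0 := by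
  simp [w3S, nuS, cc_lamS, cc_z3S, cc_s1S]

theorem cc_NS : MvPowerSeries.constantCoeff (NS a b) = 1 := by
  simp [NS, cc_z3S, cc_w3S]

theorem NS_mul_NiS : NS a b * NiS a b = 1 :=
  MvPowerSeries.mul_invOfUnit _ _ (by rw [cc_NS]; rfl)

theorem cc_PS : MvPowerSeries.constantCoeff (PS a b) = 0 := by
  simp [PS, cc_z3S]

theorem cc_SS : MvPowerSeries.constantCoeff (SS a b) = 0 := by
  simp [SS, cc_w3S]

theorem PS_mul_NS : PS a b * NS a b = -z3S a b := by
  rw [PS, mul_assoc, mul_comm (NiS a b), NS_mul_NiS, mul_one]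

theorem SS_mul_NS : SS a b * NS a b = -w3S a b := by
  rw [SS, mul_assoc, mul_comm (NiS a b), NS_mul_NiS, mul_one]

theorem hs1 : s1S a b = lamS a b * MvPowerSeries.X 0 + nuS a b := by
  rw [nuS]; ring

theorem hs2 : s2S a b = lamS a b * MvPowerSeries.X 1 + nuS a b := by
  have h := dd_mul (sS a b)
  rw [nuS]
  change (MvPowerSeries.X 0 - MvPowerSeries.X 1) * lamS a b = s1S a b - s2S a b at h
  linear_combination h

theorem h1 : s1S a b = MvPowerSeries.X 0 ^ 3 + MvPowerSeries.C a * MvPowerSeries.X 0 * s1S a b +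
    MvPowerSeries.C b * s1S a b ^ 2 := subst_sS a b (MvPowerSeries.constantCoeff_X 0)

theorem h2 : s2S a b = MvPowerSeries.X 1 ^ 3 + MvPowerSeries.C a * MvPowerSeries.X 1 * s2S a b +
    MvPowerSeries.C b * s2S a b ^ 2 := subst_sS a b (MvPowerSeries.constantCoeff_X 1)

end two

section dom

variable {A : Type*} [CommRing A] [IsDomain A] (a b : A)

instance : IsDomain (MvPowerSeries (Fin 2) A) := NoZeroDivisors.to_isDomain _

theorem X_ne : (MvPowerSeries.X 0 : MvPowerSeries (Fin 2) A) ≠ MvPowerSeries.X 1 := by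
  intro h
  have := congrArg (MvPowerSeries.coeff (Finsupp.single 0 1)) h
  rw [MvPowerSeries.coeff_X, MvPowerSeries.coeff_X, if_pos rfl, if_neg] at this
  · exact one_ne_zero this
  · intro h
    have := Finsupp.single_left_injective one_ne_zero h
    exact absurd this (by decide)

theorem NS_ne : NS a b ≠ 0 := by
  intro h
  have := cc_NS a b
  rw [h, map_zero] at this
  exact zero_ne_one this

theorem SS_eq : SS a b = subst (PS a b) (sS a b) := by
  refine eq_subst_sS a b (cc_PS a b) (cc_SS a b) ?_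
  exact chord_curve (chord_third X_ne (h1 a b) (h2 a b) (hs1 a b) (hs2 a b) rfl rfl) rfl
    (NS_ne a b) (PS_mul_NS a b) (SS_mul_NS a b)

theorem subst_pS {A : Type*} [CommRing A] (a b : A) {τ : Type*} {z : MvPowerSeries τ A}
    (hz : MvPowerSeries.constantCoeff z = 0) :
    (subst z (pS a b) : MvPowerSeries τ A) =
      1 - MvPowerSeries.C a * z - 2 * MvPowerSeries.C b * subst z (sS a b) := by
  have hz' := HasSubst.of_constantCoeff_zero hz
  have hC : ∀ c : A, (subst z (C c : PowerSeries A) : MvPowerSeries τ A) = MvPowerSeries.C c :=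
    fun c => PowerSeries.subst_C _
  have h1 : (subst z (1 : PowerSeries A) : MvPowerSeries τ A) = 1 := by
    rw [← map_one (PowerSeries.C (R := A)), hC, map_one]
  have h2 : (2 : PowerSeries A) = C 2 := by rw [map_ofNat]
  have h3 : (2 : MvPowerSeries τ A) = MvPowerSeries.C 2 := by rw [map_ofNat]
  rw [pS, PowerSeries.subst_sub hz', PowerSeries.subst_sub hz', PowerSeries.subst_mul hz',
    PowerSeries.subst_mul hz', PowerSeries.subst_mul hz', PowerSeries.subst_X hz', h1, hC, hC,
    h2, hC, h3]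

theorem deriv0 : subst (MvPowerSeries.X 0 : MvPowerSeries (Fin 2) A) (pS a b) *
    MvPowerSeries.pderiv A 0 (PS a b) = (subst (PS a b) (pS a b) : MvPowerSeries (Fin 2) A) := by
  have hX0 := MvPowerSeries.constantCoeff_X (σ := Fin 2) (R := A) 0
  have hX1 := MvPowerSeries.constantCoeff_X (σ := Fin 2) (R := A) 1
  let D : Derivation A (MvPowerSeries (Fin 2) A) (MvPowerSeries (Fin 2) A) :=
    (subst (MvPowerSeries.X 0 : MvPowerSeries (Fin 2) A) (pS a b) : MvPowerSeries (Fin 2) A) •
      MvPowerSeries.pderiv A 0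
  have hD : ∀ f, D f = subst (MvPowerSeries.X 0 : MvPowerSeries (Fin 2) A) (pS a b) *
    MvPowerSeries.pderiv A 0 f := fun f => rfl
  rw [← hD, subst_pS a b (cc_PS a b), ← SS_eq]
  have hds : ∀ (i j : Fin 2) (f : PowerSeries A), MvPowerSeries.pderiv A i
      (subst (MvPowerSeries.X j : MvPowerSeries (Fin 2) A) f : MvPowerSeries (Fin 2) A) =
      subst (MvPowerSeries.X j : MvPowerSeries (Fin 2) A) (derivative A f) *
        MvPowerSeries.pderiv A i (MvPowerSeries.X j) := fun i j f =>
    R227.pderiv_subst_one (HasSubst.X j) i f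
  refine chord_deriv D X_ne (h1 a b) (h2 a b) (hs1 a b) (hs2 a b) rfl rfl rfl
    (NS_ne a b) (PS_mul_NS a b) (SS_mul_NS a b) ?_ ?_ ?_ ?_ ?_ ?_
  · rw [hD, MvPowerSeries.pderiv_C, mul_zero]
  · rw [hD, MvPowerSeries.pderiv_C, mul_zero]
  · rw [hD, MvPowerSeries.pderiv_X_self, mul_one, subst_pS a b hX0]; rfl
  · rw [hD, MvPowerSeries.pderiv_X_of_ne (by decide), mul_zero]
  · rw [hD, s1S, hds, MvPowerSeries.pderiv_X_self, mul_one, ← PowerSeries.subst_mul (HasSubst.X 0),
      mul_comm (pS a b), deriv_sS]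
    have hC : ∀ c : A, (subst (MvPowerSeries.X 0 : MvPowerSeries (Fin 2) A) (C c : PowerSeries A) :
      MvPowerSeries (Fin 2) A) = MvPowerSeries.C c := fun c => PowerSeries.subst_C _
    have h3 : (3 : PowerSeries A) = C 3 := by rw [map_ofNat]
    have h3' : (3 : MvPowerSeries (Fin 2) A) = MvPowerSeries.C 3 := by rw [map_ofNat]
    rw [PowerSeries.subst_add (HasSubst.X 0), PowerSeries.subst_mul (HasSubst.X 0),
      PowerSeries.subst_mul (HasSubst.X 0), PowerSeries.subst_pow (HasSubst.X 0),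
      PowerSeries.subst_X (HasSubst.X 0), h3, hC, hC, h3']
  · rw [hD, s2S, hds, MvPowerSeries.pderiv_X_of_ne (by decide), mul_zero, mul_zero]

theorem deriv1 : subst (MvPowerSeries.X 1 : MvPowerSeries (Fin 2) A) (pS a b) *
    MvPowerSeries.pderiv A 1 (PS a b) = (subst (PS a b) (pS a b) : MvPowerSeries (Fin 2) A) := by
  have hX0 := MvPowerSeries.constantCoeff_X (σ := Fin 2) (R := A) 0
  have hX1 := MvPowerSeries.constantCoeff_X (σ := Fin 2) (R := A) 1
  let D : Derivation A (MvPowerSeries (Fin 2) A) (MvPowerSeries (Fin 2) A) :=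
    (subst (MvPowerSeries.X 1 : MvPowerSeries (Fin 2) A) (pS a b) : MvPowerSeries (Fin 2) A) •
      MvPowerSeries.pderiv A 1
  have hD : ∀ f, D f = subst (MvPowerSeries.X 1 : MvPowerSeries (Fin 2) A) (pS a b) *
    MvPowerSeries.pderiv A 1 f := fun f => rfl
  rw [← hD, subst_pS a b (cc_PS a b), ← SS_eq]
  have hds : ∀ (i j : Fin 2) (f : PowerSeries A), MvPowerSeries.pderiv A i
      (subst (MvPowerSeries.X j : MvPowerSeries (Fin 2) A) f : MvPowerSeries (Fin 2) A) =
      subst (MvPowerSeries.X j : MvPowerSeries (Fin 2) A) (derivative A f) *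
        MvPowerSeries.pderiv A i (MvPowerSeries.X j) := fun i j f =>
    R227.pderiv_subst_one (HasSubst.X j) i f
  have hz3 : z3S a b = -MvPowerSeries.X 1 - MvPowerSeries.X 0 -
    MvPowerSeries.C a * lamS a b - MvPowerSeries.C b * lamS a b ^ 2 := by rw [z3S]; ring
  refine chord_deriv D X_ne.symm (h2 a b) (h1 a b) (hs2 a b) (hs1 a b) hz3 rfl rfl
    (NS_ne a b) (PS_mul_NS a b) (SS_mul_NS a b) ?_ ?_ ?_ ?_ ?_ ?_
  · rw [hD, MvPowerSeries.pderiv_C, mul_zero]
  · rw [hD, MvPowerSeries.pderiv_C, mul_zero]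
  · rw [hD, MvPowerSeries.pderiv_X_self, mul_one, subst_pS a b hX1]; rfl
  · rw [hD, MvPowerSeries.pderiv_X_of_ne (by decide), mul_zero]
  · rw [hD, s2S, hds, MvPowerSeries.pderiv_X_self, mul_one, ← PowerSeries.subst_mul (HasSubst.X 1),
      mul_comm (pS a b), deriv_sS]
    have hC : ∀ c : A, (subst (MvPowerSeries.X 1 : MvPowerSeries (Fin 2) A) (C c : PowerSeries A) :
      MvPowerSeries (Fin 2) A) = MvPowerSeries.C c := fun c => PowerSeries.subst_C _
    have h3 : (3 : PowerSeries A) = C 3 := by rw [map_ofNat]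
    have h3' : (3 : MvPowerSeries (Fin 2) A) = MvPowerSeries.C 3 := by rw [map_ofNat]
    rw [PowerSeries.subst_add (HasSubst.X 1), PowerSeries.subst_mul (HasSubst.X 1),
      PowerSeries.subst_mul (HasSubst.X 1), PowerSeries.subst_pow (HasSubst.X 1),
      PowerSeries.subst_X (HasSubst.X 1), h3, hC, hC, h3']
  · rw [hD, s1S, hds, MvPowerSeries.pderiv_X_of_ne (by decide), mul_zero, mul_zero]

theorem subst_one' {A : Type*} [CommRing A] {τ : Type*} (z : MvPowerSeries τ A) :
    (subst z (1 : PowerSeries A) : MvPowerSeries τ A) = 1 := by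
  rw [← map_one (PowerSeries.C (R := A))]
  exact (PowerSeries.subst_C _).trans (map_one _)

end dom

section log

variable {K : Type*} [CommRing K] [Algebra ℚ K] (a b : K)

/-- the logarithm `∫ ω` -/
def lgS : PowerSeries K := PowerSeries.mk fun n => algebraMap ℚ K (1 / n) * coeff (n - 1) (wS a b)

theorem cc_lgS : constantCoeff (lgS a b) = 0 := by
  rw [← PowerSeries.coeff_zero_eq_constantCoeff_apply, lgS, PowerSeries.coeff_mk]
  simp

theorem coeff_one_lgS : coeff 1 (lgS a b) = 1 := by
  rw [lgS, PowerSeries.coeff_mk]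
  simp [cc_wS]

theorem deriv_lgS : derivative K (lgS a b) = wS a b := by
  ext n
  rw [PowerSeries.coeff_derivative, lgS, PowerSeries.coeff_mk, Nat.add_sub_cancel]
  have h : (algebraMap ℚ K) (1 / ((n + 1 : ℕ) : ℚ)) * ((n : K) + 1) = 1 := by
    have h1 : ((n : K) + 1) = algebraMap ℚ K ((n + 1 : ℕ) : ℚ) := by simp
    rw [h1, ← map_mul, one_div_mul_cancel (by positivity), map_one]
  linear_combination coeff n (wS a b) * h

theorem map_lgS {L : Type*} [CommRing L] [Algebra ℚ L] (f : K →+* L) :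
    (lgS a b).map f = lgS (f a) (f b) := by
  ext n
  rw [PowerSeries.coeff_map, lgS, lgS, PowerSeries.coeff_mk, PowerSeries.coeff_mk, map_mul,
    ← PowerSeries.coeff_map, map_wS]
  congr 1
  have : f.comp (algebraMap ℚ K) = algebraMap ℚ L := Subsingleton.elim _ _
  exact DFunLike.congr_fun this _

end log

section logdom

variable {K : Type*} [CommRing K] [IsDomain K] [Algebra ℚ K] (a b : K)

/-- `log (z₁ + z₂) = log z₁ + log z₂` -/
theorem log_PS : (subst (PS a b) (lgS a b) : MvPowerSeries (Fin 2) K) =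
    subst (MvPowerSeries.X 0 : MvPowerSeries (Fin 2) K) (lgS a b) +
      subst (MvPowerSeries.X 1 : MvPowerSeries (Fin 2) K) (lgS a b) := by
  have : CharZero K := algebraRat.charZero K
  have hP := HasSubst.of_constantCoeff_zero (cc_PS a b)
  have hw : ∀ {z : MvPowerSeries (Fin 2) K}, MvPowerSeries.constantCoeff z = 0 →
      (subst z (pS a b) : MvPowerSeries (Fin 2) K) * subst z (wS a b) = 1 := by
    intro z hz
    rw [← PowerSeries.subst_mul (HasSubst.of_constantCoeff_zero hz), pS_mul_wS, subst_one']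
  have hX := fun i => MvPowerSeries.constantCoeff_X (σ := Fin 2) (R := K) i
  apply MvPowerSeries.pderiv.ext
  · intro i
    rw [map_add, R227.pderiv_subst_one hP, R227.pderiv_subst_one (HasSubst.X 0),
      R227.pderiv_subst_one (HasSubst.X 1), deriv_lgS]
    have e1 : (subst (MvPowerSeries.X i : MvPowerSeries (Fin 2) K) (pS a b) :
        MvPowerSeries (Fin 2) K) * (subst (PS a b) (wS a b) * MvPowerSeries.pderiv K i (PS a b)) =
        1 := by
      have e2 : subst (MvPowerSeries.X i : MvPowerSeries (Fin 2) K) (pS a b) *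
          MvPowerSeries.pderiv K i (PS a b) = (subst (PS a b) (pS a b) : MvPowerSeries (Fin 2) K) := by
        fin_cases i
        · exact deriv0 a b
        · exact deriv1 a b
      rw [← hw (cc_PS a b), ← e2]; ring
    have e3 : (subst (PS a b) (wS a b) : MvPowerSeries (Fin 2) K) * MvPowerSeries.pderiv K i (PS a b) =
        subst (MvPowerSeries.X i : MvPowerSeries (Fin 2) K) (wS a b) := by
      have e4 := hw (hX i)
      calc _ = (subst (MvPowerSeries.X i : MvPowerSeries (Fin 2) K) (pS a b) *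
            subst (MvPowerSeries.X i : MvPowerSeries (Fin 2) K) (wS a b)) *
            (subst (PS a b) (wS a b) * MvPowerSeries.pderiv K i (PS a b)) := by rw [e4, one_mul]
        _ = subst (MvPowerSeries.X i : MvPowerSeries (Fin 2) K) (wS a b) *
            (subst (MvPowerSeries.X i : MvPowerSeries (Fin 2) K) (pS a b) *
              (subst (PS a b) (wS a b) * MvPowerSeries.pderiv K i (PS a b))) := by ring
        _ = _ := by rw [e1, mul_one]
    rw [e3]
    fin_cases i
    · simp [MvPowerSeries.pderiv_X_of_ne]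
    · simp [MvPowerSeries.pderiv_X_of_ne]
  · rw [map_add, PowerSeries.constantCoeff_subst_eq_zero (cc_PS a b) _ (cc_lgS a b),
      PowerSeries.constantCoeff_subst_eq_zero (hX 0) _ (cc_lgS a b),
      PowerSeries.constantCoeff_subst_eq_zero (hX 1) _ (cc_lgS a b), add_zero]

end logdom

end Crest.Agent.R007.Fz
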