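import Crest.Agent.R007.Fz3

/-!
Row 7, section E-FG (helper360): `Phi a b : FormalGroup A`, the formal group law of
`y² + a x y + b y = x³` over every commutative ring.
-/

set_option autoImplicit false

noncomputable section

open PowerSeries Crest.LubinTate

namespace Crest.Agent.R007.Fz

section mapping

variable {A B : Type*} [CommRing A] [CommRing B] (f : A →+* B) (a b : A)

theorem mv_map_C {τ : Type*} (c : A) : (MvPowerSeries.C c : MvPowerSeries τ A).map f =
    MvPowerSeries.C (f c) := MvPowerSeries.map_C f c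

theorem map_s1S : (s1S a b).map f = s1S (f a) (f b) := by
  rw [s1S, s1S, ← map_sS f]
  have h := PowerSeries.map_subst (h := f) (HasSubst.X (S := A) (0 : Fin 2)) (sS a b)
  rw [MvPowerSeries.map_X] at h
  exact h

theorem map_lamS : (lamS a b).map f = lamS (f a) (f b) := by
  rw [lamS, lamS, map_dd, map_sS]

theorem map_nuS : (nuS a b).map f = nuS (f a) (f b) := by
  rw [nuS, nuS, map_sub, map_mul, map_s1S, map_lamS, MvPowerSeries.map_X]

theorem map_z3S : (z3S a b).map f = z3S (f a) (f b) := by
  rw [z3S, z3S, map_sub, map_sub, map_sub, map_neg, map_mul, map_mul, map_pow, map_lamS,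
    MvPowerSeries.map_X, MvPowerSeries.map_X, mv_map_C, mv_map_C]

theorem map_w3S : (w3S a b).map f = w3S (f a) (f b) := by
  rw [w3S, w3S, map_add, map_mul, map_lamS, map_z3S, map_nuS]

theorem map_NS : (NS a b).map f = NS (f a) (f b) := by
  rw [NS, NS, map_sub, map_sub, map_mul, map_mul, map_z3S, map_w3S, mv_map_C, mv_map_C, map_one]

theorem map_NiS : (NiS a b).map f = NiS (f a) (f b) := by
  have h1 := congrArg (MvPowerSeries.map f) (NS_mul_NiS a b)
  rw [map_mul, map_one, map_NS] at h1
  have h2 := NS_mul_NiS (f a) (f b)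
  calc (NiS a b).map f = (NS (f a) (f b) * NiS (f a) (f b)) * (NiS a b).map f := by rw [h2, one_mul]
    _ = NiS (f a) (f b) * (NS (f a) (f b) * (NiS a b).map f) := by ring
    _ = NiS (f a) (f b) := by rw [h1, mul_one]

theorem map_PS : (PS a b).map f = PS (f a) (f b) := by
  rw [PS, PS, map_mul, map_neg, map_z3S, map_NiS]

end mapping

section descent

variable {R S : Type*} [CommRing R] [CommRing S] {ι : R →+* S}

theorem mv_map_injective {τ : Type*} (hι : Function.Injective ι) :
    Function.Injective (MvPowerSeries.map (σ := τ) ι) := by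
  intro f g h
  ext d
  have := congrArg (MvPowerSeries.coeff d) h
  rw [MvPowerSeries.coeff_map, MvPowerSeries.coeff_map] at this
  exact hι this

theorem map_subst_pair {τ : Type*} (ι : R →+* S) {P : MvPowerSeries (Fin 2) R}
    {x y : MvPowerSeries τ R} (hx : MvPowerSeries.constantCoeff x = 0)
    (hy : MvPowerSeries.constantCoeff y = 0) :
    (P.subst ![x, y]).map ι = (P.map ι).subst ![x.map ι, y.map ι] := by
  rw [MvPowerSeries.map_subst (R227.hasSubst_pair hx hy)]
  congr 1
  ext i : 1
  fin_cases i <;> rfl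

/-- descent of a formal group law along an injective homomorphism -/
def ofInj (hι : Function.Injective ι) (P : MvPowerSeries (Fin 2) R) (G : FormalGroup S)
    (hP : P.map ι = G.toPowerSeries) : FormalGroup R where
  toPowerSeries := P
  zero_constantCoeff := by
    apply hι
    rw [map_zero, ← MvPowerSeries.constantCoeff_map, hP, G.zero_constantCoeff]
  lin_coeff_X := by
    apply hι
    rw [map_one, ← MvPowerSeries.coeff_map, hP, G.lin_coeff_X]
  lin_coeff_Y := by
    apply hι
    rw [map_one, ← MvPowerSeries.coeff_map, hP, G.lin_coeff_Y]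
  assoc := by
    have h0 : MvPowerSeries.constantCoeff P = 0 := by
      apply hι
      rw [map_zero, ← MvPowerSeries.constantCoeff_map, hP, G.zero_constantCoeff]
    have hX : ∀ i : Fin 3, MvPowerSeries.constantCoeff (MvPowerSeries.X i : MvPowerSeries (Fin 3) R)
      = 0 := fun i => MvPowerSeries.constantCoeff_X i
    have hc : ∀ i j : Fin 3, MvPowerSeries.constantCoeff (P.subst ![(MvPowerSeries.X i :
        MvPowerSeries (Fin 3) R), MvPowerSeries.X j]) = 0 := fun i j =>
      MvPowerSeries.constantCoeff_subst_eq_zero (R227.hasSubst_pair (hX i) (hX j))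
        (by intro s; fin_cases s <;> simp) h0
    apply mv_map_injective hι
    rw [map_subst_pair ι (hc 0 1) (hX 2), map_subst_pair ι (hX 0) (hc 1 2),
      map_subst_pair ι (hX 0) (hX 1), map_subst_pair ι (hX 1) (hX 2), hP]
    simp only [MvPowerSeries.map_X]
    exact G.assoc

theorem ofInj_map (hι : Function.Injective ι) (P : MvPowerSeries (Fin 2) R) (G : FormalGroup S)
    (hP : P.map ι = G.toPowerSeries) : (ofInj hι P G hP).map ι = G := by
  ext : 1
  exact hP

theorem isComm_map (F : FormalGroup R) [hF : F.IsComm] (f : R →+* S) : (F.map f).IsComm := by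
  constructor
  have h := congrArg (MvPowerSeries.map f) hF.comm
  rw [map_subst_pair f (MvPowerSeries.constantCoeff_X 1) (MvPowerSeries.constantCoeff_X 0),
    MvPowerSeries.map_X, MvPowerSeries.map_X] at h
  exact h

theorem isComm_of_map {F : FormalGroup R} (hι : Function.Injective ι) [hF : (F.map ι).IsComm] :
    F.IsComm := by
  constructor
  apply mv_map_injective hι
  rw [map_subst_pair ι (MvPowerSeries.constantCoeff_X 1) (MvPowerSeries.constantCoeff_X 0),
    MvPowerSeries.map_X, MvPowerSeries.map_X]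
  exact hF.comm

theorem isFGHom_of_map {F G : FormalGroup R} (hι : Function.Injective ι) {φ : PowerSeries R}
    (h : IsFGHom (F.map ι) (G.map ι) (φ.map ι)) : IsFGHom F G φ := by
  have h0 : constantCoeff φ = 0 := by
    apply hι
    have := h.1
    rw [← PowerSeries.coeff_zero_eq_constantCoeff_apply, PowerSeries.coeff_map,
      PowerSeries.coeff_zero_eq_constantCoeff_apply] at this
    rw [this, map_zero]
  refine ⟨h0, ?_⟩
  apply mv_map_injective hι
  have e1 : MvPowerSeries.map ι (subst F.toPowerSeries φ : MvPowerSeries (Fin 2) R) =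
      subst (F.toPowerSeries.map ι) (φ.map ι) :=
    PowerSeries.map_subst (HasSubst.of_constantCoeff_zero F.zero_constantCoeff) φ
  have e2 : ∀ i : Fin 2, MvPowerSeries.map ι (subst (MvPowerSeries.X i : MvPowerSeries (Fin 2) R) φ :
      MvPowerSeries (Fin 2) R) = subst (MvPowerSeries.X i : MvPowerSeries (Fin 2) S) (φ.map ι) := by
    intro i
    have := PowerSeries.map_subst (h := ι) (HasSubst.X (S := R) i) φ
    rwa [MvPowerSeries.map_X] at this
  have hc := fun i => R227.constantCoeff_psubst (MvPowerSeries.constantCoeff_X (σ := Fin 2) (R := R) i) h0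
  rw [e1, map_subst_pair ι (hc 0) (hc 1), e2, e2]
  exact h.2

end descent

section additive

variable {R : Type*} [CommRing R]

/-- the additive group -/
abbrev Ga (R : Type*) [CommRing R] : FormalGroup R := FormalGroup.𝔾ₐ

theorem fadd_Ga {τ : Type*} {x y : MvPowerSeries τ R} (hx : MvPowerSeries.constantCoeff x = 0)
    (hy : MvPowerSeries.constantCoeff y = 0) : R227.fadd (Ga R) x y = x + y := by
  have h := R227.hasSubst_pair hx hy
  unfold R227.fadd
  rw [FormalGroup.𝔾ₐ_toPowerSeries, MvPowerSeries.subst_add h, MvPowerSeries.subst_X h,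
    MvPowerSeries.subst_X h]
  rfl

theorem Ga_map {S : Type*} [CommRing S] (f : R →+* S) : (Ga R).map f = Ga S := by
  ext : 1
  simp

end additive

section logs

variable {K : Type*} [CommRing K] [Algebra ℚ K] (a b : K)

theorem isUnit_lgS : IsUnit (coeff 1 (lgS a b)) := by rw [coeff_one_lgS]; exact isUnit_one

/-- the exponential, inverse of the logarithm -/
def exS : PowerSeries K := (R227.exists_sinv (cc_lgS a b) (isUnit_lgS a b)).choose

theorem cc_exS : constantCoeff (exS a b) = 0 :=
  (R227.exists_sinv (cc_lgS a b) (isUnit_lgS a b)).choose_spec.1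

theorem exS_lgS : (subst (lgS a b) (exS a b) : PowerSeries K) = X :=
  (R227.exists_sinv (cc_lgS a b) (isUnit_lgS a b)).choose_spec.2.2.1

theorem lgS_exS : (subst (exS a b) (lgS a b) : PowerSeries K) = X :=
  (R227.exists_sinv (cc_lgS a b) (isUnit_lgS a b)).choose_spec.2.2.2

theorem isUnit_exS : IsUnit (coeff 1 (exS a b)) :=
  (R227.exists_sinv (cc_lgS a b) (isUnit_lgS a b)).choose_spec.2.1

/-- a two-sided inverse is unique -/
theorem sinv_unique {φ ψ ψ' : PowerSeries K} (h0 : constantCoeff φ = 0)
    (hψ : constantCoeff ψ = 0) (h1 : (subst φ ψ' : PowerSeries K) = X)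
    (h2 : (subst ψ φ : PowerSeries K) = X) : ψ = ψ' := by
  have e := R227.psubst_psubst (τ := Unit) h0 hψ ψ'
  rw [h1, h2, R227.psubst_X hψ] at e
  rw [e]
  exact PowerSeries.X_subst ψ'

theorem map_exS {L : Type*} [CommRing L] [Algebra ℚ L] (f : K →+* L) :
    (exS a b).map f = exS (f a) (f b) := by
  have hcc : constantCoeff ((exS a b).map f) = 0 := by
    rw [← PowerSeries.coeff_zero_eq_constantCoeff_apply, PowerSeries.coeff_map,
      PowerSeries.coeff_zero_eq_constantCoeff_apply, cc_exS, map_zero]
  refine sinv_unique (φ := lgS (f a) (f b)) (cc_lgS _ _) hcc (exS_lgS _ _) ?_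
  have h := PowerSeries.map_subst (h := f) (HasSubst.of_constantCoeff_zero' (cc_exS a b)) (lgS a b)
  rw [← map_lgS]
  refine Eq.trans h.symm ?_
  have h2 := congrArg (PowerSeries.map f) (lgS_exS a b)
  rw [PowerSeries.map_X] at h2
  exact h2

end logs

section FGQ

variable {K : Type*} [CommRing K] [IsDomain K] [Algebra ℚ K] (a b : K)

theorem exists_FGQ : ∃ G : FormalGroup K, G.toPowerSeries = PS a b ∧ IsFGHom (Ga K) G (exS a b) := by
  obtain ⟨G, hG⟩ := R227.exists_conj (Ga K) (exS a b) (cc_exS a b) (isUnit_exS a b)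
  refine ⟨G, ?_, hG⟩
  have hc := fun i => R227.constantCoeff_psubst (MvPowerSeries.constantCoeff_X (σ := Fin 2) (R := K) i)
    (cc_lgS a b)
  have h := R227.IsFGHom.subst_fadd hG _ _ (hc 0) (hc 1)
  have e : ∀ i : Fin 2, (subst (subst (MvPowerSeries.X i : MvPowerSeries (Fin 2) K) (lgS a b) :
      MvPowerSeries (Fin 2) K) (exS a b) : MvPowerSeries (Fin 2) K) = MvPowerSeries.X i := by
    intro i
    rw [← R227.psubst_psubst (cc_lgS a b) (MvPowerSeries.constantCoeff_X i), exS_lgS,
      R227.psubst_X (MvPowerSeries.constantCoeff_X i)]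
  rw [fadd_Ga (hc 0) (hc 1), e, e, R227.fadd_X_X, ← log_PS,
    ← R227.psubst_psubst (cc_lgS a b) (cc_PS a b), exS_lgS, R227.psubst_X (cc_PS a b)] at h
  exact h.symm

end FGQ

section univ

/-- `ℤ[a,b] → ℚ[a,b]` -/
def iU (n : ℕ) : MvPolynomial (Fin n) ℤ →+* MvPolynomial (Fin n) ℚ :=
  MvPolynomial.map (Int.castRingHom ℚ)

theorem iU_inj (n : ℕ) : Function.Injective (iU n) :=
  MvPolynomial.map_injective _ Int.cast_injective

/-- the universal law -/
def PhiU : FormalGroup (MvPolynomial (Fin 2) ℤ) :=
  ofInj (iU_inj 2) (PS (MvPolynomial.X 0) (MvPolynomial.X 1))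
    (exists_FGQ (MvPolynomial.X 0 : MvPolynomial (Fin 2) ℚ) (MvPolynomial.X 1)).choose (by
      rw [map_PS, (exists_FGQ _ _).choose_spec.1]
      simp [iU])

instance : PhiU.IsComm := by
  have h := (exists_FGQ (MvPolynomial.X 0 : MvPolynomial (Fin 2) ℚ) (MvPolynomial.X 1)).choose_spec
  have : (exists_FGQ (MvPolynomial.X 0 : MvPolynomial (Fin 2) ℚ) (MvPolynomial.X 1)).choose.IsComm :=
    R227.IsFGHom.isComm h.2 (isUnit_exS _ _)
  have h2 : (PhiU.map (iU 2)).IsComm := by
    rw [PhiU, ofInj_map]; exact this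
  exact isComm_of_map (iU_inj 2)

end univ

section Phi

variable {A B : Type*} [CommRing A] [CommRing B] (a b : A)

/-- the formal group law of `y² + a x y + b y = x³` -/
def Phi : FormalGroup A := PhiU.map (MvPolynomial.eval₂Hom (Int.castRingHom A) ![a, b])

theorem Phi_val : (Phi a b).toPowerSeries = PS a b := by
  change (PS (MvPolynomial.X 0) (MvPolynomial.X 1)).map _ = _
  rw [map_PS]
  simp

theorem Phi_map (f : A →+* B) : (Phi a b).map f = Phi (f a) (f b) := by
  ext : 1
  change (Phi a b).toPowerSeries.map f = _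
  rw [Phi_val, Phi_val, map_PS]

instance Phi_comm : (Phi a b).IsComm := isComm_map PhiU _

end Phi

end Crest.Agent.R007.Fz
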