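import Crest.Agent.R007.Fz4

/-!
Row 7, section E-FG (helper360): logarithm, exponential (ODE), scaling.
-/

set_option autoImplicit false

noncomputable section

open PowerSeries Crest.LubinTate

namespace Crest.Agent.R007.Fz

section logs

variable {K : Type*} [CommRing K] [Algebra ℚ K] (a b : K)

/-- exponential is a homomorphism from the additive group -/
theorem hom_exS : IsFGHom (Ga K) (Phi a b) (exS a b) := by
  obtain ⟨G, hG, h⟩ := exists_FGQ (MvPolynomial.X 0 : MvPolynomial (Fin 2) ℚ) (MvPolynomial.X 1)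
  have hGP : G = Phi (MvPolynomial.X 0) (MvPolynomial.X 1) := by
    ext : 1
    rw [hG, Phi_val]
  rw [hGP] at h
  have h2 := R227.IsFGHom.map (MvPolynomial.eval₂Hom (algebraMap ℚ K) ![a, b]) h
  rw [Ga_map, Phi_map, map_exS] at h2
  simpa using h2

/-- logarithm is a homomorphism to the additive group -/
theorem hom_lgS : IsFGHom (Phi a b) (Ga K) (lgS a b) := by
  obtain ⟨ψ, h, h1, h2, -⟩ := R227.IsFGHom.exists_inv (hom_exS a b) (isUnit_exS a b)
  have : lgS a b = ψ := sinv_unique (φ := exS a b) (cc_exS a b) (cc_lgS a b) h1 (exS_lgS a b)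
  rw [this]
  exact h

theorem lgS_fadd {τ : Type*} {x y : MvPowerSeries τ K} (hx : MvPowerSeries.constantCoeff x = 0)
    (hy : MvPowerSeries.constantCoeff y = 0) :
    (subst (R227.fadd (Phi a b) x y) (lgS a b) : MvPowerSeries τ K) =
      subst x (lgS a b) + subst y (lgS a b) := by
  rw [R227.IsFGHom.subst_fadd (hom_lgS a b) _ _ hx hy,
    fadd_Ga (R227.constantCoeff_psubst hx (cc_lgS a b)) (R227.constantCoeff_psubst hy (cc_lgS a b))]

/-- the logarithm is injective -/
theorem lgS_inj {τ : Type*} {x y : MvPowerSeries τ K} (hx : MvPowerSeries.constantCoeff x = 0)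
    (hy : MvPowerSeries.constantCoeff y = 0)
    (h : (subst x (lgS a b) : MvPowerSeries τ K) = subst y (lgS a b)) : x = y := by
  have e : (subst (subst x (lgS a b) : MvPowerSeries τ K) (exS a b) : MvPowerSeries τ K) =
    subst (subst y (lgS a b) : MvPowerSeries τ K) (exS a b) := by rw [h]
  rw [← R227.psubst_psubst (cc_lgS a b) hx, ← R227.psubst_psubst (cc_lgS a b) hy, exS_lgS,
    R227.psubst_X hx, R227.psubst_X hy] at e
  exact e

theorem eq_of_deriv {f g : PowerSeries K} (h : derivative K f = derivative K g)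
    (h0 : constantCoeff f = constantCoeff g) : f = g := by
  have : IsAddTorsionFree K := IsAddTorsionFree.of_module_rat K
  exact PowerSeries.derivative.ext h h0

theorem deriv_subst {f : PowerSeries K} (hf : constantCoeff f = 0) (g : PowerSeries K) :
    derivative K (subst f g : PowerSeries K) = subst f (derivative K g) * derivative K f :=
  R227.pderiv_subst_one (τ := Unit) (HasSubst.of_constantCoeff_zero' hf) () g

/-- UNIQUENESS of the solution of `z' = 1 - a z - 2 b s`, `s' = 3 z² + a s`. -/
theorem ode_unique {z s : PowerSeries K} (hz0 : constantCoeff z = 0) (hs0 : constantCoeff s = 0)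
    (hz : derivative K z = 1 - C a * z - 2 * C b * s)
    (hs : derivative K s = 3 * z ^ 2 + C a * s) : z = exS a b ∧ s = subst z (sS a b) := by
  have e1 : s = z ^ 3 + C a * z * s + C b * s ^ 2 := by
    rw [← sub_eq_zero]
    apply eq_of_deriv
    · simp only [map_sub, map_add, Derivation.leibniz, Derivation.leibniz_pow,
        PowerSeries.derivative_C, smul_eq_mul, nsmul_eq_mul, mul_zero, add_zero, map_zero, hz, hs]
      push_cast
      ring
    · simp [hz0, hs0]
  have e2 : s = subst z (sS a b) := eq_subst_sS (τ := Unit) a b hz0 hs0 e1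
  refine ⟨?_, e2⟩
  have e3 : (subst z (lgS a b) : PowerSeries K) = X := by
    apply eq_of_deriv
    · rw [deriv_subst hz0, deriv_lgS, PowerSeries.derivative_X, hz, e2]
      have h1 := subst_pS (τ := Unit) a b (z := z) hz0
      have h2 : (subst z (pS a b) : PowerSeries K) * subst z (wS a b) = 1 := by
        rw [← PowerSeries.subst_mul (HasSubst.of_constantCoeff_zero' hz0), pS_mul_wS]
        exact subst_one' (τ := Unit) z
      have h1' : 1 - C a * z - 2 * C b * (subst z (sS a b) : PowerSeries K) = subst z (pS a b) :=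
        h1.symm
      rw [h1', mul_comm]
      exact h2
    · rw [PowerSeries.constantCoeff_X]
      exact R227.constantCoeff_psubst (τ := Unit) hz0 (cc_lgS a b)
  have e4 := R227.psubst_psubst (τ := Unit) (cc_lgS a b) hz0 (exS a b)
  rw [exS_lgS, R227.psubst_X hz0] at e4
  have e5 : (subst (subst z (lgS a b) : PowerSeries K) (exS a b) : PowerSeries K) = exS a b := by
    rw [e3]; exact PowerSeries.X_subst _
  exact e4.trans e5

/-- the exponential satisfies the ODE -/
theorem deriv_exS : derivative K (exS a b) =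
    1 - C a * exS a b - 2 * C b * subst (exS a b) (sS a b) := by
  have hz0 := cc_exS a b
  have h1 : (subst (exS a b) (pS a b) : PowerSeries K) =
      1 - C a * exS a b - 2 * C b * subst (exS a b) (sS a b) := subst_pS (τ := Unit) a b hz0
  rw [← h1]
  have h2 : (subst (exS a b) (pS a b) : PowerSeries K) * subst (exS a b) (wS a b) = 1 := by
    rw [← PowerSeries.subst_mul (HasSubst.of_constantCoeff_zero' hz0), pS_mul_wS]
    exact subst_one' (τ := Unit) _
  have h3 := congrArg (derivative K) (lgS_exS a b)
  rw [deriv_subst hz0, deriv_lgS, PowerSeries.derivative_X] at h3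
  calc derivative K (exS a b) = ((subst (exS a b) (pS a b) : PowerSeries K) *
        subst (exS a b) (wS a b)) * derivative K (exS a b) := by rw [h2, one_mul]
    _ = subst (exS a b) (pS a b) * (subst (exS a b) (wS a b) * derivative K (exS a b)) := by ring
    _ = _ := by rw [h3, mul_one]

theorem deriv_subst_exS_sS : derivative K (subst (exS a b) (sS a b) : PowerSeries K) =
    3 * exS a b ^ 2 + C a * subst (exS a b) (sS a b) := by
  have hz0 := cc_exS a b
  have hz' : HasSubst (exS a b) := HasSubst.of_constantCoeff_zero' hz0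
  have hC : ∀ c : K, (subst (exS a b) (C c : PowerSeries K) : PowerSeries K) = C c :=
    fun c => PowerSeries.subst_C _
  have h1 : (subst (exS a b) (pS a b) : PowerSeries K) =
      1 - C a * exS a b - 2 * C b * subst (exS a b) (sS a b) := subst_pS (τ := Unit) a b hz0
  have h3 : (3 : PowerSeries K) = C 3 := by rw [map_ofNat]
  rw [deriv_subst hz0, deriv_exS, ← h1, ← PowerSeries.subst_mul hz', deriv_sS, h3,
    PowerSeries.subst_add hz', PowerSeries.subst_mul hz', PowerSeries.subst_mul hz',
    PowerSeries.subst_pow hz', PowerSeries.subst_X hz', hC, hC]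

end logs

section scale

theorem cc_CX {A : Type*} [CommRing A] (u : A) : constantCoeff (C u * X : PowerSeries A) = 0 := by
  simp

theorem subst_CX {A : Type*} [CommRing A] {τ : Type*} (u : A) {z : MvPowerSeries τ A}
    (hz : MvPowerSeries.constantCoeff z = 0) :
    (subst z (C u * X : PowerSeries A) : MvPowerSeries τ A) = MvPowerSeries.C u * z := by
  have hz' := HasSubst.of_constantCoeff_zero hz
  have hC : ∀ c : A, (subst z (C c : PowerSeries A) : MvPowerSeries τ A) = MvPowerSeries.C c :=
    fun c => PowerSeries.subst_C _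
  rw [PowerSeries.subst_mul hz', PowerSeries.subst_X hz', hC]

variable {A : Type*} [CommRing A] (u a b : A)

theorem sS_scale : (subst (C u * X : PowerSeries A) (sS a b) : PowerSeries A) =
    C (u ^ 3) * sS (u * a) (u ^ 3 * b) := by
  symm
  refine eq_subst_sS (τ := Unit) a b (z := (C u * X : PowerSeries A)) (cc_CX u) ?_ ?_
  · change constantCoeff _ = 0
    rw [map_mul, cc_sS, mul_zero]
  · change C (u ^ 3) * sS (u * a) (u ^ 3 * b) = (C u * X) ^ 3 + C a * (C u * X) *
      (C (u ^ 3) * sS (u * a) (u ^ 3 * b)) + C b * (C (u ^ 3) * sS (u * a) (u ^ 3 * b)) ^ 2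
    have h := sS_eq (u * a) (u ^ 3 * b)
    simp only [map_mul, map_pow] at h ⊢
    linear_combination (C u) ^ 3 * h

theorem pS_scale : (subst (C u * X : PowerSeries A) (pS a b) : PowerSeries A) =
    pS (u * a) (u ^ 3 * b) := by
  have h := subst_pS (τ := Unit) a b (z := (C u * X : PowerSeries A)) (cc_CX u)
  refine h.trans ?_
  change 1 - C a * (C u * X) - 2 * C b * subst (C u * X : PowerSeries A) (sS a b) = _
  rw [sS_scale, pS]
  simp only [map_mul, map_pow]
  ring

theorem wS_scale : (subst (C u * X : PowerSeries A) (wS a b) : PowerSeries A) =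
    wS (u * a) (u ^ 3 * b) := by
  have h1 : (subst (C u * X : PowerSeries A) (pS a b) : PowerSeries A) *
      subst (C u * X : PowerSeries A) (wS a b) = 1 := by
    rw [← PowerSeries.subst_mul (HasSubst.of_constantCoeff_zero' (cc_CX u)), pS_mul_wS]
    exact subst_one' (τ := Unit) _
  rw [pS_scale] at h1
  have h2 := pS_mul_wS (u * a) (u ^ 3 * b)
  calc _ = (pS (u * a) (u ^ 3 * b) * wS (u * a) (u ^ 3 * b)) *
        subst (C u * X : PowerSeries A) (wS a b) := by rw [h2, one_mul]
    _ = wS (u * a) (u ^ 3 * b) * (pS (u * a) (u ^ 3 * b) *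
        subst (C u * X : PowerSeries A) (wS a b)) := by ring
    _ = _ := by rw [h1, mul_one]

theorem lgS_scale {K : Type*} [CommRing K] [Algebra ℚ K] (u a b : K) :
    (subst (C u * X : PowerSeries K) (lgS a b) : PowerSeries K) =
      C u * lgS (u * a) (u ^ 3 * b) := by
  apply eq_of_deriv
  · rw [deriv_subst (cc_CX u), deriv_lgS, wS_scale, Derivation.leibniz (derivative K) (C u)
      (lgS (u * a) (u ^ 3 * b)), deriv_lgS]
    simp only [Derivation.leibniz, PowerSeries.derivative_X, PowerSeries.derivative_C, smul_eq_mul,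
      mul_one, mul_zero, add_zero]
    ring
  · rw [map_mul, cc_lgS, mul_zero]
    exact R227.constantCoeff_psubst (τ := Unit) (cc_CX u) (cc_lgS a b)

theorem scaleQ {K : Type*} [CommRing K] [Algebra ℚ K] (u a b : K) :
    IsFGHom (Phi (u * a) (u ^ 3 * b)) (Phi a b) (C u * X) := by
  rw [R227.isFGHom_iff]
  refine ⟨cc_CX u, ?_⟩
  have hX := fun i => MvPowerSeries.constantCoeff_X (σ := Fin 2) (R := K) i
  have hc := fun i => R227.constantCoeff_psubst (hX i) (cc_CX u)
  have hF := R227.constantCoeff_fadd (Phi (u * a) (u ^ 3 * b)) _ _ (hX 0) (hX 1)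
  apply lgS_inj a b (R227.constantCoeff_psubst hF (cc_CX u))
    (R227.constantCoeff_fadd _ _ _ (hc 0) (hc 1))
  have key : ∀ z : MvPowerSeries (Fin 2) K, MvPowerSeries.constantCoeff z = 0 →
      (subst (subst z (C u * X : PowerSeries K) : MvPowerSeries (Fin 2) K) (lgS a b) :
        MvPowerSeries (Fin 2) K) = MvPowerSeries.C u * subst z (lgS (u * a) (u ^ 3 * b)) := by
    intro z hz
    rw [← R227.psubst_psubst (cc_CX u) hz, lgS_scale,
      PowerSeries.subst_mul (HasSubst.of_constantCoeff_zero hz)]
    congr 1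
    exact PowerSeries.subst_C _
  rw [lgS_fadd a b (hc 0) (hc 1), key _ hF, key _ (hX 0), key _ (hX 1),
    lgS_fadd _ _ (hX 0) (hX 1), mul_add]

/-- SCALING: `z ↦ u z` is a homomorphism `Φ_{u a, u³ b} → Φ_{a, b}`, over every ring. -/
theorem scale : IsFGHom (Phi (u * a) (u ^ 3 * b)) (Phi a b) (C u * X) := by
  let u' : MvPolynomial (Fin 3) ℤ := MvPolynomial.X 0
  let a' : MvPolynomial (Fin 3) ℤ := MvPolynomial.X 1
  let b' : MvPolynomial (Fin 3) ℤ := MvPolynomial.X 2
  have h1 : IsFGHom (Phi (u' * a') (u' ^ 3 * b')) (Phi a' b') (C u' * X) := by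
    apply isFGHom_of_map (iU_inj 3)
    rw [Phi_map, Phi_map, map_mul, map_mul, map_mul, map_pow, PowerSeries.map_X, PowerSeries.map_C]
    exact scaleQ _ _ _
  have h2 := R227.IsFGHom.map (MvPolynomial.eval₂Hom (Int.castRingHom A) ![u, a, b]) h1
  rw [Phi_map, Phi_map, map_mul, map_mul, map_mul, map_pow, PowerSeries.map_X, PowerSeries.map_C] at h2
  simpa [u', a', b'] using h2

end scale

end Crest.Agent.R007.Fz
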