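import Crest.Agent.R007.Fz5
import Crest.Agent.R007.FRig
import Crest.Agent.R007.FEnd

/-!
Row 7, section E-FG (helper360): the `[2]`-series in characteristic 2, the instance `FData`.
-/

set_option autoImplicit false

noncomputable section

open PowerSeries Crest.LubinTate

namespace Crest.Agent.R007.Fz

section dupl

variable {A : Type*} [CommRing A]

theorem hasSubst_XX : MvPowerSeries.HasSubst ![(X : PowerSeries A), X] :=
  R227.hasSubst_pair R227.ccPX R227.ccPX

/-- substitution `z₁ = z₂ = z` -/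
abbrev dg (f : MvPowerSeries (Fin 2) A) : PowerSeries A :=
  MvPowerSeries.subst ![(X : PowerSeries A), X] f

theorem dg_X (i : Fin 2) : dg (MvPowerSeries.X i : MvPowerSeries (Fin 2) A) = X := by
  unfold dg
  rw [MvPowerSeries.subst_X hasSubst_XX]
  fin_cases i <;> rfl

theorem dg_C (c : A) : dg (MvPowerSeries.C c : MvPowerSeries (Fin 2) A) = C c :=
  MvPowerSeries.subst_C _

theorem dg_psubst (i : Fin 2) (f : PowerSeries A) :
    dg (subst (MvPowerSeries.X i : MvPowerSeries (Fin 2) A) f : MvPowerSeries (Fin 2) A) = f := by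
  unfold dg
  rw [R227.subst_psubst (MvPowerSeries.constantCoeff_X i) hasSubst_XX,
    MvPowerSeries.subst_X hasSubst_XX]
  fin_cases i <;> exact PowerSeries.X_subst f

theorem dg_dd (f : PowerSeries A) : dg (dd f) = derivative A f := by
  have h := congrArg (MvPowerSeries.pderiv A (0 : Fin 2)) (dd_mul f)
  rw [map_sub, R227.pderiv_subst_one (HasSubst.X 0), R227.pderiv_subst_one (HasSubst.X 1),
    MvPowerSeries.pderiv_X_self, MvPowerSeries.pderiv_X_of_ne (by decide), mul_one, mul_zero,
    sub_zero, Derivation.leibniz, map_sub, MvPowerSeries.pderiv_X_self,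
    MvPowerSeries.pderiv_X_of_ne (by decide), sub_zero, smul_eq_mul, smul_eq_mul, mul_one] at h
  have h2 := congrArg dg h
  unfold dg at h2
  rw [MvPowerSeries.subst_add hasSubst_XX, MvPowerSeries.subst_mul hasSubst_XX,
    MvPowerSeries.subst_sub hasSubst_XX] at h2
  change (dg (MvPowerSeries.X 0) - dg (MvPowerSeries.X 1)) * _ + dg (dd f) =
    dg (subst (MvPowerSeries.X 0 : MvPowerSeries (Fin 2) A) (derivative A f)) at h2
  rw [dg_X, dg_X, sub_self, zero_mul, zero_add, dg_psubst] at h2
  exact h2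

variable (a b : A)

theorem dg_z3S : dg (z3S a b) = -X - X - C a * derivative A (sS a b) -
    C b * derivative A (sS a b) ^ 2 := by
  have h : dg (z3S a b) = -dg (MvPowerSeries.X 0) - dg (MvPowerSeries.X 1) -
      dg (MvPowerSeries.C a) * dg (lamS a b) - dg (MvPowerSeries.C b) * dg (lamS a b) ^ 2 := by
    unfold dg z3S
    simp only [← MvPowerSeries.coe_substAlgHom hasSubst_XX, map_sub, map_mul, map_pow, map_neg]
  rw [h, dg_X, dg_X, dg_C, dg_C, lamS, dg_dd]

theorem dg_w3S : dg (w3S a b) = derivative A (sS a b) * dg (z3S a b) +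
    (sS a b - derivative A (sS a b) * X) := by
  have h : dg (w3S a b) = dg (lamS a b) * dg (z3S a b) + (dg (s1S a b) -
      dg (lamS a b) * dg (MvPowerSeries.X 0)) := by
    unfold dg w3S nuS
    simp only [← MvPowerSeries.coe_substAlgHom hasSubst_XX, map_sub, map_mul, map_add]
  rw [h, dg_X, s1S, dg_psubst, lamS, dg_dd]

theorem dg_NS : dg (NS a b) = 1 - C a * dg (z3S a b) - C b * dg (w3S a b) := by
  have h : dg (NS a b) = 1 - dg (MvPowerSeries.C a) * dg (z3S a b) -
      dg (MvPowerSeries.C b) * dg (w3S a b) := by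
    unfold dg NS
    simp only [← MvPowerSeries.coe_substAlgHom hasSubst_XX, map_sub, map_mul, map_one]
  rw [h, dg_C, dg_C]

theorem dupl : R227.fadd (Phi a b) (X : PowerSeries A) X * dg (NS a b) = -dg (z3S a b) := by
  have h := congrArg dg (PS_mul_NS a b)
  unfold dg at h
  rw [MvPowerSeries.subst_mul hasSubst_XX] at h
  have h2 : MvPowerSeries.subst ![(X : PowerSeries A), X] (-z3S a b) =
      -MvPowerSeries.subst ![(X : PowerSeries A), X] (z3S a b) := by
    simp only [← MvPowerSeries.coe_substAlgHom hasSubst_XX, map_neg]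
  rw [h2] at h
  unfold R227.fadd
  rw [Phi_val]
  exact h

theorem coeff_u : coeff 0 (uS a b) = 1 ∧ coeff 1 (uS a b) = a ∧ coeff 2 (uS a b) = a ^ 2 := by
  have hX : ∀ n : ℕ, ∀ f : PowerSeries A, coeff (n + 1) (C a * X * f) = a * coeff n f := by
    intro n f
    rw [mul_assoc, PowerSeries.coeff_C_mul, PowerSeries.coeff_succ_X_mul]
  have hX3 : ∀ n < 3, ∀ f : PowerSeries A, coeff n (C b * X ^ 3 * f) = 0 := by
    intro n hn f
    rw [mul_assoc, PowerSeries.coeff_C_mul, PowerSeries.coeff_X_pow_mul', if_neg (by omega), mul_zero]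
  have h0 : coeff 0 (uS a b) = 1 := by
    have h := congrArg (coeff 0) (uS_eq a b)
    rw [map_add, map_add, hX3 0 (by norm_num)] at h
    simpa using h
  have h1 : coeff 1 (uS a b) = a := by
    have h := congrArg (coeff 1) (uS_eq a b)
    rw [map_add, map_add, hX3 1 (by norm_num), hX 0, h0] at h
    simpa [PowerSeries.coeff_one] using h
  refine ⟨h0, h1, ?_⟩
  have h := congrArg (coeff 2) (uS_eq a b)
  rw [map_add, map_add, hX3 2 (by norm_num), hX 1, h1] at h
  rw [h]
  simp [PowerSeries.coeff_one]; ring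

theorem coeff_s (n : ℕ) : coeff n (sS a b) = if 3 ≤ n then coeff (n - 3) (uS a b) else 0 := by
  rw [sS, PowerSeries.coeff_X_pow_mul']

end dupl

section char2

variable {A : Type*} [CommRing A] [CharP A 2] (a b : A)

theorem two_exists : ∃ g : PowerSeries A,
    R227.fadd (Phi a b) (X : PowerSeries A) X = PowerSeries.expand 2 two_ne_zero g ∧
      constantCoeff g = 0 ∧ coeff 1 g = a ∧ coeff 2 g = b := by
  have : Fact (Nat.Prime 2) := ⟨Nat.prime_two⟩
  have h2A : (2 : A) = 0 := by exact_mod_cast CharP.cast_eq_zero A 2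
  have hm : mulSeries (Phi a b) 2 = R227.fadd (Phi a b) (X : PowerSeries A) X := by
    rw [R227.mulSeries_succ, R227.mulSeries_succ]
    have : mulSeries (Phi a b) 0 = 0 := rfl
    rw [this, R227.zero_fadd _ _ R227.ccPX]
  have hhom := R227.IsFGHom.mulSeries (Phi a b) 2
  have hc1 : coeff 1 (mulSeries (Phi a b) 2) = 0 := by
    rw [R227.coeff_one_mulSeries]
    exact_mod_cast CharP.cast_eq_zero A 2
  obtain ⟨g, hg, hgX⟩ := R227.IsFGHom.exists_frob (p := 2) hhom hc1
  have hT : R227.fadd (Phi a b) (X : PowerSeries A) X = PowerSeries.expand 2 two_ne_zero g := by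
    rw [← hm, hgX, PowerSeries.expand_apply]
  have hg0 : coeff 0 g = 0 := by
    rw [PowerSeries.coeff_zero_eq_constantCoeff_apply]; exact hg.1
  obtain ⟨u0, u1, u2⟩ := coeff_u a b
  set d := derivative A (sS a b) with hd
  have d0 : coeff 0 d = 0 := by
    rw [hd, PowerSeries.coeff_derivative, coeff_s]; simp
  have d1 : coeff 1 d = 0 := by
    rw [hd, PowerSeries.coeff_derivative, coeff_s]; simp
  have d2 : coeff 2 d = 1 := by
    rw [hd, PowerSeries.coeff_derivative, coeff_s, if_pos (by norm_num)]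
    push_cast
    rw [show ((2 : A) + 1) = 1 by rw [h2A, zero_add], mul_one]
    exact u0
  have d3 : coeff 3 d = 0 := by
    rw [hd, PowerSeries.coeff_derivative]
    push_cast
    rw [show ((3 : A) + 1) = 2 * 2 by norm_num, h2A]
    ring
  have d4 : coeff 4 d = a ^ 2 := by
    rw [hd, PowerSeries.coeff_derivative, coeff_s, if_pos (by norm_num)]
    push_cast
    rw [show ((4 : A) + 1) = 2 * 2 + 1 by norm_num, h2A, mul_zero, zero_add, mul_one]
    exact u2
  have dd2 : coeff 2 (d ^ 2) = 0 := by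
    rw [pow_two, PowerSeries.coeff_mul, Finset.Nat.sum_antidiagonal_eq_sum_range_succ_mk]
    simp [Finset.sum_range_succ, d0, d1]
  have dd4 : coeff 4 (d ^ 2) = 1 := by
    rw [pow_two, PowerSeries.coeff_mul, Finset.Nat.sum_antidiagonal_eq_sum_range_succ_mk]
    simp [Finset.sum_range_succ, d0, d1, d2, d3]
  have z0 : coeff 0 (dg (z3S a b)) = 0 := by
    rw [dg_z3S, ← hd]
    simp only [map_sub, map_neg, PowerSeries.coeff_C_mul, d0, PowerSeries.coeff_zero_X]
    rw [pow_two, PowerSeries.coeff_mul]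
    simp [d0]
  have z2 : coeff 2 (dg (z3S a b)) = -a := by
    rw [dg_z3S, ← hd]
    simp only [map_sub, map_neg, PowerSeries.coeff_C_mul, d2, dd2, PowerSeries.coeff_X]
    norm_num
  have z4 : coeff 4 (dg (z3S a b)) = -(a ^ 3 + b) := by
    rw [dg_z3S, ← hd]
    simp only [map_sub, map_neg, PowerSeries.coeff_C_mul, d4, dd4, PowerSeries.coeff_X]
    norm_num
    ring
  have w0 : coeff 0 (dg (w3S a b)) = 0 := by
    rw [dg_w3S, ← hd, map_add, map_sub, coeff_s, PowerSeries.coeff_mul, PowerSeries.coeff_mul]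
    simp [d0]
  have w2 : coeff 2 (dg (w3S a b)) = 0 := by
    rw [dg_w3S, ← hd, map_add, map_sub, coeff_s, PowerSeries.coeff_mul,
      Finset.Nat.sum_antidiagonal_eq_sum_range_succ_mk,
      show (2 : ℕ) = 1 + 1 from rfl, PowerSeries.coeff_succ_mul_X]
    simp [Finset.sum_range_succ, d0, d1, z0]
  have n0 : coeff 0 (dg (NS a b)) = 1 := by
    rw [dg_NS]
    simp only [map_sub, PowerSeries.coeff_C_mul, z0, w0]
    simp
  have n2 : coeff 2 (dg (NS a b)) = a ^ 2 := by
    rw [dg_NS]
    simp only [map_sub, PowerSeries.coeff_C_mul, z2, w2, PowerSeries.coeff_one]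
    norm_num
    ring
  have hprod := dupl a b
  rw [hT] at hprod
  have t : ∀ n, coeff n (PowerSeries.expand 2 two_ne_zero g) = if 2 ∣ n then coeff (n / 2) g else 0 :=
    fun n => PowerSeries.coeff_expand _ _ _
  have e2 := congrArg (coeff 2) hprod
  rw [PowerSeries.coeff_mul, Finset.Nat.sum_antidiagonal_eq_sum_range_succ_mk, map_neg, z2] at e2
  simp only [Finset.sum_range_succ, Finset.sum_range_zero, t] at e2
  norm_num [hg0, n0] at e2
  have e4 := congrArg (coeff 4) hprod
  rw [PowerSeries.coeff_mul, Finset.Nat.sum_antidiagonal_eq_sum_range_succ_mk, map_neg, z4] at e4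
  simp only [Finset.sum_range_succ, Finset.sum_range_zero, t] at e4
  norm_num [hg0, n0, n2] at e4
  refine ⟨g, hT, hg.1, e2, ?_⟩
  rw [e2] at e4
  linear_combination e4

end char2

section inst

variable (κ : Type*) [Field κ] [CharP κ 2]

/-- THE INSTANCE: `y² + t x y + y = x³` over `κ⟦t⟧` -/
def fdata : F.FData κ where
  Φ := Phi (X : PowerSeries κ) 1
  comm := Phi_comm _ _
  g := (two_exists (X : PowerSeries κ) 1).choose
  two := (two_exists (X : PowerSeries κ) 1).choose_spec.1
  g_zero := (two_exists (X : PowerSeries κ) 1).choose_spec.2.1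
  g_one := (two_exists (X : PowerSeries κ) 1).choose_spec.2.2.1
  g_two := by
    rw [(two_exists (X : PowerSeries κ) 1).choose_spec.2.2.2]; exact isUnit_one
  frob := by
    rw [Phi_map, Phi_map]
    simp

theorem fdata_Φ : (fdata κ).Φ = Phi (X : PowerSeries κ) 1 := rfl

theorem fdata_Φ0 : (fdata κ).Φ0 = Phi (0 : κ) 1 := by
  rw [F.FData.Φ0, fdata_Φ, Phi_map, PowerSeries.constantCoeff_X, map_one]

theorem hasW {κ : Type*} [Field κ] [CharP κ 2] {w : κ} (hw : w ^ 2 + w + 1 = 0) :
    F.HasW (fdata κ).Φ0 w := by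
  refine ⟨hw, ?_⟩
  have h := scale w (0 : κ) 1
  have h3 : w ^ 3 * 1 = 1 := by linear_combination (w - 1) * hw
  rw [mul_zero, h3] at h
  rw [fdata_Φ0]
  exact h

end inst

end Crest.Agent.R007.Fz
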