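import Mathlib

/-!
# Row 7, section G: the bimodule (abstract form)

Input: `GData` (duality, Hecke formula on supersingular expansions, smooth group action).
Output: a `T0`-module `Pi` with commuting smooth `GG`-action, finite-dimensional invariants,
and finitely many `T0`-linear maps `W → Pi`, jointly injective.
-/

set_option autoImplicit false
set_option linter.dupNamespace false

open scoped TensorProduct

namespace Crest.Agent.R007.G

/-- Input data for the bimodule construction. -/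
structure GData (F T0 W V GG P I : Type*) [Field F] [CommRing T0] [Algebra F T0]
    [AddCommGroup W] [Module F W] [Module T0 W] [IsScalarTower F T0 W]
    [AddCommGroup V] [Module F V] [Group GG] where
  /-- the action on `V` (= `K / R`) -/
  act : GG →* Module.End F V
  /-- congruence subgroups -/
  Gam : ℕ → Subgroup GG
  normal : ∀ n, (Gam n).Normal
  finidx : ∀ n, (Gam n).FiniteIndex
  /-- `Gam 0 / Gam n` is a 2-group -/
  pgrp : ∀ n, ∀ g ∈ Gam 0, ∃ k : ℕ, g ^ (2 ^ k) ∈ Gam n
  anti : Antitone Gam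
  /-- the action on `V` is smooth -/
  smooth : ∀ v : V, ∃ n, ∀ g ∈ Gam n, act g v = v
  /-- first coefficient functional -/
  a : W →ₗ[F] F
  dual_inj : ∀ t : T0, (∀ w, a (t • w) = 0) → t = 0
  dual_surj : ∀ f : W →ₗ[F] F, ∃ t : T0, ∀ w, f w = a (t • w)
  /-- generators of the Hecke algebra -/
  gen : I → T0
  approx : ∀ (s : Finset W) (t : T0), ∃ x ∈ Algebra.adjoin F (Set.range gen), ∀ w ∈ s, t • w = x • w
  /-- orbits are finite-dimensional -/
  locfin : ∀ w : W, Module.Finite F (Submodule.span T0 {w})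
  /-- supersingular expansions -/
  E : P → W →ₗ[F] V
  E_inj : ∀ w, (∀ e, E e w = 0) → w = 0
  /-- Hecke formula -/
  hk : I → P → List (GG × P)
  hecke : ∀ i e w, E e (gen i • w) = ((hk i e).map fun d => act d.1 (E d.2 w)).sum

variable {F T0 W V GG P I : Type*} [Field F] [CommRing T0] [Algebra F T0]
    [AddCommGroup W] [Module F W] [Module T0 W] [IsScalarTower F T0 W]
    [AddCommGroup V] [Module F V] [Group GG]
    (D : GData F T0 W V GG P I)

instance : SMulCommClass T0 F W := IsScalarTower.to_smulCommClass' (R := F) (A := T0) (M := W)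

namespace GData

/-- matrix coefficients `(g, e) ↦ Ξ (g • E_e w)` -/
def phi : W →ₗ[F] Module.Dual F V →ₗ[F] (GG → P → F) :=
  LinearMap.mk₂ F (fun w Xi g e => Xi (D.act g (D.E e w)))
    (by intro w w' Xi; ext g e; simp)
    (by intro c w Xi; ext g e; simp)
    (by intro w Xi Xi'; ext g e; simp)
    (by intro c w Xi; ext g e; simp)

@[simp] theorem phi_apply (w : W) (Xi : Module.Dual F V) (g : GG) (e : P) :
    D.phi w Xi g e = Xi (D.act g (D.E e w)) := rfl

/-- the same on the tensor product -/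
def Phi : W ⊗[F] Module.Dual F V →ₗ[F] (GG → P → F) := TensorProduct.lift D.phi

@[simp] theorem Phi_tmul (w : W) (Xi : Module.Dual F V) (g : GG) (e : P) :
    D.Phi (w ⊗ₜ Xi) g e = Xi (D.act g (D.E e w)) := by
  simp [Phi]

/-- Hecke operators on functions -/
def HO (i : I) : (GG → P → F) →ₗ[F] (GG → P → F) where
  toFun f := fun g e => ((D.hk i e).map fun d => f (g * d.1) d.2).sum
  map_add' f f' := by
    ext g e
    simp [List.sum_map_add]
  map_smul' c f := by
    ext g e
    simp [List.sum_map_mul_left]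

theorem sum_map_lin {X Y : Type*} [AddCommMonoid X] [AddCommMonoid Y] {J : Type*} (f : X →+ Y)
    (l : List J) (h : J → X) : f ((l.map h).sum) = (l.map fun j => f (h j)).sum := by
  rw [map_list_sum, List.map_map]; rfl

theorem Phi_gen (i : I) (m : W ⊗[F] Module.Dual F V) :
    D.Phi (D.gen i • m) = D.HO i (D.Phi m) := by
  induction m using TensorProduct.induction_on with
  | zero => simp
  | tmul w Xi =>
    ext g e
    rw [TensorProduct.smul_tmul']
    simp only [Phi_tmul, HO, LinearMap.coe_mk, AddHom.coe_mk]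
    rw [D.hecke]
    have h1 := sum_map_lin (Xi.toAddMonoidHom.comp (D.act g).toAddMonoidHom)
      (D.hk i e) (fun d => D.act d.1 (D.E d.2 w))
    simp only [AddMonoidHom.comp_apply, LinearMap.toAddMonoidHom_coe] at h1
    rw [h1]
    simp only [map_mul, Module.End.mul_apply]
  | add x y hx hy => rw [smul_add, map_add, map_add, hx, hy, map_add]

theorem Phi_adjoin (x : T0) (hx : x ∈ Algebra.adjoin F (Set.range D.gen)) :
    ∃ H : (GG → P → F) →ₗ[F] (GG → P → F), ∀ m, D.Phi (x • m) = H (D.Phi m) := by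
  induction hx using Algebra.adjoin_induction with
  | mem x hx =>
    obtain ⟨i, rfl⟩ := hx
    exact ⟨D.HO i, D.Phi_gen i⟩
  | algebraMap r =>
    refine ⟨r • LinearMap.id, fun m => ?_⟩
    rw [algebraMap_smul]
    simp
  | add x y _ _ hx hy =>
    obtain ⟨H, hH⟩ := hx
    obtain ⟨H', hH'⟩ := hy
    refine ⟨H + H', fun m => ?_⟩
    rw [add_smul, map_add, hH, hH']
    rfl
  | mul x y _ _ hx hy =>
    obtain ⟨H, hH⟩ := hx
    obtain ⟨H', hH'⟩ := hy
    refine ⟨H ∘ₗ H', fun m => ?_⟩
    rw [mul_smul, hH, hH']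
    rfl

omit D in
theorem approx_tensor (m : W ⊗[F] Module.Dual F V) :
    ∃ s : Finset W, ∀ t x : T0, (∀ w ∈ s, t • w = x • w) → t • m = x • m := by
  classical
  induction m using TensorProduct.induction_on with
  | zero => exact ⟨∅, fun t x _ => by simp⟩
  | tmul w Xi =>
    refine ⟨{w}, fun t x h => ?_⟩
    rw [TensorProduct.smul_tmul', TensorProduct.smul_tmul', h w (by simp)]
  | add a b ha hb =>
    obtain ⟨s, hs⟩ := ha
    obtain ⟨s', hs'⟩ := hb
    refine ⟨s ∪ s', fun t x h => ?_⟩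
    rw [smul_add, smul_add, hs t x (fun w hw => h w (Finset.mem_union_left _ hw)),
      hs' t x (fun w hw => h w (Finset.mem_union_right _ hw))]

/-- the kernel of `Phi` as a `T0`-submodule -/
def K : Submodule T0 (W ⊗[F] Module.Dual F V) where
  carrier := {m | D.Phi m = 0}
  add_mem' := by
    intro a b ha hb
    simp only [Set.mem_ofPred_eq] at *
    rw [map_add, ha, hb, add_zero]
  zero_mem' := by simp
  smul_mem' := by
    intro t m hm
    simp only [Set.mem_ofPred_eq] at *
    obtain ⟨s, hs⟩ := approx_tensor (T0 := T0) m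
    obtain ⟨x, hx, hx'⟩ := D.approx s t
    obtain ⟨H, hH⟩ := D.Phi_adjoin x hx
    rw [hs t x hx', hH, hm, map_zero]

theorem mem_K {m : W ⊗[F] Module.Dual F V} : m ∈ D.K ↔ D.Phi m = 0 := Iff.rfl

/-- the bimodule -/
abbrev Pi : Type _ := (W ⊗[F] Module.Dual F V) ⧸ D.K

/-- matrix coefficients, on the quotient: an embedding of `Pi` into functions -/
def PhiBar : D.Pi →ₗ[F] (GG → P → F) :=
  ((D.K.restrictScalars F).liftQ D.Phi (fun _ hm => hm)) ∘ₗ
    (Submodule.Quotient.restrictScalarsEquiv F D.K).symm.toLinearMap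

@[simp] theorem PhiBar_mk (m : W ⊗[F] Module.Dual F V) :
    D.PhiBar (Submodule.Quotient.mk m) = D.Phi m := by
  simp only [PhiBar, LinearMap.comp_apply]
  exact Submodule.liftQ_apply _ _ _

theorem PhiBar_inj : Function.Injective D.PhiBar := by
  rw [injective_iff_map_eq_zero]
  intro v hv
  obtain ⟨m, rfl⟩ := Submodule.Quotient.mk_surjective D.K v
  rw [PhiBar_mk] at hv
  exact (Submodule.Quotient.mk_eq_zero _).2 hv

/-- action on the tensor product -/
def rhoM (b : GG) : W ⊗[F] Module.Dual F V →ₗ[T0] W ⊗[F] Module.Dual F V :=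
  TensorProduct.AlgebraTensorModule.map (LinearMap.id : W →ₗ[T0] W)
    ((D.act b⁻¹).dualMap)

@[simp] theorem rhoM_tmul (b : GG) (w : W) (Xi : Module.Dual F V) :
    D.rhoM b (w ⊗ₜ[F] Xi) = w ⊗ₜ (Xi ∘ₗ (D.act b⁻¹)) := by
  simp [rhoM]
  rfl

theorem Phi_rhoM (b : GG) (m : W ⊗[F] Module.Dual F V) (g : GG) (e : P) :
    D.Phi (D.rhoM b m) g e = D.Phi m (b⁻¹ * g) e := by
  induction m using TensorProduct.induction_on with
  | zero => simp
  | tmul w Xi => simp
  | add x y hx hy =>
    rw [map_add, map_add, map_add]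
    simp only [Pi.add_apply]
    rw [hx, hy]

/-- the action of `GG` on the bimodule -/
def rhoL (b : GG) : D.Pi →ₗ[T0] D.Pi :=
  D.K.mapQ D.K (D.rhoM b) (by
    intro m hm
    rw [Submodule.mem_comap, mem_K]
    rw [mem_K] at hm
    ext g e
    rw [Phi_rhoM, hm]
    rfl)

theorem PhiBar_rhoL (b : GG) (v : D.Pi) (g : GG) (e : P) :
    D.PhiBar (D.rhoL b v) g e = D.PhiBar v (b⁻¹ * g) e := by
  obtain ⟨m, rfl⟩ := Submodule.Quotient.mk_surjective D.K v
  rw [rhoL, Submodule.mapQ_apply, PhiBar_mk, PhiBar_mk, Phi_rhoM]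

/-- the action of `GG` on the bimodule, as a homomorphism -/
def rho : GG →* Module.End T0 D.Pi where
  toFun b := D.rhoL b
  map_one' := by
    apply LinearMap.ext
    intro v
    apply D.PhiBar_inj
    ext g e
    rw [PhiBar_rhoL]
    simp
  map_mul' b c := by
    apply LinearMap.ext
    intro v
    apply D.PhiBar_inj
    ext g e
    rw [PhiBar_rhoL]
    change _ = D.PhiBar (D.rhoL b (D.rhoL c v)) g e
    rw [PhiBar_rhoL, PhiBar_rhoL]
    simp [mul_assoc]

theorem PhiBar_rho (b : GG) (v : D.Pi) (g : GG) (e : P) :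
    D.PhiBar (D.rho b v) g e = D.PhiBar v (b⁻¹ * g) e := D.PhiBar_rhoL b v g e

theorem rho_smooth [Finite P] (v : D.Pi) : ∃ n, ∀ b ∈ D.Gam n, D.rho b v = v := by
  obtain ⟨m, rfl⟩ := Submodule.Quotient.mk_surjective D.K v
  suffices h : ∃ n, ∀ b ∈ D.Gam n, ∀ g e, D.Phi m (b⁻¹ * g) e = D.Phi m g e by
    obtain ⟨n, hn⟩ := h
    refine ⟨n, fun b hb => ?_⟩
    apply D.PhiBar_inj
    ext g e
    rw [PhiBar_rho, PhiBar_mk]
    exact hn b hb g e
  induction m using TensorProduct.induction_on with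
  | zero => exact ⟨0, fun b _ g e => by simp⟩
  | tmul w Xi =>
    choose n hn using fun e => D.smooth (D.E e w)
    have hfin : (Set.range n).Finite := Set.finite_range n
    obtain ⟨N, hN⟩ := hfin.bddAbove
    refine ⟨N, fun b hb g e => ?_⟩
    rw [Phi_tmul, Phi_tmul]
    have h1 : g⁻¹ * b⁻¹ * g ∈ D.Gam N := by
      have := (D.normal N).conj_mem b⁻¹ ((D.Gam N).inv_mem hb) g⁻¹
      simpa using this
    have h2 : g⁻¹ * b⁻¹ * g ∈ D.Gam (n e) := D.anti (hN ⟨e, rfl⟩) h1
    have h3 : b⁻¹ * g = g * (g⁻¹ * b⁻¹ * g) := by group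
    rw [h3, map_mul, Module.End.mul_apply, hn e _ h2]
  | add x y hx hy =>
    obtain ⟨n, hn⟩ := hx
    obtain ⟨n', hn'⟩ := hy
    refine ⟨max n n', fun b hb g e => ?_⟩
    rw [map_add]
    simp only [Pi.add_apply]
    rw [hn b (D.anti (le_max_left _ _) hb), hn' b (D.anti (le_max_right _ _) hb)]

/-- invariants of `Gam 0` -/
def Inv : Submodule T0 D.Pi where
  carrier := {v | ∀ b ∈ D.Gam 0, D.rho b v = v}
  add_mem' := by
    intro x y hx hy b hb
    rw [map_add, hx b hb, hy b hb]
  zero_mem' := by intro b _; simp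
  smul_mem' := by
    intro t x hx b hb
    rw [map_smul, hx b hb]

theorem mem_Inv {v : D.Pi} : v ∈ D.Inv ↔ ∀ b ∈ D.Gam 0, D.rho b v = v := Iff.rfl

theorem Inv_shift {v : D.Pi} (hv : v ∈ D.Inv) {u : GG} (hu : u ∈ D.Gam 0) (g : GG) (e : P) :
    D.PhiBar v (g * u) e = D.PhiBar v g e := by
  have h1 : (g * u * g⁻¹)⁻¹ ∈ D.Gam 0 :=
    (D.Gam 0).inv_mem ((D.normal 0).conj_mem u hu g)
  have h2 := D.PhiBar_rho ((g * u * g⁻¹)⁻¹) v g e
  rw [D.mem_Inv.1 hv _ h1] at h2
  rw [h2]
  group

theorem Inv_finite [Finite P] : Module.Finite F D.Inv := by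
  have hfi := D.finidx 0
  have : Finite (GG ⧸ D.Gam 0) := inferInstance
  let r : D.Inv →ₗ[F] ((GG ⧸ D.Gam 0) → P → F) :=
    { toFun := fun v q e => D.PhiBar (v : D.Pi) q.out e
      map_add' := by
        intro x y
        ext q e
        simp
      map_smul' := by
        intro c x
        ext q e
        simp }
  refine Module.Finite.of_injective r ?_
  rw [injective_iff_map_eq_zero]
  intro v hv
  apply Subtype.ext
  apply D.PhiBar_inj
  ext g e
  have h1 : D.PhiBar (v : D.Pi) ((g : GG ⧸ D.Gam 0).out) e = 0 := congrFun (congrFun hv (g : GG ⧸ D.Gam 0)) e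
  obtain ⟨u, hu⟩ := QuotientGroup.mk_out_eq_mul (D.Gam 0) g
  rw [hu, D.Inv_shift v.2 u.2] at h1
  rw [h1]
  simp

end GData

end Crest.Agent.R007.G
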