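import Crest.Agent.R007.HPoly

/-!
# Row 7, part H: dual Artin-Rees and the growth drop (helper775)
-/

set_option autoImplicit false
set_option linter.unusedSectionVars false
set_option linter.style.haveILetI false

open Module

namespace Crest.Agent.R007.H

section AR

variable {F P U : Type*} [Field F] [CharP F 2] [AddCommGroup P] [Module F P] [Group U]
variable {ρ : U →* Module.End F P} {Γ : ℕ → Subgroup U} {d : ℕ} {u : Fin d → U}

/-- homogeneous elements of degree `≤ c` of `J` -/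
noncomputable def Jc (hΓ : FiltGroup Γ d u) (hρ : Smooth Γ ρ) {h : ℕ} (ℓ : Fin h → Module.Dual F P)
    (N : Submodule F P) (hN : St ρ N) (c : ℕ) : Submodule (MvPolynomial (Fin d) F) (Fr F d h) :=
  Submodule.span _ {f | f ∈ J hΓ hρ ℓ N hN ∧ ∃ m ≤ c, Hom m f}

theorem Hom.smul_monomial {h : ℕ} {m : ℕ} {f : Fr F d h} (hf : Hom m f) (β : Fin d →₀ ℕ) (b : F) :
    Hom (β.degree + m) ((MvPolynomial.monomial β b : MvPolynomial (Fin d) F) • f) := by
  intro j α hα
  rw [Pi.smul_apply, smul_eq_mul, MvPolynomial.coeff_monomial_mul'] at hα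
  split_ifs at hα with hle
  · have h1 : (f j).coeff (α - β) ≠ 0 := fun h0 => hα (by rw [h0, mul_zero])
    have h2 := hf j _ h1
    have h3 : α - β + β = α := tsub_add_cancel_of_le hle
    rw [← h3, map_add, h2]
    omega
  · exact absurd rfl hα

/-- STEP A -/
theorem stepA (hΓ : FiltGroup Γ d u) (hρ : Smooth Γ ρ) {h : ℕ} (ℓ : Fin h → Module.Dual F P)
    (K : Submodule F P) (hK : St ρ K) :
    ∃ c : ℕ, ∀ m, c ≤ m → ∀ y ∈ fil ρ (m + 2),
      (∀ i, ∀ g ∈ J hΓ hρ ℓ K hK, pr ρ u ℓ m (Xo ρ u i y) g = 0) →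
      ∀ f ∈ J hΓ hρ ℓ K hK, Hom (m + 1) f → pr ρ u ℓ (m + 1) y f = 0 := by
  have hmono : Monotone (Jc hΓ hρ ℓ K hK) := by
    intro a b hab
    apply Submodule.span_mono
    rintro f ⟨hf, m, hm, hm'⟩
    exact ⟨hf, m, hm.trans hab, hm'⟩
  obtain ⟨c, hc⟩ := monotone_stabilizes_iff_noetherian.2
    (inferInstance : IsNoetherian (MvPolynomial (Fin d) F) (Fr F d h)) ⟨_, hmono⟩
  refine ⟨c, fun m hm y hy hX f hf hfh => ?_⟩
  have hfc : f ∈ Jc hΓ hρ ℓ K hK c := by
    have h1 : f ∈ Jc hΓ hρ ℓ K hK (m + 1) := Submodule.subset_span ⟨hf, m + 1, le_rfl, hfh⟩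
    have h2 : Jc hΓ hρ ℓ K hK c = Jc hΓ hρ ℓ K hK (m + 1) := hc (m + 1) (by omega)
    rw [h2]
    exact h1
  have key : ∀ p : MvPolynomial (Fin d) F, pr ρ u ℓ (m + 1) y (p • f) = 0 := by
    clear hf hfh
    unfold Jc at hfc
    induction hfc using Submodule.span_induction with
    | mem g hg =>
      obtain ⟨hgJ, k, hk, hgk⟩ := hg
      intro p
      induction p using MvPolynomial.induction_on' with
      | monomial β b =>
        by_cases hdeg : β.degree + k = m + 1
        · have hβ : β ≠ 0 := by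
            rintro rfl
            simp at hdeg
            omega
          obtain ⟨i, hi⟩ : ∃ i, β i ≠ 0 := by
            by_contra h0
            push Not at h0
            exact hβ (Finsupp.ext h0)
          have h3 : Finsupp.single i 1 + (β - Finsupp.single i 1) = β := by
            apply add_tsub_cancel_of_le
            rw [Finsupp.single_le_iff]
            omega
          have h4 : (MvPolynomial.monomial β b : MvPolynomial (Fin d) F)
              = MvPolynomial.X i * MvPolynomial.monomial (β - Finsupp.single i 1) b := by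
            rw [MvPolynomial.X, MvPolynomial.monomial_mul, one_mul, h3]
          rw [h4, mul_smul, pr_X hΓ hρ ℓ hy]
          exact hX i _ (Submodule.smul_mem _ _ hgJ)
        · exact pr_of_hom ℓ hdeg y (hgk.smul_monomial β b)
      | add p q hp hq => rw [add_smul, map_add, hp, hq, add_zero]
    | zero => intro p; rw [smul_zero, map_zero]
    | add a b _ _ ha hb => intro p; rw [smul_add, map_add, ha, hb, add_zero]
    | smul q a _ ha => intro p; rw [← mul_smul]; exact ha _
  simpa using key 1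

/-- dual Artin-Rees -/
theorem artinRees (hΓ : FiltGroup Γ d u) (hρ : Smooth Γ ρ) (hE : Exh ρ) {x : Module.End F P}
    (hx : ∀ g, Commute x (ρ g)) {N : Submodule F P} (hN : St ρ N) (hNx : N.map x = N) :
    ∃ c : ℕ, ∀ k, N ⊓ fil ρ k ≤ (N ⊓ fil ρ (k + c)).map x := by
  obtain ⟨h, ℓ, hℓ⟩ := exists_sep hρ
  have hK : St ρ (N ⊓ LinearMap.ker x) := hN.inf (St.ker hx)
  obtain ⟨c, hc⟩ := stepA hΓ hρ ℓ (N ⊓ LinearMap.ker x) hK
  have hxX : ∀ (i : Fin d) (v : P), Xo ρ u i (x v) = x (Xo ρ u i v) := by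
    intro i v
    have h1 : x (ρ (u i) v) = ρ (u i) (x v) := by
      have := congrArg (fun f => f v) (hx (u i)).eq
      simpa [Module.End.mul_apply] using this
    rw [Xo_apply, Xo_apply, map_sub, h1]
  -- step B
  have stepB : ∀ m, c ≤ m → ∀ v ∈ (N ⊓ fil ρ (m + 2)).map x,
      (∀ i, Xo ρ u i v ∈ (N ⊓ fil ρ m).map x) → v ∈ (N ⊓ fil ρ (m + 1)).map x := by
    rintro m hm _ ⟨y, ⟨hyN, hy⟩, rfl⟩ hX
    obtain ⟨s, hs, e⟩ := sep hΓ hρ hℓ (n := m + 1)
      (S := (N ⊓ LinearMap.ker x) ⊓ fil ρ (m + 2)) inf_le_right hy (by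
        intro f hf hfS
        refine hc m hm y hy ?_ f ?_ hf
        · intro i g hg
          obtain ⟨z, ⟨hzN, hz⟩, ez⟩ := hX i
          rw [hxX] at ez
          have h1 : Xo ρ u i y = (Xo ρ u i y - z) + z := by abel
          have hXN : Xo ρ u i y ∈ N := by rw [Xo_apply]; exact hN.sub hyN _
          rw [h1, pr_add, pr_of_fil ℓ hz, add_zero]
          refine hg m _ ⟨N.sub_mem hXN hzN, ?_⟩ ?_
          · show Xo ρ u i y - z ∈ LinearMap.ker x
            rw [LinearMap.mem_ker, map_sub, ez, sub_self]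
          · exact Submodule.sub_mem _ (Xo_mem' hy i) (fil_le_succ m hz)
        · intro k w hw hw'
          rcases eq_or_ne (m + 1) k with rfl | hmk
          · exact hfS w ⟨hw, hw'⟩
          · exact pr_of_hom ℓ hmk w hf)
    refine ⟨y - s, ⟨N.sub_mem hyN hs.1.1, e⟩, ?_⟩
    rw [map_sub, LinearMap.mem_ker.1 hs.1.2, sub_zero]
  refine ⟨c, fun k => ?_⟩
  induction k with
  | zero =>
    rintro v ⟨_, hv⟩
    have hv0 : v = 0 := by
      have h0 : v ∈ fil ρ 0 := hv
      rw [fil_zero, Submodule.mem_bot] at h0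
      exact h0
    subst hv0
    exact Submodule.zero_mem _
  | succ k ih =>
    rintro v ⟨hvN, hv⟩
    have hX : ∀ i, Xo ρ u i v ∈ (N ⊓ fil ρ (k + c)).map x := by
      intro i
      apply ih
      refine ⟨?_, Xo_mem' hv i⟩
      rw [Xo_apply]
      exact hN.sub hvN _
    have hv2 : v ∈ N.map x := by rw [hNx]; exact hvN
    obtain ⟨y, hyN, rfl⟩ := hv2
    obtain ⟨M, hM⟩ := hE y
    have hdesc : ∀ M, y ∈ fil ρ M → ∀ j, x y ∈ (N ⊓ fil ρ (k + 1 + c + j)).map x →
        x y ∈ (N ⊓ fil ρ (k + 1 + c)).map x := by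
      intro M _ j
      induction j with
      | zero => intro h0; exact h0
      | succ j ihj =>
        intro h1
        apply ihj
        have e1 : k + 1 + c + (j + 1) = (k + c + j) + 2 := by ring
        have e2 : k + 1 + c + j = (k + c + j) + 1 := by ring
        rw [e1] at h1
        rw [e2]
        refine stepB (k + c + j) (by omega) _ h1 ?_
        intro i
        exact Submodule.map_mono (inf_le_inf_left _ (fil_mono (by omega))) (hX i)
    refine hdesc M hM M ?_
    exact ⟨y, ⟨hyN, fil_mono (by omega) hM⟩, rfl⟩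

/-- NODE 2b -/
theorem drop (hΓ : FiltGroup Γ d u) (hρ : Smooth Γ ρ) (hE : Exh ρ) : Drop ρ := by
  intro x hx N hN hNx
  have hFD : FinDim ρ := finDim hΓ hρ
  obtain ⟨c, hc⟩ := artinRees hΓ hρ hE hx hN hNx
  haveI hfd : ∀ n, FiniteDimensional F ↥(fil ρ n) := hFD
  haveI hfd1 : ∀ (N' : Submodule F P) n, FiniteDimensional F ↥(N' ⊓ fil ρ n) := fun N' n =>
    Submodule.finiteDimensional_of_le inf_le_right
  set K := N ⊓ LinearMap.ker x with hKdef
  -- one step
  have h1 : ∀ n, finrank F ↥(K ⊓ fil ρ n) + finrank F ↥(N ⊓ fil ρ n)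
      ≤ finrank F ↥(N ⊓ fil ρ (n + c)) := by
    intro n
    let xx : ↥(N ⊓ fil ρ (n + c)) →ₗ[F] P := x ∘ₗ (N ⊓ fil ρ (n + c)).subtype
    have hrn := LinearMap.finrank_range_add_finrank_ker xx
    have hr : finrank F ↥(N ⊓ fil ρ n) ≤ finrank F ↥(LinearMap.range xx) := by
      apply Submodule.finrank_mono
      intro v hv
      obtain ⟨y, hy, e⟩ := hc n hv
      exact ⟨⟨y, hy⟩, e⟩
    have hk : finrank F ↥(K ⊓ fil ρ n) ≤ finrank F ↥(LinearMap.ker xx) := by
      let f : ↥(K ⊓ fil ρ n) →ₗ[F] ↥(LinearMap.ker xx) :=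
        LinearMap.codRestrict _ (LinearMap.codRestrict (N ⊓ fil ρ (n + c)) (K ⊓ fil ρ n).subtype
          (fun v => ⟨v.2.1.1, fil_mono (by omega) v.2.2⟩)) (fun v => by
            rw [LinearMap.mem_ker]
            exact v.2.1.2)
      apply LinearMap.finrank_le_finrank_of_injective (f := f)
      intro a b hab
      have := congrArg (fun z => ((z : ↥(LinearMap.ker xx)).1 : ↥(N ⊓ fil ρ (n + c))).1) hab
      exact Subtype.ext this
    omega
  have hmonoK : ∀ a b, a ≤ b → finrank F ↥(K ⊓ fil ρ a) ≤ finrank F ↥(K ⊓ fil ρ b) := fun a b hab =>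
    Submodule.finrank_mono (inf_le_inf_left _ (fil_mono hab))
  have h2 : ∀ n m, m * finrank F ↥(K ⊓ fil ρ n) ≤ finrank F ↥(N ⊓ fil ρ (n + m * c)) := by
    intro n m
    induction m with
    | zero => simp
    | succ m ih =>
      have h3 := h1 (n + m * c)
      have h4 := hmonoK n (n + m * c) (by omega)
      have h5 : n + m * c + c = n + (m + 1) * c := by ring
      rw [h5] at h3
      calc (m + 1) * finrank F ↥(K ⊓ fil ρ n)
          = m * finrank F ↥(K ⊓ fil ρ n) + finrank F ↥(K ⊓ fil ρ n) := by ring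
        _ ≤ _ := by omega
  constructor
  · rintro ⟨C, hC⟩
    rw [eq_bot_iff]
    intro v hv
    obtain ⟨n, hn⟩ := hE v
    have h3 := h2 n (C + 1)
    have h4 := hC (n + (C + 1) * c)
    rw [pow_zero, mul_one] at h4
    have h5 : finrank F ↥(K ⊓ fil ρ n) = 0 := by
      by_contra h0
      have : 1 ≤ finrank F ↥(K ⊓ fil ρ n) := Nat.one_le_iff_ne_zero.2 h0
      have h6 : C + 1 ≤ (C + 1) * finrank F ↥(K ⊓ fil ρ n) := Nat.le_mul_of_pos_right _ this
      omega
    have h6 := Submodule.finrank_eq_zero.1 h5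
    have h7 : v ∈ K ⊓ fil ρ n := ⟨hv, hn⟩
    rw [h6] at h7
    exact h7
  · rintro e ⟨C, hC⟩
    refine ⟨C * (c + 1) ^ (e + 1), fun n => ?_⟩
    have h3 := (h2 n (n + 1)).trans (hC _)
    have h4 : n + (n + 1) * c + 1 = (n + 1) * (c + 1) := by ring
    rw [h4, mul_pow] at h3
    have h5 : C * ((n + 1) ^ (e + 1) * (c + 1) ^ (e + 1))
        = (n + 1) * (C * (c + 1) ^ (e + 1) * (n + 1) ^ e) := by ring
    rw [h5] at h3
    exact Nat.le_of_mul_le_mul_left h3 (by omega)

end AR

end Crest.Agent.R007.H
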