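import Mathlib

/-!
Row 7, part H, steps (3) and (4) of the blueprint (note 13096 of helper775; 12990 of helper192):
a commutative ring `T` acting on a discrete space `P`, together with finitely many
`T`-linear maps `Hom_F(P,F) → T` whose images generate `T`, is Noetherian of Krull dimension at
most `2`, provided that the stable subspaces satisfy DCC, have growth of degree at most `3` (`2`), and
(in the case of degree `3`) the finite image lemma holds.
-/

set_option autoImplicit false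

namespace Crest.Agent.R007.HChain

universe uF uT uP uU uI

variable {F : Type uF} {T : Type uT} {P : Type uP} {U : Type uU} {ι : Type uI}
variable [Field F] [CommRing T] [Algebra F T]
variable [AddCommGroup P] [Module F P] [Module T P] [IsScalarTower F T P]

/-- `T`-submodules stable under the (`T`-linear) operators `ρ g`. -/
def Stable (ρ : U → P →ₗ[T] P) (W : Submodule T P) : Prop :=
  ∀ g, ∀ v ∈ W, ρ g v ∈ W

/-- Descending chain condition for stable submodules, minimal element form. -/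
def DCC (ρ : U → P →ₗ[T] P) : Prop :=
  ∀ S : Set (Submodule T P), S.Nonempty → (∀ W ∈ S, Stable ρ W) →
    ∃ W ∈ S, ∀ W' ∈ S, W' ≤ W → W' = W

/-- multiplication by `t` as an `F`-linear map. -/
def mulF (F : Type uF) {T : Type uT} {P : Type uP} [Field F] [CommRing T] [Algebra F T]
    [AddCommGroup P] [Module F P] [Module T P] [IsScalarTower F T P] (t : T) : P →ₗ[F] P :=
  (LinearMap.lsmul T P t).restrictScalars F

@[simp] theorem mulF_apply (t : T) (v : P) : mulF F t v = t • v := rfl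

/-- Data `φ` of step (3): finitely many `T`-linear maps from the dual of `P` to `T`,
images generating `T`. -/
structure IsGen [Fintype ι] (φ : ι → Module.Dual F P →ₗ[F] T) : Prop where
  lin : ∀ i t (f : Module.Dual F P), φ i (f ∘ₗ mulF F t) = t * φ i f
  one : ∃ f : ι → Module.Dual F P, ∑ i, φ i (f i) = 1

/-- the submodule killed by the ideal `I` inside `W`. -/
def tors (I : Ideal T) (W : Submodule T P) : Submodule T P where
  carrier := {v | v ∈ W ∧ ∀ t ∈ I, t • v = 0}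
  add_mem' := by
    rintro a b ⟨ha, ha'⟩ ⟨hb, hb'⟩
    exact ⟨W.add_mem ha hb, fun t ht => by rw [smul_add, ha' t ht, hb' t ht, add_zero]⟩
  zero_mem' := ⟨W.zero_mem, fun t _ => smul_zero t⟩
  smul_mem' := by
    rintro c x ⟨hx, hx'⟩
    exact ⟨W.smul_mem c hx, fun t ht => by rw [smul_comm, hx' t ht, smul_zero]⟩

theorem mem_tors {I : Ideal T} {W : Submodule T P} {v : P} :
    v ∈ tors I W ↔ v ∈ W ∧ ∀ t ∈ I, t • v = 0 := Iff.rfl

theorem tors_le (I : Ideal T) (W : Submodule T P) : tors I W ≤ W := fun _ h => h.1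

theorem stable_tors {ρ : U → P →ₗ[T] P} {W : Submodule T P} (hW : Stable ρ W) (I : Ideal T) :
    Stable ρ (tors I W) := by
  intro g v hv
  refine ⟨hW g v hv.1, fun t ht => ?_⟩
  rw [← map_smul, hv.2 t ht, map_zero]

theorem stable_map {ρ : U → P →ₗ[T] P} {W : Submodule T P} (hW : Stable ρ W) (t : T) :
    Stable ρ (W.map (LinearMap.lsmul T P t)) := by
  rintro g v ⟨w, hw, rfl⟩
  exact ⟨ρ g w, hW g w hw, by simp⟩

theorem stable_top {ρ : U → P →ₗ[T] P} : Stable ρ ⊤ := fun _ _ _ => trivial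

/-- a functional vanishing on the common kernel of `t_1, …, t_n` in `W` is a combination. -/
theorem exists_comb {n : ℕ} (t : Fin n → T) (W : Submodule T P) (f : Module.Dual F P)
    (hf : ∀ v ∈ W, (∀ j, t j • v = 0) → f v = 0) :
    ∃ g : Fin n → Module.Dual F P, ∀ v ∈ W, f v = ∑ j, g j (t j • v) := by
  let W' : Submodule F P := W.restrictScalars F
  let L : W' →ₗ[F] (Fin n → P) := LinearMap.pi fun j => (mulF F (t j)) ∘ₗ W'.subtype
  have hmem : (f ∘ₗ W'.subtype) ∈ (LinearMap.ker L).dualAnnihilator := by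
    rw [Submodule.mem_dualAnnihilator]
    intro w hw
    have h1 : ∀ j, t j • (w : P) = 0 := by
      intro j
      have := congrFun (LinearMap.mem_ker.1 hw) j
      simpa [L] using this
    exact hf w w.2 h1
  rw [← LinearMap.range_dualMap_eq_dualAnnihilator_ker] at hmem
  obtain ⟨h, hh⟩ := hmem
  refine ⟨fun j => h ∘ₗ LinearMap.single F (fun _ : Fin n => P) j, fun v hv => ?_⟩
  have h2 : f v = h (L ⟨v, hv⟩) := by
    have := LinearMap.congr_fun hh ⟨v, hv⟩
    simpa using this.symm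
  rw [h2]
  have h3 : L ⟨v, hv⟩ = ∑ j, LinearMap.single F (fun _ : Fin n => P) j (t j • v) := by
    ext k
    simp [L, Finset.sum_apply, Pi.single_apply]
  rw [h3, map_sum]
  rfl

section Noeth

variable [Fintype ι]

theorem exists_span (J : Ideal T) (hJ : J.FG) : ∃ (n : ℕ) (t : Fin n → T), (∀ j, t j ∈ J) ∧
    ∀ {M : Type uP} [AddCommGroup M] [Module T M] (v : M), (∀ j, t j • v = 0) → ∀ s ∈ J, s • v = 0 := by
  obtain ⟨n, t, ht⟩ := Submodule.fg_iff_exists_fin_generating_family.1 hJ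
  refine ⟨n, t, fun j => ht ▸ Submodule.subset_span ⟨j, rfl⟩, ?_⟩
  intro M _ _ v hv s hs
  rw [← ht] at hs
  induction hs using Submodule.span_induction with
  | mem x hx => obtain ⟨j, rfl⟩ := hx; exact hv j
  | zero => exact zero_smul _ _
  | add x y _ _ hx hy => rw [add_smul, hx, hy, add_zero]
  | smul a x _ hx => rw [smul_eq_mul, mul_smul, hx, smul_zero]

/-- Key computation: a functional vanishing on `W[J]` is, modulo functionals vanishing on `W`,
sent by `φ i` into `J`. -/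
theorem phi_mem {φ : ι → Module.Dual F P →ₗ[F] T} (hφ : IsGen φ) (J : Ideal T) (hJ : J.FG)
    (W : Submodule T P) (f : Module.Dual F P) (hf : ∀ v ∈ tors J W, f v = 0) :
    ∃ g : Module.Dual F P, (∀ v ∈ W, f v = g v) ∧ ∀ i, φ i g ∈ J := by
  obtain ⟨n, t, ht, htk⟩ := exists_span.{uT, uP} J hJ
  obtain ⟨g, hg⟩ := exists_comb (F := F) t W f (fun v hv h => hf v ⟨hv, htk v h⟩)
  refine ⟨∑ j, (g j) ∘ₗ mulF F (t j), fun v hv => ?_, fun i => ?_⟩
  · rw [hg v hv]; simp
  · rw [map_sum]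
    refine J.sum_mem fun j _ => ?_
    rw [hφ.lin]
    exact J.mul_mem_right _ (ht j)

theorem noeth {ρ : U → P →ₗ[T] P} (hD : DCC ρ) {φ : ι → Module.Dual F P →ₗ[F] T}
    (hφ : IsGen φ) : IsNoetherianRing T := by
  rw [isNoetherianRing_iff_ideal_fg]
  intro I
  obtain ⟨W, ⟨J, hJ, hJI, rfl⟩, hmin⟩ := hD
    {W | ∃ J : Ideal T, J.FG ∧ J ≤ I ∧ W = tors J (⊤ : Submodule T P)}
    ⟨_, ⊥, Submodule.fg_bot, bot_le, rfl⟩
    (by rintro W ⟨J, _, _, rfl⟩; exact stable_tors stable_top J)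
  suffices h : I ≤ J by rw [le_antisymm h hJI]; exact hJ
  have hkill : ∀ t ∈ I, ∀ v ∈ tors J (⊤ : Submodule T P), t • v = 0 := by
    intro t ht v hv
    have h1 := hmin (tors (J ⊔ Ideal.span {t}) ⊤)
      ⟨J ⊔ Ideal.span {t}, Submodule.FG.sup hJ (Submodule.fg_span_singleton t),
        sup_le hJI ((Ideal.span_singleton_le_iff_mem _).2 ht), rfl⟩
      (fun w hw => ⟨trivial, fun s hs => hw.2 s (Ideal.mem_sup_left hs)⟩)
    rw [← h1] at hv
    exact hv.2 t (Ideal.mem_sup_right (Ideal.mem_span_singleton_self t))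
  intro t ht
  obtain ⟨f, hf⟩ := hφ.one
  have h2 : t = ∑ i, φ i (f i ∘ₗ mulF F t) := by
    simp only [hφ.lin, ← Finset.mul_sum, hf, mul_one]
  rw [h2]
  refine J.sum_mem fun i _ => ?_
  obtain ⟨g, hg, hgJ⟩ := phi_mem hφ J hJ ⊤ (f i ∘ₗ mulF F t)
    (fun v hv => by simp [hkill t ht v hv])
  have h3 : f i ∘ₗ mulF F t = g := LinearMap.ext fun v => hg v trivial
  rw [h3]
  exact hgJ i

/-- A stable subspace adapted to the prime `p`. -/
structure Pair (ρ : U → P →ₗ[T] P) (φ : ι → Module.Dual F P →ₗ[F] T) (p : Ideal T)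
    (W : Submodule T P) : Prop where
  stable : Stable ρ W
  kill : ∀ t ∈ p, ∀ v ∈ W, t • v = 0
  ann : ∀ f : Module.Dual F P, (∀ v ∈ W, f v = 0) → ∀ i, φ i f ∈ p
  surj : ∀ t, t ∉ p → ∀ v ∈ W, ∃ w ∈ W, t • w = v

variable {ρ : U → P →ₗ[T] P} {φ : ι → Module.Dual F P →ₗ[F] T}

theorem Pair.ne_bot {p : Ideal T} {W : Submodule T P} (hφ : IsGen φ) (hp : p ≠ ⊤)
    (h : Pair ρ φ p W) : W ≠ ⊥ := by
  rintro rfl
  apply hp
  rw [Ideal.eq_top_iff_one]
  obtain ⟨f, hf⟩ := hφ.one
  rw [← hf]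
  refine p.sum_mem fun i _ => h.ann _ (fun v hv => ?_) i
  rw [(Submodule.mem_bot T).1 hv, map_zero]

theorem exists_pair (hD : DCC ρ) (hφ : IsGen φ) (p : Ideal T) [hp : p.IsPrime]
    (W : Submodule T P) (hs : Stable ρ W) (hk : ∀ t ∈ p, ∀ v ∈ W, t • v = 0)
    (ha : ∀ f : Module.Dual F P, (∀ v ∈ W, f v = 0) → ∀ i, φ i f ∈ p) :
    ∃ W' ≤ W, Pair ρ φ p W' := by
  obtain ⟨V, ⟨y, hy, rfl⟩, hmin⟩ := hD
    {V | ∃ y : T, y ∉ p ∧ V = W.map (LinearMap.lsmul T P y)}
    ⟨_, 1, fun h => hp.ne_top ((Ideal.eq_top_iff_one _).2 h), rfl⟩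
    (by rintro V ⟨y, _, rfl⟩; exact stable_map hs y)
  have hle : W.map (LinearMap.lsmul T P y) ≤ W := by
    rintro _ ⟨w, hw, rfl⟩; exact W.smul_mem y hw
  refine ⟨_, hle, stable_map hs y, fun t ht v hv => hk t ht v (hle hv), ?_, ?_⟩
  · intro f hf i
    have h1 : φ i (f ∘ₗ mulF F y) ∈ p :=
      ha _ (fun v hv => hf (y • v) ⟨v, hv, rfl⟩) i
    rw [hφ.lin] at h1
    exact (hp.mem_or_mem h1).resolve_left hy
  · intro t ht v hv
    have h1 := hmin (W.map (LinearMap.lsmul T P (t * y)))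
      ⟨t * y, fun h => (hp.mem_or_mem h).elim ht hy, rfl⟩
      (by
        rintro _ ⟨w, hw, rfl⟩
        exact ⟨t • w, W.smul_mem t hw, by simp [mul_smul, smul_comm t y w]⟩)
    rw [← h1] at hv
    obtain ⟨w, hw, rfl⟩ := hv
    exact ⟨y • w, ⟨w, hw, rfl⟩, by simp [mul_smul]⟩

theorem exists_pair_base (hD : DCC ρ) (hφ : IsGen φ) (p : Ideal T) [hp : p.IsPrime]
    (hfg : p.FG) : ∃ W, Pair ρ φ p W := by
  obtain ⟨W, _, hW⟩ := exists_pair hD hφ p (tors p ⊤) (stable_tors stable_top p)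
    (fun t ht v hv => hv.2 t ht) (by
      intro f hf i
      obtain ⟨g, hg, hgp⟩ := phi_mem hφ p hfg ⊤ f hf
      rw [show f = g from LinearMap.ext fun v => hg v trivial]
      exact hgp i)
  exact ⟨W, hW⟩

theorem exists_pair_step (hD : DCC ρ) (hφ : IsGen φ) {p q : Ideal T} [hq : q.IsPrime]
    (hpq : p ≤ q) (hfg : q.FG) {W : Submodule T P} (hW : Pair ρ φ p W) :
    ∃ W' ≤ W, Pair ρ φ q W' := by
  obtain ⟨W', hle, h⟩ := exists_pair hD hφ q (tors q W) (stable_tors hW.stable q)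
    (fun t ht v hv => hv.2 t ht) (by
      intro f hf i
      obtain ⟨g, hg, hgq⟩ := phi_mem hφ q hfg W f hf
      have h1 : φ i (f - g) ∈ p := hW.ann _ (fun v hv => by simp [hg v hv]) i
      rw [map_sub] at h1
      have h2 := q.add_mem (hpq h1) (hgq i)
      simpa using h2)
  exact ⟨W', hle.trans (tors_le q W), h⟩

/-- Abstract growth predicate: `G d W` means that `W` has growth of degree at most `d`. -/
structure Growth (F : Type uF) [Field F] [Module F P] [Algebra F T] [IsScalarTower F T P]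
    (ρ : U → P →ₗ[T] P) (G : ℕ → Submodule T P → Prop) : Prop where
  mono : ∀ d W W', Stable ρ W → Stable ρ W' → W' ≤ W → G d W → G d W'
  drop : ∀ d (t : T) W, Stable ρ W → (∀ v ∈ W, ∃ w ∈ W, t • w = v) → G (d + 1) W →
    G d (W ⊓ LinearMap.ker (LinearMap.lsmul T P t))
  fin : ∀ W, Stable ρ W → G 0 W → Module.Finite F W

theorem ker_eq_bot_of_finite (t : T) (W : Submodule T P) (hfin : Module.Finite F W)
    (hs : ∀ v ∈ W, ∃ w ∈ W, t • w = v) {v : P} (hv : v ∈ W) (h0 : t • v = 0) : v = 0 := by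
  let W' : Submodule F P := W.restrictScalars F
  have : Module.Finite F W' := hfin
  let L : W' →ₗ[F] W' := (mulF F t ∘ₗ W'.subtype).codRestrict W' (fun w => W.smul_mem t w.2)
  have hL : Function.Surjective L := by
    rintro ⟨w, hw⟩
    obtain ⟨x, hx, hxw⟩ := hs w hw
    exact ⟨⟨x, hx⟩, Subtype.ext hxw⟩
  have hinj : Function.Injective L := LinearMap.injective_iff_surjective.2 hL
  have h1 : L ⟨v, hv⟩ = 0 := Subtype.ext h0
  have h2 := hinj (h1.trans (map_zero L).symm)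
  exact congrArg Subtype.val h2

/-- The finite image lemma in the form in which it is used. -/
def FinImg (F : Type uF) [Field F] [Module F P] [Algebra F T] [IsScalarTower F T P]
    (ρ : U → P →ₗ[T] P) : Prop :=
  ∀ (t : T) (Z : Submodule T P), Stable ρ Z → (∀ v ∈ Z, ∃ w ∈ Z, t • w = v) →
    (∀ v ∈ Z, ∃ n : ℕ, t ^ n • v = 0) →
    Module.Finite F (Z ⊓ LinearMap.ker (LinearMap.lsmul T P t) : Submodule T P) → Z = ⊥

/-- chain of primes and the corresponding pairs. -/
theorem chain_pair (hD : DCC ρ) (hφ : IsGen φ) {G : ℕ → Submodule T P → Prop}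
    (hG : Growth F ρ G) (hN : IsNoetherianRing T) {p q : Ideal T} [hq : q.IsPrime]
    (hpq : p < q) {W : Submodule T P} (hW : Pair ρ φ p W) {d : ℕ} (hd : G (d + 1) W) :
    ∃ W' ≤ W, Pair ρ φ q W' ∧ G d W' := by
  obtain ⟨W', hle, h⟩ := exists_pair_step hD hφ hpq.le (hN.noetherian q) hW
  obtain ⟨t, htq, htp⟩ := SetLike.exists_of_lt hpq
  refine ⟨W', hle, h, ?_⟩
  have hst : Stable ρ (W ⊓ LinearMap.ker (LinearMap.lsmul T P t)) := by
    intro g v hv
    refine ⟨hW.stable g v hv.1, ?_⟩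
    have h1 : t • v = 0 := by simpa using hv.2
    simp [← map_smul, h1]
  refine hG.mono d _ W' hst h.stable (fun v hv => ⟨hle hv, ?_⟩)
    (hG.drop d t W hW.stable (hW.surj t htp) hd)
  simpa using h.kill t htq v hv

theorem no_chain3 (hD : DCC ρ) (hφ : IsGen φ) {G : ℕ → Submodule T P → Prop}
    (hG : Growth F ρ G) (htop : G 2 ⊤ ∨ (G 3 ⊤ ∧ FinImg F ρ))
    (q : Fin 4 → Ideal T) [hq : ∀ i, (q i).IsPrime] (h01 : q 0 < q 1) (h12 : q 1 < q 2)
    (h23 : q 2 < q 3) : False := by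
  have hN := noeth hD hφ
  obtain ⟨W0, hW0⟩ := exists_pair_base hD hφ (q 0) (hN.noetherian (q 0))
  obtain ⟨t, htq, htp⟩ := SetLike.exists_of_lt h23
  rcases htop with h2 | ⟨h3, hF⟩
  · have g0 : G 2 W0 := hG.mono 2 ⊤ W0 stable_top hW0.stable le_top h2
    obtain ⟨W1, _, hW1, g1⟩ := chain_pair hD hφ hG hN h01 hW0 (d := 1) g0
    obtain ⟨W2, _, hW2, g2⟩ := chain_pair hD hφ hG hN h12 hW1 (d := 0) g1
    obtain ⟨W3, hle3, hW3⟩ := exists_pair_step hD hφ h23.le (hN.noetherian (q 3)) hW2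
    apply hW3.ne_bot hφ (hq 3).ne_top
    rw [Submodule.eq_bot_iff]
    intro v hv
    exact ker_eq_bot_of_finite (F := F) t W2 (hG.fin W2 hW2.stable g2) (hW2.surj t htp) (hle3 hv)
      (hW3.kill t htq v hv)
  · have g0 : G 3 W0 := hG.mono 3 ⊤ W0 stable_top hW0.stable le_top h3
    obtain ⟨W1, _, hW1, g1⟩ := chain_pair hD hφ hG hN h01 hW0 (d := 2) g0
    obtain ⟨W2, _, hW2, g2⟩ := chain_pair hD hφ hG hN h12 hW1 (d := 1) g1
    obtain ⟨W3, hle3, hW3⟩ := exists_pair_step hD hφ h23.le (hN.noetherian (q 3)) hW2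
    have hker := hG.drop 0 t W2 hW2.stable (hW2.surj t htp) g2
    have hstk : Stable ρ (W2 ⊓ LinearMap.ker (LinearMap.lsmul T P t)) := by
      intro g v hv
      refine ⟨hW2.stable g v hv.1, ?_⟩
      have h1 : t • v = 0 := by simpa using hv.2
      simp [← map_smul, h1]
    have hfin := hG.fin _ hstk hker
    -- the locally nilpotent part
    let Z : Submodule T P :=
      { carrier := {v | v ∈ W2 ∧ ∃ n : ℕ, t ^ n • v = 0}
        add_mem' := by
          rintro a b ⟨ha, n, hn⟩ ⟨hb, m, hm⟩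
          refine ⟨W2.add_mem ha hb, n + m, ?_⟩
          rw [smul_add, pow_add, mul_smul, mul_smul, hm, smul_zero, add_zero, ← mul_smul,
            mul_comm, mul_smul, hn, smul_zero]
        zero_mem' := ⟨W2.zero_mem, 0, smul_zero _⟩
        smul_mem' := by
          rintro c x ⟨hx, n, hn⟩
          exact ⟨W2.smul_mem c hx, n, by rw [smul_comm, hn, smul_zero]⟩ }
    have hZ : Z = ⊥ := by
      apply hF t Z
      · rintro g v ⟨hv, n, hn⟩
        exact ⟨hW2.stable g v hv, n, by rw [← map_smul, hn, map_zero]⟩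
      · rintro v ⟨hv, n, hn⟩
        obtain ⟨w, hw, rfl⟩ := hW2.surj t htp v hv
        exact ⟨w, ⟨hw, n + 1, by rw [pow_succ, mul_smul, hn]⟩, rfl⟩
      · rintro v ⟨_, h⟩; exact h
      · have hle : (Z ⊓ LinearMap.ker (LinearMap.lsmul T P t)).restrictScalars F ≤
            (W2 ⊓ LinearMap.ker (LinearMap.lsmul T P t)).restrictScalars F :=
          fun v hv => ⟨hv.1.1, hv.2⟩
        have : Module.Finite F
            ((W2 ⊓ LinearMap.ker (LinearMap.lsmul T P t)).restrictScalars F) := hfin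
        exact Submodule.finiteDimensional_of_le hle
    apply hW3.ne_bot hφ (hq 3).ne_top
    rw [Submodule.eq_bot_iff]
    intro v hv
    have : v ∈ Z := ⟨hle3 hv, 1, by rw [pow_one]; exact hW3.kill t htq v hv⟩
    rw [hZ] at this
    exact (Submodule.mem_bot T).1 this

theorem main (hD : DCC ρ) (hφ : IsGen φ) {G : ℕ → Submodule T P → Prop}
    (hG : Growth F ρ G) (htop : G 2 ⊤ ∨ (G 3 ⊤ ∧ FinImg F ρ)) :
    IsNoetherianRing T ∧ ringKrullDim T ≤ 2 := by
  refine ⟨noeth hD hφ, ?_⟩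
  unfold ringKrullDim Order.krullDim
  refine iSup_le fun s => ?_
  by_contra hs
  have h3 : 3 ≤ s.length := by
    by_contra h
    apply hs
    have : s.length ≤ 2 := by omega
    exact_mod_cast this
  have hlt : ∀ i : ℕ, ∀ hi : i + 1 < s.length + 1,
      (s.toFun ⟨i, by omega⟩).asIdeal < (s.toFun ⟨i + 1, hi⟩).asIdeal := by
    intro i hi
    have := s.step ⟨i, by omega⟩
    exact this
  exact no_chain3 hD hφ hG htop (fun i : Fin 4 => (s.toFun ⟨i, by omega⟩).asIdeal)
    (hq := fun i => (s.toFun ⟨i, by omega⟩).isPrime)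
    (hlt 0 (by omega)) (hlt 1 (by omega)) (hlt 2 (by omega))

end Noeth

end Crest.Agent.R007.HChain

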