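import Crest.Agent.R007.HDefs

/-!
Row 7, part H, steps (3) and (4) in the frozen interface `HDefs.lean` (helper775).
-/

set_option autoImplicit false

open Module

namespace Crest.Agent.R007.HChainB

open Crest.Agent.R007.H

variable {F T P U ι : Type*}
variable [Field F] [AddCommGroup P] [Module F P] [Group U] [CommRing T]

/-- stable under the group and under `T`. -/
def SS (ρ : U →* Module.End F P) (τ : T →+* Module.End F P) (N : Submodule F P) : Prop :=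
  St ρ N ∧ ∀ t, ∀ v ∈ N, τ t v ∈ N

variable {ρ : U →* Module.End F P} {τ : T →+* Module.End F P}

theorem ss_top : SS ρ τ ⊤ := ⟨fun _ _ _ => trivial, fun _ _ _ => trivial⟩

/-- the subspace killed by the ideal `I` inside `W`. -/
def tors (τ : T →+* Module.End F P) (I : Ideal T) (W : Submodule F P) : Submodule F P where
  carrier := {v | v ∈ W ∧ ∀ t ∈ I, τ t v = 0}
  add_mem' := by
    rintro a b ⟨ha, ha'⟩ ⟨hb, hb'⟩
    exact ⟨W.add_mem ha hb, fun t ht => by rw [map_add, ha' t ht, hb' t ht, add_zero]⟩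
  zero_mem' := ⟨W.zero_mem, fun t _ => map_zero _⟩
  smul_mem' := by
    rintro c x ⟨hx, hx'⟩
    exact ⟨W.smul_mem c hx, fun t ht => by rw [map_smul, hx' t ht, smul_zero]⟩

theorem tors_le (I : Ideal T) (W : Submodule F P) : tors τ I W ≤ W := fun _ h => h.1

theorem tau_comm (s t : T) (v : P) : τ s (τ t v) = τ t (τ s v) := by
  rw [← Module.End.mul_apply, ← Module.End.mul_apply, ← map_mul, ← map_mul, mul_comm]

theorem ss_tors (hc : ∀ t g, Commute (τ t) (ρ g)) {W : Submodule F P} (hW : SS ρ τ W)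
    (I : Ideal T) : SS ρ τ (tors τ I W) := by
  refine ⟨fun g v hv => ⟨hW.1 g v hv.1, fun t ht => ?_⟩, fun s v hv => ⟨hW.2 s v hv.1, fun t ht => ?_⟩⟩
  · have h := LinearMap.congr_fun (hc t g) v
    simp only [Module.End.mul_apply] at h
    rw [h, hv.2 t ht, map_zero]
  · rw [tau_comm, hv.2 t ht, map_zero]

theorem ss_map (hc : ∀ t g, Commute (τ t) (ρ g)) {W : Submodule F P} (hW : SS ρ τ W) (t : T) :
    SS ρ τ (W.map (τ t)) := by
  constructor
  · rintro g v ⟨w, hw, rfl⟩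
    refine ⟨ρ g w, hW.1 g w hw, ?_⟩
    have h := LinearMap.congr_fun (hc t g) w
    simpa only [Module.End.mul_apply] using h
  · rintro s v ⟨w, hw, rfl⟩
    exact ⟨τ s w, hW.2 s w hw, tau_comm t s w⟩

/-- a functional vanishing on the common kernel of `t_1, …, t_n` in `W` is a combination. -/
theorem exists_comb {n : ℕ} (t : Fin n → T) (W : Submodule F P) (f : Module.Dual F P)
    (hf : ∀ v ∈ W, (∀ j, τ (t j) v = 0) → f v = 0) :
    ∃ g : Fin n → Module.Dual F P, ∀ v ∈ W, f v = ∑ j, g j (τ (t j) v) := by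
  let L : W →ₗ[F] (Fin n → P) := LinearMap.pi fun j => (τ (t j)) ∘ₗ W.subtype
  have hmem : (f ∘ₗ W.subtype) ∈ (LinearMap.ker L).dualAnnihilator := by
    rw [Submodule.mem_dualAnnihilator]
    intro w hw
    have h1 : ∀ j, τ (t j) (w : P) = 0 := by
      intro j
      have := congrFun (LinearMap.mem_ker.1 hw) j
      simpa [L] using this
    exact hf w w.2 h1
  rw [← LinearMap.range_dualMap_eq_dualAnnihilator_ker] at hmem
  obtain ⟨h, hh⟩ := hmem
  refine ⟨fun j => h ∘ₗ LinearMap.single F (fun _ : Fin n => P) j, fun v hv => ?_⟩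
  have h2 : f v = h (L ⟨v, hv⟩) := by
    have := LinearMap.congr_fun hh ⟨v, hv⟩
    simpa using this.symm
  rw [h2]
  have h3 : L ⟨v, hv⟩ = ∑ j, LinearMap.single F (fun _ : Fin n => P) j (τ (t j) v) := by
    ext k
    simp [L, Finset.sum_apply, Pi.single_apply]
  rw [h3, map_sum]
  rfl

theorem exists_span (J : Ideal T) (hJ : J.FG) : ∃ (n : ℕ) (t : Fin n → T), (∀ j, t j ∈ J) ∧
    ∀ (τ : T →+* Module.End F P) (v : P), (∀ j, τ (t j) v = 0) → ∀ s ∈ J, τ s v = 0 := by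
  obtain ⟨n, t, ht⟩ := Submodule.fg_iff_exists_fin_generating_family.1 hJ
  refine ⟨n, t, fun j => ht ▸ Submodule.subset_span ⟨j, rfl⟩, ?_⟩
  intro τ v hv s hs
  rw [← ht] at hs
  induction hs using Submodule.span_induction with
  | mem x hx => obtain ⟨j, rfl⟩ := hx; exact hv j
  | zero => simp
  | add x y _ _ hx hy => simp [hx, hy]
  | smul a x _ hx => simp [hx]

section

variable [Fintype ι] {φ : ι → (Module.Dual F P →+ T)}

/-- Key computation: a functional vanishing on `W[J]` is, modulo functionals vanishing on `W`,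
sent by `φ i` into `J`. -/
theorem phi_mem (hφ : GenData ρ τ φ) (J : Ideal T) (hJ : J.FG)
    (W : Submodule F P) (f : Module.Dual F P) (hf : ∀ v ∈ tors τ J W, f v = 0) :
    ∃ g : Module.Dual F P, (∀ v ∈ W, f v = g v) ∧ ∀ i, φ i g ∈ J := by
  obtain ⟨n, t, ht, htk⟩ := exists_span (F := F) (P := P) J hJ
  obtain ⟨g, hg⟩ := exists_comb (τ := τ) t W f (fun v hv h => hf v ⟨hv, htk τ v h⟩)
  refine ⟨∑ j, (g j) ∘ₗ τ (t j), fun v hv => ?_, fun i => ?_⟩
  · rw [hg v hv]; simp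
  · rw [map_sum]
    refine J.sum_mem fun j _ => ?_
    rw [hφ.smul]
    exact J.mul_mem_right _ (ht j)

theorem noeth (hD : Dcc ρ) (hφ : GenData ρ τ φ) : IsNoetherianRing T := by
  rw [isNoetherianRing_iff_ideal_fg]
  intro I
  obtain ⟨W, ⟨J, hJ, hJI, rfl⟩, hmin⟩ := hD
    {W | ∃ J : Ideal T, J.FG ∧ J ≤ I ∧ W = tors τ J (⊤ : Submodule F P)}
    ⟨_, ⊥, Submodule.fg_bot, bot_le, rfl⟩
    (by rintro W ⟨J, _, _, rfl⟩; exact (ss_tors hφ.comm ss_top J).1)
  suffices h : I ≤ J by rw [le_antisymm h hJI]; exact hJ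
  have hkill : ∀ t ∈ I, ∀ v ∈ tors τ J (⊤ : Submodule F P), τ t v = 0 := by
    intro t ht v hv
    have h1 := hmin (tors τ (J ⊔ Ideal.span {t}) ⊤)
      ⟨J ⊔ Ideal.span {t}, Submodule.FG.sup hJ (Submodule.fg_span_singleton t),
        sup_le hJI ((Ideal.span_singleton_le_iff_mem _).2 ht), rfl⟩
      (fun w hw => ⟨trivial, fun s hs => hw.2 s (Ideal.mem_sup_left hs)⟩)
    rw [← h1] at hv
    exact hv.2 t (Ideal.mem_sup_right (Ideal.mem_span_singleton_self t))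
  intro t ht
  obtain ⟨f, hf⟩ := hφ.one
  have h2 : t = ∑ i, φ i (f i ∘ₗ τ t) := by
    simp only [hφ.smul, ← Finset.mul_sum, hf, mul_one]
  rw [h2]
  refine J.sum_mem fun i _ => ?_
  obtain ⟨g, hg, hgJ⟩ := phi_mem hφ J hJ ⊤ (f i ∘ₗ τ t)
    (fun v hv => by simp [hkill t ht v hv])
  have h3 : f i ∘ₗ τ t = g := LinearMap.ext fun v => hg v trivial
  rw [h3]
  exact hgJ i

/-- A stable subspace adapted to the prime `p`. -/
structure Pair (ρ : U →* Module.End F P) (τ : T →+* Module.End F P)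
    (φ : ι → (Module.Dual F P →+ T)) (p : Ideal T) (W : Submodule F P) : Prop where
  stable : SS ρ τ W
  kill : ∀ t ∈ p, ∀ v ∈ W, τ t v = 0
  ann : ∀ f : Module.Dual F P, (∀ v ∈ W, f v = 0) → ∀ i, φ i f ∈ p
  surj : ∀ t, t ∉ p → ∀ v ∈ W, ∃ w ∈ W, τ t w = v

omit [Fintype ι] in
theorem Pair.map_eq {p : Ideal T} {W : Submodule F P} (h : Pair ρ τ φ p W) {t : T}
    (ht : t ∉ p) : W.map (τ t) = W := by
  apply le_antisymm
  · rintro _ ⟨w, hw, rfl⟩; exact h.stable.2 t w hw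
  · intro v hv
    obtain ⟨w, hw, hwv⟩ := h.surj t ht v hv
    exact ⟨w, hw, hwv⟩

theorem Pair.ne_bot {p : Ideal T} {W : Submodule F P} (hφ : GenData ρ τ φ) (hp : p ≠ ⊤)
    (h : Pair ρ τ φ p W) : W ≠ ⊥ := by
  rintro rfl
  apply hp
  rw [Ideal.eq_top_iff_one]
  obtain ⟨f, hf⟩ := hφ.one
  rw [← hf]
  refine p.sum_mem fun i _ => h.ann _ (fun v hv => ?_) i
  rw [(Submodule.mem_bot F).1 hv, map_zero]

theorem exists_pair (hD : Dcc ρ) (hφ : GenData ρ τ φ) (p : Ideal T) [hp : p.IsPrime]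
    (W : Submodule F P) (hs : SS ρ τ W) (hk : ∀ t ∈ p, ∀ v ∈ W, τ t v = 0)
    (ha : ∀ f : Module.Dual F P, (∀ v ∈ W, f v = 0) → ∀ i, φ i f ∈ p) :
    ∃ W' ≤ W, Pair ρ τ φ p W' := by
  obtain ⟨V, ⟨y, hy, rfl⟩, hmin⟩ := hD
    {V | ∃ y : T, y ∉ p ∧ V = W.map (τ y)}
    ⟨_, 1, fun h => hp.ne_top ((Ideal.eq_top_iff_one _).2 h), rfl⟩
    (by rintro V ⟨y, _, rfl⟩; exact (ss_map hφ.comm hs y).1)
  have hle : W.map (τ y) ≤ W := by
    rintro _ ⟨w, hw, rfl⟩; exact hs.2 y w hw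
  refine ⟨_, hle, ss_map hφ.comm hs y, fun t ht v hv => hk t ht v (hle hv), ?_, ?_⟩
  · intro f hf i
    have h1 : φ i (f ∘ₗ τ y) ∈ p :=
      ha _ (fun v hv => hf (τ y v) ⟨v, hv, rfl⟩) i
    rw [hφ.smul] at h1
    exact (hp.mem_or_mem h1).resolve_left hy
  · intro t ht v hv
    have h1 := hmin (W.map (τ (t * y)))
      ⟨t * y, fun h => (hp.mem_or_mem h).elim ht hy, rfl⟩
      (by
        rintro _ ⟨w, hw, rfl⟩
        exact ⟨τ t w, hs.2 t w hw, by rw [map_mul, Module.End.mul_apply]; exact tau_comm y t w⟩)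
    rw [← h1] at hv
    obtain ⟨w, hw, rfl⟩ := hv
    exact ⟨τ y w, ⟨w, hw, rfl⟩, by rw [map_mul, Module.End.mul_apply]⟩

theorem exists_pair_base (hD : Dcc ρ) (hφ : GenData ρ τ φ) (p : Ideal T) [hp : p.IsPrime]
    (hfg : p.FG) : ∃ W, Pair ρ τ φ p W := by
  obtain ⟨W, _, hW⟩ := exists_pair hD hφ p (tors τ p ⊤) (ss_tors hφ.comm ss_top p)
    (fun t ht v hv => hv.2 t ht) (by
      intro f hf i
      obtain ⟨g, hg, hgp⟩ := phi_mem hφ p hfg ⊤ f hf
      rw [show f = g from LinearMap.ext fun v => hg v trivial]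
      exact hgp i)
  exact ⟨W, hW⟩

theorem exists_pair_step (hD : Dcc ρ) (hφ : GenData ρ τ φ) {p q : Ideal T} [hq : q.IsPrime]
    (hpq : p ≤ q) (hfg : q.FG) {W : Submodule F P} (hW : Pair ρ τ φ p W) :
    ∃ W' ≤ W, Pair ρ τ φ q W' := by
  obtain ⟨W', hle, h⟩ := exists_pair hD hφ q (tors τ q W) (ss_tors hφ.comm hW.stable q)
    (fun t ht v hv => hv.2 t ht) (by
      intro f hf i
      obtain ⟨g, hg, hgq⟩ := phi_mem hφ q hfg W f hf
      have h1 : φ i (f - g) ∈ p := hW.ann _ (fun v hv => by simp [hg v hv]) i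
      rw [map_sub] at h1
      have h2 := q.add_mem (hpq h1) (hgq i)
      simpa using h2)
  exact ⟨W', hle.trans (tors_le q W), h⟩

end

/-! ### growth -/

theorem fil_st (n : ℕ) : St ρ (fil ρ n) := by
  induction n with
  | zero =>
    intro g v hv
    rw [show fil ρ 0 = ⊥ from rfl, Submodule.mem_bot] at hv
    rw [hv, map_zero]; exact Submodule.zero_mem _
  | succ n _ =>
    intro g v hv h
    have h1 : ρ h (ρ g v) - ρ g v = (ρ (h * g) v - v) - (ρ g v - v) := by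
      rw [map_mul, Module.End.mul_apply]; abel
    rw [h1]
    exact (fil ρ n).sub_mem (hv (h * g)) (hv g)

theorem fil_succ_le (n : ℕ) : fil ρ n ≤ fil ρ (n + 1) := fun v hv g =>
  (fil ρ n).sub_mem (fil_st n g v hv) hv

theorem fil_mono : Monotone (fil ρ) := monotone_nat_of_le_succ fil_succ_le

theorem gr_mono (hfin : FinDim ρ) {N N' : Submodule F P} (h : N' ≤ N) {e : ℕ} (hN : Gr ρ N e) :
    Gr ρ N' e := by
  obtain ⟨C, hC⟩ := hN
  refine ⟨C, fun n => le_trans ?_ (hC n)⟩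
  have : FiniteDimensional F ↥(fil ρ n) := hfin n
  have : FiniteDimensional F ↥(N ⊓ fil ρ n) := Submodule.finiteDimensional_of_le inf_le_right
  exact Submodule.finrank_mono (inf_le_inf_right _ h)

theorem gr_zero_fin (hexh : Exh ρ) (hfin : FinDim ρ) {N : Submodule F P} (hN : Gr ρ N 0) :
    ∃ n, N ≤ fil ρ n := by
  obtain ⟨C, hC⟩ := hN
  simp only [pow_zero, mul_one] at hC
  have hfd : ∀ n, FiniteDimensional F ↥(N ⊓ fil ρ n) := fun n => by
    have : FiniteDimensional F ↥(fil ρ n) := hfin n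
    exact Submodule.finiteDimensional_of_le inf_le_right
  -- choose n with maximal dimension
  have hbdd : ∃ n, ∀ m, finrank F ↥(N ⊓ fil ρ m) ≤ finrank F ↥(N ⊓ fil ρ n) := by
    have hne : (Set.range fun n => finrank F ↥(N ⊓ fil ρ n)).Nonempty := ⟨_, 0, rfl⟩
    have hb : BddAbove (Set.range fun n => finrank F ↥(N ⊓ fil ρ n)) := ⟨C, by
      rintro _ ⟨n, rfl⟩; exact hC n⟩
    obtain ⟨n, hn⟩ := Nat.sSup_mem hne hb
    exact ⟨n, fun m => by
      have := le_csSup hb ⟨m, rfl⟩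
      simpa only [hn] using this⟩
  obtain ⟨n, hn⟩ := hbdd
  refine ⟨n, fun v hv => ?_⟩
  obtain ⟨m, hm⟩ := hexh v
  have hle : N ⊓ fil ρ n ≤ N ⊓ fil ρ (max n m) := inf_le_inf_left _ (fil_mono (le_max_left _ _))
  have := hfd (max n m)
  have heq : N ⊓ fil ρ n = N ⊓ fil ρ (max n m) :=
    Submodule.eq_of_le_of_finrank_le hle (hn _)
  have hv' : v ∈ N ⊓ fil ρ (max n m) := ⟨hv, fil_mono (le_max_right _ _) hm⟩
  rw [← heq] at hv'
  exact hv'.2

section

variable [Fintype ι] {φ : ι → (Module.Dual F P →+ T)}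

/-- chain of primes and the corresponding pairs. -/
theorem chain_pair (hfin : FinDim ρ) (hD : Dcc ρ) (hdrop : Drop ρ) (hφ : GenData ρ τ φ)
    {p q : Ideal T} [hq : q.IsPrime]
    (hpq : p < q) {W : Submodule F P} (hW : Pair ρ τ φ p W) {d : ℕ} (hd : Gr ρ W (d + 1)) :
    ∃ W' ≤ W, Pair ρ τ φ q W' ∧ Gr ρ W' d := by
  have hN := noeth hD hφ
  obtain ⟨W', hle, h⟩ := exists_pair_step hD hφ hpq.le (hN.noetherian q) hW
  obtain ⟨t, htq, htp⟩ := SetLike.exists_of_lt hpq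
  refine ⟨W', hle, h, ?_⟩
  have hle2 : W' ≤ W ⊓ LinearMap.ker (τ t) := fun v hv => ⟨hle hv, h.kill t htq v hv⟩
  exact gr_mono hfin hle2
    ((hdrop (τ t) (hφ.comm t) W hW.stable.1 (hW.map_eq htp)).2 d hd)

theorem chain_stop (hD : Dcc ρ) (hdrop : Drop ρ) (hφ : GenData ρ τ φ)
    {p q : Ideal T} [hq : q.IsPrime]
    (hpq : p < q) {W : Submodule F P} (hW : Pair ρ τ φ p W) (hd : Gr ρ W 0) : False := by
  have hN := noeth hD hφ
  obtain ⟨W', hle, h⟩ := exists_pair_step hD hφ hpq.le (hN.noetherian q) hW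
  obtain ⟨t, htq, htp⟩ := SetLike.exists_of_lt hpq
  apply h.ne_bot hφ hq.ne_top
  rw [← le_bot_iff, ← (hdrop (τ t) (hφ.comm t) W hW.stable.1 (hW.map_eq htp)).1 hd]
  exact fun v hv => ⟨hle hv, h.kill t htq v hv⟩

/-- pairs along a chain -/
theorem along (hfin : FinDim ρ) (hD : Dcc ρ) (hdrop : Drop ρ) (hφ : GenData ρ τ φ) {d : ℕ}
    (hdim : DimBd ρ d) (s : LTSeries (PrimeSpectrum T)) :
    ∀ k (hk : k < s.length + 1), k ≤ d →
      ∃ W, Pair ρ τ φ (s.toFun ⟨k, hk⟩).asIdeal W ∧ Gr ρ W (d - k) := by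
  intro k
  induction k with
  | zero =>
    intro hk _
    have hN := noeth hD hφ
    have := (s.toFun ⟨0, hk⟩).isPrime
    obtain ⟨W, hW⟩ := exists_pair_base hD hφ (s.toFun ⟨0, hk⟩).asIdeal (hN.noetherian _)
    exact ⟨W, hW, gr_mono hfin le_top hdim⟩
  | succ k ih =>
    intro hk hkd
    obtain ⟨W, hW, hg⟩ := ih (by omega) (by omega)
    have hlt : (s.toFun ⟨k, by omega⟩).asIdeal < (s.toFun ⟨k + 1, hk⟩).asIdeal :=
      s.step ⟨k, by omega⟩
    have := (s.toFun ⟨k + 1, hk⟩).isPrime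
    obtain ⟨W', _, hW', hg'⟩ := chain_pair hfin hD hdrop hφ hlt hW (d := d - (k + 1))
      (by rwa [show d - (k + 1) + 1 = d - k by omega])
    exact ⟨W', hW', hg'⟩

theorem concl (hfin : FinDim ρ) (hD : Dcc ρ) (hdrop : Drop ρ) (hφ : GenData ρ τ φ) {d : ℕ}
    (hdim : DimBd ρ d) : Concl T d := by
  refine ⟨noeth hD hφ, ?_⟩
  unfold ringKrullDim Order.krullDim
  refine iSup_le fun s => ?_
  by_contra hs
  have h3 : d + 1 ≤ s.length := by
    by_contra h
    apply hs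
    have : s.length ≤ d := by omega
    exact_mod_cast this
  obtain ⟨W, hW, hg⟩ := along hfin hD hdrop hφ hdim s d (by omega) le_rfl
  rw [Nat.sub_self] at hg
  have hlt : (s.toFun ⟨d, by omega⟩).asIdeal < (s.toFun ⟨d + 1, by omega⟩).asIdeal :=
    s.step ⟨d, by omega⟩
  have := (s.toFun ⟨d + 1, by omega⟩).isPrime
  exact chain_stop hD hdrop hφ hlt hW hg

/-- In case `d = 3` the finite image lemma improves the bound to `2`. -/
theorem concl_three {Γ : ℕ → Subgroup U} (hexh : Exh ρ) (hfin : FinDim ρ) (hopen : OpenInv Γ ρ)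
    (hD : Dcc ρ) (hdrop : Drop ρ) (hφ : GenData ρ τ φ)
    (hdim : DimBd ρ 3) (hfi : FinImage Γ ρ) : Concl T 2 := by
  refine ⟨noeth hD hφ, ?_⟩
  unfold ringKrullDim Order.krullDim
  refine iSup_le fun s => ?_
  by_contra hs
  have h3 : 3 ≤ s.length := by
    by_contra h
    apply hs
    have : s.length ≤ 2 := by omega
    exact_mod_cast this
  obtain ⟨W2, hW2, g2⟩ := along hfin hD hdrop hφ hdim s 2 (by omega) (by norm_num)
  have hlt : (s.toFun ⟨2, by omega⟩).asIdeal < (s.toFun ⟨3, by omega⟩).asIdeal :=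
    s.step ⟨2, by omega⟩
  have hq := (s.toFun ⟨3, by omega⟩).isPrime
  have hN := noeth hD hφ
  obtain ⟨W3, hle3, hW3⟩ := exists_pair_step hD hφ hlt.le (hN.noetherian _) hW2
  obtain ⟨t, htq, htp⟩ := SetLike.exists_of_lt hlt
  have hker : Gr ρ (W2 ⊓ LinearMap.ker (τ t)) 0 :=
    (hdrop (τ t) (hφ.comm t) W2 hW2.stable.1 (hW2.map_eq htp)).2 0 g2
  obtain ⟨n0, hn0⟩ := gr_zero_fin hexh hfin hker
  let Z : Submodule F P :=
    { carrier := {v | v ∈ W2 ∧ ∃ n : ℕ, ((τ t) ^ n) v = 0}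
      add_mem' := by
        rintro a b ⟨ha, n, hn⟩ ⟨hb, m, hm⟩
        refine ⟨W2.add_mem ha hb, n + m, ?_⟩
        rw [map_add, pow_add, Module.End.mul_apply, Module.End.mul_apply, hm, map_zero, add_zero,
          ← Module.End.mul_apply, ← pow_add, add_comm n m, pow_add, Module.End.mul_apply, hn,
          map_zero]
      zero_mem' := ⟨W2.zero_mem, 0, map_zero _⟩
      smul_mem' := by
        rintro c x ⟨hx, n, hn⟩
        exact ⟨W2.smul_mem c hx, n, by rw [map_smul, hn, smul_zero]⟩ }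
  have hZst : St ρ Z := by
    rintro g v ⟨hv, n, hn⟩
    refine ⟨hW2.stable.1 g v hv, n, ?_⟩
    have h := LinearMap.congr_fun ((hφ.comm t g).pow_left n) v
    simp only [Module.End.mul_apply] at h
    rw [h, hn, map_zero]
  have hZmap : Z.map (τ t) = Z := by
    apply le_antisymm
    · rintro _ ⟨w, ⟨hw, n, hn⟩, rfl⟩
      refine ⟨hW2.stable.2 t w hw, n, ?_⟩
      rw [← Module.End.mul_apply, ← pow_succ, pow_succ', Module.End.mul_apply, hn, map_zero]
    · rintro v ⟨hv, n, hn⟩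
      obtain ⟨w, hw, rfl⟩ := hW2.surj t htp v hv
      exact ⟨w, ⟨hw, n + 1, by rw [pow_succ, Module.End.mul_apply, hn]⟩, rfl⟩
  have hZker : FiniteDimensional F ↥(Z ⊓ LinearMap.ker (τ t)) := by
    have : FiniteDimensional F ↥(fil ρ n0) := hfin n0
    exact Submodule.finiteDimensional_of_le
      (show Z ⊓ LinearMap.ker (τ t) ≤ fil ρ n0 from fun v hv => hn0 ⟨hv.1.1, hv.2⟩)
  obtain ⟨n, hn⟩ := hfi (τ t) (hφ.comm t) Z hZst hZmap (fun v hv => hv.2) hZker
  obtain ⟨m, hm⟩ := hopen n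
  have hZfil : Z ≤ fil ρ m := fun v hv => hm v (fun g hg => hn g hg v hv)
  have hZfin : FiniteDimensional F ↥Z := by
    have : FiniteDimensional F ↥(fil ρ m) := hfin m
    exact Submodule.finiteDimensional_of_le hZfil
  -- `Gr ρ Z 0`
  have hZgr : Gr ρ Z 0 := ⟨finrank F ↥Z, fun k => by
    rw [pow_zero, mul_one]
    exact Submodule.finrank_mono inf_le_left⟩
  have hZbot := (hdrop (τ t) (hφ.comm t) Z hZst hZmap).1 hZgr
  apply hW3.ne_bot hφ hq.ne_top
  rw [← le_bot_iff, ← hZbot]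
  intro v hv
  have hk := hW3.kill t htq v hv
  exact ⟨⟨hle3 hv, 1, by rw [pow_one]; exact hk⟩, hk⟩

end

end Crest.Agent.R007.HChainB
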