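import Crest.Agent.R007.HAR
import Mathlib.GroupTheory.PGroup

/-!
# Row 7, part H: `fil` is exhaustive (helper775)
-/

set_option autoImplicit false
set_option linter.unusedSectionVars false
set_option linter.style.haveILetI false

open Module

namespace Crest.Agent.R007.H

section Exh

variable {F P U : Type*} [Field F] [Finite F] [CharP F 2] [AddCommGroup P] [Module F P] [Group U]
variable {ρ : U →* Module.End F P} {Γ : ℕ → Subgroup U} {d : ℕ} {u : Fin d → U}

theorem FiltGroup.two_pow_mem (hΓ : FiltGroup Γ d u) (g : U) (n : ℕ) : g ^ (2 ^ n) ∈ Γ n := by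
  induction n with
  | zero => rw [hΓ.zero]; trivial
  | succ n ih =>
    rw [pow_succ, pow_mul]
    exact hΓ.sq_mem n _ ih

/-- the induced action on `P / fil k` -/
noncomputable def qact (ρ : U →* Module.End F P) (k : ℕ) : U →* Module.End F (P ⧸ fil ρ k) where
  toFun g := (fil ρ k).mapQ (fil ρ k) (ρ g) (fun v hv => fil_stable k g v hv)
  map_one' := by
    ext v
    simp
  map_mul' a b := by
    ext v
    simp

theorem qact_mk (k : ℕ) (g : U) (v : P) :
    qact ρ k g (Submodule.Quotient.mk v) = Submodule.Quotient.mk (ρ g v) := rfl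

theorem fp (hΓ : FiltGroup Γ d u) {n k : ℕ} {W : Submodule F P} (hW : St ρ W)
    (hfin : Finite ↥W) (hfix : ∀ g ∈ Γ n, ∀ w ∈ W, ρ g w = w) (hle : ¬ W ≤ fil ρ k) :
    ∃ w ∈ W, w ∈ fil ρ (k + 1) ∧ w ∉ fil ρ k := by
  let X : Submodule F (P ⧸ fil ρ k) := W.map (fil ρ k).mkQ
  have hXst : ∀ g, ∀ x ∈ X, qact ρ k g x ∈ X := by
    rintro g _ ⟨w, hw, rfl⟩
    exact ⟨ρ g w, hW g w hw, rfl⟩
  have hXfix : ∀ g ∈ Γ n, ∀ x ∈ X, qact ρ k g x = x := by
    rintro g hg _ ⟨w, hw, rfl⟩
    show Submodule.Quotient.mk (ρ g w) = Submodule.Quotient.mk w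
    rw [hfix g hg w hw]
  haveI hXfin : Finite ↥X := by
    apply Set.Finite.to_subtype
    exact (Set.toFinite (W : Set P)).image _
  letI act : MulAction U ↥X :=
    { smul := fun g x => ⟨qact ρ k g x.1, hXst g x.1 x.2⟩
      one_smul := fun x => by
        apply Subtype.ext
        show qact ρ k 1 x.1 = x.1
        rw [map_one]; rfl
      mul_smul := fun a b x => by
        apply Subtype.ext
        show qact ρ k (a * b) x.1 = qact ρ k a (qact ρ k b x.1)
        rw [map_mul]; rfl }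
  have hsmul : ∀ (g : U) (x : ↥X), ((g • x : ↥X) : P ⧸ fil ρ k) = qact ρ k g x.1 := fun _ _ => rfl
  let G := (MulAction.toPermHom U ↥X).range
  have hG : IsPGroup 2 ↥G := by
    rintro ⟨σ, g, rfl⟩
    refine ⟨n, ?_⟩
    apply Subtype.ext
    show (MulAction.toPermHom U ↥X g) ^ (2 ^ n) = 1
    rw [← map_pow]
    ext x
    show ((g ^ (2 ^ n) • x : ↥X) : P ⧸ fil ρ k) = x
    rw [hsmul]
    exact hXfix _ (hΓ.two_pow_mem g n) x.1 x.2
  haveI : Fact (Nat.Prime 2) := ⟨Nat.prime_two⟩
  -- `X ≠ 0`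
  have hXne : ∃ x : ↥X, x ≠ 0 := by
    obtain ⟨w, hw, hw'⟩ := SetLike.not_le_iff_exists.1 hle
    refine ⟨⟨(fil ρ k).mkQ w, ⟨w, hw, rfl⟩⟩, ?_⟩
    intro h0
    apply hw'
    have := congrArg Subtype.val h0
    simpa using this
  have hdvd : 2 ∣ Nat.card ↥X := by
    obtain ⟨x, hx⟩ := hXne
    have h2 : x + x = 0 := by
      have : (2 : F) • x = 0 := by
        have : (2 : F) = 0 := CharTwo.two_eq_zero
        rw [this, zero_smul]
      rwa [two_smul] at this
    have h1 : addOrderOf x = 2 := by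
      apply addOrderOf_eq_prime
      · rw [two_nsmul]; exact h2
      · exact hx
    rw [← h1]
    exact addOrderOf_dvd_natCard x
  have h0 : (0 : ↥X) ∈ MulAction.fixedPoints ↥G ↥X := by
    rintro ⟨σ, g, rfl⟩
    show (g • (0 : ↥X)) = 0
    apply Subtype.ext
    rw [hsmul]
    simp
  obtain ⟨x, hx, hx0⟩ := hG.exists_fixed_point_of_prime_dvd_card_of_fixed_point (α := ↥X) hdvd h0
  obtain ⟨⟨_, w, hw, rfl⟩, rfl⟩ : ∃ y : ↥X, y = x := ⟨x, rfl⟩
  refine ⟨w, hw, ?_, ?_⟩
  · intro g
    have h1 : (g • (⟨(fil ρ k).mkQ w, ⟨w, hw, rfl⟩⟩ : ↥X)) = ⟨(fil ρ k).mkQ w, ⟨w, hw, rfl⟩⟩ :=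
      hx ⟨_, g, rfl⟩
    have h2 := congrArg Subtype.val h1
    rw [hsmul] at h2
    have h3 : Submodule.Quotient.mk (p := fil ρ k) (ρ g w) = Submodule.Quotient.mk w := h2
    exact (Submodule.Quotient.eq _).1 h3
  · intro hwk
    apply hx0
    symm
    apply Subtype.ext
    show (fil ρ k).mkQ w = 0
    simpa using hwk

theorem le_fil (hΓ : FiltGroup Γ d u) {n : ℕ} {W : Submodule F P} (hW : St ρ W)
    (hfd : FiniteDimensional F ↥W) (hfix : ∀ g ∈ Γ n, ∀ w ∈ W, ρ g w = w) {m : ℕ}
    (hm : finrank F ↥W ≤ m) : W ≤ fil ρ m := by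
  haveI : Finite ↥W := Module.finite_of_finite F
  have key : ∀ k, k ≤ finrank F ↥(W ⊓ fil ρ k) ∨ W ≤ fil ρ k := by
    intro k
    induction k with
    | zero => left; exact Nat.zero_le _
    | succ k ih =>
      by_cases hle : W ≤ fil ρ k
      · right; exact hle.trans (fil_le_succ k)
      · left
        rcases ih with h1 | h1
        · obtain ⟨w, hw, hw1, hw2⟩ := fp hΓ hW inferInstance hfix hle
          haveI : FiniteDimensional F ↥(W ⊓ fil ρ (k + 1)) :=
            Submodule.finiteDimensional_of_le inf_le_left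
          have hlt : W ⊓ fil ρ k < W ⊓ fil ρ (k + 1) := by
            refine lt_of_le_of_ne (inf_le_inf_left _ (fil_le_succ k)) ?_
            intro h0
            have : w ∈ W ⊓ fil ρ (k + 1) := ⟨hw, hw1⟩
            rw [← h0] at this
            exact hw2 this.2
          have := Submodule.finrank_lt_finrank_of_lt hlt
          omega
        · exact absurd h1 hle
  rcases key m with h1 | h1
  · have h2 : finrank F ↥W ≤ finrank F ↥(W ⊓ fil ρ m) := hm.trans h1
    have h3 : W ⊓ fil ρ m = W := Submodule.eq_of_le_of_finrank_le inf_le_left h2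
    exact inf_eq_left.1 h3
  · exact h1

/-- NODE 1c -/
theorem openInv (hΓ : FiltGroup Γ d u) : OpenInv Γ ρ := by
  intro n
  haveI := hΓ.finiteIndex n
  haveI : Fintype (U ⧸ Γ n) := Fintype.ofFinite _
  refine ⟨Fintype.card (U ⧸ Γ n), fun v hv => ?_⟩
  let b : (U ⧸ Γ n) → P := fun q => ρ q.out v
  let W := Submodule.span F (Set.range b)
  have hb : ∀ g, ρ g v = b (QuotientGroup.mk g) := by
    intro g
    symm
    apply fix_of_mul hv
    rw [← QuotientGroup.eq]
    simp
  have hmem : ∀ g, ρ g v ∈ W := fun g => by rw [hb]; exact Submodule.subset_span ⟨_, rfl⟩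
  have hWst : St ρ W := by
    intro g w hw
    have : W ≤ W.comap (ρ g) := by
      apply Submodule.span_le.2
      rintro _ ⟨q, rfl⟩
      show ρ g (ρ q.out v) ∈ W
      rw [← Module.End.mul_apply, ← map_mul]
      exact hmem _
    exact this hw
  have hfix : ∀ g ∈ Γ n, ∀ w ∈ W, ρ g w = w := by
    intro g hg w hw
    have : W ≤ LinearMap.eqLocus (ρ g) LinearMap.id := by
      apply Submodule.span_le.2
      rintro _ ⟨q, rfl⟩
      show ρ g (ρ q.out v) = ρ q.out v
      rw [← Module.End.mul_apply, ← map_mul]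
      apply fix_of_mul hv
      haveI := hΓ.normal n
      have := (hΓ.normal n).conj_mem g hg q.out⁻¹
      simpa [mul_assoc] using this
    exact this hw
  have hfd : FiniteDimensional F ↥W := FiniteDimensional.span_of_finite F (Set.finite_range b)
  have := le_fil hΓ hWst hfd hfix (finrank_range_le_card b)
  apply this
  have h1 := hmem 1
  rwa [map_one] at h1

/-- NODE 1a -/
theorem exh (hΓ : FiltGroup Γ d u) (hρ : Smooth Γ ρ) : Exh ρ := by
  intro v
  obtain ⟨N, hN⟩ := hρ.smooth v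
  obtain ⟨m, hm⟩ := openInv (ρ := ρ) hΓ N
  exact ⟨m, hm v hN⟩

end Exh

end Crest.Agent.R007.H
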