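import Mathlib

/-!
# Row 7, part H, node 5: the finite image lemma, algebraic core.

`R = F⟦X⟧`, `char F = 2`, `E` an `R`-algebra without `X`-torsion and `X`-adically separated.
If `a, b ∈ E` satisfy `X ^ 2 ^ (k + l) ∣ [a ^ 2 ^ k, b ^ 2 ^ l]` for all `k, l` and the powers
`a ^ 2 ^ k` (`k ≤ D`), `b ^ 2 ^ k` (`k ≤ D`) are `R`-linearly dependent, then
`a ^ 2 ^ D` and `b ^ 2 ^ D` commute.
-/

set_option autoImplicit false

open Finset Polynomial

namespace Crest.Agent.R007.H.FI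

variable {F : Type*} [Field F] [CharP F 2] {E : Type*} [Ring E] [Algebra (PowerSeries F) E]

/-- divisibility by `X ^ m` in the algebra -/
def Dv (F : Type*) [Field F] {E : Type*} [Ring E] [Algebra (PowerSeries F) E] (m : ℕ) (y : E) :
    Prop := ∃ z : E, y = (PowerSeries.X : PowerSeries F) ^ m • z

theorem Dv.zero (m : ℕ) : Dv F m (0 : E) := ⟨0, by simp⟩

theorem Dv.add {m : ℕ} {y z : E} (hy : Dv F m y) (hz : Dv F m z) : Dv F m (y + z) := by
  obtain ⟨y', rfl⟩ := hy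
  obtain ⟨z', rfl⟩ := hz
  exact ⟨y' + z', by rw [smul_add]⟩

theorem Dv.neg {m : ℕ} {y : E} (hy : Dv F m y) : Dv F m (-y) := by
  obtain ⟨y', rfl⟩ := hy
  exact ⟨-y', by rw [smul_neg]⟩

theorem Dv.smul {m : ℕ} {y : E} (c : PowerSeries F) (hy : Dv F m y) : Dv F m (c • y) := by
  obtain ⟨y', rfl⟩ := hy
  exact ⟨c • y', by rw [smul_comm]⟩

theorem Dv.sum {ι : Type*} {m : ℕ} (s : Finset ι) (f : ι → E) (h : ∀ i ∈ s, Dv F m (f i)) :
    Dv F m (∑ i ∈ s, f i) := by
  classical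
  induction s using Finset.induction_on with
  | empty => simpa using Dv.zero m
  | insert i s hi ih =>
    rw [Finset.sum_insert hi]
    exact (h i (Finset.mem_insert_self _ _)).add
      (ih fun j hj => h j (Finset.mem_insert_of_mem hj))

theorem Dv.mono {m n : ℕ} (h : m ≤ n) {y : E} (hy : Dv F n y) : Dv F m y := by
  obtain ⟨y', rfl⟩ := hy
  refine ⟨(PowerSeries.X : PowerSeries F) ^ (n - m) • y', ?_⟩
  rw [smul_smul, ← pow_add, Nat.add_sub_cancel' h]

/-- no `X`-torsion -/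
def TF (F : Type*) [Field F] (E : Type*) [Ring E] [Algebra (PowerSeries F) E] : Prop :=
  ∀ (n : ℕ) (y : E), (PowerSeries.X : PowerSeries F) ^ n • y = 0 → y = 0

/-- `X`-adically separated -/
def Sep (F : Type*) [Field F] (E : Type*) [Ring E] [Algebra (PowerSeries F) E] : Prop :=
  ∀ (y : E), (∀ n, Dv F n y) → y = 0

theorem Dv.cancel (hTF : TF F E) {m n : ℕ} {y : E}
    (hy : Dv F (n + m) ((PowerSeries.X : PowerSeries F) ^ n • y)) : Dv F m y := by
  obtain ⟨z, hz⟩ := hy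
  refine ⟨z, ?_⟩
  have : (PowerSeries.X : PowerSeries F) ^ n • (y - (PowerSeries.X : PowerSeries F) ^ m • z) = 0 := by
    rw [smul_sub, hz, smul_smul, ← pow_add, sub_self]
  exact sub_eq_zero.1 (hTF n _ this)

instance : CharP (PowerSeries F) 2 :=
  charP_of_injective_ringHom (f := PowerSeries.C (R := F)) PowerSeries.C_injective 2

/-- Frobenius applied to a relation -/
theorem frob_rel {c : ℕ → PowerSeries F} {a : E} {D : ℕ}
    (h : ∑ k ∈ range (D + 1), c k • a ^ 2 ^ k = 0) (j : ℕ) :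
    ∑ k ∈ range (D + 1), (c k) ^ 2 ^ j • a ^ 2 ^ (k + j) = 0 := by
  let P : (PowerSeries F)[X] := ∑ k ∈ range (D + 1), C (c k) * X ^ 2 ^ k
  have hP : aeval a P = 0 := by
    simp only [P, map_sum, map_mul, aeval_C, map_pow, aeval_X]
    rw [← h]
    exact Finset.sum_congr rfl fun k _ => (Algebra.smul_def _ _).symm
  have hP2 : P ^ 2 ^ j = ∑ k ∈ range (D + 1), C ((c k) ^ 2 ^ j) * X ^ 2 ^ (k + j) := by
    haveI : ExpChar (PowerSeries F)[X] 2 := ExpChar.prime Nat.prime_two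
    simp only [P]
    rw [sum_pow_char_pow]
    refine Finset.sum_congr rfl fun k _ => ?_
    rw [mul_pow, ← map_pow, ← pow_mul, ← pow_add]
  have h3 : aeval a (P ^ 2 ^ j) = 0 := by
    rw [map_pow, hP, zero_pow (by positivity)]
  rw [hP2] at h3
  simp only [map_sum, map_mul, aeval_C, map_pow, aeval_X] at h3
  rw [← h3]
  refine Finset.sum_congr rfl fun k _ => ?_
  rw [Algebra.smul_def, map_pow]

/-- matrix commutator -/
def Cm (a b : E) (k l : ℕ) : E := a ^ 2 ^ k * b ^ 2 ^ l - b ^ 2 ^ l * a ^ 2 ^ k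

theorem Cm_swap (a b : E) (k l : ℕ) : Cm a b k l = - Cm b a l k := by
  simp [Cm]

theorem rel_left {c : ℕ → PowerSeries F} {a : E} {D : ℕ}
    (h : ∑ k ∈ range (D + 1), c k • a ^ 2 ^ k = 0) (b : E) (j l : ℕ) :
    ∑ k ∈ range (D + 1), (c k) ^ 2 ^ j • Cm a b (k + j) l = 0 := by
  have h1 := frob_rel h j
  have h2 : (∑ k ∈ range (D + 1), (c k) ^ 2 ^ j • a ^ 2 ^ (k + j)) * b ^ 2 ^ l
      - b ^ 2 ^ l * (∑ k ∈ range (D + 1), (c k) ^ 2 ^ j • a ^ 2 ^ (k + j)) = 0 := by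
    rw [h1]; simp
  rw [Finset.sum_mul, Finset.mul_sum, ← Finset.sum_sub_distrib] at h2
  rw [← h2]
  refine Finset.sum_congr rfl fun k _ => ?_
  rw [Cm, smul_sub, smul_mul_assoc, mul_smul_comm]

/-- normalised relation -/
structure Rel (F : Type*) [Field F] {E : Type*} [Ring E] [Algebra (PowerSeries F) E] (a : E)
    (D : ℕ) (c : ℕ → PowerSeries F) (k0 K : ℕ) : Prop where
  rel : ∑ k ∈ range (D + 1), c k • a ^ 2 ^ k = 0
  le : k0 ≤ D
  low : ∀ k < k0, c k = 0
  lead : c k0 = (PowerSeries.X : PowerSeries F) ^ K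

theorem Rel.isolate {a : E} {D : ℕ} {c : ℕ → PowerSeries F} {k0 K : ℕ}
    (h : Rel F a D c k0 K) (b : E) (j l : ℕ) :
    (PowerSeries.X : PowerSeries F) ^ (K * 2 ^ j) • Cm a b (k0 + j) l =
      - ∑ k ∈ (range (D + 1)).filter (fun k => k0 < k), (c k) ^ 2 ^ j • Cm a b (k + j) l := by
  have h1 := rel_left h.rel b j l
  have h2 : ∑ k ∈ range (D + 1), (c k) ^ 2 ^ j • Cm a b (k + j) l
      = ∑ k ∈ (range (D + 1)).filter (fun k => k0 < k), (c k) ^ 2 ^ j • Cm a b (k + j) l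
        + (PowerSeries.X : PowerSeries F) ^ (K * 2 ^ j) • Cm a b (k0 + j) l := by
    rw [← Finset.sum_filter_add_sum_filter_not (range (D + 1)) (fun k => k0 < k)]
    congr 1
    rw [Finset.sum_eq_single_of_mem k0]
    · rw [h.lead, ← pow_mul]
    · simp only [Finset.mem_filter, Finset.mem_range]
      exact ⟨Nat.lt_succ_of_le h.le, lt_irrefl _⟩
    · intro k hk hk0
      simp only [Finset.mem_filter, Finset.mem_range, not_lt] at hk
      rw [h.low k (lt_of_le_of_ne hk.2 hk0), zero_pow (by positivity), zero_smul]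
  rw [h2] at h1
  exact eq_neg_of_add_eq_zero_right h1

theorem claim1_aux (hTF : TF F E) {a b : E} {D : ℕ} {c : ℕ → PowerSeries F} {k0 K : ℕ}
    (h : Rel F a D c k0 K) (hdiv : ∀ k l, Dv F (2 ^ (k + l)) (Cm a b k l)) {l : ℕ}
    (hl : K + 1 ≤ 2 ^ (k0 + l)) (t : ℕ) :
    ∀ j, Dv F (2 ^ j * (K + 2 ^ t)) (Cm a b (k0 + j) l) := by
  induction t with
  | zero =>
    intro j
    refine Dv.mono ?_ (hdiv (k0 + j) l)
    have : 2 ^ (k0 + j + l) = 2 ^ j * 2 ^ (k0 + l) := by ring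
    rw [this, pow_zero]
    exact Nat.mul_le_mul_left _ hl
  | succ t ih =>
    intro j
    apply Dv.cancel hTF (n := K * 2 ^ j)
    rw [h.isolate b j l]
    refine Dv.neg (Dv.sum _ _ fun k hk => Dv.smul _ ?_)
    simp only [Finset.mem_filter, Finset.mem_range] at hk
    have hk' : k + j = k0 + (j + (k - k0)) := by omega
    rw [hk']
    refine Dv.mono ?_ (ih (j + (k - k0)))
    have h1 : 2 ^ (j + 1) ≤ 2 ^ (j + (k - k0)) := Nat.pow_le_pow_right (by norm_num) (by omega)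
    calc K * 2 ^ j + 2 ^ j * (K + 2 ^ (t + 1)) = 2 ^ (j + 1) * (K + 2 ^ t) := by ring
      _ ≤ _ := Nat.mul_le_mul_right _ h1

theorem claim1 (hTF : TF F E) (hS : Sep F E) {a b : E} {D : ℕ} {c : ℕ → PowerSeries F} {k0 K : ℕ}
    (h : Rel F a D c k0 K) (hdiv : ∀ k l, Dv F (2 ^ (k + l)) (Cm a b k l)) {l : ℕ}
    (hl : K + 1 ≤ 2 ^ (k0 + l)) {k : ℕ} (hk : k0 ≤ k) : Cm a b k l = 0 := by
  refine hS _ fun n => ?_
  have h1 := claim1_aux hTF h hdiv hl n (k - k0)
  rw [Nat.add_sub_cancel' hk] at h1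
  refine Dv.mono ?_ h1
  calc n ≤ 2 ^ n := Nat.lt_two_pow_self.le
    _ ≤ K + 2 ^ n := Nat.le_add_left _ _
    _ ≤ 2 ^ (k - k0) * (K + 2 ^ n) := Nat.le_mul_of_pos_left _ (by positivity)

theorem claim2 (hTF : TF F E) {a b : E} {D : ℕ} {c : ℕ → PowerSeries F} {k0 K : ℕ}
    (h : Rel F a D c k0 K) (l : ℕ) (L : ℕ) (hL : ∀ k, L ≤ k → Cm a b k l = 0) :
    ∀ k, k0 ≤ k → Cm a b k l = 0 := by
  induction L with
  | zero => exact fun k _ => hL k (Nat.zero_le _)
  | succ L ih =>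
    by_cases hLk : k0 ≤ L
    · apply ih
      intro k hk
      rcases eq_or_lt_of_le hk with rfl | hk
      · obtain ⟨j, rfl⟩ := Nat.exists_eq_add_of_le hLk
        have h1 := h.isolate b j l
        rw [Finset.sum_eq_zero, neg_zero] at h1
        · exact hTF _ _ h1
        · intro k hk
          simp only [Finset.mem_filter, Finset.mem_range] at hk
          rw [hL (k + j) (by omega), smul_zero]
      · exact hL k hk
    · intro k hk
      exact hL k (by omega)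

/-- **algebraic core of the finite image lemma** -/
theorem core (hTF : TF F E) (hS : Sep F E) {a b : E} {D : ℕ} {c c' : ℕ → PowerSeries F}
    {k0 K k0' K' : ℕ} (h : Rel F a D c k0 K) (h' : Rel F b D c' k0' K')
    (hdiv : ∀ k l, Dv F (2 ^ (k + l)) (Cm a b k l)) : Commute (a ^ 2 ^ D) (b ^ 2 ^ D) := by
  have h1 : ∀ l, K ≤ l → Cm a b D l = 0 := by
    intro l hl
    refine claim1 hTF hS h hdiv ?_ h.le
    calc K + 1 ≤ l + 1 := by omega
      _ ≤ 2 ^ l := Nat.lt_two_pow_self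
      _ ≤ 2 ^ (k0 + l) := Nat.pow_le_pow_right (by norm_num) (by omega)
  have h2 : Cm b a D D = 0 := by
    refine claim2 hTF h' D K ?_ D h'.le
    intro k hk
    rw [Cm_swap, h1 k hk, neg_zero]
  have h3 := sub_eq_zero.1 h2
  exact h3.symm

end Crest.Agent.R007.H.FI
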