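import Crest.Agent.R007.HWords

/-!
# Row 7, part H: the pairing with `(MvPolynomial (Fin d) F)^h`, DCC, dimension bound (helper775)
-/

set_option autoImplicit false
set_option linter.unusedSectionVars false
set_option linter.style.haveILetI false

open Module

namespace Crest.Agent.R007.H

section Pair

variable {F P U : Type*} [Field F] [CharP F 2] [AddCommGroup P] [Module F P] [Group U]
variable {ρ : U →* Module.End F P} {Γ : ℕ → Subgroup U} {d : ℕ} {u : Fin d → U}

/-- separating functionals on the invariants -/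
def Sep (ρ : U →* Module.End F P) {h : ℕ} (ℓ : Fin h → Module.Dual F P) : Prop :=
  ∀ v ∈ fil ρ 1, (∀ j, ℓ j v = 0) → v = 0

theorem exists_sep (hρ : Smooth Γ ρ) : ∃ (h : ℕ) (ℓ : Fin h → Module.Dual F P), Sep ρ ℓ := by
  haveI := hρ.adm
  let b := Module.finBasis F ↥(fil ρ 1)
  have hex : ∀ j, ∃ g : Module.Dual F P, g ∘ₗ (fil ρ 1).subtype = b.coord j := fun j =>
    LinearMap.exists_extend (b.coord j)
  choose ℓ hℓ using hex
  refine ⟨_, ℓ, ?_⟩
  intro v hv h0
  have : (⟨v, hv⟩ : ↥(fil ρ 1)) = 0 := by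
    apply b.ext_elem
    intro j
    have := congrArg (fun f => f ⟨v, hv⟩) (hℓ j)
    simp only [LinearMap.comp_apply, Submodule.subtype_apply, Basis.coord_apply] at this
    rw [← this, h0 j]
    simp
  exact congrArg Subtype.val this

/-- exponents of degree `n` -/
noncomputable def mons (d n : ℕ) : Finset (Fin d →₀ ℕ) := Finset.finsuppAntidiag Finset.univ n

theorem mem_mons {n : ℕ} {α : Fin d →₀ ℕ} : α ∈ mons d n ↔ α.degree = n := by
  rw [mons, Finset.mem_finsuppAntidiag, Finsupp.degree_eq_sum]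
  simp

/-- the free module over the polynomial ring -/
abbrev Fr (F : Type*) [Field F] (d h : ℕ) : Type _ := Fin h → MvPolynomial (Fin d) F

/-- the pairing of degree `n` -/
noncomputable def pr (ρ : U →* Module.End F P) (u : Fin d → U) {h : ℕ} (ℓ : Fin h → Module.Dual F P)
    (n : ℕ) (v : P) : Fr F d h →ₗ[F] F where
  toFun f := ∑ j, ∑ α ∈ mons d n, (f j).coeff α * ℓ j (wd ρ u (mon α) v)
  map_add' f g := by
    simp only [Pi.add_apply, MvPolynomial.coeff_add, add_mul, Finset.sum_add_distrib]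
  map_smul' c f := by
    simp only [Pi.smul_apply, MvPolynomial.coeff_smul, smul_eq_mul, RingHom.id_apply,
      Finset.mul_sum, mul_assoc]

theorem pr_apply {h : ℕ} (ℓ : Fin h → Module.Dual F P) (n : ℕ) (v : P) (f : Fr F d h) :
    pr ρ u ℓ n v f = ∑ j, ∑ α ∈ mons d n, (f j).coeff α * ℓ j (wd ρ u (mon α) v) := rfl

theorem pr_add {h : ℕ} (ℓ : Fin h → Module.Dual F P) (n : ℕ) (v w : P) (f : Fr F d h) :
    pr ρ u ℓ n (v + w) f = pr ρ u ℓ n v f + pr ρ u ℓ n w f := by
  simp only [pr_apply, map_add, mul_add, Finset.sum_add_distrib]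

theorem pr_sub {h : ℕ} (ℓ : Fin h → Module.Dual F P) (n : ℕ) (v w : P) (f : Fr F d h) :
    pr ρ u ℓ n (v - w) f = pr ρ u ℓ n v f - pr ρ u ℓ n w f := by
  simp only [pr_apply, map_sub, mul_sub, Finset.sum_sub_distrib]

theorem pr_of_fil {h : ℕ} (ℓ : Fin h → Module.Dual F P) {n : ℕ} {v : P} (hv : v ∈ fil ρ n)
    (f : Fr F d h) : pr ρ u ℓ n v f = 0 := by
  rw [pr_apply]
  refine Finset.sum_eq_zero fun j _ => Finset.sum_eq_zero fun α hα => ?_
  have h1 := wd_mem (ρ := ρ) (u := u) (mon α) hv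
  rw [mon_length, mem_mons.1 hα, Nat.sub_self, fil_zero, Submodule.mem_bot] at h1
  rw [h1, map_zero, mul_zero]

/-- homogeneous elements of `Fr` -/
def Hom {h : ℕ} (n : ℕ) (f : Fr F d h) : Prop := ∀ j, ∀ α, (f j).coeff α ≠ 0 → α.degree = n

theorem pr_of_hom {h : ℕ} (ℓ : Fin h → Module.Dual F P) {m n : ℕ} (hmn : m ≠ n) (v : P)
    {f : Fr F d h} (hf : Hom m f) : pr ρ u ℓ n v f = 0 := by
  rw [pr_apply]
  refine Finset.sum_eq_zero fun j _ => Finset.sum_eq_zero fun α hα => ?_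
  have : (f j).coeff α = 0 := by
    by_contra h0
    exact hmn ((hf j α h0).symm.trans (mem_mons.1 hα))
  rw [this, zero_mul]

theorem pr_zero_X {h : ℕ} (ℓ : Fin h → Module.Dual F P) (v : P) (i : Fin d) (f : Fr F d h) :
    pr ρ u ℓ 0 v ((MvPolynomial.X i : MvPolynomial (Fin d) F) • f) = 0 := by
  rw [pr_apply]
  refine Finset.sum_eq_zero fun j _ => Finset.sum_eq_zero fun α hα => ?_
  have hα0 : α = 0 := by
    have := mem_mons.1 hα
    exact (Finsupp.degree_eq_zero_iff α).1 this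
  subst hα0
  rw [Pi.smul_apply, smul_eq_mul, MvPolynomial.coeff_X_mul']
  simp

theorem pr_X (hΓ : FiltGroup Γ d u) (hρ : Smooth Γ ρ) {h : ℕ} (ℓ : Fin h → Module.Dual F P) {n : ℕ}
    {v : P} (hv : v ∈ fil ρ (n + 2)) (i : Fin d) (f : Fr F d h) :
    pr ρ u ℓ (n + 1) v ((MvPolynomial.X i : MvPolynomial (Fin d) F) • f)
      = pr ρ u ℓ n (Xo ρ u i v) f := by
  rw [pr_apply, pr_apply]
  refine Finset.sum_congr rfl fun j _ => ?_
  simp only [Pi.smul_apply, smul_eq_mul, MvPolynomial.coeff_X_mul']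
  symm
  refine Finset.sum_of_injOn (fun β => β + Finsupp.single i 1) ?_ ?_ ?_ ?_
  · intro a _ b _ hab
    exact add_right_cancel hab
  · intro β hβ
    rw [Finset.mem_coe, mem_mons] at hβ ⊢
    rw [map_add, hβ, Finsupp.degree_single]
  · intro α hα hα'
    have : i ∉ α.support := by
      intro hi
      apply hα'
      refine ⟨α - Finsupp.single i 1, ?_, ?_⟩
      · rw [Finset.mem_coe, mem_mons]
        have h1 : α - Finsupp.single i 1 + Finsupp.single i 1 = α := by
          apply tsub_add_cancel_of_le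
          rw [Finsupp.single_le_iff]
          exact Nat.one_le_iff_ne_zero.2 (Finsupp.mem_support_iff.1 hi)
        have h2 := congrArg Finsupp.degree h1
        rw [map_add, Finsupp.degree_single, mem_mons.1 hα] at h2
        omega
      · show α - Finsupp.single i 1 + Finsupp.single i 1 = α
        apply tsub_add_cancel_of_le
        rw [Finsupp.single_le_iff]
        exact Nat.one_le_iff_ne_zero.2 (Finsupp.mem_support_iff.1 hi)
    rw [if_neg this, zero_mul]
  · intro β hβ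
    have hs : i ∈ (β + Finsupp.single i 1).support := by
      rw [Finsupp.mem_support_iff]; simp
    rw [if_pos hs, add_tsub_cancel_right]
    congr 2
    rw [← wd_single (ρ := ρ) (u := u) i v, ← wd_append]
    symm
    apply wd_perm' hΓ hρ (mon_perm β i) hv
    rw [mon_length, map_add, Finsupp.degree_single, mem_mons.1 hβ]
    omega

/-- the submodule attached to a stable subspace -/
noncomputable def J (hΓ : FiltGroup Γ d u) (hρ : Smooth Γ ρ) {h : ℕ} (ℓ : Fin h → Module.Dual F P)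
    (N : Submodule F P) (hN : St ρ N) : Submodule (MvPolynomial (Fin d) F) (Fr F d h) where
  carrier := {f | ∀ n, ∀ v ∈ N, v ∈ fil ρ (n + 1) → pr ρ u ℓ n v f = 0}
  add_mem' := by
    intro a b ha hb n v hv hv'
    rw [map_add, ha n v hv hv', hb n v hv hv', add_zero]
  zero_mem' := by intro n v _ _; rw [map_zero]
  smul_mem' := by
    intro p f hf
    induction p using MvPolynomial.induction_on generalizing f with
    | C a =>
      intro n v hv hv'
      have : (MvPolynomial.C a : MvPolynomial (Fin d) F) • f = a • f := by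
        funext j
        simp only [Pi.smul_apply, smul_eq_mul, MvPolynomial.C_mul']
      rw [this, map_smul, hf n v hv hv', smul_zero]
    | add p q hp hq =>
      intro n v hv hv'
      rw [add_smul, map_add, hp hf n v hv hv', hq hf n v hv hv', add_zero]
    | mul_X p i hp =>
      rw [mul_smul]
      apply hp
      intro n v hv hv'
      cases n with
      | zero => exact pr_zero_X ℓ v i f
      | succ n =>
        rw [pr_X hΓ hρ ℓ hv']
        refine hf n _ ?_ (Xo_mem' hv' i)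
        rw [Xo_apply]
        exact hN.sub hv _

theorem mem_J {hΓ : FiltGroup Γ d u} {hρ : Smooth Γ ρ} {h : ℕ} {ℓ : Fin h → Module.Dual F P}
    {N : Submodule F P} {hN : St ρ N} {f : Fr F d h} :
    f ∈ J hΓ hρ ℓ N hN ↔ ∀ n, ∀ v ∈ N, v ∈ fil ρ (n + 1) → pr ρ u ℓ n v f = 0 := Iff.rfl

/-- the symbol map of degree `n` -/
noncomputable def sg (ρ : U →* Module.End F P) (u : Fin d → U) {h : ℕ} (ℓ : Fin h → Module.Dual F P)
    (n : ℕ) : P →ₗ[F] (Fin h × ↥(mons d n) → F) :=
  LinearMap.pi fun x => ℓ x.1 ∘ₗ (wd ρ u (mon x.2.1))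

theorem sg_apply {h : ℕ} (ℓ : Fin h → Module.Dual F P) (n : ℕ) (v : P) (x : Fin h × ↥(mons d n)) :
    sg ρ u ℓ n v x = ℓ x.1 (wd ρ u (mon x.2.1) v) := rfl

theorem mem_fil_of_sg (hΓ : FiltGroup Γ d u) (hρ : Smooth Γ ρ) {h : ℕ} {ℓ : Fin h → Module.Dual F P}
    (hℓ : Sep ρ ℓ) {n : ℕ} {v : P} (hv : v ∈ fil ρ (n + 1)) (h0 : sg ρ u ℓ n v = 0) :
    v ∈ fil ρ n := by
  apply mem_fil_of_words hΓ hρ
  intro l hl
  obtain ⟨α, hα, hp⟩ := exists_mon l
  rw [wd_perm' hΓ hρ hp hv (by omega)]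
  apply hℓ
  · have := wd_mem (ρ := ρ) (u := u) (mon α) hv
    rw [mon_length, hα, hl] at this
    simpa using this
  · intro j
    have := congrFun h0 (j, ⟨α, mem_mons.2 (hα.trans hl)⟩)
    simpa [sg_apply] using this

/-- SEP -/
theorem sep (hΓ : FiltGroup Γ d u) (hρ : Smooth Γ ρ) {h : ℕ} {ℓ : Fin h → Module.Dual F P}
    (hℓ : Sep ρ ℓ) {n : ℕ} {S : Submodule F P} (hS : S ≤ fil ρ (n + 1)) {y : P}
    (hy : y ∈ fil ρ (n + 1))
    (H : ∀ f : Fr F d h, Hom n f → (∀ s ∈ S, pr ρ u ℓ n s f = 0) → pr ρ u ℓ n y f = 0) :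
    ∃ s ∈ S, y - s ∈ fil ρ n := by
  have key : sg ρ u ℓ n y ∈ S.map (sg ρ u ℓ n) := by
    by_contra hn
    obtain ⟨c, hc, hc'⟩ := Submodule.exists_le_ker_of_notMem hn
    -- coefficients
    let f : Fr F d h := fun j => ∑ α : ↥(mons d n),
      MvPolynomial.monomial α.1 (c (Pi.single (j, α) 1))
    have hcoef : ∀ j (α : ↥(mons d n)), (f j).coeff α.1 = c (Pi.single (j, α) 1) := by
      intro j α
      simp only [f, MvPolynomial.coeff_sum, MvPolynomial.coeff_monomial]
      rw [Finset.sum_eq_single α]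
      · simp
      · intro b _ hb
        rw [if_neg]
        intro h0
        exact hb (Subtype.ext h0)
      · intro h0; exact absurd (Finset.mem_univ _) h0
    have hpr : ∀ v, pr ρ u ℓ n v f = c (sg ρ u ℓ n v) := by
      intro v
      rw [pr_apply, LinearMap.pi_apply_eq_sum_univ c (sg ρ u ℓ n v), Fintype.sum_prod_type]
      refine Finset.sum_congr rfl fun j _ => ?_
      rw [← Finset.sum_coe_sort (mons d n)]
      refine Finset.sum_congr rfl fun α _ => ?_
      rw [hcoef, sg_apply, smul_eq_mul, mul_comm]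
      congr 2
      funext x
      by_cases hx : (j, α) = x
      · subst hx; simp
      · rw [if_neg hx, Pi.single_eq_of_ne (Ne.symm hx)]
    apply hc
    rw [← hpr]
    apply H
    · intro j α hα
      by_contra hne
      apply hα
      simp only [f, MvPolynomial.coeff_sum, MvPolynomial.coeff_monomial]
      refine Finset.sum_eq_zero fun β _ => ?_
      rw [if_neg]
      intro h0
      apply hne
      rw [← h0]
      exact mem_mons.1 β.2
    · intro s hs
      rw [hpr]
      exact hc' (Submodule.mem_map_of_mem hs)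
  obtain ⟨s, hs, e⟩ := key
  refine ⟨s, hs, ?_⟩
  apply mem_fil_of_sg hΓ hρ hℓ (Submodule.sub_mem _ hy (hS hs))
  rw [map_sub, e, sub_self]

theorem J_anti {hΓ : FiltGroup Γ d u} {hρ : Smooth Γ ρ} {h : ℕ} {ℓ : Fin h → Module.Dual F P}
    {N N' : Submodule F P} {hN : St ρ N} {hN' : St ρ N'} (hle : N' ≤ N) :
    J hΓ hρ ℓ N hN ≤ J hΓ hρ ℓ N' hN' := fun _ hf n v hv hv' => hf n v (hle hv) hv'

theorem le_of_J {hΓ : FiltGroup Γ d u} {hρ : Smooth Γ ρ} {h : ℕ} {ℓ : Fin h → Module.Dual F P}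
    (hℓ : Sep ρ ℓ) (hE : Exh ρ) {N N' : Submodule F P} {hN : St ρ N} {hN' : St ρ N'} (hle : N' ≤ N)
    (hJ : J hΓ hρ ℓ N' hN' ≤ J hΓ hρ ℓ N hN) : N ≤ N' := by
  have key : ∀ n, ∀ v ∈ N, v ∈ fil ρ n → v ∈ N' := by
    intro n
    induction n with
    | zero => intro v _ hv; rw [fil_zero, Submodule.mem_bot] at hv; subst hv; exact N'.zero_mem
    | succ n ih =>
      intro v hv hv'
      obtain ⟨s, hs, e⟩ := sep hΓ hρ hℓ (S := N' ⊓ fil ρ (n + 1)) inf_le_right hv' (by
        intro f hf hfS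
        have hfJ : f ∈ J hΓ hρ ℓ N' hN' := by
          intro m w hw hw'
          rcases eq_or_ne n m with rfl | hmn
          · exact hfS w ⟨hw, hw'⟩
          · exact pr_of_hom ℓ hmn w hf
        exact hJ hfJ n v hv hv')
      have := ih _ (N.sub_mem hv (hle hs.1)) e
      have h2 := N'.add_mem this hs.1
      simpa using h2
  intro v hv
  obtain ⟨n, hn⟩ := hE v
  exact key n v hv hn

/-- NODE 2a -/
theorem dcc (hΓ : FiltGroup Γ d u) (hρ : Smooth Γ ρ) (hE : Exh ρ) : Dcc ρ := by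
  intro S hS hSt
  obtain ⟨h, ℓ, hℓ⟩ := exists_sep hρ
  let JJ : ↥S → Submodule (MvPolynomial (Fin d) F) (Fr F d h) :=
    fun N => J hΓ hρ ℓ N.1 (hSt _ N.2)
  obtain ⟨M, ⟨N, rfl⟩, hM⟩ := (wellFounded_gt (α := Submodule (MvPolynomial (Fin d) F) (Fr F d h))).has_min
    (Set.range JJ) (by obtain ⟨N, hN⟩ := hS; exact ⟨_, ⟨N, hN⟩, rfl⟩)
  refine ⟨N.1, N.2, fun N' hN' hle => le_antisymm hle ?_⟩
  apply le_of_J (hΓ := hΓ) (hρ := hρ) (hN := hSt _ N.2) (hN' := hSt _ hN') hℓ hE hle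
  have h1 : JJ N ≤ JJ ⟨N', hN'⟩ := J_anti hle
  rcases h1.lt_or_eq with h2 | h2
  · exact absurd h2 (hM _ ⟨_, rfl⟩)
  · exact h2.ge

/-- exponents with all entries `< n` -/
noncomputable def box (d n : ℕ) : Finset (Fin d → ℕ) := Fintype.piFinset fun _ => Finset.range n

theorem box_card (d n : ℕ) : (box d n).card = n ^ d := by
  rw [box, Fintype.card_piFinset]; simp

/-- all symbols of degree `< n` at once -/
noncomputable def sgb (ρ : U →* Module.End F P) (u : Fin d → U) {h : ℕ} (ℓ : Fin h → Module.Dual F P)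
    (n : ℕ) : P →ₗ[F] (Fin h × ↥(box d n) → F) :=
  LinearMap.pi fun x => ℓ x.1 ∘ₗ (wd ρ u (mon (Finsupp.equivFunOnFinite.symm x.2.1)))

theorem sgb_inj (hΓ : FiltGroup Γ d u) (hρ : Smooth Γ ρ) {h : ℕ} {ℓ : Fin h → Module.Dual F P}
    (hℓ : Sep ρ ℓ) (n : ℕ) {v : P} (hv : v ∈ fil ρ n) (h0 : sgb ρ u ℓ n v = 0) : v = 0 := by
  have key : ∀ m ≤ n, v ∈ fil ρ m → v = 0 := by
    intro m
    induction m with
    | zero => intro _ hv; rw [fil_zero, Submodule.mem_bot] at hv; exact hv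
    | succ m ih =>
      intro hm hv
      apply ih (by omega)
      apply mem_fil_of_sg hΓ hρ hℓ hv
      funext ⟨j, α⟩
      rw [sg_apply, Pi.zero_apply]
      have hbox : (⇑α.1 : Fin d → ℕ) ∈ box d n := by
        rw [box, Fintype.mem_piFinset]
        intro i
        rw [Finset.mem_range]
        have h1 := mem_mons.1 α.2
        rw [Finsupp.degree_eq_sum] at h1
        have h2 : α.1 i ≤ ∑ i, α.1 i := Finset.single_le_sum (f := fun i => α.1 i) (fun _ _ => Nat.zero_le _)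
          (Finset.mem_univ i)
        omega
      have := congrFun h0 (j, ⟨⇑α.1, hbox⟩)
      simpa [sgb, LinearMap.pi_apply] using this
  exact key n le_rfl hv

theorem finDim_aux (hΓ : FiltGroup Γ d u) (hρ : Smooth Γ ρ) {h : ℕ} {ℓ : Fin h → Module.Dual F P}
    (hℓ : Sep ρ ℓ) (n : ℕ) :
    FiniteDimensional F ↥(fil ρ n) ∧ finrank F ↥(fil ρ n) ≤ h * n ^ d := by
  have hinj : Function.Injective ((sgb ρ u ℓ n) ∘ₗ (fil ρ n).subtype) := by
    rw [← LinearMap.ker_eq_bot, LinearMap.ker_eq_bot']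
    rintro ⟨v, hv⟩ h0
    exact Subtype.ext (sgb_inj hΓ hρ hℓ n hv h0)
  constructor
  · exact FiniteDimensional.of_injective _ hinj
  · have h1 := LinearMap.finrank_le_finrank_of_injective hinj
    rw [Module.finrank_fintype_fun_eq_card, Fintype.card_prod, Fintype.card_fin,
      Fintype.card_coe, box_card] at h1
    exact h1

/-- NODE 1b -/
theorem finDim (hΓ : FiltGroup Γ d u) (hρ : Smooth Γ ρ) : FinDim ρ := by
  intro n
  obtain ⟨h, ℓ, hℓ⟩ := exists_sep hρ
  exact (finDim_aux hΓ hρ hℓ n).1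

/-- NODE 1d -/
theorem dimBd (hΓ : FiltGroup Γ d u) (hρ : Smooth Γ ρ) : DimBd ρ d := by
  obtain ⟨h, ℓ, hℓ⟩ := exists_sep hρ
  refine ⟨h, fun n => ?_⟩
  haveI := (finDim_aux hΓ hρ hℓ n).1
  calc finrank F ↥(⊤ ⊓ fil ρ n) ≤ finrank F ↥(fil ρ n) :=
        Submodule.finrank_mono inf_le_right
    _ ≤ h * n ^ d := (finDim_aux hΓ hρ hℓ n).2
    _ ≤ h * (n + 1) ^ d := Nat.mul_le_mul_left _ (Nat.pow_le_pow_left (by omega) _)

end Pair

end Crest.Agent.R007.H
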