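import Crest.Agent.R007.HChainB
import Crest.Agent.R007.HExh

/-!
# Row 7, part H: assembly (helper775), modulo the finite image lemma for `d = 3` (425)
-/

set_option autoImplicit false

open Module

namespace Crest.Agent.R007.H

variable {F P U T ι : Type*} [Field F] [Finite F] [CharP F 2] [AddCommGroup P] [Module F P]
  [Group U] [CommRing T] [Fintype ι]
variable {ρ : U →* Module.End F P} {Γ : ℕ → Subgroup U} {d : ℕ} {u : Fin d → U}
  {τ : T →+* Module.End F P} {φ : ι → (Module.Dual F P →+ T)}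

/-- **PART H** modulo the finite image lemma. -/
theorem htop_of (hΓ : FiltGroup Γ d u) (hρ : Smooth Γ ρ) (hφ : GenData ρ τ φ) (hd : d ≤ 3)
    (h3 : d = 3 → FinImage Γ ρ) : IsNoetherianRing T ∧ ringKrullDim T ≤ 2 := by
  have hE : Exh ρ := exh hΓ hρ
  have hFD : FinDim ρ := finDim hΓ hρ
  have hD : Dcc ρ := dcc hΓ hρ hE
  have hdrop : Drop ρ := drop hΓ hρ hE
  rcases Nat.lt_or_ge 2 d with h | h
  · have hd3 : d = 3 := by omega
    have h1 : DimBd ρ 3 := hd3 ▸ dimBd hΓ hρ
    exact HChainB.concl_three hE hFD (openInv (ρ := ρ) hΓ) hD hdrop hφ h1 (h3 hd3)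
  · obtain ⟨hN, hK⟩ := HChainB.concl hFD hD hdrop hφ (dimBd hΓ hρ)
    refine ⟨hN, hK.trans ?_⟩
    exact_mod_cast h

end Crest.Agent.R007.H
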