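import Crest.Agent.R007.HDefs

/-!
# Row 7, part H: the filtration `fil`, words in `X i = ρ (u i) - 1` (helper775)
-/

set_option autoImplicit false
set_option linter.unusedSectionVars false
set_option linter.style.haveILetI false

open Module

namespace Crest.Agent.R007.H

section Basic

variable {F P U : Type*} [Field F] [AddCommGroup P] [Module F P] [Group U]
variable {ρ : U →* Module.End F P}

theorem mem_fil_succ {n : ℕ} {v : P} : v ∈ fil ρ (n + 1) ↔ ∀ g, ρ g v - v ∈ fil ρ n := Iff.rfl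

theorem fil_zero : fil ρ 0 = ⊥ := rfl

theorem fil_le_succ (n : ℕ) : fil ρ n ≤ fil ρ (n + 1) := by
  induction n with
  | zero => intro v hv; rw [fil_zero, Submodule.mem_bot] at hv; subst hv; exact Submodule.zero_mem _
  | succ n ih => intro v hv g; exact ih (hv g)

theorem fil_mono : Monotone (fil ρ) := monotone_nat_of_le_succ fil_le_succ

theorem fil_stable (n : ℕ) : St ρ (fil ρ n) := by
  induction n with
  | zero => intro g v hv; rw [fil_zero, Submodule.mem_bot] at hv; subst hv; rw [map_zero]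
            exact Submodule.zero_mem _
  | succ n ih =>
    intro g v hv
    have h1 : ρ g v = (ρ g v - v) + v := by abel
    rw [h1]
    exact Submodule.add_mem _ (fil_le_succ n (hv g)) hv

theorem fil_map {x : Module.End F P} (hx : ∀ g, Commute x (ρ g)) {n : ℕ} {v : P}
    (hv : v ∈ fil ρ n) : x v ∈ fil ρ n := by
  induction n generalizing v with
  | zero => rw [fil_zero, Submodule.mem_bot] at hv; subst hv; rw [map_zero]
            exact Submodule.zero_mem _
  | succ n ih =>
    intro g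
    have h1 : ρ g (x v) = x (ρ g v) := by
      have := congrArg (fun f => f v) (hx g).eq
      simpa [Module.End.mul_apply] using this.symm
    rw [h1, ← map_sub]
    exact ih (hv g)

theorem St.inf {N N' : Submodule F P} (h : St ρ N) (h' : St ρ N') : St ρ (N ⊓ N') :=
  fun g v hv => ⟨h g v hv.1, h' g v hv.2⟩

theorem St.ker {x : Module.End F P} (hx : ∀ g, Commute x (ρ g)) : St ρ (LinearMap.ker x) := by
  intro g v hv
  rw [LinearMap.mem_ker] at hv ⊢
  have h1 : x (ρ g v) = ρ g (x v) := by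
    have := congrArg (fun f => f v) (hx g).eq
    simpa [Module.End.mul_apply] using this
  rw [h1, hv, map_zero]

theorem St.map {x : Module.End F P} (hx : ∀ g, Commute x (ρ g)) {N : Submodule F P} (h : St ρ N) :
    St ρ (N.map x) := by
  rintro g _ ⟨v, hv, rfl⟩
  have h1 : x (ρ g v) = ρ g (x v) := by
    have := congrArg (fun f => f v) (hx g).eq
    simpa [Module.End.mul_apply] using this
  rw [← h1]
  exact ⟨_, h g v hv, rfl⟩

theorem St.sub {N : Submodule F P} (h : St ρ N) {v : P} (hv : v ∈ N) (g : U) : ρ g v - v ∈ N :=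
  N.sub_mem (h g v hv) hv

theorem pow_sub_mem (g : U) (m : ℕ) {n : ℕ} {v : P} (hv : v ∈ fil ρ n) :
    ((ρ g - 1) ^ m) v ∈ fil ρ (n - m) := by
  induction m with
  | zero => simpa using hv
  | succ m ih =>
    rw [pow_succ', Module.End.mul_apply]
    rcases Nat.lt_or_ge m n with h | h
    · obtain ⟨k, hk⟩ : ∃ k, n - m = k + 1 := ⟨n - m - 1, by omega⟩
      rw [hk] at ih
      have h2 : n - (m + 1) = k := by omega
      rw [h2]
      simpa using ih g
    · have h0 : n - m = 0 := by omega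
      rw [h0, fil_zero, Submodule.mem_bot] at ih
      rw [ih, map_zero]
      exact Submodule.zero_mem _

end Basic

section Char2

variable {F P : Type*} [Field F] [CharP F 2] [AddCommGroup P] [Module F P]

theorem sub_one_pow (a : Module.End F P) (k : ℕ) : (a - 1) ^ (2 ^ k) = a ^ (2 ^ k) - 1 := by
  have h : ((Polynomial.X : Polynomial F) - 1) ^ (2 ^ k) = Polynomial.X ^ (2 ^ k) - 1 := by
    haveI : Fact (Nat.Prime 2) := ⟨Nat.prime_two⟩
    rw [sub_pow_char_pow, one_pow]
  have := congrArg (Polynomial.aeval a) h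
  simpa using this

end Char2

section Group

variable {F P U : Type*} [Field F] [CharP F 2] [AddCommGroup P] [Module F P] [Group U]
variable {ρ : U →* Module.End F P} {Γ : ℕ → Subgroup U} {d : ℕ} {u : Fin d → U}

theorem FiltGroup.sqrt_pow (hΓ : FiltGroup Γ d u) (N : ℕ) (k : ℕ) {g : U} (hg : g ∈ Γ k) :
    ∃ h : U, g⁻¹ * h ^ (2 ^ k) ∈ Γ N := by
  induction k generalizing g with
  | zero => exact ⟨g, by simp [(Γ N).one_mem]⟩
  | succ k ih =>
    obtain ⟨h₁, hh₁, e₁⟩ := hΓ.sqrt k N g hg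
    obtain ⟨h, e⟩ := ih hh₁
    refine ⟨h, ?_⟩
    haveI := hΓ.normal N
    rw [← QuotientGroup.eq] at e e₁ ⊢
    rw [e₁, QuotientGroup.mk_pow, e, ← QuotientGroup.mk_pow, ← pow_mul, ← pow_succ]

theorem fix_of_mul {N : ℕ} {v : P} (hv : ∀ g ∈ Γ N, ρ g v = v) {g w : U} (h : g⁻¹ * w ∈ Γ N) :
    ρ w v = ρ g v := by
  have h1 : w = g * (g⁻¹ * w) := by group
  rw [h1, map_mul, Module.End.mul_apply, hv _ h]

theorem depth (hΓ : FiltGroup Γ d u) (hρ : Smooth Γ ρ) {k n : ℕ} {w : U} (hw : w ∈ Γ k) {v : P}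
    (hv : v ∈ fil ρ n) : ρ w v - v ∈ fil ρ (n - 2 ^ k) := by
  obtain ⟨N, hN⟩ := hρ.smooth v
  obtain ⟨h, hh⟩ := hΓ.sqrt_pow N k hw
  have h1 : ρ w v - v = (((ρ h - 1 : Module.End F P) ^ (2 ^ k) : Module.End F P)) v := by
    rw [sub_one_pow, LinearMap.sub_apply, ← map_pow, fix_of_mul hN hh]
    simp
  rw [h1]
  exact pow_sub_mem h _ hv

/-- generators -/
theorem gen_mem (hΓ : FiltGroup Γ d u) (hρ : Smooth Γ ρ) {n : ℕ} {v : P}
    (h : ∀ i, ρ (u i) v - v ∈ fil ρ n) : v ∈ fil ρ (n + 1) := by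
  obtain ⟨N, hN⟩ := hρ.smooth v
  intro g
  obtain ⟨w, hw, e⟩ := hΓ.gen N g
  rw [← fix_of_mul hN e]
  clear e
  induction hw using Subgroup.closure_induction with
  | mem w hw => obtain ⟨i, rfl⟩ := hw; exact h i
  | one => simp
  | mul a b _ _ ha hb =>
    have : ρ (a * b) v - v = ρ a (ρ b v - v) + (ρ a v - v) := by
      rw [map_mul, Module.End.mul_apply, map_sub]; abel
    rw [this]
    exact Submodule.add_mem _ (fil_stable n a _ hb) ha
  | inv a _ ha =>
    have : ρ a⁻¹ v - v = - ρ a⁻¹ (ρ a v - v) := by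
      rw [map_sub, ← Module.End.mul_apply, ← map_mul, inv_mul_cancel, map_one]; simp
    rw [this]
    exact Submodule.neg_mem _ (fil_stable n a⁻¹ _ ha)

/-- `X i = ρ (u i) - 1` -/
def Xo (ρ : U →* Module.End F P) (u : Fin d → U) (i : Fin d) : Module.End F P := ρ (u i) - 1

theorem Xo_apply (i : Fin d) (v : P) : Xo ρ u i v = ρ (u i) v - v := by simp [Xo]

theorem Xo_mem {n : ℕ} {v : P} (hv : v ∈ fil ρ n) (i : Fin d) : Xo ρ u i v ∈ fil ρ (n - 1) := by
  have := pow_sub_mem (ρ := ρ) (u i) 1 hv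
  simpa [Xo] using this

theorem Xo_mem' {n : ℕ} {v : P} (hv : v ∈ fil ρ (n + 1)) (i : Fin d) : Xo ρ u i v ∈ fil ρ n :=
  Xo_mem hv i

theorem comm_mem (hΓ : FiltGroup Γ d u) (hρ : Smooth Γ ρ) (i j : Fin d) {n : ℕ} {v : P}
    (hv : v ∈ fil ρ n) :
    Xo ρ u i (Xo ρ u j v) - Xo ρ u j (Xo ρ u i v) ∈ fil ρ (n - 4) := by
  have h1 : Xo ρ u i (Xo ρ u j v) - Xo ρ u j (Xo ρ u i v)
      = ρ (u i * u j * (u i)⁻¹ * (u j)⁻¹) (ρ (u j * u i) v) - ρ (u j * u i) v := by
    rw [← Module.End.mul_apply, ← Module.End.mul_apply, ← Module.End.mul_apply, ← map_mul]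
    have e : u i * u j * (u i)⁻¹ * (u j)⁻¹ * (u j * u i) = u i * u j := by group
    rw [e, map_mul, map_mul]
    simp only [Xo, Module.End.mul_apply, LinearMap.sub_apply, Module.End.one_apply, map_sub]
    abel
  rw [h1]
  have h2 := hΓ.comm 0 0 (u i) (by rw [hΓ.zero]; trivial) (u j) (by rw [hΓ.zero]; trivial)
  exact depth hΓ hρ (k := 2) (by simpa using h2) (fil_stable n _ _ hv)

/-- words -/
def wd (ρ : U →* Module.End F P) (u : Fin d → U) : List (Fin d) → Module.End F P
  | [] => 1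
  | i :: l => Xo ρ u i * wd ρ u l

theorem wd_cons (i : Fin d) (l : List (Fin d)) (v : P) :
    wd ρ u (i :: l) v = Xo ρ u i (wd ρ u l v) := rfl

theorem wd_append (l l' : List (Fin d)) (v : P) :
    wd ρ u (l ++ l') v = wd ρ u l (wd ρ u l' v) := by
  induction l with
  | nil => rfl
  | cons a l ih => rw [List.cons_append, wd_cons, ih, wd_cons]

theorem wd_single (i : Fin d) (v : P) : wd ρ u [i] v = Xo ρ u i v := rfl

theorem wd_mem (l : List (Fin d)) {n : ℕ} {v : P} (hv : v ∈ fil ρ n) :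
    wd ρ u l v ∈ fil ρ (n - l.length) := by
  induction l with
  | nil => simpa [wd] using hv
  | cons a l ih =>
    rw [wd_cons, List.length_cons]
    have := Xo_mem (ρ := ρ) (u := u) ih a
    have h2 : n - (l.length + 1) = n - l.length - 1 := by omega
    rw [h2]
    exact this

theorem wd_perm (hΓ : FiltGroup Γ d u) (hρ : Smooth Γ ρ) {l l' : List (Fin d)} (h : l.Perm l')
    {n : ℕ} {v : P} (hv : v ∈ fil ρ n) :
    wd ρ u l v - wd ρ u l' v ∈ fil ρ (n - l.length - 2) := by
  induction h with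
  | nil => simp
  | @cons a l l' _ ih =>
    rw [wd_cons, wd_cons, ← map_sub, List.length_cons]
    have := Xo_mem (ρ := ρ) (u := u) ih a
    have h2 : n - (l.length + 1) - 2 = n - l.length - 2 - 1 := by omega
    rw [h2]
    exact this
  | swap a b l =>
    rw [wd_cons, wd_cons, wd_cons, wd_cons, List.length_cons, List.length_cons]
    have := comm_mem hΓ hρ b a (wd_mem (ρ := ρ) (u := u) l hv)
    have h2 : n - (l.length + 1 + 1) - 2 = n - l.length - 4 := by omega
    rw [h2]
    exact this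
  | @trans l l' l'' h₁ _ ih₁ ih₂ =>
    have e : wd ρ u l v - wd ρ u l'' v = (wd ρ u l v - wd ρ u l' v) + (wd ρ u l' v - wd ρ u l'' v) := by
      abel
    rw [e]
    rw [← h₁.length_eq] at ih₂
    exact Submodule.add_mem _ ih₁ ih₂

theorem wd_perm' (hΓ : FiltGroup Γ d u) (hρ : Smooth Γ ρ) {l l' : List (Fin d)} (h : l.Perm l')
    {n : ℕ} {v : P} (hv : v ∈ fil ρ n) (hn : n ≤ l.length + 2) : wd ρ u l v = wd ρ u l' v := by
  have := wd_perm hΓ hρ h hv
  have h0 : n - l.length - 2 = 0 := by omega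
  rw [h0, fil_zero, Submodule.mem_bot, sub_eq_zero] at this
  exact this

theorem mem_fil_of_words (hΓ : FiltGroup Γ d u) (hρ : Smooth Γ ρ) (n : ℕ) (v : P)
    (h : ∀ l : List (Fin d), l.length = n → wd ρ u l v = 0) : v ∈ fil ρ n := by
  induction n generalizing v with
  | zero => have := h [] rfl; rw [fil_zero, Submodule.mem_bot]; simpa [wd] using this
  | succ n ih =>
    apply gen_mem hΓ hρ
    intro i
    rw [← Xo_apply]
    apply ih
    intro l hl
    rw [← wd_single (ρ := ρ) (u := u) i v, ← wd_append]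
    exact h _ (by simp [hl])

/-- monomial words -/
noncomputable def mon {d : ℕ} (α : Fin d →₀ ℕ) : List (Fin d) := (Finsupp.toMultiset α).toList

theorem mon_length (α : Fin d →₀ ℕ) : (mon α).length = α.degree := by
  rw [mon, Multiset.length_toList, Finsupp.card_toMultiset, Finsupp.degree]
  rfl

theorem mon_perm (α : Fin d →₀ ℕ) (i : Fin d) : (mon (α + Finsupp.single i 1)).Perm (mon α ++ [i]) := by
  rw [← Multiset.coe_eq_coe, mon, mon, Multiset.coe_toList, map_add, Finsupp.toMultiset_single,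
    ← Multiset.coe_add, Multiset.coe_toList]
  simp

theorem exists_mon (l : List (Fin d)) : ∃ α : Fin d →₀ ℕ, α.degree = l.length ∧ l.Perm (mon α) := by
  refine ⟨Multiset.toFinsupp (l : Multiset (Fin d)), ?_, ?_⟩
  · rw [← mon_length, mon, Multiset.length_toList, Multiset.toFinsupp_toMultiset]
    simp
  · rw [← Multiset.coe_eq_coe, mon, Multiset.coe_toList, Multiset.toFinsupp_toMultiset]

end Group

end Crest.Agent.R007.H
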