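import Crest.Agent.R007.FEndD
import Crest.Agent.R007.GTop

/-!
# Row 7, node INST, part 1: from the supersingular expansions to the fields `E, E_inj, hk, hecke`
of `G.GData`.

`SSData` = abstract output of EMB (`Rep`, N1) and of section E (`ev`, transport under `G2`).
-/

set_option autoImplicit false
set_option linter.dupNamespace false

open PowerSeries

namespace Crest.Agent.R007.Inst

open Crest.Agent.R007.F

/-- Abstract output of EMB + section E. `𝓕` = functions on `X`, `Lk k` = integral forms of weight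
`k` of all odd levels, `Dl` = (elements of) `G2`, `ev e f` = the power series `e(f)`,
`Rep w k f` = "`f` of weight `k` represents `w`". -/
structure SSData {κ : Type*} [Field κ] [CharP κ 2] (D : FData κ) {T0 : Type*} (W : Type*)
    [CommRing T0] [AddCommGroup W] [Module T0 W] {I : Type*} (gen : I → T0) (𝓕 Pt Dl : Type*)
    [AddCommGroup 𝓕] where
  Lk : ℕ → AddSubgroup 𝓕
  ev : Pt → 𝓕 → PowerSeries κ
  ev_add : ∀ e k f g, f ∈ Lk k → g ∈ Lk k → ev e (f + g) = ev e f + ev e g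
  sl : 𝓕 → Dl → 𝓕
  sl_mem : ∀ k f d, f ∈ Lk k → sl f d ∈ Lk k
  /-- transport: `e(f ∥ d) = u^k s(e'(f))` with `u = t / s(t)` -/
  trans : ∀ e d, ∃ (p : Pr D) (e' : Pt), ∀ k, ∀ f ∈ Lk k,
    (p.s X) ^ k * ev e (sl f d) = X ^ k * p.s (ev e' f)
  Rep : W → ℕ → 𝓕 → Prop
  rep_mem : ∀ w k f, Rep w k f → f ∈ Lk k
  rep_ex : ∀ w, ∃ k f, Rep w k f
  rep_unique : ∀ w k f f', Rep w k f → Rep w k f' → ∃ g ∈ Lk k, f = f' + (g + g)
  rep_add : ∀ w w' k f f', Rep w k f → Rep w' k f' → Rep (w + w') k (f + f')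
  /-- multiplication by `A1` -/
  mulA : 𝓕 → 𝓕
  rep_mulA : ∀ w k f, Rep w k f → Rep w (k + 1) (mulA f)
  ev_mulA : ∀ e k f, f ∈ Lk k → ev e (mulA f) = X * ev e f
  /-- the matrices of the generator `i` -/
  dl : I → List Dl
  rep_gen : ∀ i w k f, Rep w k f → Rep (gen i • w) k ((dl i).map (sl f)).sum
  /-- separation -/
  sep : ∀ w k f, Rep w k f → (∀ e, X ^ k ∣ ev e f) → w = 0
  fin : ∃ S : Set Pt, S.Finite ∧ ∀ e, ∃ e' ∈ S, ∀ w k f, Rep w k f → ev e f = ev e' f

namespace SSData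

variable {κ : Type*} [Field κ] [CharP κ 2] {D : FData κ} {T0 W : Type*} [CommRing T0]
    [AddCommGroup W] [Module T0 W] {I : Type*} {gen : I → T0} {𝓕 Pt Dl : Type*}
    [AddCommGroup 𝓕] (S : SSData D W gen 𝓕 Pt Dl)

/-- `R ⊆ K` -/
noncomputable abbrev ιK (κ : Type*) [Field κ] : PowerSeries κ →+* LaurentSeries κ :=
  algebraMap (PowerSeries κ) (LaurentSeries κ)

theorem phiX_ne : ιK κ X ≠ 0 := by
  rw [Ne, map_eq_zero_iff _ (IsFractionRing.injective (PowerSeries κ) (LaurentSeries κ))]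
  exact PowerSeries.X_ne_zero

theorem psX_ne (p : Pr D) : ιK κ (p.s X) ≠ 0 := by
  rw [Ne, map_eq_zero_iff _ (IsFractionRing.injective (PowerSeries κ) (LaurentSeries κ)),
    map_eq_zero_iff _ p.s.injective]
  exact PowerSeries.X_ne_zero

/-- class of `a / t^k` -/
noncomputable def cl (k : ℕ) (a : PowerSeries κ) : KR κ :=
  Submodule.Quotient.mk (ιK κ a / ιK κ X ^ k)

theorem cl_add (k : ℕ) (a b : PowerSeries κ) : cl k (a + b) = cl k a + cl k b := by
  rw [cl, map_add, add_div]; rfl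

theorem cl_eq_of {k k' : ℕ} {a b : PowerSeries κ} (h : X ^ k' * a = X ^ k * b) :
    cl k a = cl k' b := by
  rw [cl, cl]
  congr 1
  rw [div_eq_div_iff (pow_ne_zero _ phiX_ne) (pow_ne_zero _ phiX_ne)]
  have := congrArg (ιK κ) h
  rw [map_mul, map_mul, map_pow, map_pow] at this
  linear_combination this

theorem cl_eq_zero {k : ℕ} {a : PowerSeries κ} (h : cl k a = 0) : X ^ k ∣ a := by
  rw [cl, Submodule.Quotient.mk_eq_zero] at h
  obtain ⟨b, hb⟩ := h
  refine ⟨b, ?_⟩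
  rw [eq_div_iff (pow_ne_zero _ phiX_ne)] at hb
  apply IsFractionRing.injective (PowerSeries κ) (LaurentSeries κ)
  rw [map_mul, map_pow, ← hb, mul_comm]

theorem act_cl [Algebra (ZMod 2) κ] (p : Pr D) (k : ℕ) (a b : PowerSeries κ)
    (h : (p.s X) ^ k * a = X ^ k * p.s b) : cl k a = act (ZMod 2) D p (cl k b) := by
  rw [act_apply, cl, cl, actKR_mk, map_div₀, map_pow, extK_algebraMap, extK_algebraMap]
  congr 1
  rw [div_eq_div_iff (pow_ne_zero _ phiX_ne) (pow_ne_zero _ (psX_ne p))]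
  have := congrArg (ιK κ) h
  rw [map_mul, map_mul, map_pow, map_pow] at this
  linear_combination this

theorem ev_two (e : Pt) {k : ℕ} {g : 𝓕} (hg : g ∈ S.Lk k) : S.ev e (g + g) = 0 := by
  rw [S.ev_add e k g g hg hg, CharTwo.add_self_eq_zero]

theorem ev_rep (e : Pt) {w : W} {k : ℕ} {f f' : 𝓕} (h : S.Rep w k f) (h' : S.Rep w k f') :
    S.ev e f = S.ev e f' := by
  obtain ⟨g, hg, rfl⟩ := S.rep_unique w k f f' h h'
  rw [S.ev_add e k _ _ (S.rep_mem _ _ _ h') (add_mem hg hg), S.ev_two e hg, add_zero]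

theorem rep_iter (e : Pt) {w : W} {k : ℕ} {f : 𝓕} (h : S.Rep w k f) (n : ℕ) :
    S.Rep w (k + n) (S.mulA^[n] f) ∧ S.ev e (S.mulA^[n] f) = X ^ n * S.ev e f := by
  induction n with
  | zero => exact ⟨h, by simp⟩
  | succ n ih =>
    rw [Function.iterate_succ_apply']
    refine ⟨S.rep_mulA _ _ _ ih.1, ?_⟩
    rw [S.ev_mulA e _ _ (S.rep_mem _ _ _ ih.1), ih.2, pow_succ]
    ring

theorem cl_rep (e : Pt) {w : W} {k k' : ℕ} {f f' : 𝓕} (h : S.Rep w k f) (h' : S.Rep w k' f') :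
    cl k (S.ev e f) = cl k' (S.ev e f') := by
  apply cl_eq_of
  obtain ⟨h1, h2⟩ := S.rep_iter e h k'
  obtain ⟨h3, h4⟩ := S.rep_iter e h' k
  rw [add_comm] at h3
  rw [← h2, ← h4]
  exact S.ev_rep e h1 h3

/-- the expansion of `w` at `e` -/
noncomputable def val (e : Pt) (w : W) : KR κ :=
  cl (S.rep_ex w).choose (S.ev e (S.rep_ex w).choose_spec.choose)

theorem val_eq (e : Pt) {w : W} {k : ℕ} {f : 𝓕} (h : S.Rep w k f) :
    S.val e w = cl k (S.ev e f) :=
  S.cl_rep e (S.rep_ex w).choose_spec.choose_spec h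

theorem val_add (e : Pt) (w w' : W) : S.val e (w + w') = S.val e w + S.val e w' := by
  obtain ⟨k, f, hf⟩ := S.rep_ex w
  obtain ⟨k', f', hf'⟩ := S.rep_ex w'
  obtain ⟨h1, h2⟩ := S.rep_iter e hf k'
  obtain ⟨h3, h4⟩ := S.rep_iter e hf' k
  rw [add_comm] at h3
  rw [S.val_eq e h1, S.val_eq e h3, S.val_eq e (S.rep_add _ _ _ _ _ h1 h3),
    S.ev_add e _ _ _ (S.rep_mem _ _ _ h1) (S.rep_mem _ _ _ h3), cl_add]

/-- points: the finitely many maps `val e` -/
abbrev P : Type _ := Set.range S.val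

theorem P_finite : Finite S.P := by
  obtain ⟨T, hT, h⟩ := S.fin
  refine Set.Finite.subset (hT.image S.val) ?_
  rintro _ ⟨e, rfl⟩
  obtain ⟨e', he', h'⟩ := h e
  refine ⟨e', he', ?_⟩
  funext w
  obtain ⟨k, f, hf⟩ := S.rep_ex w
  rw [S.val_eq e hf, S.val_eq e' hf, h' w k f hf]

variable [Module (ZMod 2) W] [Algebra (ZMod 2) κ]

/-- the expansions as linear maps -/
noncomputable def E (x : S.P) : W →ₗ[ZMod 2] KR κ :=
  AddMonoidHom.toZModLinearMap 2
    { toFun := x.1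
      map_zero' := by
        obtain ⟨_, e, rfl⟩ := x
        have := S.val_add e 0 0
        rw [add_zero] at this
        simpa using this
      map_add' := by
        obtain ⟨_, e, rfl⟩ := x
        exact S.val_add e }

@[simp] theorem E_apply (x : S.P) (w : W) : S.E x w = x.1 w := rfl

theorem E_inj (w : W) (h : ∀ x, S.E x w = 0) : w = 0 := by
  obtain ⟨k, f, hf⟩ := S.rep_ex w
  refine S.sep w k f hf fun e => ?_
  have := h ⟨S.val e, e, rfl⟩
  rw [E_apply] at this
  change S.val e w = 0 at this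
  rw [S.val_eq e hf] at this
  exact cl_eq_zero this

/-- the Hecke data -/
noncomputable def hk (i : I) (x : S.P) : List (Pr D × S.P) :=
  (S.dl i).map fun d => ((S.trans x.2.choose d).choose,
    ⟨S.val (S.trans x.2.choose d).choose_spec.choose, _, rfl⟩)

theorem ev_sum (e : Pt) {k : ℕ} (l : List 𝓕) (hl : ∀ f ∈ l, f ∈ S.Lk k) :
    l.sum ∈ S.Lk k ∧ cl k (S.ev e l.sum) = (l.map fun f => cl k (S.ev e f)).sum := by
  have h0 : S.ev e 0 = 0 := by
    have := S.ev_add e k 0 0 (zero_mem _) (zero_mem _)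
    rw [add_zero] at this
    simpa using this
  induction l with
  | nil =>
    refine ⟨zero_mem _, ?_⟩
    rw [List.sum_nil, h0]
    simp [cl]
  | cons f l ih =>
    obtain ⟨h1, h2⟩ := ih fun g hg => hl g (List.mem_cons_of_mem _ hg)
    have h3 := hl f (List.mem_cons_self)
    rw [List.sum_cons, List.map_cons, List.sum_cons]
    exact ⟨add_mem h3 h1, by rw [S.ev_add e k _ _ h3 h1, cl_add, h2]⟩

theorem hecke (i : I) (x : S.P) (w : W) :
    S.E x (gen i • w) = ((S.hk i x).map fun d => act (ZMod 2) D d.1 (S.E d.2 w)).sum := by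
  obtain ⟨k, f, hf⟩ := S.rep_ex w
  have hx : S.val x.2.choose = x.1 := x.2.choose_spec
  rw [E_apply, ← hx, S.val_eq _ (S.rep_gen i w k f hf), hk, List.map_map]
  rw [(S.ev_sum _ _ (by
    intro g hg
    obtain ⟨d, _, rfl⟩ := List.mem_map.1 hg
    exact S.sl_mem _ _ _ (S.rep_mem _ _ _ hf))).2, List.map_map]
  congr 1
  refine List.map_congr_left fun d _ => ?_
  have h1 := (S.trans x.2.choose d).choose_spec.choose_spec k f (S.rep_mem _ _ _ hf)
  change cl k (S.ev x.2.choose (S.sl f d)) =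
    act (ZMod 2) D (S.trans x.2.choose d).choose
      (S.val (S.trans x.2.choose d).choose_spec.choose w)
  rw [S.val_eq _ hf]
  exact act_cl _ _ _ _ h1

end SSData

end Crest.Agent.R007.Inst
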