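import Crest.Agent.R007.FgT
import Crest.Agent.R007.Mix1

/-!
Row 7, E-FG (helper2): the ring `IntO O` is reduced modulo `2` if `O` is.
-/

set_option autoImplicit false

open UpperHalfPlane Crest.Agent.R007.Lat Crest.Agent.R007.Mix Crest.Agent.R007.PsInt

namespace Crest.Agent.R007.FgT

variable {O : Subring ℂ}

theorem IntO_red (hO : ∀ x ∈ O, ∀ y ∈ O, x ^ 2 = 2 * y → ∃ z ∈ O, x = 2 * z) :
    ∀ f ∈ IntO O, ∀ g ∈ IntO O, f ^ 2 = 2 * g → ∃ h ∈ IntO O, f = 2 * h := by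
  intro f hf g hg e
  obtain ⟨M, hM, hfM, hgM⟩ := PO_common hf.1 hg.1
  have : NeZero M := ⟨hM.pos.ne'⟩
  have ef : qf f = emb M ℂ (qExpansion M f) := qf_eq' M hM hfM
  have eg : qf g = emb M ℂ (qExpansion M g) := qf_eq' M hM hgM
  have hF : CIn O (qExpansion M f) := by
    intro n
    have := hf.2 ((n : ℚ) / M)
    rwa [ef, emb_coeff] at this
  have hG : CIn O (qExpansion M g) := by
    intro n
    have := hg.2 ((n : ℚ) / M)
    rwa [eg, emb_coeff] at this
  have hFG : qExpansion M f ^ 2 = 2 * qExpansion M g := by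
    apply emb_injective M ℂ
    rw [map_pow, map_mul, map_ofNat, ← ef, ← eg, sq, ← qf_mul hf.1 hf.1, ← sq, e]
    have h2 : (2 * g : ℍ → ℂ) = (2 : ℂ) • g := by
      funext τ; simp
    rw [h2, qf_smul _ hg.1]
    ext r
    rw [HahnSeries.coeff_smul, smul_eq_mul]
    have : (2 : HahnSeries ℚ ℂ) = 1 + 1 := by norm_num
    rw [this, add_mul, one_mul, HahnSeries.coeff_add]
    ring
  obtain ⟨H, hH, eH⟩ := two_of_sq hO hF hG hFG
  have hTwo : Two O f := by
    intro r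
    by_cases hr : ∃ n : ℕ, (n : ℚ) / M = r
    · obtain ⟨n, rfl⟩ := hr
      refine ⟨PowerSeries.coeff n H, hH n, ?_⟩
      rw [ef, emb_coeff, eH, Tw.two_eq, PowerSeries.coeff_C_mul]
    · push Not at hr
      exact ⟨0, O.zero_mem, by rw [ef, emb_coeff_of_notMem _ _ hr, mul_zero]⟩
  refine ⟨((2 : ℂ)⁻¹) • f, half_mem hf.1 hTwo, ?_⟩
  funext τ
  simp

end Crest.Agent.R007.FgT
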