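/-
Row 7 (S0007), section C, statement (K), abstract form (helper377).
V a commutative ring without 2-torsion, L k the pure weight pieces, z m the tower generators,
s m the scalar operators.  Result: V is generated by the L k and the z m, and every h in V which is
invariant mod 2V under all s m is congruent mod 2V to an element of pure weight.
-/
import Mathlib

set_option autoImplicit false

namespace Crest.Agent.R007.K

variable {V : Type*} [CommRing V]

/-- Congruence mod `2`. -/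
def Two (x : V) : Prop := ∃ v : V, x = 2 * v

lemma Two.zero : Two (0 : V) := ⟨0, by simp⟩
lemma Two.add {x y : V} (hx : Two x) (hy : Two y) : Two (x + y) := by
  obtain ⟨a, rfl⟩ := hx; obtain ⟨b, rfl⟩ := hy; exact ⟨a + b, by ring⟩
lemma Two.neg {x : V} (hx : Two x) : Two (-x) := by
  obtain ⟨a, rfl⟩ := hx; exact ⟨-a, by ring⟩
lemma Two.sub {x y : V} (hx : Two x) (hy : Two y) : Two (x - y) := by
  obtain ⟨a, rfl⟩ := hx; obtain ⟨b, rfl⟩ := hy; exact ⟨a - b, by ring⟩
lemma Two.mul_right {x : V} (hx : Two x) (y : V) : Two (x * y) := by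
  obtain ⟨a, rfl⟩ := hx; exact ⟨a * y, by ring⟩
lemma Two.mul_left {x : V} (hx : Two x) (y : V) : Two (y * x) := by
  obtain ⟨a, rfl⟩ := hx; exact ⟨y * a, by ring⟩
lemma Two.map {x : V} (hx : Two x) (f : V →+* V) : Two (f x) := by
  obtain ⟨a, rfl⟩ := hx; exact ⟨f a, by rw [map_mul, map_ofNat]⟩
lemma Two.of_two_mul (y : V) : Two (2 * y) := ⟨y, rfl⟩

/-- The subring generated by all `L k` and `z i` for `i < m`. -/
def Cm (L : ℕ → AddSubgroup V) (z : ℕ → V) (m : ℕ) : Subring V :=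
  Subring.closure ((⋃ k, (L k : Set V)) ∪ {x | ∃ i < m, x = z i})

/-- The subring generated by all `L k` and all `z i`. -/
def Call (L : ℕ → AddSubgroup V) (z : ℕ → V) : Subring V :=
  Subring.closure ((⋃ k, (L k : Set V)) ∪ Set.range z)

/-- The hypotheses of the abstract statement (K). -/
structure Hyp (L : ℕ → AddSubgroup V) (A : V) (z : ℕ → V) (s : ℕ → V →+* V) : Prop where
  oneL : (1 : V) ∈ L 0
  mulL : ∀ {i j : ℕ} {x y : V}, x ∈ L i → y ∈ L j → x * y ∈ L (i + j)
  hA : A ∈ L 1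
  tf : ∀ x : V, 2 * x = 0 → x = 0
  sat : ∀ (k : ℕ) (x : V), x ∈ L k → Two x → ∃ y ∈ L k, x = 2 * y
  fix : ∀ (m k : ℕ) (x : V), x ∈ L k → Two (s m x - x)
  zlt : ∀ m i : ℕ, i < m → Two (s m (z i) - z i)
  zeq : ∀ m : ℕ, Two (s m (z m) - z m - 1)
  Aone : ∃ c ∈ Call L z, A - 1 = 2 * c
  sq : ∀ m : ℕ, ∃ P ∈ Cm L z m, ∃ Q ∈ Cm L z m, ∃ c ∈ Call L z, z m ^ 2 = P + Q * z m + 2 * c
  gen : ∀ h : V, ∃ n : ℕ, 2 ^ n * h ∈ Call L z

/-- Normal forms: `∑ X_α z^α`, `α ∈ {0,1}^m`, all `X_α ∈ L K`. -/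
def NF (L : ℕ → AddSubgroup V) (z : ℕ → V) : ℕ → ℕ → V → Prop
  | 0, K, x => x ∈ L K
  | m + 1, K, x => ∃ P Q : V, NF L z m K P ∧ NF L z m K Q ∧ x = P + Q * z m

section basic
variable {L : ℕ → AddSubgroup V} {z : ℕ → V}

lemma NF.zero (m K : ℕ) : NF L z m K 0 := by
  induction m with
  | zero => exact (L K).zero_mem
  | succ m ih => exact ⟨0, 0, ih, ih, by ring⟩

lemma NF.add {m K : ℕ} {x y : V} (hx : NF L z m K x) (hy : NF L z m K y) : NF L z m K (x + y) := by
  induction m generalizing x y with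
  | zero => exact (L K).add_mem hx hy
  | succ m ih =>
    obtain ⟨P, Q, hP, hQ, rfl⟩ := hx
    obtain ⟨P', Q', hP', hQ', rfl⟩ := hy
    exact ⟨P + P', Q + Q', ih hP hP', ih hQ hQ', by ring⟩

lemma NF.neg {m K : ℕ} {x : V} (hx : NF L z m K x) : NF L z m K (-x) := by
  induction m generalizing x with
  | zero => exact (L K).neg_mem hx
  | succ m ih =>
    obtain ⟨P, Q, hP, hQ, rfl⟩ := hx
    exact ⟨-P, -Q, ih hP, ih hQ, by ring⟩

lemma NF.succ {m K : ℕ} {x : V} (hx : NF L z m K x) : NF L z (m + 1) K x :=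
  ⟨x, 0, hx, NF.zero m K, by ring⟩

lemma NF.mono {m n K : ℕ} (h : m ≤ n) {x : V} (hx : NF L z m K x) : NF L z n K x := by
  induction h with
  | refl => exact hx
  | step _ ih => exact ih.succ

lemma Cm_mono {m n : ℕ} (h : m ≤ n) : Cm L z m ≤ Cm L z n := by
  apply Subring.closure_mono
  rintro x (hx | ⟨i, hi, rfl⟩)
  · exact Or.inl hx
  · exact Or.inr ⟨i, by omega, rfl⟩

lemma Cm_le_Call (m : ℕ) : Cm L z m ≤ Call L z := by
  apply Subring.closure_mono
  rintro x (hx | ⟨i, hi, rfl⟩)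
  · exact Or.inl hx
  · exact Or.inr ⟨i, rfl⟩

lemma L_le_Cm (m k : ℕ) {x : V} (hx : x ∈ L k) : x ∈ Cm L z m :=
  Subring.subset_closure (Or.inl (Set.mem_iUnion.2 ⟨k, hx⟩))

lemma z_mem_Cm {m i : ℕ} (h : i < m) : z i ∈ Cm L z m :=
  Subring.subset_closure (Or.inr ⟨i, h, rfl⟩)

lemma z_mem_Call (i : ℕ) : z i ∈ Call L z :=
  Subring.subset_closure (Or.inr ⟨i, rfl⟩)

lemma NF.mem_Cm {m K : ℕ} {x : V} (hx : NF L z m K x) : x ∈ Cm L z m := by
  induction m generalizing x with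
  | zero => exact L_le_Cm 0 K hx
  | succ m ih =>
    obtain ⟨P, Q, hP, hQ, rfl⟩ := hx
    exact add_mem (Cm_mono (Nat.le_succ m) (ih hP))
      (mul_mem (Cm_mono (Nat.le_succ m) (ih hQ)) (z_mem_Cm (Nat.lt_succ_self m)))

lemma NF.mem_Call {m K : ℕ} {x : V} (hx : NF L z m K x) : x ∈ Call L z :=
  Cm_le_Call m hx.mem_Cm

end basic

namespace Hyp

variable {L : ℕ → AddSubgroup V} {A : V} {z : ℕ → V} {s : ℕ → V →+* V} (H : Hyp L A z s)
include H

lemma NF_mulA {m K : ℕ} {x : V} (hx : NF L z m K x) : NF L z m (K + 1) (A * x) := by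
  induction m generalizing x with
  | zero =>
    have := H.mulL H.hA hx
    rwa [add_comm 1 K] at this
  | succ m ih =>
    obtain ⟨P, Q, hP, hQ, rfl⟩ := hx
    exact ⟨A * P, A * Q, ih hP, ih hQ, by ring⟩

/-- raising the weight, modulo `2 C`. -/
lemma NF_raise {m K : ℕ} {x : V} (hx : NF L z m K x) :
    ∃ y, NF L z m (K + 1) y ∧ ∃ c ∈ Call L z, x = y + 2 * c := by
  obtain ⟨c, hc, hA⟩ := H.Aone
  refine ⟨A * x, H.NF_mulA hx, -(c * x), neg_mem (mul_mem hc hx.mem_Call), ?_⟩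
  have : A = 1 + 2 * c := by rw [← hA]; ring
  rw [this]; ring

lemma NF_raise_le {m K K' : ℕ} (h : K ≤ K') {x : V} (hx : NF L z m K x) :
    ∃ y, NF L z m K' y ∧ ∃ c ∈ Call L z, x = y + 2 * c := by
  induction h with
  | refl => exact ⟨x, hx, 0, zero_mem _, by ring⟩
  | step _ ih =>
    obtain ⟨y, hy, c, hc, rfl⟩ := ih
    obtain ⟨y', hy', c', hc', rfl⟩ := H.NF_raise hy
    exact ⟨y', hy', c' + c, add_mem hc' hc, by ring⟩

/-- the predicate "normal form mod `2C`". -/
def Rep (L : ℕ → AddSubgroup V) (z : ℕ → V) (m : ℕ) (x : V) : Prop :=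
  ∃ K y, NF L z m K y ∧ ∃ c ∈ Call L z, x = y + 2 * c

omit H in
lemma rep_neg {m : ℕ} {x : V} (hx : Rep L z m x) : Rep L z m (-x) := by
  obtain ⟨K, y, hy, c, hc, rfl⟩ := hx
  exact ⟨K, -y, hy.neg, -c, neg_mem hc, by ring⟩

lemma rep_add {m : ℕ} {x y : V} (hx : Rep L z m x) (hy : Rep L z m y) : Rep L z m (x + y) := by
  obtain ⟨K, x', hx', c, hc, rfl⟩ := hx
  obtain ⟨K', y', hy', c', hc', rfl⟩ := hy
  obtain ⟨x'', hx'', c₁, hc₁, rfl⟩ := H.NF_raise_le (le_max_left K K') hx'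
  obtain ⟨y'', hy'', c₂, hc₂, rfl⟩ := H.NF_raise_le (le_max_right K K') hy'
  exact ⟨max K K', x'' + y'', hx''.add hy'', c₁ + c + (c₂ + c'),
    add_mem (add_mem hc₁ hc) (add_mem hc₂ hc'), by ring⟩

omit H in
lemma rep_of_two {m : ℕ} {x c : V} (hx : Rep L z m x) (hc : c ∈ Call L z) :
    Rep L z m (x + 2 * c) := by
  obtain ⟨K, y, hy, c', hc', rfl⟩ := hx
  exact ⟨K, y, hy, c' + c, add_mem hc' hc, by ring⟩

lemma rep_mulz {m : ℕ} {P Q : V} (hP : Rep L z m P) (hQ : Rep L z m Q) :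
    Rep L z (m + 1) (P + Q * z m) := by
  obtain ⟨K, x', hx', c, hc, rfl⟩ := hP
  obtain ⟨K', y', hy', c', hc', rfl⟩ := hQ
  obtain ⟨x'', hx'', c₁, hc₁, rfl⟩ := H.NF_raise_le (le_max_left K K') hx'
  obtain ⟨y'', hy'', c₂, hc₂, rfl⟩ := H.NF_raise_le (le_max_right K K') hy'
  exact ⟨max K K', x'' + y'' * z m, ⟨x'', y'', hx'', hy'', rfl⟩,
    c₁ + c + (c₂ + c') * z m,
    add_mem (add_mem hc₁ hc) (mul_mem (add_mem hc₂ hc') (z_mem_Call m)), by ring⟩

/-- every element of `C_m` has a normal form of length `m`, mod `2C`. -/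
lemma rep_Cm (m : ℕ) : ∀ x ∈ Cm L z m, Rep L z m x := by
  induction m with
  | zero =>
    intro x hx
    induction hx using Subring.closure_induction with
    | mem x hx =>
      rcases hx with hx | ⟨i, hi, rfl⟩
      · obtain ⟨k, hk⟩ := Set.mem_iUnion.1 hx
        exact ⟨k, x, hk, 0, zero_mem _, by ring⟩
      · omega
    | zero => exact ⟨0, 0, NF.zero 0 0, 0, zero_mem _, by ring⟩
    | one => exact ⟨0, 1, H.oneL, 0, zero_mem _, by ring⟩
    | add x y _ _ hx hy => exact H.rep_add hx hy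
    | neg x _ hx => exact rep_neg hx
    | mul x y hx' hy' hx hy =>
      obtain ⟨K, x', hx'', c, hc, rfl⟩ := hx
      obtain ⟨K', y', hy'', c', hc', rfl⟩ := hy
      refine ⟨K + K', x' * y', H.mulL hx'' hy'', x' * c' + c * y' + 2 * c * c', ?_, by ring⟩
      have h1 : x' ∈ Call L z := NF.mem_Call hx''
      have h2 : y' ∈ Call L z := NF.mem_Call hy''
      have h3 : (2 : V) ∈ Call L z := by
        have := add_mem (one_mem (Call L z)) (one_mem (Call L z))
        rwa [one_add_one_eq_two] at this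
      exact add_mem (add_mem (mul_mem h1 hc') (mul_mem hc h2)) (mul_mem (mul_mem h3 hc) hc')
  | succ m ih =>
    have key : ∀ P ∈ Cm L z m, ∀ Q ∈ Cm L z m, Rep L z (m + 1) (P + Q * z m) :=
      fun P hP Q hQ => H.rep_mulz (ih P hP) (ih Q hQ)
    have h3 : (2 : V) ∈ Call L z := by
      have := add_mem (one_mem (Call L z)) (one_mem (Call L z))
      rwa [one_add_one_eq_two] at this
    intro x hx
    -- stronger: `x = P + Q z_m + 2 c`
    have : ∃ P ∈ Cm L z m, ∃ Q ∈ Cm L z m, ∃ c ∈ Call L z, x = P + Q * z m + 2 * c := by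
      induction hx using Subring.closure_induction with
      | mem x hx =>
        rcases hx with hx | ⟨i, hi, rfl⟩
        · obtain ⟨k, hk⟩ := Set.mem_iUnion.1 hx
          exact ⟨x, L_le_Cm m k hk, 0, zero_mem _, 0, zero_mem _, by ring⟩
        · rcases Nat.lt_succ_iff_lt_or_eq.1 hi with h | rfl
          · exact ⟨z i, z_mem_Cm h, 0, zero_mem _, 0, zero_mem _, by ring⟩
          · exact ⟨0, zero_mem _, 1, one_mem _, 0, zero_mem _, by ring⟩
      | zero => exact ⟨0, zero_mem _, 0, zero_mem _, 0, zero_mem _, by ring⟩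
      | one => exact ⟨1, one_mem _, 0, zero_mem _, 0, zero_mem _, by ring⟩
      | add x y _ _ hx hy =>
        obtain ⟨P, hP, Q, hQ, c, hc, rfl⟩ := hx
        obtain ⟨P', hP', Q', hQ', c', hc', rfl⟩ := hy
        exact ⟨P + P', add_mem hP hP', Q + Q', add_mem hQ hQ', c + c', add_mem hc hc', by ring⟩
      | neg x _ hx =>
        obtain ⟨P, hP, Q, hQ, c, hc, rfl⟩ := hx
        exact ⟨-P, neg_mem hP, -Q, neg_mem hQ, -c, neg_mem hc, by ring⟩
      | mul x y _ _ hx hy =>
        obtain ⟨P, hP, Q, hQ, c, hc, rfl⟩ := hx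
        obtain ⟨P', hP', Q', hQ', c', hc', rfl⟩ := hy
        obtain ⟨S, hS, T, hT, d, hd, hsq⟩ := H.sq m
        have hC : ∀ {x : V}, x ∈ Cm L z m → x ∈ Call L z := fun h => Cm_le_Call m h
        have hz : z m ∈ Call L z := z_mem_Call m
        refine ⟨P * P' + Q * Q' * S, ?_, P * Q' + Q * P' + Q * Q' * T, ?_,
          Q * Q' * d + (P + Q * z m) * c' + c * (P' + Q' * z m) + 2 * c * c', ?_, ?_⟩
        · exact add_mem (mul_mem hP hP') (mul_mem (mul_mem hQ hQ') hS)
        · exact add_mem (add_mem (mul_mem hP hQ') (mul_mem hQ hP')) (mul_mem (mul_mem hQ hQ') hT)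
        · refine add_mem (add_mem (add_mem ?_ ?_) ?_) ?_
          · exact mul_mem (mul_mem (hC hQ) (hC hQ')) hd
          · exact mul_mem (add_mem (hC hP) (mul_mem (hC hQ) hz)) hc'
          · exact mul_mem hc (add_mem (hC hP') (mul_mem (hC hQ') hz))
          · exact mul_mem (mul_mem h3 hc) hc'
        · linear_combination (Q * Q') * hsq
    obtain ⟨P, hP, Q, hQ, c, hc, rfl⟩ := this
    exact rep_of_two (key P hP Q hQ) hc

omit H in
lemma mem_Call_iff (x : V) : x ∈ Call L z → ∃ m, x ∈ Cm L z m := by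
  intro hx
  induction hx using Subring.closure_induction with
  | mem x hx =>
    rcases hx with hx | ⟨i, rfl⟩
    · obtain ⟨k, hk⟩ := Set.mem_iUnion.1 hx
      exact ⟨0, L_le_Cm 0 k hk⟩
    · exact ⟨i + 1, z_mem_Cm (Nat.lt_succ_self i)⟩
  | zero => exact ⟨0, zero_mem _⟩
  | one => exact ⟨0, one_mem _⟩
  | add x y _ _ hx hy =>
    obtain ⟨m, hm⟩ := hx
    obtain ⟨n, hn⟩ := hy
    exact ⟨max m n, add_mem (Cm_mono (le_max_left _ _) hm) (Cm_mono (le_max_right _ _) hn)⟩
  | neg x _ hx =>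
    obtain ⟨m, hm⟩ := hx
    exact ⟨m, neg_mem hm⟩
  | mul x y _ _ hx hy =>
    obtain ⟨m, hm⟩ := hx
    obtain ⟨n, hn⟩ := hy
    exact ⟨max m n, mul_mem (Cm_mono (le_max_left _ _) hm) (Cm_mono (le_max_right _ _) hn)⟩

/-- every element of `C` has a normal form mod `2C`. -/
lemma rep_Call (x : V) (hx : x ∈ Call L z) : ∃ m, Rep L z m x := by
  obtain ⟨m, hm⟩ := mem_Call_iff x hx
  exact ⟨m, H.rep_Cm m x hm⟩

/-- `s m` is the identity mod `2` on normal forms of length `m`. -/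
lemma NF_fix {m K : ℕ} (n : ℕ) (hn : m ≤ n) {x : V} (hx : NF L z m K x) :
    Two (s n x - x) := by
  induction m generalizing x with
  | zero => exact H.fix n K x hx
  | succ m ih =>
    obtain ⟨P, Q, hP, hQ, rfl⟩ := hx
    have h1 := ih (by omega) hP
    have h2 := ih (by omega) hQ
    have h3 := H.zlt n m (by omega)
    have : s n (P + Q * z m) - (P + Q * z m)
        = (s n P - P) + (s n Q - Q) * s n (z m) + Q * (s n (z m) - z m) := by
      rw [map_add, map_mul]; ring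
    rw [this]
    exact (h1.add (h2.mul_right _)).add (h3.mul_left _)

/-- the key computation: `s_m (P + Q z_m) - (P + Q z_m) ≡ Q`. -/
lemma NF_step {m K K' : ℕ} {P Q : V} (hP : NF L z m K P) (hQ : NF L z m K' Q) :
    Two (s m (P + Q * z m) - (P + Q * z m) - Q) := by
  have h1 := H.NF_fix m le_rfl hP
  have h2 := H.NF_fix m le_rfl hQ
  have h3 := H.zeq m
  have : s m (P + Q * z m) - (P + Q * z m) - Q
      = (s m P - P) + (s m Q - Q) * s m (z m) + Q * (s m (z m) - z m - 1) := by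
    rw [map_add, map_mul]; ring
  rw [this]
  exact (h1.add (h2.mul_right _)).add (h3.mul_left _)

/-- (INDEP): a normal form in `2V` is twice a normal form. -/
lemma indep {m K : ℕ} {x : V} (hx : NF L z m K x) (h2 : Two x) :
    ∃ y, NF L z m K y ∧ x = 2 * y := by
  induction m generalizing x with
  | zero =>
    obtain ⟨y, hy, rfl⟩ := H.sat K x hx h2
    exact ⟨y, hy, rfl⟩
  | succ m ih =>
    obtain ⟨P, Q, hP, hQ, rfl⟩ := hx
    have hQ2 : Two Q := by
      have h := H.NF_step hP hQ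
      have h' : Two (s m (P + Q * z m) - (P + Q * z m)) := (h2.map _).sub h2
      have := h'.sub h
      simpa using this
    have hP2 : Two P := by
      have := h2.sub (hQ2.mul_right (z m))
      simpa using this
    obtain ⟨P', hP', rfl⟩ := ih hP hP2
    obtain ⟨Q', hQ', rfl⟩ := ih hQ hQ2
    exact ⟨P' + Q' * z m, ⟨P', Q', hP', hQ', rfl⟩, by ring⟩

/-- (SAT): `C ∩ 2V = 2C`. -/
lemma satC {x : V} (hx : x ∈ Call L z) (h2 : Two x) : ∃ y ∈ Call L z, x = 2 * y := by
  obtain ⟨m, K, y, hy, c, hc, rfl⟩ := H.rep_Call x hx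
  have : Two y := by
    have := h2.sub (Two.of_two_mul c)
    simpa using this
  obtain ⟨y', hy', rfl⟩ := H.indep hy this
  exact ⟨y' + c, add_mem hy'.mem_Call hc, by ring⟩

/-- `V = C`. -/
theorem mem_Call (h : V) : h ∈ Call L z := by
  obtain ⟨n, hn⟩ := H.gen h
  induction n with
  | zero => simpa using hn
  | succ n ih =>
    obtain ⟨y, hy, hxy⟩ := H.satC hn ⟨2 ^ n * h, by ring⟩
    apply ih
    have : 2 * (2 ^ n * h - y) = 0 := by
      have : (2 : V) ^ (n + 1) * h = 2 * (2 ^ n * h) := by ring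
      rw [this] at hxy
      rw [mul_sub, hxy, sub_self]
    have := H.tf _ this
    rw [sub_eq_zero] at this
    rwa [this]

/-- every element of `V` is congruent mod `2V` to a normal form. -/
theorem exists_NF (h : V) : ∃ m K y, NF L z m K y ∧ Two (h - y) := by
  obtain ⟨m, K, y, hy, c, hc, rfl⟩ := H.rep_Call h (H.mem_Call h)
  exact ⟨m, K, y, hy, ⟨c, by ring⟩⟩

lemma inv_NF {m K : ℕ} {y : V} (hy : NF L z m K y) (hinv : ∀ n < m, Two (s n y - y)) :
    ∃ f ∈ L K, Two (y - f) := by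
  induction m generalizing y with
  | zero => exact ⟨y, hy, by simpa using Two.zero⟩
  | succ m ih =>
    obtain ⟨P, Q, hP, hQ, rfl⟩ := hy
    have hQ2 : Two Q := by
      have := (hinv m (Nat.lt_succ_self m)).sub (H.NF_step hP hQ)
      simpa using this
    have hPinv : ∀ n < m, Two (s n P - P) := by
      intro n hn
      have h1 := hinv n (by omega)
      have h2 : Two (s n (Q * z m)) := (hQ2.mul_right _).map _
      have h3 : Two (Q * z m) := hQ2.mul_right _
      have : s n P - P = (s n (P + Q * z m) - (P + Q * z m)) - s n (Q * z m) + Q * z m := by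
        rw [map_add]; ring
      rw [this]
      exact (h1.sub h2).add h3
    obtain ⟨f, hf, hPf⟩ := ih hP hPinv
    refine ⟨f, hf, ?_⟩
    have : P + Q * z m - f = (P - f) + Q * z m := by ring
    rw [this]
    exact hPf.add (hQ2.mul_right _)

/-- **(K)**: an element of `V` invariant mod `2V` under all `s m` is congruent mod `2V` to an
element of pure weight. -/
theorem pure_of_inv (h : V) (hinv : ∀ n, Two (s n h - h)) : ∃ K, ∃ f ∈ L K, Two (h - f) := by
  obtain ⟨m, K, y, hy, hhy⟩ := H.exists_NF h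
  have hy' : ∀ n < m, Two (s n y - y) := by
    intro n _
    have : s n y - y = (s n h - h) - s n (h - y) + (h - y) := by rw [map_sub]; ring
    rw [this]
    exact ((hinv n).sub (hhy.map _)).add hhy
  obtain ⟨f, hf, hyf⟩ := H.inv_NF hy hy'
  refine ⟨K, f, hf, ?_⟩
  have : h - f = (h - y) + (y - f) := by ring
  rw [this]
  exact hhy.add hyf

end Hyp

end Crest.Agent.R007.K
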