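import Crest.Agent.R007.Link

/-!
# Row 7 (S0007): LINK, second part (helper720): `TopZ.TData` from `QP`, `EOut`, `EmbOut`.
-/

set_option autoImplicit false

open scoped MatrixGroups

namespace Crest.Agent.R007.Link

open Lat F

section Aux

variable {O : Subring ℂ} {M : ℕ} {A : Lat.X → ℂ} {κ : Type*} [Field κ] [CharP κ 2] {D : FData κ}

theorem LL_list_sum {k : ℕ} (l : List (Lat.X → ℂ)) (h : ∀ F ∈ l, F ∈ LL O k) : l.sum ∈ LL O k :=
  AddSubgroup.list_sum_mem _ h

theorem pow_mul_LL (hA : A ∈ LL O 1) {l : ℕ} (j : ℕ) {G : Lat.X → ℂ} (hG : G ∈ LL O l) :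
    A ^ j * G ∈ LL O (j + l) := by
  have h := LL_pow hA j
  rw [mul_one] at h
  exact LL_mul h hG

theorem pow_mul_Cong (hA : A ∈ LL O 1) (hA1 : Cong O A cone) {l : ℕ} (j : ℕ) {G : Lat.X → ℂ}
    (hG : G ∈ LL O l) {c : ℚ → ZMod 2} (hc : Cong O G c) : Cong O (A ^ j * G) c := by
  induction j with
  | zero => simpa using hc
  | succ j ih =>
    have e : A ^ (j + 1) * G = A * (A ^ j * G) := by ring
    rw [e]
    have h1 := pow_mul_LL hA j hG
    exact Cong.mul_one (LL_PO hA) (LL_PO h1) hA1 (LL_coeff h1) ih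

theorem pow_MX [NeZero M] (hM : A ∈ MX M 1) (j : ℕ) : A ^ j ∈ MX M j := by
  induction j with
  | zero => simpa using (MX_one (M := M))
  | succ j ih =>
    rw [pow_succ]
    exact MX_mul ih hM

/-- the class of `ev F / t^k` in `K/R` -/
noncomputable def EOut.cl (E : EOut O M A D) (p : E.P) (k : ℕ) (F : LL O k) : KR κ :=
  Submodule.Quotient.mk (E.q p k F)

theorem EOut.cl_zero (E : EOut O M A D) {p : E.P} {k : ℕ} {F : LL O k} (h : E.cl p k F = 0) :
    (PowerSeries.X : PowerSeries κ) ^ k ∣ E.ev p k F := by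
  rw [EOut.cl, Submodule.Quotient.mk_eq_zero] at h
  obtain ⟨b, hb⟩ := h
  refine ⟨b, ?_⟩
  rw [EOut.q, eq_div_iff (pow_ne_zero _ tne)] at hb
  apply IsFractionRing.injective (PowerSeries κ) (LaurentSeries κ)
  rw [map_mul, map_pow, ← hb, mul_comm]

end Aux

section Build

variable {O : Subring ℂ} {M : ℕ} {A : Lat.X → ℂ} {κ : Type*} [Field κ] [CharP κ 2] {D : FData κ}
  {T0 W I : Type*} [CommRing T0] [Algebra (ZMod 2) T0]
  [AddCommGroup W] [Module (ZMod 2) W] [Module T0 W] {gen : I → T0} {a : W →ₗ[ZMod 2] ZMod 2}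

/-- hypotheses of the link -/
structure Hyp (O : Subring ℂ) (M : ℕ) (A : Lat.X → ℂ) : Prop where
  qp : QP O
  A_mem : A ∈ LL O 1
  A_M : A ∈ MX M 1
  A_one : Cong O A cone
  one_ne : ∀ a ∈ O, (1 : ℂ) ≠ 2 * a

variable (H : Hyp O M A) (E : EOut O M A D) (B : EmbOut O M gen a)

/-- weight of the chosen representative -/
noncomputable def wt (w : W) : ℕ := (B.surj w).choose

/-- the chosen representative -/
noncomputable def rp (w : W) : LL O (wt B w) :=
  ⟨(B.surj w).choose_spec.choose, (B.surj w).choose_spec.choose_spec.1⟩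

theorem rp_MX (w : W) : (rp B w : Lat.X → ℂ) ∈ MX M (wt B w) :=
  (B.surj w).choose_spec.choose_spec.2.1

theorem rp_Cong (w : W) : Cong O (rp B w : Lat.X → ℂ) (B.Q w) :=
  (B.surj w).choose_spec.choose_spec.2.2

/-- supersingular expansions -/
noncomputable def Ev (p : E.P) (w : W) : KR κ := E.cl p (wt B w) (rp B w)

include H in
theorem Ev_eq (p : E.P) (w : W) {k : ℕ} (F : LL O k) (h : Cong O F (B.Q w)) :
    Ev E B p w = E.cl p k F := by
  rw [Ev, EOut.cl, EOut.cl, E.q_congr H.qp H.A_mem H.A_one (rp B w) F (rp_Cong B w) h p]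

include H in
theorem Ev_add (p : E.P) (w w' : W) : Ev E B p (w + w') = Ev E B p w + Ev E B p w' := by
  have h1 := pow_mul_LL H.A_mem (wt B w') (rp B w).2
  have h2 := pow_mul_LL H.A_mem (wt B w) (rp B w').2
  have c1 := pow_mul_Cong H.A_mem H.A_one (wt B w') (rp B w).2 (rp_Cong B w)
  have c2 := pow_mul_Cong H.A_mem H.A_one (wt B w) (rp B w').2 (rp_Cong B w')
  rw [add_comm (wt B w') (wt B w)] at h1
  rw [Ev_eq H E B p w ⟨_, h1⟩ c1, Ev_eq H E B p w' ⟨_, h2⟩ c2]
  have c3 : Cong O ((⟨_, h1⟩ + ⟨_, h2⟩ : LL O (wt B w + wt B w')) : Lat.X → ℂ) (B.Q (w + w')) := by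
    rw [map_add]
    exact Cong.add (LL_PO h1) (LL_PO h2) c1 c2
  rw [Ev_eq H E B p (w + w') _ c3, EOut.cl, EOut.cl, EOut.cl, E.q_add]
  rfl

/-- supersingular expansions as linear maps -/
noncomputable def EL [Algebra (ZMod 2) κ] (p : E.P) : W →ₗ[ZMod 2] KR κ :=
  AddMonoidHom.toZModLinearMap 2
    { toFun := Ev E B p
      map_zero' := by
        have := Ev_add H E B p 0 0
        rw [add_zero] at this
        simpa using this
      map_add' := Ev_add H E B p }

@[simp] theorem EL_apply [Algebra (ZMod 2) κ] (p : E.P) (w : W) : EL H E B p w = Ev E B p w := rfl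

include H in
theorem Q_adjoin [IsScalarTower (ZMod 2) T0 W] (x : T0)
    (hx : x ∈ Algebra.adjoin (ZMod 2) (Set.range gen)) :
    ∀ w : W, B.Q w = 0 → B.Q (x • w) = 0 := by
  induction hx using Algebra.adjoin_induction with
  | mem x hx =>
    obtain ⟨i, rfl⟩ := hx
    intro w hw
    have h0 : Cong O ((rp B w : LL O (wt B w)) : Lat.X → ℂ) 0 := hw ▸ rp_Cong B w
    obtain ⟨G, hG, eG⟩ := H.qp _ _ (rp B w).2 (fun r => by
      obtain ⟨b, hb, eb⟩ := h0 r
      exact ⟨b, hb, by rw [eb]; simp⟩)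
    have h1 := B.hecke i w _ _ (rp B w).2 (rp_MX B w) (rp_Cong B w)
    have hGl : ∀ F ∈ (B.hk i).map (sl G), F ∈ LL O (wt B w) := by
      intro F hF
      obtain ⟨g, hg, rfl⟩ := List.mem_map.1 hF
      exact LL_sl hG (B.hk_mem i g hg)
    have h2 : ((B.hk i).map (sl (rp B w : Lat.X → ℂ))).sum = (2 : ℂ) • ((B.hk i).map (sl G)).sum := by
      rw [eG]
      have : ∀ l : List GL(2, ℝ)⁺, (l.map (sl ((2 : ℂ) • G))).sum = (2 : ℂ) • (l.map (sl G)).sum := by
        intro l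
        induction l with
        | nil => simp
        | cons g l ih => rw [List.map_cons, List.sum_cons, ih, sl_smul, List.map_cons,
            List.sum_cons, smul_add]
      exact this _
    rw [h2] at h1
    refine Cong.zero_of_two H.one_ne h1 fun r => ?_
    have hs := LL_list_sum _ hGl
    refine ⟨_, LL_coeff hs r, ?_⟩
    rw [res_smul, qf_smul _ (LL_PO hs), HahnSeries.coeff_smul, smul_eq_mul]
  | algebraMap r =>
    intro w hw
    rw [algebraMap_smul]
    have h2 : ∀ r : ZMod 2, r = 0 ∨ r = 1 := by decide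
    rcases h2 r with rfl | rfl
    · rw [zero_smul, map_zero]
    · rw [one_smul, hw]
  | add x y _ _ hx hy =>
    intro w hw
    rw [add_smul, map_add, hx w hw, hy w hw, add_zero]
  | mul x y _ _ hx hy =>
    intro w hw
    rw [mul_smul]
    exact hx _ (hy w hw)

include H in
theorem Ev_inj [IsScalarTower (ZMod 2) T0 W]
    (dual : ∀ w : W, (∀ t : T0, a (t • w) = 0) → w = 0)
    (approx : ∀ (s : Finset W) (t : T0), ∃ x ∈ Algebra.adjoin (ZMod 2) (Set.range gen),
      ∀ w ∈ s, t • w = x • w) (w : W) (h : ∀ p, Ev E B p w = 0) : w = 0 := by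
  obtain ⟨c, hc, G, hG, eG⟩ := E.reg _ (rp B w) (rp_MX B w) fun p => E.cl_zero (h p)
  -- the constant term
  have hAk := pow_mul_Cong H.A_mem H.A_one (wt B w) (LL_one (O := O)) (c := cone) (by
    intro r
    refine ⟨0, O.zero_mem, ?_⟩
    rw [res_one, qf_one, HahnSeries.coeff_one, cone]
    split_ifs <;> simp [ZMod.val_one])
  rw [mul_one] at hAk
  have hAm := pow_mul_LL H.A_mem (wt B w) (LL_one (O := O))
  rw [mul_one, add_zero] at hAm
  have hc2 : ∃ b ∈ O, c = 2 * b := by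
    obtain ⟨b, hb, eb⟩ := rp_Cong B w 0
    obtain ⟨b', hb', eb'⟩ := hAk 0
    rw [B.Q_zero, ZMod.val_zero, Nat.cast_zero, zero_add, eG, res_add, res_smul, res_smul,
      qf_add (Subalgebra.smul_mem _ (LL_PO hAm) _) (Subalgebra.smul_mem _ (LL_PO hG) _),
      qf_smul _ (LL_PO hAm), qf_smul _ (LL_PO hG), HahnSeries.coeff_add, HahnSeries.coeff_smul,
      HahnSeries.coeff_smul, smul_eq_mul, smul_eq_mul, eb'] at eb
    have h1 : ((cone 0).val : ℂ) = 1 := by simp [cone, ZMod.val_one]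
    rw [h1] at eb
    refine ⟨b - c * b' - (qf (res G)).coeff 0,
      O.sub_mem (O.sub_mem hb (O.mul_mem hc hb')) (LL_coeff hG 0), ?_⟩
    linear_combination eb
  obtain ⟨b, hb, rfl⟩ := hc2
  have hQ : B.Q w = 0 := by
    refine Cong.zero_of_two H.one_ne (rp_Cong B w) fun r => ?_
    have hm : b • A ^ (wt B w) + G ∈ LL O (wt B w) := add_mem (LL_smul hAm hb) hG
    refine ⟨_, LL_coeff hm r, ?_⟩
    have e2 : (rp B w : Lat.X → ℂ) = (2 : ℂ) • (b • A ^ (wt B w) + G) := by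
      rw [eG, smul_add, smul_smul]
    rw [e2, res_smul, qf_smul _ (LL_PO hm), HahnSeries.coeff_smul, smul_eq_mul]
  apply dual
  intro t
  obtain ⟨x, hx, e⟩ := approx {w} t
  rw [e w (by simp), ← B.Q_one, Q_adjoin H B x hx w hQ]
  rfl

/-- Hecke formula: transport of one matrix -/
theorem trans (p : E.P) (δ : GL(2, ℝ)⁺) (hδ : δ ∈ G2) :
    ∃ (g : Pr D) (p' : E.P), ∀ (k : ℕ) (F : LL O k), (F : Lat.X → ℂ) ∈ MX M k →
      E.cl p k ⟨sl (F : Lat.X → ℂ) δ, LL_sl F.2 hδ⟩ = actKR g.s (E.cl p' k F) := by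
  obtain ⟨g, p', h⟩ := E.hecke p δ hδ
  refine ⟨g, p', fun k F hF => ?_⟩
  have := h k F ⟨sl (F : Lat.X → ℂ) δ, LL_sl F.2 hδ⟩ hF rfl
  rw [EOut.cl, EOut.q, this, EOut.cl, actKR_mk]
  rfl

/-- the pairs -/
noncomputable def tr (p : E.P) (δ : GL(2, ℝ)⁺) : Pr D × E.P := by
  classical
  exact if hδ : δ ∈ G2 then ⟨(trans E p δ hδ).choose, (trans E p δ hδ).choose_spec.choose⟩
    else ⟨1, p⟩

theorem tr_spec (p : E.P) (δ : GL(2, ℝ)⁺) (hδ : δ ∈ G2) (k : ℕ) (F : LL O k)
    (hF : (F : Lat.X → ℂ) ∈ MX M k) :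
    E.cl p k ⟨sl (F : Lat.X → ℂ) δ, LL_sl F.2 hδ⟩ = actKR (tr E p δ).1.s (E.cl (tr E p δ).2 k F) := by
  rw [tr, dif_pos hδ]
  exact (trans E p δ hδ).choose_spec.choose_spec k F hF

include H in
theorem Ev_hecke [Algebra (ZMod 2) κ] (i : I) (p : E.P) (w : W) :
    EL H E B p (gen i • w) =
      (((B.hk i).map (tr E p)).map fun d => act (ZMod 2) D d.1 (EL H E B d.2 w)).sum := by
  have h1 := B.hecke i w _ _ (rp B w).2 (rp_MX B w) (rp_Cong B w)
  have key : ∀ l : List GL(2, ℝ)⁺, (∀ g ∈ l, g ∈ G2) →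
      ∃ hm : (l.map (sl (rp B w : Lat.X → ℂ))).sum ∈ LL O (wt B w),
        E.cl p (wt B w) ⟨_, hm⟩ =
          ((l.map (tr E p)).map fun d => act (ZMod 2) D d.1 (EL H E B d.2 w)).sum := by
    intro l
    induction l with
    | nil =>
      intro _
      refine ⟨by simp [(LL O (wt B w)).zero_mem], ?_⟩
      have : (⟨(([] : List GL(2, ℝ)⁺).map (sl (rp B w : Lat.X → ℂ))).sum, by
        simp [(LL O (wt B w)).zero_mem]⟩ : LL O (wt B w)) = 0 := Subtype.ext (by simp)
      rw [this, EOut.cl, EOut.q, map_zero, map_zero, zero_div]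
      simp
    | cons g l ih =>
      intro hl
      obtain ⟨hm, e⟩ := ih fun g' hg' => hl g' (List.mem_cons_of_mem _ hg')
      have hg := hl g (List.mem_cons_self ..)
      have hs : sl (rp B w : Lat.X → ℂ) g ∈ LL O (wt B w) := LL_sl (rp B w).2 hg
      refine ⟨by rw [List.map_cons, List.sum_cons]; exact add_mem hs hm, ?_⟩
      have e1 : (⟨((g :: l).map (sl (rp B w : Lat.X → ℂ))).sum, by
          rw [List.map_cons, List.sum_cons]; exact add_mem hs hm⟩ : LL O (wt B w)) =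
          ⟨_, hs⟩ + ⟨_, hm⟩ := Subtype.ext (by
            change ((g :: l).map (sl (rp B w : Lat.X → ℂ))).sum =
              sl (rp B w : Lat.X → ℂ) g + (l.map (sl (rp B w : Lat.X → ℂ))).sum
            rw [List.map_cons, List.sum_cons])
      rw [e1]
      have e2 : E.cl p (wt B w) (⟨_, hs⟩ + ⟨_, hm⟩) = E.cl p (wt B w) ⟨_, hs⟩ +
          E.cl p (wt B w) ⟨_, hm⟩ := by
        rw [EOut.cl, E.q_add]; rfl
      rw [e2, e, tr_spec E p g hg _ (rp B w) (rp_MX B w), List.map_cons, List.map_cons,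
        List.sum_cons]
      rfl
  obtain ⟨hm, e⟩ := key _ (B.hk_mem i)
  rw [EL_apply, Ev_eq H E B p _ ⟨_, hm⟩ h1, e]

/-- **TDATA.** -/
noncomputable def tdata [Algebra (ZMod 2) κ] [IsScalarTower (ZMod 2) T0 W]
    (dual_inj : ∀ t : T0, (∀ w : W, a (t • w) = 0) → t = 0)
    (dual_surj : ∀ f : W →ₗ[ZMod 2] ZMod 2, ∃ t : T0, ∀ w, f w = a (t • w))
    (dual : ∀ w : W, (∀ t : T0, a (t • w) = 0) → w = 0)
    (approx : ∀ (s : Finset W) (t : T0), ∃ x ∈ Algebra.adjoin (ZMod 2) (Set.range gen),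
      ∀ w ∈ s, t • w = x • w)
    (locfin : ∀ w : W, Module.Finite (ZMod 2) (Submodule.span T0 {w})) :
    TopZ.TData (ZMod 2) T0 W (KR κ) (Pr D) E.P I (act (ZMod 2) D) where
  a := a
  dual_inj := dual_inj
  dual_surj := dual_surj
  gen := gen
  approx := approx
  locfin := locfin
  E := EL H E B
  E_inj := fun w h => Ev_inj H E B dual approx w h
  hk := fun i p => (B.hk i).map (tr E p)
  hecke := fun i p w => Ev_hecke H E B i p w

end Build

end Crest.Agent.R007.Link
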