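import Crest.Agent.R007.LinkT
import Crest.Agent.R007.EHasse
import Crest.Agent.R007.QInstO

/-!
# Row 7 (S0007): MAIN assembly, part 1 (helper720): `Link.Hyp` for the ring `Coef.OO`.
-/

set_option autoImplicit false

open scoped MatrixGroups

namespace Crest.Agent.R007.Main

open Lat

/-- the base point of order `3` -/
def v0 : Fin 2 → ℤ := ![1, 0]

theorem nz_v0 : Tc.NZ 3 v0 := Or.inl (by simp [v0])

theorem oddRing : Tc.OddRing Coef.OO where
  zeta_mem M hM := by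
    have h : Wp.zeta M ^ M = 1 := Wp.zeta_pow M hM.pos.ne'
    exact Coef.root_mem hM h
  inv_mem _ hn := Coef.inv_nat_mem hn

/-- the weight one Hasse form -/
noncomputable def AA : X → ℂ := lift 1 (Tc.A1 v0)

/-- the weight three form -/
noncomputable def BB : X → ℂ := lift 3 (Tc.A3 v0)

theorem AA_mem : AA ∈ Link.LL Coef.OO 1 := EH.A1_mem_Lk oddRing nz_v0

theorem BB_mem : BB ∈ Link.LL Coef.OO 3 := EH.A3_mem_Lk oddRing nz_v0

theorem AA_MX {M : ℕ} [NeZero M] (hM : 3 ∣ M) : AA ∈ MX M 1 :=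
  MX_mono hM (EH.isF_mem_MX (Tc.isF_A1 nz_v0))

theorem AA_Cong : Link.Cong Coef.OO AA Link.cone := by
  intro r
  obtain ⟨a, ha, e⟩ := EH.hasse_inf oddRing nz_v0 r
  refine ⟨a, ha, ?_⟩
  have h1 : res AA = (res AA - 1) + 1 := by ring
  have hA : res AA ∈ PO := Link.LL_PO AA_mem
  rw [h1, qf_add (sub_mem hA (one_mem _)) (one_mem _), HahnSeries.coeff_add]
  change (qf (res (lift 1 (Tc.A1 v0)) - 1)).coeff r + _ = _
  rw [e, qf_one, HahnSeries.coeff_one, Link.cone]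
  split_ifs <;> simp [ZMod.val_one, add_comm]

theorem one_ne : ∀ a ∈ Coef.OO, (1 : ℂ) ≠ 2 * a := by
  intro a ha h
  apply Coef.two_not_isUnit
  refine isUnit_iff_exists_inv.2 ⟨⟨a, ha⟩, ?_⟩
  exact Subtype.ext h.symm

theorem qp_of_SD (hD : QInst.SD Coef.OO) : Link.QP Coef.OO := by
  intro k F hF h
  obtain ⟨G, hG, e⟩ := hD k F hF h
  refine ⟨G, hG, ?_⟩
  rw [e]
  funext x
  simp

theorem hyp (M : ℕ) [NeZero M] (hM : 3 ∣ M) (hD : QInst.SD Coef.OO) :
    Link.Hyp Coef.OO M AA where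
  qp := qp_of_SD hD
  A_mem := AA_mem
  A_M := AA_MX hM
  A_one := AA_Cong
  one_ne := one_ne

end Crest.Agent.R007.Main
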