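import Crest.Agent.R007.Main2
import Crest.Agent.R007.ETop
import Crest.Agent.R007.FEndD
import Crest.Agent.R007.TopZ

/-!
# Row 7 (S0007): MAIN assembly, part 3 (helper720): `T0` is Noetherian of dimension `≤ 2`.
-/

set_option autoImplicit false

open scoped MatrixGroups
open Crest.LubinTate

namespace Crest.Agent.R007.Main

open Lat

theorem dimT0 (hfg : FG) (hpt : PT) {T0 W I : Type*} [CommRing T0] [Algebra (ZMod 2) T0]
    [AddCommGroup W] [Module (ZMod 2) W] [Module T0 W] [IsScalarTower (ZMod 2) T0 W]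
    {gen : I → T0} {a : W →ₗ[ZMod 2] ZMod 2} (M : ℕ) [NeZero M] (h3 : 3 ∣ M)
    (B : Link.EmbOut Coef.OO M gen a)
    (dual_inj : ∀ t : T0, (∀ w : W, a (t • w) = 0) → t = 0)
    (dual_surj : ∀ f : W →ₗ[ZMod 2] ZMod 2, ∃ t : T0, ∀ w, f w = a (t • w))
    (dual : ∀ w : W, (∀ t : T0, a (t • w) = 0) → w = 0)
    (approx : ∀ (s : Finset W) (t : T0), ∃ x ∈ Algebra.adjoin (ZMod 2) (Set.range gen),
      ∀ w ∈ s, t • w = x • w)
    (locfin : ∀ w : W, Module.Finite (ZMod 2) (Submodule.span T0 {w})) :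
    IsNoetherianRing T0 ∧ ringKrullDim T0 ≤ 2 := by
  obtain ⟨ω, hω⟩ := OOI.exists_omega
  let _ : Algebra (ZMod 2) Coef.kappa := ZMod.algebra Coef.kappa 2
  let E : Link.EOut Coef.OO M AA (Fg.fdata Coef.kappa) := (eIn hfg hpt).out M
  have _ : Finite E.P := E.fin
  exact TopZ.dimT0 (F.endData (Fg.fdata Coef.kappa) (Fg.hasW hω))
    (Link.tdata (hypM M h3) E B dual_inj dual_surj dual approx locfin)

end Crest.Agent.R007.Main
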