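import Crest.Agent.R007.Main3
import Crest.Agent.R007.EPt4

/-!
# Row 7 (S0007): MAIN assembly, part 4 (helper720): existence of points.
-/

set_option autoImplicit false

namespace Crest.Agent.R007.Main

theorem v0_ne : (v0 0 : ZMod 3) ≠ 0 := by
  simp [v0]

theorem pt : PT := EPt.exists_pt oddRing nz_v0 v0_ne Coef.res OOI.rho_surj

end Crest.Agent.R007.Main
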