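import Crest.Agent.R007.Main4
import Crest.Agent.R007.FgFin
import Crest.Agent.R007.Du8
import Crest.Agent.R007.NT
import Crest.Agent.R007.HDShell
import Crest.Agent.R007.RatBDF

/-!
# Row 7 (S0007): MAIN assembly, part 5 (helper720): S0007 from `EmbOut`.
-/

set_option autoImplicit false

open Crest.NumberTheoryR.HeckeTwoAdic
open scoped TensorProduct

namespace Crest.Agent.R007.Main

/-- finiteness of the stages -/
theorem hfin (N : ℕ) [NeZero N] (hN : Odd N) : ∀ k, Module.Finite ℤ_[2] (Du.R N k) :=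
  fun k => Rat.finite_stage hN (HD.isDiamondFamily N) (HD.isHeckeFamily N) k

/-- the statement of EMB -/
def EMB : Prop :=
  ∀ (N : ℕ) [NeZero N] (_ : Odd N) (c : Du.PP N) (hfin : ∀ k, Module.Finite ℤ_[2] (Du.R N k)),
    ∃ (M : ℕ) (_ : NeZero M), 3 ∣ M ∧ Nonempty (Link.EmbOut Coef.OO M (Du.gen0 c) (Du.a1 c hfin))

theorem dim_T0 (hemb : EMB) (N : ℕ) [NeZero N] (hN : Odd N) (c : Du.PP N) :
    IsNoetherianRing (Du.T0 c) ∧ ringKrullDim (Du.T0 c) ≤ 2 := by
  obtain ⟨M, hM, h3, ⟨B⟩⟩ := hemb N hN c (hfin N hN)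
  exact dimT0 fg pt M h3 B (Du.dual_inj c (hfin N hN)) (Du.dual_surj c (hfin N hN))
    (fun w hw => Du.W0.ext fun t => by
      have := hw t
      rw [Du.a1_smul] at this
      rw [this, Du.W0.fn_zero]; rfl)
    (Du.approx c (hfin N hN)) (Du.locfin c (hfin N hN))

theorem dim_TT (hemb : EMB) (N : ℕ) [NeZero N] (hN : Odd N) : ringKrullDim (Du.TT N) ≤ 4 := by
  obtain ⟨c⟩ := Du.exists_PP (N := N) hN
  exact (Du.final c (hfin N hN) (dim_T0 hemb N hN c)).2

/-- **S0007** from `EMB`. -/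
theorem S0007_of (hemb : EMB) (N : ℕ) (hN : Odd N) :
    ∃ (T D : ℕ → (i : ℕ) → (MF N i →ₗ[ℂ] MF N i)),
      IsDiamondFamily N D ∧ IsHeckeFamily N T D ∧
      ∃ hcomm : ∀ a b : HeckeTwo N T D, a * b = b * a,
        Nontrivial (HeckeTwo N T D) ∧
        ∀ P : Ideal (HeckeTwo N T D),
          P ∈ @minimalPrimes (HeckeTwo N T D) (commRingOfComm (HeckeTwo N T D) hcomm).toCommSemiring →
          @ringKrullDim (HeckeTwo N T D ⧸ P)
            (@Ideal.Quotient.commRing (HeckeTwo N T D) (commRingOfComm (HeckeTwo N T D) hcomm) P).toCommSemiring ≤ 4 := by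
  have _ : NeZero N := ⟨hN.pos.ne'⟩
  exact HD.shell N (nontrivial_heckeTwo N _ _) (Du.equivHecke N) (dim_TT hemb N hN)

end Crest.Agent.R007.Main
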