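import Crest.Agent.R007.Main5
import Crest.Agent.R007.Emb7
import Crest.Agent.R007.EmbDia
import Crest.Agent.R007.EmbTop1

/-!
# Row 7 (S0007): EMB, last glue (helper720, insurance copy of EmbTop).
-/

set_option autoImplicit false

open scoped MatrixGroups
open CongruenceSubgroup

namespace Crest.Agent.R007.Main

open Lat Emb

theorem cong_iff {F : Lat.X → ℂ} {c : ℚ → ZMod 2} : Link.Cong Coef.OO F c ↔ CC F c := by
  constructor
  · intro h r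
    obtain ⟨a, ha, e⟩ := h r
    rw [e, mem_T2]
    exact ⟨a, ha, by rw [toC]; ring⟩
  · intro h r
    obtain ⟨a, ha, e⟩ := mem_T2.1 (h r)
    exact ⟨a, ha, by rw [toC] at e; linear_combination e⟩

theorem coprime_Nrad {N l : ℕ} (hl : l.Prime) (hlN : ¬ l ∣ 2 * N) : l.Coprime (Op.Nrad N) := by
  have h1 : ¬ l ∣ N := fun h => hlN (Dvd.dvd.mul_left h 2)
  rw [Op.Nrad, Nat.Prime.coprime_iff_not_dvd hl, hl.dvd_mul, hl.prime.dvd_finset_prod_iff]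
  rintro (h | ⟨p, hp, h⟩)
  · exact h1 h
  · rw [(Nat.prime_dvd_prime_iff_eq hl (Nat.prime_of_mem_primeFactors hp)).1 h] at h1
    exact h1 (Nat.dvd_of_mem_primeFactors hp)

theorem exists_s (N : ℕ) [NeZero N] (l : ℕ) : ∃ s : SL(2, ℤ), (l.Prime ∧ ¬ l ∣ 2 * N) →
    s ∈ Gamma0 (Op.Nrad N) ∧ ((s 1 1 : ℤ) : ZMod (Op.Nrad N)) = l := by
  by_cases h : l.Prime ∧ ¬ l ∣ 2 * N
  · obtain ⟨s, h1, h2⟩ := Base.exists_gamma (Op.Nrad N) l (coprime_Nrad h.1 h.2)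
    exact ⟨s, fun _ => ⟨h1, h2⟩⟩
  · exact ⟨1, fun h' => absurd h' h⟩

theorem emb' : EMB := by
  intro N _ hN c hfin
  have h2 : ¬ 2 ∣ N := hN.not_two_dvd_nat
  have hodd : Odd (Op.Nrad N) :=
    Nat.not_even_iff_odd.1 fun h => Op.Nrad_odd h2 h.two_dvd
  have hM : Odd (3 * Op.Nrad N) := (by decide : Odd 3).mul hodd
  have hne : NeZero (3 * Op.Nrad N) := ⟨hM.pos.ne'⟩
  have H := Emb.exists_ctx (N := N) hN (M := 3 * Op.Nrad N) hM (dvd_mul_right _ _)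
    (dvd_mul_left _ _) (HD.isDiamondFamily N) (HD.isHeckeFamily N) (HD.isDiamondFamily (Op.Nrad N))
    c.hl c.hlN c.l8 c.lN c.hn c.hnN c.n4 c.nN
  have hrep : ∀ w : Du.WW c hfin, ∃ (k : ℕ) (φ : EmbTop.St N k →+ ZMod 2),
      EmbTop.Rep (Du.mk0 c) (Du.a1 c hfin) w φ := by
    intro w
    obtain ⟨k, φ, h⟩ := Du.exists_stage c hfin w
    exact ⟨k, φ, fun t s hts => Du.a1_stage c hfin w h s t hts⟩
  have hinv : ∀ (w : Du.WW c hfin) (k : ℕ) (φ : EmbTop.St N k →+ ZMod 2),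
      EmbTop.Rep (Du.mk0 c) (Du.a1 c hfin) w φ → Inv c.l c.n φ := by
    intro w k φ h
    constructor
    · exact h.inv (by rw [EmbTop.eT'_eq N c.hl c.hlN]; exact Du.mk0_tE c hfin c.hl c.hlN c.lN)
    · exact h.inv (by rw [EmbTop.eT'_eq N c.hn c.hnN]; exact Du.mk0_tE c hfin c.hn c.hnN c.nN)
  choose s hs using exists_s N
  have B := EmbQ.mkEmbOut Coef.OO (3 * Op.Nrad N) N (fun n hn z hz => Coef.root_mem hn hz)
    (Du.a1 c hfin) (fun l => Du.mk0 c (EmbTop.tT' N l)) (fun l => Du.mk0 c (EmbTop.eT' N l)) s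
    (by
      intro w
      obtain ⟨k, φ, h⟩ := hrep w
      obtain ⟨K, f, hf, hfM, hc⟩ := H.surj (hinv w k φ h)
      refine ⟨K, f, hf, hfM, ?_⟩
      rw [h.Q_eq, cong_iff]
      exact hc)
    (by
      intro l hl hlN w K F hF hFM hc
      obtain ⟨k, φ, h⟩ := hrep w
      rw [h.Q_eq, cong_iff] at hc
      rw [(h.mulR l).Q_eq, cong_iff]
      exact H.dia (fun n G hG hi c hc => inv_all hG hi c hc) (hinv w k φ h) hF hc hl hlN
        (hs l ⟨hl, hlN⟩).1 (hs l ⟨hl, hlN⟩).2)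
  refine ⟨3 * Op.Nrad N, hne, dvd_mul_right _ _, ⟨?_⟩⟩
  have hg : (EmbQ.gen (N := N) (fun l => Du.mk0 c (EmbTop.tT' N l))
      (fun l => Du.mk0 c (EmbTop.eT' N l))) = Du.gen0 c := by
    funext i
    obtain ⟨⟨l, hl, hlN⟩, b⟩ := i
    cases b with
    | true =>
      change Du.mk0 c (EmbTop.tT' N l) = Du.mk0 c (Du.tT hl hlN)
      rw [EmbTop.tT'_eq N hl hlN]
    | false =>
      change Du.mk0 c (EmbTop.eT' N l) = Du.mk0 c (Du.tE hl hlN)
      rw [EmbTop.eT'_eq N hl hlN]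
  exact hg ▸ B

end Crest.Agent.R007.Main
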