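import Crest.Agent.R007.Main5
import Crest.Agent.R007.MainEmb

/-!
# Row 7 (S0007): MAIN assembly, part 6 (helper720): the end.
-/

set_option autoImplicit false

open Crest.NumberTheoryR.HeckeTwoAdic

namespace Crest.Agent.R007.Main

/-- **S0007.** -/
theorem main (N : ℕ) (hN : Odd N) :
    ∃ (T D : ℕ → (i : ℕ) → (MF N i →ₗ[ℂ] MF N i)),
      IsDiamondFamily N D ∧ IsHeckeFamily N T D ∧
      ∃ hcomm : ∀ a b : HeckeTwo N T D, a * b = b * a,
        Nontrivial (HeckeTwo N T D) ∧
        ∀ P : Ideal (HeckeTwo N T D),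
          P ∈ @minimalPrimes (HeckeTwo N T D) (commRingOfComm (HeckeTwo N T D) hcomm).toCommSemiring →
          @ringKrullDim (HeckeTwo N T D ⧸ P)
            (@Ideal.Quotient.commRing (HeckeTwo N T D) (commRingOfComm (HeckeTwo N T D) hcomm) P).toCommSemiring ≤ 4 :=
  S0007_of emb' N hN

end Crest.Agent.R007.Main
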