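import Mathlib
import Crest.Prelude.Def_HeckeTwo
import Crest.Agent.R007.OpU

/-! Row 7: left nondegeneracy of the `a₁`-pairing `stage × mixed forms → ℂ`. (helper668) -/

set_option autoImplicit false

namespace Crest.Agent.R007.Op

open Matrix UpperHalfPlane ModularForm CongruenceSubgroup Matrix.SpecialLinearGroup
open scoped MatrixGroups ModularForm Manifold Pointwise
open Crest.NumberTheoryR.HeckeTwoAdic

local notation "𝕢" => Function.Periodic.qParam

/-- A form of positive weight whose positive coefficients vanish is zero. -/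
lemma eq_zero_of_an_pos {N : ℕ} [NeZero N] {k : ℕ} (hk : k ≠ 0) (f : MF N k)
    (h : ∀ n, n ≠ 0 → an f n = 0) : f = 0 := by
  -- f is constant
  have hconst : ∀ τ : ℍ, f τ = an f 0 := by
    intro τ
    have h1 := hasSum_an f τ
    have h2 : HasSum (fun n => an f n * 𝕢 1 τ ^ n) (an f 0) := by
      have := hasSum_single (f := fun n => an f n * 𝕢 1 (τ : ℂ) ^ n) 0 (by
        intro n hn; rw [h n hn, zero_mul])
      simpa using this
    exact h1.unique h2
  have hN : (N : ℤ) ≠ 0 := by exact_mod_cast NeZero.ne N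
  let γ : SL(2, ℤ) := ⟨!![1, 0; (N : ℤ), 1], by rw [Matrix.det_fin_two_of]; ring⟩
  have hγ : γ ∈ Gamma1 N := by
    rw [Gamma1_mem]
    refine ⟨?_, ?_, ?_⟩
    · change (((1 : ℤ)) : ZMod N) = 1; simp
    · change (((1 : ℤ)) : ZMod N) = 1; simp
    · change (((N : ℤ)) : ZMod N) = 0; simp
  have h3 := inv1_mf f γ hγ
  have h4 := congrFun h3 I
  rw [SL_slash_apply, hconst, hconst] at h4
  by_cases hc : an f 0 = 0
  · ext τ
    rw [hconst τ, hc]; rfl
  · exfalso
    have h5 : denom (γ : GL (Fin 2) ℝ) I ^ (-(k : ℤ)) = 1 := by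
      have := mul_left_cancel₀ hc (h4.trans (mul_one _).symm)
      exact this
    have hden : denom (γ : GL (Fin 2) ℝ) I = (N : ℂ) * Complex.I + 1 := by
      simp [denom, γ]
    rw [hden, _root_.zpow_neg, inv_eq_one, zpow_natCast] at h5
    have h6 : ‖(N : ℂ) * Complex.I + 1‖ ^ k = 1 := by
      rw [← norm_pow, h5, norm_one]
    have h7 : 1 < ‖(N : ℂ) * Complex.I + 1‖ := by
      have hN' : (0 : ℝ) < N := by exact_mod_cast Nat.pos_of_ne_zero (NeZero.ne N)
      have h8 : ‖(N : ℂ) * Complex.I + 1‖ ^ 2 = (N : ℝ) ^ 2 + 1 := by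
        rw [← Complex.normSq_eq_norm_sq, Complex.normSq_apply]
        simp; ring
      nlinarith [norm_nonneg ((N : ℂ) * Complex.I + 1), sq_nonneg (N : ℝ)]
    exact absurd h6 (one_lt_pow₀ h7 hk).ne'

/-- The endomorphisms commuting with all Hecke operators (also at `2` and at the primes of `N`) and
all diamond operators. -/
structure HeckeComm (N : ℕ) [NeZero N] (k : ℕ) (t : Module.End ℂ (MF N k)) : Prop where
  top : ∀ (ℓ : ℕ) (hℓ : ℓ.Prime) (hN : ¬ ℓ ∣ N) (g : SL(2, ℤ)) (hg : IsDiam N ℓ g) (f : MF N k),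
    t (Top N k ℓ hℓ hN g hg f) = Top N k ℓ hℓ hN g hg (t f)
  dop : ∀ (g : SL(2, ℤ)) (hg : g ∈ Gamma0 N) (f : MF N k), t (Dop N k g hg f) = Dop N k g hg (t f)
  up : ∀ (p : ℕ) (hp : p.Prime) (hN : p ∣ N) (f : MF N k),
    t (Up N k p hp hN f) = Up N k p hp hN (t f)

/-- If `a₁(t f) = 0` for all `f` and `t` commutes with everything, then `t = 0`. -/
theorem HeckeComm.eq_zero {N : ℕ} [NeZero N] {k : ℕ} (hk : k ≠ 0) {t : Module.End ℂ (MF N k)}
    (ht : HeckeComm N k t) (h1 : ∀ f, an (t f) 1 = 0) : t = 0 := by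
  have key : ∀ n, n ≠ 0 → ∀ f, an (t f) n = 0 := by
    intro n
    induction n using Nat.strong_induction_on with
    | _ n ih =>
      intro hn f
      by_cases hn1 : n = 1
      · rw [hn1]; exact h1 f
      · obtain ⟨p, hp, m, rfl⟩ := Nat.exists_prime_and_dvd hn1
        have hm0 : m ≠ 0 := by rintro rfl; simp at hn
        have hmlt : m < p * m := by
          have := hp.two_le
          nlinarith [Nat.pos_of_ne_zero hm0]
        by_cases hpN : p ∣ N
        · have e := an_Up hp hpN (t f) m
          rw [← ht.up p hp hpN f, ih m hmlt hm0] at e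
          exact e.symm
        · obtain ⟨g, hg⟩ := exists_isDiam ((Nat.Prime.coprime_iff_not_dvd hp).mpr hpN)
          have e := an_Top hp hpN hg (t f) m
          rw [← ht.top p hp hpN g hg f, ih m hmlt hm0, ← ht.dop g hg.1 f] at e
          by_cases hpm : p ∣ m
          · have hmp : m / p ≠ 0 := by
              obtain ⟨r, rfl⟩ := hpm
              rw [Nat.mul_div_cancel_left _ hp.pos]
              rintro rfl; simp at hm0
            have hlt : m / p < p * m := lt_of_le_of_lt (Nat.div_le_self _ _) hmlt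
            rw [if_pos hpm, ih _ hlt hmp, mul_zero, add_zero] at e
            exact e.symm
          · rw [if_neg hpm, add_zero] at e
            exact e.symm
  ext1 f
  exact eq_zero_of_an_pos hk (t f) (fun n hn => key n hn f)

section stage

variable {N : ℕ} [NeZero N] {T D : ℕ → (i : ℕ) → (MF N i →ₗ[ℂ] MF N i)}

/-- The submodule (over `ℂ`) of tuples commuting componentwise with everything. -/
def commSub (N : ℕ) [NeZero N] (k : ℕ) : Submodule ℂ (EndProd N k) where
  carrier := {t | ∀ i : Fin k, HeckeComm N ((i : ℕ) + 1) (t i)}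
  add_mem' {a b} ha hb := fun i =>
    { top := fun ℓ hℓ hN g hg f => by
        change (a i + b i) _ = _
        rw [LinearMap.add_apply, (ha i).top, (hb i).top, ← map_add]; rfl
      dop := fun g hg f => by
        change (a i + b i) _ = _
        rw [LinearMap.add_apply, (ha i).dop, (hb i).dop, ← map_add]; rfl
      up := fun p hp hN f => by
        change (a i + b i) _ = _
        rw [LinearMap.add_apply, (ha i).up, (hb i).up, ← map_add]; rfl }
  zero_mem' := fun i =>
    { top := fun ℓ hℓ hN g hg f => by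
        change (0 : Module.End ℂ (MF N ((i : ℕ) + 1))) _ = Top N _ ℓ hℓ hN g hg ((0 : Module.End ℂ _) f)
        simp
      dop := fun g hg f => by
        change (0 : Module.End ℂ (MF N ((i : ℕ) + 1))) _ = Dop N _ g hg ((0 : Module.End ℂ _) f)
        simp
      up := fun p hp hN f => by
        change (0 : Module.End ℂ (MF N ((i : ℕ) + 1))) _ = Up N _ p hp hN ((0 : Module.End ℂ _) f)
        simp }
  smul_mem' c a ha := fun i =>
    { top := fun ℓ hℓ hN g hg f => by
        change (c • a i) _ = _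
        rw [LinearMap.smul_apply, (ha i).top, ← map_smul]; rfl
      dop := fun g hg f => by
        change (c • a i) _ = _
        rw [LinearMap.smul_apply, (ha i).dop, ← map_smul]; rfl
      up := fun p hp hN f => by
        change (c • a i) _ = _
        rw [LinearMap.smul_apply, (ha i).up, ← map_smul]; rfl }

lemma commSub_mul {k : ℕ} {a b : EndProd N k} (ha : a ∈ commSub N k) (hb : b ∈ commSub N k) :
    a * b ∈ commSub N k := fun i =>
  { top := fun ℓ hℓ hN g hg f => by
      change (a i) ((b i) _) = _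
      rw [(hb i).top, (ha i).top]; rfl
    dop := fun g hg f => by
      change (a i) ((b i) _) = _
      rw [(hb i).dop, (ha i).dop]; rfl
    up := fun p hp hN f => by
      change (a i) ((b i) _) = _
      rw [(hb i).up, (ha i).up]; rfl }

lemma commSub_one (k : ℕ) : (1 : EndProd N k) ∈ commSub N k := fun i =>
  { top := fun ℓ hℓ hN g hg f => rfl
    dop := fun g hg f => rfl
    up := fun p hp hN f => rfl }

lemma heckeComm_Dop {k : ℕ} {g : SL(2, ℤ)} (hg : g ∈ Gamma0 N) : HeckeComm N k (Dop N k g hg) :=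
  { top := fun m hm hmN g' hg' f => Top_Dop hm hmN hg' hg f
    dop := fun g' hg' f => Dop_comm hg' hg f
    up := fun p hp hpN f => Up_Dop hp hpN hg f }

lemma heckeComm_Top {k : ℕ} {ℓ : ℕ} (hℓ : ℓ.Prime) (hN : ¬ ℓ ∣ N) {g : SL(2, ℤ)}
    (hg : IsDiam N ℓ g) : HeckeComm N k (Top N k ℓ hℓ hN g hg) :=
  { top := fun m hm hmN g' hg' f => Top_Top hℓ hN hg hm hmN hg' f
    dop := fun g' hg' f => (Top_Dop hℓ hN hg hg' f).symm
    up := fun p hp hpN f => Up_Top hℓ hN hg hp hpN f }

lemma HeckeComm.smul {k : ℕ} {t : Module.End ℂ (MF N k)} (ht : HeckeComm N k t) (c : ℂ) :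
    HeckeComm N k (c • t) :=
  { top := fun ℓ hℓ hN g hg f => by
      rw [LinearMap.smul_apply, ht.top, ← map_smul]; rfl
    dop := fun g hg f => by
      rw [LinearMap.smul_apply, ht.dop, ← map_smul]; rfl
    up := fun p hp hN f => by
      rw [LinearMap.smul_apply, ht.up, ← map_smul]; rfl }

/-- The generators commute with everything. -/
lemma gens_mem_commSub (hD : IsDiamondFamily N D) (hT : IsHeckeFamily N T D) {k : ℕ}
    {a : EndProd N k} (ha : a ∈ heckeGens N T D k) : a ∈ commSub N k := by
  obtain ⟨ℓ, hℓ, h2, ha⟩ := ha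
  have hN : ¬ ℓ ∣ N := fun h => h2 (h.mul_left 2)
  obtain ⟨g, hg⟩ := exists_isDiam ((Nat.Prime.coprime_iff_not_dvd hℓ).mpr hN)
  rcases ha with rfl | rfl
  · intro i
    change HeckeComm N ((i : ℕ) + 1) (T ℓ ((i : ℕ) + 1))
    rw [T_eq_Top hD hT hℓ h2 hN hg]
    exact heckeComm_Top hℓ hN hg
  · intro i
    change HeckeComm N ((i : ℕ) + 1) (((ℓ : ℂ) ^ (i : ℕ)) • D ℓ ((i : ℕ) + 1))
    rw [D_eq_Dop hD hg]
    exact (heckeComm_Dop hg.1).smul _

lemma stage_le_commSub (hD : IsDiamondFamily N D) (hT : IsHeckeFamily N T D) {k : ℕ}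
    {a : EndProd N k} (ha : a ∈ stage N T D k) : a ∈ commSub N k := by
  unfold stage at ha
  induction ha using Subring.closure_induction with
  | mem x hx => exact gens_mem_commSub hD hT hx
  | zero => exact (commSub N k).zero_mem
  | one => exact commSub_one k
  | add x y _ _ hx hy => exact (commSub N k).add_mem hx hy
  | neg x _ hx => exact (commSub N k).neg_mem hx
  | mul x y _ _ hx hy => exact commSub_mul hx hy

/-- The `a₁`-pairing. -/
noncomputable def pair (N : ℕ) [NeZero N] (k : ℕ) (t : EndProd N k)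
    (F : (i : Fin k) → MF N ((i : ℕ) + 1)) : ℂ := ∑ i : Fin k, an (t i (F i)) 1

lemma an_zero' {k : ℕ} (n : ℕ) : an (0 : MF N k) n = 0 := by
  have := an_smul (N := N) (0 : ℂ) (0 : MF N k) n
  simpa using this

lemma commSub_eq_zero {k : ℕ} {t : EndProd N k} (ht : t ∈ commSub N k)
    (h : ∀ F, pair N k t F = 0) : t = 0 := by
  funext i
  apply (ht i).eq_zero (Nat.succ_ne_zero _)
  intro f
  classical
  have h1 := h (Pi.single i f)
  unfold pair at h1
  rw [Finset.sum_eq_single i] at h1
  · rwa [Pi.single_eq_same] at h1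
  · intro j _ hj
    rw [Pi.single_eq_of_ne hj, map_zero, an_zero']
  · intro hi; exact absurd (Finset.mem_univ i) hi

/-- **Left nondegeneracy** of the `a₁`-pairing on the complex span of the Hecke algebra. -/
theorem left_nondeg (hD : IsDiamondFamily N D) (hT : IsHeckeFamily N T D) {k : ℕ}
    {t : EndProd N k} (ht : t ∈ Submodule.span ℂ (stage N T D k : Set (EndProd N k)))
    (h : ∀ F : (i : Fin k) → MF N ((i : ℕ) + 1), ∑ i : Fin k, an (t i (F i)) 1 = 0) : t = 0 := by
  apply commSub_eq_zero (N := N) (k := k) _ h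
  have : Submodule.span ℂ (stage N T D k : Set (EndProd N k)) ≤ commSub N k :=
    Submodule.span_le.mpr fun a ha => stage_le_commSub hD hT ha
  exact this ht

/-- The pairing as a bilinear map. -/
noncomputable def pairL (N : ℕ) [NeZero N] (k : ℕ) :
    EndProd N k →ₗ[ℂ] ((i : Fin k) → MF N ((i : ℕ) + 1)) →ₗ[ℂ] ℂ :=
  LinearMap.mk₂ ℂ (fun t F => ∑ i : Fin k, an (t i (F i)) 1)
    (fun t t' F => by
      simp only [Pi.add_apply, LinearMap.add_apply, an_add, Finset.sum_add_distrib])
    (fun c t F => by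
      simp only [Pi.smul_apply, LinearMap.smul_apply, an_smul, Finset.mul_sum, smul_eq_mul])
    (fun t F F' => by
      simp only [Pi.add_apply, map_add, an_add, Finset.sum_add_distrib])
    (fun c t F => by
      simp only [Pi.smul_apply, map_smul, an_smul, Finset.mul_sum, smul_eq_mul])

@[simp] lemma pairL_apply (k : ℕ) (t : EndProd N k) (F) :
    pairL N k t F = ∑ i : Fin k, an (t i (F i)) 1 := rfl

/-- **Realisation of functionals**: every `ℂ`-linear functional on the span of the Hecke algebra is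
`t ↦ a₁(t F)`, provided the spaces of forms are finite dimensional. -/
theorem exists_form [∀ i, FiniteDimensional ℂ (MF N i)] (hD : IsDiamondFamily N D)
    (hT : IsHeckeFamily N T D) {k : ℕ} (φ : EndProd N k →ₗ[ℂ] ℂ) :
    ∃ F : (i : Fin k) → MF N ((i : ℕ) + 1), ∀ t ∈ stage N T D k,
      φ t = ∑ i : Fin k, an (t i (F i)) 1 := by
  let S : Submodule ℂ (EndProd N k) := Submodule.span ℂ (stage N T D k : Set (EndProd N k))
  let B : S →ₗ[ℂ] ((i : Fin k) → MF N ((i : ℕ) + 1)) →ₗ[ℂ] ℂ := (pairL N k).comp S.subtype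
  have hinj : Function.Injective B := by
    rw [injective_iff_map_eq_zero]
    intro t ht
    apply Subtype.ext
    apply left_nondeg hD hT t.2
    intro F
    exact congrFun (congrArg DFunLike.coe ht) F
  have hfd : FiniteDimensional ℂ (EndProd N k) := inferInstance
  have hsurj : Function.Surjective B.flip := by
    rwa [← LinearMap.flip_injective_iff₁] 
  obtain ⟨F, hF⟩ := hsurj (φ.comp S.subtype)
  refine ⟨F, fun t ht => ?_⟩
  have := congrFun (congrArg DFunLike.coe hF) ⟨t, Submodule.subset_span ht⟩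
  exact this.symm

end stage

end Crest.Agent.R007.Op
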