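import Mathlib

/-!
# Descent from `ℂ` to a subfield `K` (row 7, section A, algebraic half)

* `exists_ringEquiv_ne` : every `x ∉ K` is moved by some field automorphism of `ℂ` over `K`;
* `descent` : a subspace of `ℂ^ι` stable under `Aut(ℂ/K)` is spanned by its vectors in `K^ι`.
-/

set_option autoImplicit false

namespace Crest.Agent.R007.RatAlg

open Polynomial

/-- extension of an automorphism of a subfield `F` to `ℂ`. -/
theorem exists_extend {F : Type} [Field F] [Algebra F ℂ] (σ₀ : F ≃+* F) :
    ∃ σ : ℂ ≃+* ℂ, ∀ y : F, σ (algebraMap F ℂ y) = algebraMap F ℂ (σ₀ y) := by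
  classical
  obtain ⟨s, hs⟩ := exists_isTranscendenceBasis F ℂ
  let v : s → ℂ := fun x => (x : ℂ)
  have hv : IsTranscendenceBasis F v := hs
  letI := IsAlgClosed.isAlgClosure_of_transcendence_basis v hv
  let A := Algebra.adjoin F (Set.range v)
  let e : A ≃+* A :=
    (hv.1.aevalEquiv.symm.toRingEquiv.trans
      (MvPolynomial.mapEquiv s σ₀)).trans hv.1.aevalEquiv.toRingEquiv
  refine ⟨IsAlgClosure.equivOfEquiv ℂ ℂ e, fun y => ?_⟩
  have h1 : algebraMap F ℂ y = algebraMap A ℂ (algebraMap F A y) := rfl
  have h2 : algebraMap F ℂ (σ₀ y) = algebraMap A ℂ (algebraMap F A (σ₀ y)) := rfl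
  rw [h1, h2, IsAlgClosure.equivOfEquiv_algebraMap]
  congr 1
  change hv.1.aevalEquiv (MvPolynomial.map (σ₀ : F →+* F) (hv.1.aevalEquiv.symm (algebraMap F A y))) = _
  rw [AlgEquiv.commutes hv.1.aevalEquiv.symm]
  have : MvPolynomial.map (σ₀ : F →+* F) (algebraMap F (MvPolynomial s F) y)
      = algebraMap F (MvPolynomial s F) (σ₀ y) := by
    simp [MvPolynomial.algebraMap_eq]
  rw [this, AlgEquiv.commutes]

/-- every `x ∉ K` is moved by some field automorphism of `ℂ` over `K`. -/
theorem exists_ringEquiv_ne (K : Subfield ℂ) (x : ℂ) (hx : x ∉ K) :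
    ∃ σ : ℂ ≃+* ℂ, (∀ y ∈ K, σ y = y) ∧ σ x ≠ x := by
  classical
  by_cases halg : IsAlgebraic K x
  · -- algebraic case
    let A := algebraicClosure K ℂ
    haveI : IsAlgClosure K A := inferInstance
    haveI : IsGalois K A := inferInstance
    let xA : A := ⟨x, mem_algebraicClosure_iff.mpr halg⟩
    have hxA : ¬ ∀ f : A ≃ₐ[K] A, f xA = xA := by
      intro h
      have := (InfiniteGalois.mem_range_algebraMap_iff_fixed (k := K) (K := A) xA).mpr h
      obtain ⟨y, hy⟩ := this
      apply hx
      have h3 : (algebraMap K A y : ℂ) = x := by rw [hy]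
      rw [← h3]
      exact y.2
    push Not at hxA
    obtain ⟨f, hf⟩ := hxA
    obtain ⟨σ, hσ⟩ := exists_extend (F := A) f.toRingEquiv
    refine ⟨σ, fun y hy => ?_, ?_⟩
    · have := hσ (algebraMap K A ⟨y, hy⟩)
      have h4 : f.toRingEquiv (algebraMap K A ⟨y, hy⟩) = algebraMap K A ⟨y, hy⟩ :=
        f.commutes _
      rw [h4] at this
      exact this
    · intro h5
      apply hf
      have := hσ xA
      have h6 : algebraMap A ℂ xA = x := rfl
      rw [h6, h5] at this
      apply Subtype.ext
      exact this.symm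
  · -- transcendental case
    have htr : Transcendental K x := halg
    have hind : AlgebraicIndepOn K id ({x} : Set ℂ) := by
      have := algebraicIndependent_unique_type_iff (R := K) (x := ((↑) : ({x} : Set ℂ) → ℂ))
      exact this.mpr htr
    obtain ⟨s, hs1, hs⟩ := exists_isTranscendenceBasis_superset (R := K) (s := ({x} : Set ℂ)) hind
    have hxs : x ∈ s := hs1 rfl
    let v : s → ℂ := fun x => (x : ℂ)
    have hv : IsTranscendenceBasis K v := hs
    letI := IsAlgClosed.isAlgClosure_of_transcendence_basis v hv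
    let A := Algebra.adjoin K (Set.range v)
    let sh : MvPolynomial s K ≃ₐ[K] MvPolynomial s K :=
      AlgEquiv.ofAlgHom (MvPolynomial.aeval fun b => MvPolynomial.X b + 1)
        (MvPolynomial.aeval fun b => MvPolynomial.X b - 1)
        (by ext b; simp) (by ext b; simp)
    let e : A ≃ₐ[K] A := (hv.1.aevalEquiv.symm.trans sh).trans hv.1.aevalEquiv
    refine ⟨IsAlgClosure.equivOfEquiv ℂ ℂ e.toRingEquiv, fun y hy => ?_, ?_⟩
    · have h1 : y = algebraMap A ℂ (algebraMap K A ⟨y, hy⟩) := rfl
      conv_lhs => rw [h1]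
      rw [IsAlgClosure.equivOfEquiv_algebraMap]
      have : e.toRingEquiv (algebraMap K A ⟨y, hy⟩) = algebraMap K A ⟨y, hy⟩ := e.commutes _
      rw [this]
      rfl
    · have h1 : x = algebraMap A ℂ (hv.1.aevalEquiv (MvPolynomial.X ⟨x, hxs⟩)) := by
        rw [AlgebraicIndependent.algebraMap_aevalEquiv]
        simp [v]
      conv_lhs => rw [h1]
      rw [IsAlgClosure.equivOfEquiv_algebraMap]
      have : e.toRingEquiv (hv.1.aevalEquiv (MvPolynomial.X ⟨x, hxs⟩))
          = hv.1.aevalEquiv (MvPolynomial.X ⟨x, hxs⟩ + 1) := by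
        change hv.1.aevalEquiv (sh (hv.1.aevalEquiv.symm (hv.1.aevalEquiv _))) = _
        rw [AlgEquiv.symm_apply_apply]
        congr 1
        simp [sh]
      rw [this, AlgebraicIndependent.algebraMap_aevalEquiv]
      simp [v]

/-- a subspace of `ℂ^ι` stable under `Aut(ℂ/K)` is spanned by its vectors in `K^ι`. -/
theorem descent {ι : Type*} [Fintype ι] (K : Subfield ℂ) (V : Submodule ℂ (ι → ℂ))
    (hV : ∀ σ : ℂ ≃+* ℂ, (∀ y ∈ K, σ y = y) → ∀ v ∈ V, (fun i => σ (v i)) ∈ V) :
    V = Submodule.span ℂ {v | v ∈ V ∧ ∀ i, v i ∈ K} := by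
  classical
  set W := Submodule.span ℂ {v | v ∈ V ∧ ∀ i, v i ∈ K} with hW
  have hWV : W ≤ V := Submodule.span_le.mpr fun v hv => hv.1
  refine le_antisymm ?_ hWV
  -- strong induction on the size of the support
  have key : ∀ n : ℕ, ∀ v ∈ V, (Finset.univ.filter fun i => v i ≠ 0).card = n → v ∈ W := by
    intro n
    induction n using Nat.strong_induction_on with
    | _ n ih =>
      intro v hv hn
      by_cases hv0 : v = 0
      · rw [hv0]; exact W.zero_mem
      obtain ⟨i₀, hi₀⟩ : ∃ i, v i ≠ 0 := by
        by_contra h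
        push Not at h
        exact hv0 (funext h)
      -- normalise
      set u : ι → ℂ := (v i₀)⁻¹ • v with hu
      have huV : u ∈ V := V.smul_mem _ hv
      have hui : u i₀ = 1 := by simp [hu, hi₀]
      have hsupp : ∀ i, u i ≠ 0 ↔ v i ≠ 0 := by
        intro i
        simp [hu, hi₀]
      have hvu : v = v i₀ • u := by
        rw [hu, smul_smul, mul_inv_cancel₀ hi₀, one_smul]
      suffices u ∈ W by rw [hvu]; exact W.smul_mem _ this
      by_cases hK : ∀ i, u i ∈ K
      · exact Submodule.subset_span ⟨huV, hK⟩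
      push Not at hK
      obtain ⟨i₁, hi₁⟩ := hK
      obtain ⟨σ, hσK, hσ⟩ := exists_ringEquiv_ne K (u i₁) hi₁
      set d : ι → ℂ := (fun i => σ (u i)) - u with hd
      have hdV : d ∈ V := V.sub_mem (hV σ hσK u huV) huV
      have hdz : ∀ i, v i = 0 → d i = 0 := by
        intro i hi
        have : u i = 0 := by
          by_contra h
          exact ((hsupp i).mp h) hi
        simp [hd, this]
      have hd0 : d i₀ = 0 := by simp [hd, hui]
      have hd1 : d i₁ ≠ 0 := by
        simp only [hd, Pi.sub_apply]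
        exact sub_ne_zero.mpr hσ
      have hvi1 : v i₁ ≠ 0 := fun h => hd1 (hdz i₁ h)
      have hdW : d ∈ W := by
        refine ih _ ?_ d hdV rfl
        rw [← hn]
        apply Finset.card_lt_card
        refine ⟨fun i hi => ?_, fun h => ?_⟩
        · simp only [Finset.mem_filter, Finset.mem_univ, true_and] at hi ⊢
          exact fun h => hi (hdz i h)
        · have : i₀ ∈ Finset.univ.filter fun i => v i ≠ 0 := by simp [hi₀]
          have := h this
          simp [hd0] at this
      set w : ι → ℂ := u - (u i₁ / d i₁) • d with hw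
      have hwV : w ∈ V := V.sub_mem huV (V.smul_mem _ hdV)
      have hwW : w ∈ W := by
        refine ih _ ?_ w hwV rfl
        rw [← hn]
        apply Finset.card_lt_card
        refine ⟨fun i hi => ?_, fun h => ?_⟩
        · simp only [Finset.mem_filter, Finset.mem_univ, true_and] at hi ⊢
          intro h
          apply hi
          have h7 : u i = 0 := by
            by_contra h'
            exact ((hsupp i).mp h') h
          simp [hw, h7, hdz i h]
        · have : i₁ ∈ Finset.univ.filter fun i => v i ≠ 0 := by simp [hvi1]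
          have := h this
          simp only [Finset.mem_filter, Finset.mem_univ, true_and] at this
          apply this
          simp [hw, hd1]
      have : u = w + (u i₁ / d i₁) • d := by rw [hw]; simp
      rw [this]
      exact W.add_mem hwW (W.smul_mem _ hdW)
  intro v hv
  exact key _ v hv rfl

/-- membership in `K` from invariance under `Aut(ℂ/K)`. -/
theorem mem_of_fixed (K : Subfield ℂ) (x : ℂ)
    (h : ∀ σ : ℂ ≃+* ℂ, (∀ y ∈ K, σ y = y) → σ x = x) : x ∈ K := by
  by_contra hx
  obtain ⟨σ, h1, h2⟩ := exists_ringEquiv_ne K x hx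
  exact h2 (h σ h1)

end Crest.Agent.R007.RatAlg
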