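import Crest.Agent.R007.RatFun

/-!
# Rational structure in level one (row 7, section A)
-/

set_option autoImplicit false

namespace Crest.Agent.R007.RatAlg

open UpperHalfPlane ModularForm CongruenceSubgroup Matrix
open scoped MatrixGroups ModularForm Manifold

noncomputable section

variable {M : ℕ} {k k₁ k₂ : ℤ} {F G : ℍ → ℂ} {K : Subfield ℂ}

/-- all coefficients of the power series lie in `K`. -/
def PSK (K : Subfield ℂ) (f : PowerSeries ℂ) : Prop := ∀ n, f.coeff n ∈ K

theorem PSK.add {f g : PowerSeries ℂ} (hf : PSK K f) (hg : PSK K g) : PSK K (f + g) := by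
  intro n
  rw [map_add]
  exact K.add_mem (hf n) (hg n)

theorem PSK.neg {f : PowerSeries ℂ} (hf : PSK K f) : PSK K (-f) := by
  intro n
  rw [map_neg]
  exact K.neg_mem (hf n)

theorem PSK.sub {f g : PowerSeries ℂ} (hf : PSK K f) (hg : PSK K g) : PSK K (f - g) := by
  rw [sub_eq_add_neg]
  exact hf.add hg.neg

theorem PSK.mul {f g : PowerSeries ℂ} (hf : PSK K f) (hg : PSK K g) : PSK K (f * g) := by
  intro n
  rw [PowerSeries.coeff_mul]
  exact K.sum_mem fun x _ => K.mul_mem (hf _) (hg _)

theorem PSK.one : PSK K (1 : PowerSeries ℂ) := by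
  intro n
  rw [PowerSeries.coeff_one]
  split_ifs
  · exact K.one_mem
  · exact K.zero_mem

theorem PSK.zero : PSK K (0 : PowerSeries ℂ) := by
  intro n
  simpa using K.zero_mem

theorem PSK.smul {f : PowerSeries ℂ} (hf : PSK K f) {c : ℂ} (hc : c ∈ K) : PSK K (c • f) := by
  intro n
  rw [map_smul]
  exact K.mul_mem hc (hf n)

theorem PSK.pow {f : PowerSeries ℂ} (hf : PSK K f) (n : ℕ) : PSK K (f ^ n) := by
  induction n with
  | zero => simpa using PSK.one
  | succ n ih => rw [pow_succ]; exact ih.mul hf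

theorem PSK.sum {ι : Type*} {s : Finset ι} {f : ι → PowerSeries ℂ} (h : ∀ i ∈ s, PSK K (f i)) :
    PSK K (∑ i ∈ s, f i) := by
  intro n
  rw [map_sum]
  exact K.sum_mem fun i hi => h i hi n

theorem PSK.prod {ι : Type*} {s : Finset ι} {f : ι → PowerSeries ℂ} (h : ∀ i ∈ s, PSK K (f i)) :
    PSK K (∏ i ∈ s, f i) := by
  classical
  induction s using Finset.induction_on with
  | empty => simpa using PSK.one
  | insert i s hi ih =>
    rw [Finset.prod_insert hi]
    exact (h i (Finset.mem_insert_self i s)).mul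
      (ih fun j hj => h j (Finset.mem_insert_of_mem hj))

/-! ### level one forms as bundled forms -/

def IsMF.toSL (h : IsMF 1 k F) : ModularForm 𝒮ℒ k where
  toFun := F
  slash_action_eq' := by
    rintro _ ⟨γ, rfl⟩
    exact slash_eq_one h γ
  holo' := h.holo
  bdd_at_cusps' := by
    intro c hc
    rw [Subgroup.IsArithmetic.isCusp_iff_isCusp_SL2Z] at hc
    rw [OnePoint.isBoundedAt_iff_forall_SL2Z hc]
    intro γ _
    exact h.bdd γ

@[simp] theorem IsMF.coe_toSL (h : IsMF 1 k F) : (h.toSL : ℍ → ℂ) = F := rfl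

theorem isMF_of_SL (f : ModularForm 𝒮ℒ k) : IsMF 1 k f where
  holo := ModularFormClass.holo f
  inv γ _ := SlashInvariantForm.slash_action_eqn f _ ⟨γ, rfl⟩
  bdd γ := ModularFormClass.bdd_at_infty_slash f γ

theorem isMF_of_cuspSL (f : CuspForm 𝒮ℒ k) : IsMF 1 k f where
  holo := CuspFormClass.holo f
  inv γ _ := SlashInvariantForm.slash_action_eqn f _ ⟨γ, rfl⟩
  bdd γ := ModularFormClass.bdd_at_infty_slash f γ

/-- `K`-rational level one forms. -/
def Rat1 (K : Subfield ℂ) (k : ℤ) (F : ℍ → ℂ) : Prop := IsMF 1 k F ∧ PSK K (qe 1 F)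

theorem Rat1.mul (hF : Rat1 K k₁ F) (hG : Rat1 K k₂ G) : Rat1 K (k₁ + k₂) (F * G) := by
  refine ⟨hF.1.mul hG.1, ?_⟩
  rw [qe_mul hF.1.qf hG.1.qf]
  exact hF.2.mul hG.2

theorem rat1_E {k : ℕ} (hk : 3 ≤ k) (hk2 : Even k) :
    Rat1 K k (ModularForm.E hk : ℍ → ℂ) := by
  refine ⟨isMF_of_SL _, ?_⟩
  intro n
  have h1 : (qe 1 (ModularForm.E hk : ℍ → ℂ)).coeff n =
      (if n = 0 then 1 else -(2 * k / bernoulli k : ℂ) * (ArithmeticFunction.sigma (k - 1) n)) := by
    have := EisensteinSeries.E_qExpansion_coeff hk hk2 n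
    simpa [qe] using this
  rw [h1]
  split_ifs
  · exact K.one_mem
  · have h2 : (-(2 * k / bernoulli k : ℂ) * ((ArithmeticFunction.sigma (k - 1) n : ℕ) : ℂ))
        = (((-(2 * k / bernoulli k) * (ArithmeticFunction.sigma (k - 1) n : ℕ) : ℚ)) : ℂ) := by
      push_cast
      ring
    rw [h2]
    exact SubfieldClass.ratCast_mem K _

theorem rat1_Delta : Rat1 K 12 (ModularForm.discriminant) := by
  have hE4 := rat1_E (K := K) (k := 4) (by norm_num) ⟨2, rfl⟩
  have hE6 := rat1_E (K := K) (k := 6) (by norm_num) ⟨3, rfl⟩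
  refine ⟨isMF_of_cuspSL CuspForm.discriminant, ?_⟩
  have h1 : (ModularForm.discriminant : ℍ → ℂ) = (1 / 1728 : ℂ) •
      (((ModularForm.E (k := 4) (by norm_num) : ℍ → ℂ) ^ 3) +
        (-1 : ℂ) • ((ModularForm.E (k := 6) (by norm_num) : ℍ → ℂ) ^ 2)) := by
    funext z
    have := ModularForm.discriminant_eq_E₄_cube_sub_E₆_sq z
    rw [this]
    simp only [Pi.smul_apply, Pi.add_apply, Pi.pow_apply, smul_eq_mul]
    ring
  rw [h1, qe_smul ((hE4.1.qf.pow 3).add ((hE6.1.qf.pow 2).smul _)),
    qe_add (hE4.1.qf.pow 3) ((hE6.1.qf.pow 2).smul _), qe_smul (hE6.1.qf.pow 2),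
    qe_pow hE4.1.qf, qe_pow hE6.1.qf]
  refine PSK.smul (PSK.add (hE4.2.pow 3) (PSK.smul (hE6.2.pow 2) ?_)) ?_
  · exact K.neg_mem K.one_mem
  · have : (1 / 1728 : ℂ) = ((1 / 1728 : ℚ) : ℂ) := by push_cast; ring
    rw [this]
    exact SubfieldClass.ratCast_mem K _

/-- a finite `K`-rational spanning family of the space of level one forms of weight `k`. -/
theorem levelOne_family (K : Subfield ℂ) : ∀ (m : ℕ) (k : ℤ), k < m →
    ∃ (n : ℕ) (e : Fin n → ℍ → ℂ), (∀ i, Rat1 K k (e i)) ∧
      ∀ F, IsMF 1 k F → ∃ c : Fin n → ℂ, F = ∑ i, c i • e i := by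
  intro m
  induction m using Nat.strong_induction_on with
  | _ m ih =>
    intro k hkm
    rcases lt_or_ge k 0 with hneg | hnn
    · refine ⟨0, Fin.elim0, fun i => i.elim0, fun F hF => ⟨Fin.elim0, ?_⟩⟩
      have := ModularFormClass.levelOne_neg_weight_eq_zero hneg hF.toSL
      simpa using this
    rcases Int.even_or_odd k with hev | hodd
    swap
    · refine ⟨0, Fin.elim0, fun i => i.elim0, fun F hF => ⟨Fin.elim0, ?_⟩⟩
      have := ModularForm.levelOne_odd_weight_eq_zero hodd hF.toSL
      have h2 : (hF.toSL : ℍ → ℂ) = 0 := by rw [this]; rfl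
      simpa using h2
    lift k to ℕ using hnn
    rcases Nat.lt_or_ge k 3 with hk3 | hk3
    · interval_cases k
      · -- weight 0
        refine ⟨1, fun _ => 1, fun i => ⟨IsMF.one, ?_⟩, fun F hF => ?_⟩
        · rw [qe_one]; exact PSK.one
        · have hF' : IsMF 1 0 F := by simpa using hF
          obtain ⟨c, hc⟩ := ModularFormClass.levelOne_weight_zero_const hF'.toSL
          refine ⟨fun _ => c, ?_⟩
          have : F = Function.const _ c := hc
          rw [this]
          funext z
          simp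
      · exact absurd hev (by decide)
      · refine ⟨0, Fin.elim0, fun i => i.elim0, fun F hF => ⟨Fin.elim0, ?_⟩⟩
        have hF' : IsMF 1 2 F := by simpa using hF
        have := rank_zero_iff_forall_zero.mp ModularForm.levelOne_weight_two_rank_zero hF'.toSL
        have h2 : (hF'.toSL : ℍ → ℂ) = 0 := by rw [this]; rfl
        simpa using h2
    have hevk : Even k := by exact_mod_cast hev
    obtain ⟨n, e, he, hspan⟩ := ih (k + 1 - 12) (by omega) ((k : ℤ) - 12) (by omega)
    refine ⟨n + 1, Fin.cons (ModularForm.E hk3 : ℍ → ℂ)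
      (fun i => ModularForm.discriminant * e i), ?_, ?_⟩
    · intro i
      refine Fin.cases ?_ (fun i => ?_) i
      · exact rat1_E hk3 hevk
      · have := (rat1_Delta (K := K)).mul (he i)
        simp only [Fin.cons_succ]
        have h12 : (12 : ℤ) + ((k : ℤ) - 12) = k := by ring
        rw [h12] at this
        exact this
    · intro F hF
      set a : ℂ := (qExpansion 1 F).coeff 0 with ha
      have hE : IsMF 1 k (ModularForm.E hk3 : ℍ → ℂ) := (rat1_E (K := K) hk3 hevk).1
      have hG : IsMF 1 k (F - a • (ModularForm.E hk3 : ℍ → ℂ)) := hF.sub (hE.smul a)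
      have hG0 : (qExpansion 1 (hG.toSL : ℍ → ℂ)).coeff 0 = 0 := by
        rw [IsMF.coe_toSL]
        have h3 : qe 1 (F - a • (ModularForm.E hk3 : ℍ → ℂ)) =
            qe 1 F + qe 1 ((-a) • (ModularForm.E hk3 : ℍ → ℂ)) := by
          rw [sub_eq_add_neg, ← _root_.neg_smul, qe_add hF.qf (hE.qf.smul _)]
        rw [qe_smul hE.qf] at h3
        have h4 : qExpansion 1 (F - a • (ModularForm.E hk3 : ℍ → ℂ)) =
            qExpansion 1 F + (-a) • qExpansion 1 (ModularForm.E hk3 : ℍ → ℂ) := by
          simpa [qe] using h3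
        rw [h4, map_add, map_smul, EisensteinSeries.E_qExpansion_coeff_zero hk3 hevk, ← ha]
        simp
      let g := CuspForm.discriminantEquiv (ModularForm.toCuspForm hG.toSL hG0)
      have hg : IsMF 1 ((k : ℤ) - 12) g := isMF_of_SL g
      obtain ⟨c, hc⟩ := hspan g hg
      refine ⟨Fin.cons a c, ?_⟩
      rw [Fin.sum_univ_succ]
      simp only [Fin.cons_zero, Fin.cons_succ]
      have h5 : F - a • (ModularForm.E hk3 : ℍ → ℂ) = ModularForm.discriminant * (g : ℍ → ℂ) := by
        have := ModularForm.discriminant_mul_discriminantEquiv (ModularForm.toCuspForm hG.toSL hG0)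
        rw [this]
        funext z
        simp
      rw [hc] at h5
      have h6 : F = a • (ModularForm.E hk3 : ℍ → ℂ) +
          ModularForm.discriminant * ∑ i, c i • e i := by
        rw [← h5]; ring
      conv_lhs => rw [h6]
      congr 1
      rw [Finset.mul_sum]
      refine Finset.sum_congr rfl fun i _ => ?_
      rw [mul_smul_comm]

theorem hasSum_dvd {a : ℕ → ℂ} {q x : ℂ} (hM : 0 < M)
    (h : HasSum (fun m => a m • (q ^ M) ^ m) x) :
    HasSum (fun n => (if M ∣ n then a (n / M) else 0) • q ^ n) x := by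
  have hinj : Function.Injective (fun m : ℕ => M * m) := by
    intro a b hab
    exact Nat.eq_of_mul_eq_mul_left hM hab
  rw [← hinj.hasSum_iff]
  · convert h using 1
    funext m
    simp only [Function.comp_apply, dvd_mul_right, if_true, Nat.mul_div_cancel_left _ hM]
    rw [pow_mul]
  · intro n hn
    have : ¬ M ∣ n := by
      rintro ⟨m, rfl⟩
      exact hn ⟨m, rfl⟩
    simp [this]

/-- q-expansions with respect to the width `M` of `1`-periodic functions. -/
theorem PSK_width [NeZero M] (hF : IsMF 1 k F) (h : PSK K (qe 1 F)) : PSK K (qe M F) := by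
  have hM := NeZero.pos M
  have hQ : IsMF M k F := hF.of_one
  have hsum : ∀ τ : ℍ, HasSum (fun n : ℕ ↦ (if M ∣ n then (qe 1 F).coeff (n / M) else 0) •
      Function.Periodic.qParam (M : ℝ) τ ^ n) (F τ) := by
    intro τ
    have h1 := UpperHalfPlane.hasSum_qExpansion (h := ((1 : ℕ) : ℝ)) (by norm_num) hF.periodic
      hF.holo hF.bdd_infty τ
    have h2 : Function.Periodic.qParam ((1 : ℕ) : ℝ) (τ : ℂ) =
        Function.Periodic.qParam (M : ℝ) (τ : ℂ) ^ M := by
      unfold Function.Periodic.qParam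
      rw [← Complex.exp_nat_mul]
      congr 1
      have : (M : ℂ) ≠ 0 := by exact_mod_cast hM.ne'
      push_cast
      field_simp
    rw [h2] at h1
    exact hasSum_dvd (a := fun m => (qe 1 F).coeff m) hM h1
  intro n
  have key := qExpansion_coeff_unique
    (c := fun n => if M ∣ n then (qe 1 F).coeff (n / M) else 0) hQ.toMF M_pos hQ.analyticAt hsum n
  change (qExpansion (M : ℝ) (hQ.toMF : ℍ → ℂ)).coeff n ∈ K
  rw [← key]
  split_ifs
  · exact h _
  · exact K.zero_mem

end

end Crest.Agent.R007.RatAlg
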