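import Crest.Agent.R007.RatConj
import Crest.Agent.R007.RatDesc
import Crest.Agent.R007.RatLevel1

/-!
Row 7 (S0007), section A: **Theorem A**: every form on `Γ(M)` is a combination of forms
all of whose q-expansions have coefficients in the subfield `K`.
-/

set_option autoImplicit false

noncomputable section

namespace Crest.Agent.R007.Rat

open UpperHalfPlane ModularForm CongruenceSubgroup Matrix.SpecialLinearGroup
open scoped MatrixGroups Manifold

variable {M : ℕ} [NeZero M] {k l k₀ : ℤ} {θ F : ℍ → ℂ}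

/-- Division in `K⟦X⟧`. -/
lemma coeffIn_of_mul {K : Subfield ℂ} {p q : PowerSeries ℂ} (hq0 : q ≠ 0)
    (hq : CoeffIn K.toSubring q) (hpq : CoeffIn K.toSubring (p * q)) : CoeffIn K.toSubring p := by
  classical
  -- the first nonzero coefficient
  have hex : ∃ m, PowerSeries.coeff m q ≠ 0 := by
    by_contra hcon
    push Not at hcon
    exact hq0 (PowerSeries.ext fun n => by simpa using hcon n)
  set m := Nat.find hex with hm
  have hm0 : PowerSeries.coeff m q ≠ 0 := Nat.find_spec hex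
  have hlt : ∀ j < m, PowerSeries.coeff j q = 0 := fun j hj => by
    by_contra h; exact Nat.find_min hex hj h
  intro n
  induction n using Nat.strong_induction_on with
  | _ n ih =>
    have h1 := hpq (n + m)
    rw [PowerSeries.coeff_mul, Finset.Nat.sum_antidiagonal_eq_sum_range_succ_mk] at h1
    have h2 : ∑ i ∈ Finset.range (n + m).succ, PowerSeries.coeff i p * PowerSeries.coeff (n + m - i) q =
        (∑ i ∈ Finset.range n, PowerSeries.coeff i p * PowerSeries.coeff (n + m - i) q) +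
          PowerSeries.coeff n p * PowerSeries.coeff m q := by
      rw [show (n + m).succ = (n + 1) + m by omega, Finset.sum_range_add, Finset.sum_range_succ]
      have h3 : ∑ x ∈ Finset.range m, PowerSeries.coeff (n + 1 + x) p *
          PowerSeries.coeff (n + m - (n + 1 + x)) q = 0 := by
        refine Finset.sum_eq_zero fun x hx => ?_
        rw [Finset.mem_range] at hx
        rw [hlt _ (by omega), mul_zero]
      rw [h3, add_zero, show n + m - n = m by omega]
    simp only at h1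
    rw [h2] at h1
    have h4 : ∑ i ∈ Finset.range n, PowerSeries.coeff i p * PowerSeries.coeff (n + m - i) q ∈ K.toSubring :=
      Subring.sum_mem _ fun i hi => Subring.mul_mem _ (ih i (Finset.mem_range.mp hi)) (hq _)
    have h5 : PowerSeries.coeff n p * PowerSeries.coeff m q ∈ K.toSubring := by
      have := Subring.sub_mem _ h1 h4
      rwa [add_sub_cancel_left] at this
    have h6 : PowerSeries.coeff n p = (PowerSeries.coeff n p * PowerSeries.coeff m q) *
        (PowerSeries.coeff m q)⁻¹ := by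
      field_simp
    rw [h6]
    exact Subring.mul_mem _ h5 (K.inv_mem (hq m))

/-- division for forms -/
lemma IsR.of_mul {K : Subfield ℂ} {D : ℍ → ℂ} (hF : IsF M k F) (hD : IsR K.toSubring M l D)
    (hD0 : D ≠ 0) (h : IsR K.toSubring M (k + l) (F * D)) : IsR K.toSubring M k F := by
  refine ⟨hF, fun g => ?_⟩
  have h1 := h.coeff g
  rw [mul_slash_SL2, qe_mul (hF.slash_SL g) (hD.isF.slash_SL g)] at h1
  refine coeffIn_of_mul ?_ (hD.coeff g) h1
  intro h0
  have h2 := (qe_eq_zero_iff (hD.isF.slash_SL g)).mp h0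
  exact hD0 ((SlashAction.slash_eq_zero_iff _ _ _).mp h2)

omit [NeZero M] in
lemma isF_of_isMF {f : ℍ → ℂ} (h : RatAlg.IsMF M k f) : IsF M k f := ⟨h.inv, h.holo, h.bdd⟩

omit [NeZero M] in
lemma isMF_of_isF {f : ℍ → ℂ} (h : IsF M k f) : RatAlg.IsMF M k f := ⟨h.holo, h.slash, h.bdd⟩

lemma slash_one_level {f : ℍ → ℂ} (h : IsF 1 k f) (g : SL(2, ℤ)) : f ∣[k] g = f :=
  h.slash g (by rw [Gamma_one_top]; trivial)

/-- Level one over a field. -/
theorem levelOneSpan_field (K : Subfield ℂ) : LevelOneSpan K.toSubring M := by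
  intro k f hf
  obtain ⟨n, e, he, hspan⟩ := RatAlg.levelOne_family K (k.toNat + 1) k (by omega)
  obtain ⟨c, hc⟩ := hspan f (isMF_of_isF hf)
  rw [hc]
  refine Submodule.sum_mem _ fun i _ => Submodule.smul_mem _ _ (Submodule.subset_span ?_)
  have h1 : IsF 1 k (e i) := isF_of_isMF (he i).1
  refine ⟨h1.mono (one_dvd _), fun g => ?_⟩
  rw [slash_one_level h1]
  have := RatAlg.PSK_width (M := M) (he i).1 (he i).2
  exact this

/-- **Theorem A** (with a separating form `θ`). -/
theorem mem_Sp_of_sep (K : Subfield ℂ) (hθ : IsR K.toSubring M k₀ θ)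
    (hsep : ∀ g : SL(2, ℤ), g ∉ Gamma M → θ ∣[k₀] g ≠ θ) (hF : IsF M k F) :
    F ∈ Sp K.toSubring M k := by
  classical
  set D := del M k₀ θ with hD
  have hD0 : D ≠ 0 := del_ne_zero hθ.isF hsep
  have hDR : IsR K.toSubring M (wdel M k₀) D := hθ.del
  have hLO : LevelOneSpan K.toSubring M := levelOneSpan_field K
  obtain ⟨n, c, G, hG⟩ := Submodule.mem_span_set'.mp (mul_del_mem hLO hθ hF)
  let V : Submodule ℂ (Fin n → ℂ) :=
    { carrier := {v | ∃ F', IsF M k F' ∧ F' * D = ∑ i, v i • (G i : ℍ → ℂ)}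
      add_mem' := by
        rintro v w ⟨F₁, h1, h1'⟩ ⟨F₂, h2, h2'⟩
        refine ⟨F₁ + F₂, h1.add h2, ?_⟩
        rw [add_mul, h1', h2', ← Finset.sum_add_distrib]
        exact Finset.sum_congr rfl fun i _ => by rw [Pi.add_apply, add_smul]
      zero_mem' := ⟨0, IsF.zero, by simp⟩
      smul_mem' := by
        rintro a v ⟨F₁, h1, h1'⟩
        refine ⟨a • F₁, h1.smul a, ?_⟩
        rw [smul_mul_assoc, h1', Finset.smul_sum]
        exact Finset.sum_congr rfl fun i _ => by rw [Pi.smul_apply, smul_assoc] }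
  have hV : ∀ σ : ℂ ≃+* ℂ, (∀ y ∈ K, σ y = y) → ∀ v ∈ V, (fun i => σ (v i)) ∈ V := by
    rintro σ hσ v ⟨F₁, h1, h1'⟩
    have hσ' : ∀ y ∈ K.toSubring, (σ : ℂ →+* ℂ) y = y := fun y hy => hσ y hy
    obtain ⟨F₂, h2, h2'⟩ := exists_conj (σ := (σ : ℂ →+* ℂ)) hσ' hLO hθ hD0 h1
    refine ⟨F₂, h2, ?_⟩
    rw [← hD, h1'] at h2'
    refine h2'.unique ?_
    refine Cj.sum _ (fun i => v i • (G i : ℍ → ℂ)) (fun i => σ (v i) • (G i : ℍ → ℂ)) fun i _ => ?_
    exact (Cj.of_isR hσ' (G i).2).smul (v i)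
  have hdes := RatAlg.descent K V hV
  have key : ∀ v ∈ V, ∃ F' ∈ Sp K.toSubring M k, F' * D = ∑ i, v i • (G i : ℍ → ℂ) := by
    intro v hv
    rw [hdes] at hv
    induction hv using Submodule.span_induction with
    | mem v hv =>
      obtain ⟨⟨F₁, h1, h1'⟩, hK⟩ := hv
      refine ⟨F₁, Submodule.subset_span ?_, h1'⟩
      refine IsR.of_mul h1 hDR hD0 ?_
      rw [h1']
      exact IsR.sum _ _ fun i _ => (G i).2.smul (hK i)
    | zero => exact ⟨0, Submodule.zero_mem _, by simp⟩
    | add v w _ _ h1 h2 =>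
      obtain ⟨F₁, h1, h1'⟩ := h1
      obtain ⟨F₂, h2, h2'⟩ := h2
      refine ⟨F₁ + F₂, Submodule.add_mem _ h1 h2, ?_⟩
      rw [add_mul, h1', h2', ← Finset.sum_add_distrib]
      exact Finset.sum_congr rfl fun i _ => by rw [Pi.add_apply, add_smul]
    | smul a v _ h1 =>
      obtain ⟨F₁, h1, h1'⟩ := h1
      refine ⟨a • F₁, Submodule.smul_mem _ _ h1, ?_⟩
      rw [smul_mul_assoc, h1', Finset.smul_sum]
      exact Finset.sum_congr rfl fun i _ => by rw [Pi.smul_apply, smul_assoc]
  obtain ⟨F', hF', hF'D⟩ := key c ⟨F, hF, hG.symm⟩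
  have h1 : (F - F') * D = 0 := by rw [sub_mul, hF'D, ← hG, sub_self]
  have h2 := eq_zero_of_mul (hF.holo.sub (Sp.isF hF').holo) hDR.isF.holo hD0 h1
  rw [sub_eq_zero.mp h2]
  exact hF'

end Crest.Agent.R007.Rat
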