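import Crest.Agent.R007.RatL1
import Crest.Agent.R007.RatMain

/-!
Row 7 (S0007), node BD: bounded denominators.
`O ⊆ ℂ` a subring which is completely integrally closed, `K` its fraction field, every element of
`K` becomes an element of `O` after multiplication by a power of `2`. If `θ` is an `O`-integral
separating form of level `M` then every `K`-rational form `F` on `Γ(M)` has `2^r F` `O`-integral
(at all cusps) for some `r`.
-/

set_option autoImplicit false

noncomputable section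

namespace Crest.Agent.R007.Rat

open UpperHalfPlane ModularForm CongruenceSubgroup Matrix.SpecialLinearGroup
open scoped MatrixGroups Manifold

/-- hypotheses on the pair `(O, K)` -/
structure Cic (O : Subring ℂ) (K : Subfield ℂ) : Prop where
  le : O ≤ K.toSubring
  frac : ∀ x ∈ K, ∃ r : ℕ, (2 : ℂ) ^ r * x ∈ O
  cic : ∀ a ∈ O, a ≠ 0 → ∀ x : ℂ, (∀ j : ℕ, a * x ^ j ∈ O) → x ∈ O

section PS

variable {O : Subring ℂ} {p q : PowerSeries ℂ}

lemma CoeffIn.sum {ι : Type*} {s : Finset ι} {f : ι → PowerSeries ℂ}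
    (h : ∀ i ∈ s, CoeffIn O (f i)) : CoeffIn O (∑ i ∈ s, f i) := by
  intro n
  rw [map_sum]
  exact O.sum_mem fun i hi => h i hi n

lemma CoeffIn.pow (hp : CoeffIn O p) (n : ℕ) : CoeffIn O (p ^ n) := by
  induction n with
  | zero => simpa using CoeffIn.one
  | succ n ih => rw [pow_succ]; exact ih.mul hp

lemma CoeffIn.natCast_mul (hp : CoeffIn O p) (n : ℕ) : CoeffIn O ((n : PowerSeries ℂ) * p) := by
  have : (n : PowerSeries ℂ) * p = (n : ℂ) • p := by
    rw [PowerSeries.smul_eq_C_mul, map_natCast]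
  rw [this]
  exact hp.smul (natCast_mem O n)

/-- complete integral closedness of power series. -/
theorem coeffIn_of_almost (hO : ∀ a ∈ O, a ≠ 0 → ∀ x : ℂ, (∀ j : ℕ, a * x ^ j ∈ O) → x ∈ O)
    {e f : PowerSeries ℂ} (he : e ≠ 0) (h : ∀ j : ℕ, CoeffIn O (e * f ^ j)) : CoeffIn O f := by
  classical
  have heO : CoeffIn O e := by simpa using h 0
  obtain ⟨r, e', hee', he'⟩ : ∃ (r : ℕ) (e' : PowerSeries ℂ), e = PowerSeries.X ^ r * e' ∧
      PowerSeries.coeff 0 e' ≠ 0 := by
    obtain ⟨e', he'⟩ := PowerSeries.X_pow_order_dvd (φ := e)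
    refine ⟨e.order.toNat, e', he', ?_⟩
    have h1 := PowerSeries.coeff_order he
    rw [he'] at h1
    have h2 := PowerSeries.coeff_X_pow_mul e' (e.order.toNat) 0
    rw [zero_add] at h2
    rw [← he'] at h1 h2
    rw [← h2]
    exact h1
  intro m
  induction m using Nat.strong_induction_on with
  | _ m ih =>
    set y : PowerSeries ℂ := ((PowerSeries.trunc m f : Polynomial ℂ) : PowerSeries ℂ) with hy
    have hyO : CoeffIn O y := by
      intro n
      rw [hy, Polynomial.coeff_coe, PowerSeries.coeff_trunc]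
      split_ifs with hn
      · exact ih n hn
      · exact O.zero_mem
    obtain ⟨g, hg⟩ : ∃ g, f - y = PowerSeries.X ^ m * g := by
      have : (PowerSeries.X : PowerSeries ℂ) ^ m ∣ f - y := by
        rw [PowerSeries.X_pow_dvd_iff]
        intro n hn
        rw [map_sub, hy, Polynomial.coeff_coe, PowerSeries.coeff_trunc, if_pos hn, sub_self]
      exact this
    have hg0 : PowerSeries.coeff 0 g = PowerSeries.coeff m f := by
      have h1 := PowerSeries.coeff_X_pow_mul g m 0
      rw [zero_add, ← hg, map_sub, hy, Polynomial.coeff_coe, PowerSeries.coeff_trunc,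
        if_neg (lt_irrefl m), sub_zero] at h1
      exact h1.symm
    refine hO (PowerSeries.coeff 0 e') ?_ he' _ fun j => ?_
    · have h1 := heO r
      rw [hee'] at h1
      have h2 := PowerSeries.coeff_X_pow_mul e' r 0
      rw [zero_add] at h2
      rwa [h2] at h1
    · have h3 : CoeffIn O (e * (f - y) ^ j) := by
        rw [sub_eq_add_neg, add_pow, Finset.mul_sum]
        refine CoeffIn.sum fun i _ => ?_
        have : e * (f ^ i * (-y) ^ (j - i) * ((j.choose i : ℕ) : PowerSeries ℂ)) =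
            ((j.choose i : ℕ) : PowerSeries ℂ) * ((e * f ^ i) * (-y) ^ (j - i)) := by ring
        rw [this]
        exact ((h i).mul (hyO.neg.pow _)).natCast_mul _
      have h4 : e * (f - y) ^ j = PowerSeries.X ^ (r + m * j) * (e' * g ^ j) := by
        rw [hg, hee', mul_pow, ← pow_mul, pow_add]
        ring
      have h5 := h3 (r + m * j)
      rw [h4] at h5
      have h6 := PowerSeries.coeff_X_pow_mul (e' * g ^ j) (r + m * j) 0
      rw [zero_add] at h6
      rw [h6, PowerSeries.coeff_zero_eq_constantCoeff_apply, map_mul, map_pow,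
        ← PowerSeries.coeff_zero_eq_constantCoeff_apply,
        ← PowerSeries.coeff_zero_eq_constantCoeff_apply, hg0] at h5
      exact h5

/-- an element of the fraction field of `O⟦X⟧` integral over `O⟦X⟧` lies in `O⟦X⟧`. -/
theorem coeffIn_of_integral
    (hO : ∀ a ∈ O, a ≠ 0 → ∀ x : ℂ, (∀ j : ℕ, a * x ^ j ∈ O) → x ∈ O)
    {d f : PowerSeries ℂ} (hd0 : d ≠ 0) (hd : CoeffIn O d) (hdf : CoeffIn O (d * f))
    {n : ℕ} {b : ℕ → PowerSeries ℂ} (hb : ∀ i, CoeffIn O (b i))
    (hrel : f ^ n = ∑ i ∈ Finset.range n, b i * f ^ i) : CoeffIn O f := by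
  refine coeffIn_of_almost hO (e := d ^ n) (pow_ne_zero n hd0) ?_
  intro j
  induction j using Nat.strong_induction_on with
  | _ j ih =>
    rcases le_or_gt j n with hj | hj
    · have : d ^ n * f ^ j = d ^ (n - j) * (d * f) ^ j := by
        rw [mul_pow, ← mul_assoc, ← pow_add, Nat.sub_add_cancel hj]
      rw [this]
      exact (hd.pow _).mul (hdf.pow _)
    · have h1 : f ^ j = f ^ (j - n) * f ^ n := by rw [← pow_add, Nat.sub_add_cancel hj.le]
      rw [h1, hrel, Finset.mul_sum, Finset.mul_sum]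
      refine CoeffIn.sum fun i hi => ?_
      have hi' := Finset.mem_range.mp hi
      have : d ^ n * (f ^ (j - n) * (b i * f ^ i)) = b i * (d ^ n * f ^ (j - n + i)) := by
        rw [pow_add]; ring
      rw [this]
      exact (hb i).mul (ih _ (by omega))

end PS

variable {O : Subring ℂ} {K : Subfield ℂ} {M : ℕ} [NeZero M] {k l k₀ : ℤ} {θ F f : ℍ → ℂ}

/-- (step 1) level one forms have bounded denominators. -/
theorem Cic.levelOne (h : Cic O K) (hf : IsF 1 k f) (hK : CoeffIn K.toSubring (qe 1 f)) :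
    ∃ r : ℕ, IsR O 1 k ((2 : ℂ) ^ r • f) := by
  have h1 := levelOne_mem_span K.toSubring hf hK
  clear hf hK
  induction h1 using Submodule.span_induction with
  | mem x hx => exact ⟨0, by simpa using isR_of_mem_Mon hx⟩
  | zero => exact ⟨0, by simpa using IsR.zero⟩
  | add x y _ _ hx hy =>
    obtain ⟨r, hr⟩ := hx
    obtain ⟨s, hs⟩ := hy
    refine ⟨r + s, ?_⟩
    have h2 : (2 : ℂ) ^ (r + s) • (x + y) = (2 : ℂ) ^ s • ((2 : ℂ) ^ r • x) +
        (2 : ℂ) ^ r • ((2 : ℂ) ^ s • y) := by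
      rw [smul_add, smul_smul, smul_smul, pow_add, mul_comm ((2 : ℂ) ^ s)]
    rw [h2]
    exact (hr.smul (O.pow_mem (by exact_mod_cast natCast_mem O 2) _)).add
      (hs.smul (O.pow_mem (by exact_mod_cast natCast_mem O 2) _))
  | smul c x _ hx =>
    obtain ⟨s, hs⟩ := hx
    obtain ⟨r, hr⟩ := h.frac c c.2
    refine ⟨r + s, ?_⟩
    have h2 : (2 : ℂ) ^ (r + s) • (c • x) = ((2 : ℂ) ^ r * (c : ℂ)) • ((2 : ℂ) ^ s • x) := by
      have : c • x = (c : ℂ) • x := rfl
      rw [this, smul_smul, smul_smul, pow_add]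
      congr 1
      ring
    rw [h2]
    exact hs.smul hr

theorem coeffIn_one_of_level {S : Subring ℂ} (hf : IsF 1 k f) (h : CoeffIn S (qe M f)) :
    CoeffIn S (qe 1 f) := by
  intro n
  have h1 := qe_mul_level (M := 1) hf M (M * n)
  rw [one_mul, if_pos (dvd_mul_right M n),
    Nat.mul_div_cancel_left _ (Nat.pos_of_ne_zero (NeZero.ne M))] at h1
  rw [← h1]
  exact h _

theorem two_pow_mem (O : Subring ℂ) (r : ℕ) : (2 : ℂ) ^ r ∈ O :=
  O.pow_mem (by exact_mod_cast natCast_mem O 2) _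

/-- (step 2) level one forms, `K`-rational at level `M`. -/
theorem Cic.levelOne' (h : Cic O K) (hf : IsF 1 k f) (hK : IsR K.toSubring M k f) :
    ∃ r : ℕ, IsR O M k ((2 : ℂ) ^ r • f) := by
  have h1 : CoeffIn K.toSubring (qe M f) := by
    have := hK.coeff 1
    simpa using this
  obtain ⟨r, hr⟩ := h.levelOne hf (coeffIn_one_of_level hf h1)
  exact ⟨r, hr.mono_level (one_dvd M)⟩

/-- `f` has bounded denominators. -/
def BDn (O : Subring ℂ) (M : ℕ) (k : ℤ) (f : ℍ → ℂ) : Prop := ∃ r : ℕ, IsR O M k ((2 : ℂ) ^ r • f)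

lemma BDn.add {f f' : ℍ → ℂ} (h : BDn O M k f) (h' : BDn O M k f') : BDn O M k (f + f') := by
  obtain ⟨r, hr⟩ := h
  obtain ⟨s, hs⟩ := h'
  refine ⟨r + s, ?_⟩
  have h2 : (2 : ℂ) ^ (r + s) • (f + f') = (2 : ℂ) ^ s • ((2 : ℂ) ^ r • f) +
      (2 : ℂ) ^ r • ((2 : ℂ) ^ s • f') := by
    rw [smul_add, smul_smul, smul_smul, pow_add, mul_comm ((2 : ℂ) ^ s)]
  rw [h2]
  exact (hr.smul (two_pow_mem O _)).add (hs.smul (two_pow_mem O _))

lemma BDn.smul {f : ℍ → ℂ} (h : BDn O M k f) {c : ℂ} (hc : c ∈ O) : BDn O M k (c • f) := by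
  obtain ⟨r, hr⟩ := h
  exact ⟨r, by rw [smul_comm]; exact hr.smul hc⟩

lemma BDn.sum {ι : Type*} (s : Finset ι) (g : ι → ℍ → ℂ) (h : ∀ i ∈ s, BDn O M k (g i)) :
    BDn O M k (∑ i ∈ s, g i) := by
  classical
  induction s using Finset.induction_on with
  | empty => exact ⟨0, by simpa using IsR.zero⟩
  | insert i s hi ih =>
    rw [Finset.sum_insert hi]
    exact (h i (Finset.mem_insert_self i s)).add (ih fun j hj => h j (Finset.mem_insert_of_mem hj))

lemma BDn.mul {f f' : ℍ → ℂ} (h : IsR O M k f) (h' : BDn O M l f') : BDn O M (k + l) (f * f') := by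
  obtain ⟨r, hr⟩ := h'
  exact ⟨r, by rw [← mul_smul_comm]; exact h.mul hr⟩

/-- (step 3) `F · δ` has bounded denominators. -/
theorem Cic.mul_del (h : Cic O K) (hθ : IsR O M k₀ θ) (hF : IsR K.toSubring M k F) :
    BDn O M (k + wdel M k₀) (F * del M k₀ θ) := by
  classical
  have hθK : IsR K.toSubring M k₀ θ := hθ.mono_ring h.le
  rw [interp hθ.isF hF.isF]
  refine BDn.sum _ _ fun t ht => ?_
  refine BDn.smul ?_ (O.pow_mem (O.neg_mem O.one_mem) _)
  have ht' : t.card ≤ (nt M).card := Finset.card_le_card (Finset.mem_powerset.mp ht)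
  have h1 : IsR K.toSubring M (k + (t.card : ℤ) * k₀) (F * ∏ a ∈ t, tr k₀ θ a) :=
    hF.mul (IsR.prod t _ fun a _ => hθK.tr a)
  have h2 : IsF 1 (k + (t.card : ℤ) * k₀) (Tr M (k + (t.card : ℤ) * k₀) (F * ∏ a ∈ t, tr k₀ θ a)) :=
    h1.isF.Tr
  have h3 : IsR K.toSubring M (k + (t.card : ℤ) * k₀)
      (Tr M (k + (t.card : ℤ) * k₀) (F * ∏ a ∈ t, tr k₀ θ a)) :=
    IsR.sum _ _ fun a _ => h1.tr a
  have h4 : BDn O M (k + (t.card : ℤ) * k₀)
      (Tr M (k + (t.card : ℤ) * k₀) (F * ∏ a ∈ t, tr k₀ θ a)) := h.levelOne' h2 h3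
  have h5 := BDn.mul (hθ.pow ((nt M).card - t.card)) h4
  have h6 : (((nt M).card - t.card : ℕ) : ℤ) * k₀ + (k + (t.card : ℤ) * k₀) = k + wdel M k₀ := by
    rw [wdel, Nat.cast_sub ht']
    ring
  rw [h6] at h5
  exact h5

omit [NeZero M] in
lemma tr_smul (c : ℂ) (f : ℍ → ℂ) (a : GM M) : tr k (c • f) a = c • tr k f a := by
  rw [tr, tr, SL_smul_slash]

lemma esy_smul (c : ℂ) (f : ℍ → ℂ) (i : ℕ) : esy M k (c • f) i = c ^ i • esy M k f i := by
  rw [esy, esy, Finset.smul_sum]
  refine Finset.sum_congr rfl fun t ht => ?_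
  rw [Finset.mem_powersetCard] at ht
  simp_rw [tr_smul]
  rw [Finset.prod_smul, Finset.prod_const, ht.2]

/-- (steps 4, 5) bounded denominators at infinity. -/
theorem Cic.bd_infty (h : Cic O K) (hθ : IsR O M k₀ θ)
    (hsep : ∀ g : SL(2, ℤ), g ∉ Gamma M → θ ∣[k₀] g ≠ θ) (hF : IsR K.toSubring M k F) :
    ∃ r : ℕ, CoeffIn O (qe M ((2 : ℂ) ^ r • F)) := by
  classical
  set n := Fintype.card (GM M) with hn
  have hesyR : ∀ i : ℕ, IsR K.toSubring M ((i : ℤ) * k) (esy M k F i) := by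
    intro i
    refine IsR.sum _ _ fun t ht => ?_
    rw [Finset.mem_powersetCard] at ht
    have := IsR.prod t (fun a => tr k F a) (fun a _ => hF.tr a)
    rwa [ht.2] at this
  have hesy : ∀ i : ℕ, ∃ r : ℕ, IsR O M ((i : ℤ) * k) ((2 : ℂ) ^ r • esy M k F i) :=
    fun i => h.levelOne' (hF.isF.esy i) (hesyR i)
  choose r hr using hesy
  set R := ∑ i ∈ Finset.range (n + 1), r i with hR
  have hrR : ∀ i ∈ Finset.range (n + 1), r i ≤ R := fun i hi =>
    Finset.single_le_sum (f := r) (fun _ _ => Nat.zero_le _) hi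
  refine ⟨R, ?_⟩
  set F' : ℍ → ℂ := (2 : ℂ) ^ R • F with hF'
  have hF'R : IsR K.toSubring M k F' := hF.smul (two_pow_mem _ _)
  -- integrality of the coefficients of the norm polynomial
  have hcoef : ∀ i ∈ Finset.range (n + 1), IsR O M ((i : ℤ) * k) (esy M k F' i) := by
    intro i hi
    rw [hF', esy_smul]
    rcases Nat.eq_zero_or_pos i with rfl | hi0
    · rw [pow_zero, one_smul, esy_zero]
      exact IsR.one.cast (by simp)
    · have h1 : ((2 : ℂ) ^ R) ^ i = (2 : ℂ) ^ (R * i - r i) * (2 : ℂ) ^ r i := by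
        rw [← pow_mul, ← pow_add, Nat.sub_add_cancel ((hrR i hi).trans (Nat.le_mul_of_pos_right R hi0))]
      rw [h1, mul_smul]
      exact (hr i).smul (two_pow_mem _ _)
  -- multiplication by a denominator
  obtain ⟨s, hs⟩ := h.mul_del hθ hF'R
  have hdel : IsR O M (wdel M k₀) (del M k₀ θ) := hθ.del
  have hdel0 : del M k₀ θ ≠ 0 := del_ne_zero hθ.isF hsep
  have hdR : IsR O M (wdel M k₀) ((2 : ℂ) ^ s • del M k₀ θ) := hdel.smul (two_pow_mem _ _)
  set d := qe M ((2 : ℂ) ^ s • del M k₀ θ) with hd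
  have hd0 : d ≠ 0 := by
    intro h0
    have h1 := (qe_eq_zero_iff hdR.isF).mp h0
    exact hdel0 ((smul_eq_zero.mp h1).resolve_left (pow_ne_zero _ two_ne_zero))
  have hdO : CoeffIn O d := by
    have := hdR.coeff 1
    simpa using this
  have hdf : CoeffIn O (d * qe M F') := by
    rw [hd, ← qe_mul hdR.isF hF'R.isF]
    have h1 : ((2 : ℂ) ^ s • del M k₀ θ) * F' = (2 : ℂ) ^ s • (F' * del M k₀ θ) := by
      rw [smul_mul_assoc, mul_comm]
    rw [h1]
    have := hs.coeff 1
    simpa using this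
  -- the monic relation
  have hrel := norm_root hF'R.isF
  set b : ℕ → PowerSeries ℂ := fun i =>
    if i < n then - ((-1 : ℂ) ^ (n - i) • qe M (esy M k F' (n - i))) else 0 with hb
  refine coeffIn_of_integral h.cic hd0 hdO hdf (n := n) (b := b) ?_ ?_
  · intro i
    simp only [hb]
    split_ifs with hi
    · refine CoeffIn.neg (CoeffIn.smul (O.pow_mem (O.neg_mem O.one_mem) _) ?_)
      have := (hcoef (n - i) (Finset.mem_range.mpr (by omega))).coeff 1
      simpa using this
    · exact CoeffIn.zero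
  · have hqrel : ∑ i ∈ Finset.range (n + 1), ((-1 : ℂ) ^ i) •
        (qe M (esy M k F' i) * qe M F' ^ (n - i)) = 0 := by
      have h1 := congrArg (qe M) hrel
      rw [qe_zero] at h1
      rw [← h1]
      have hterm : ∀ i ∈ Finset.range (n + 1), IsF M ((n : ℤ) * k)
          (((-1 : ℂ) ^ i) • (esy M k F' i * F' ^ (n - i))) := by
        intro i hi
        have hi' := Finset.mem_range.mp hi
        refine IsF.smul _ ?_
        refine ((hcoef i hi).isF.mul (hF'R.isF.pow (n - i))).cast ?_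
        rw [Nat.cast_sub (by omega)]
        ring
      rw [qe_sum _ _ hterm]
      refine Finset.sum_congr rfl fun i hi => ?_
      have hi' := Finset.mem_range.mp hi
      rw [qe_smul ((hcoef i hi).isF.mul (hF'R.isF.pow (n - i))),
        qe_mul (hcoef i hi).isF (hF'R.isF.pow (n - i)), qe_pow hF'R.isF]
    rw [Finset.sum_range_succ'] at hqrel
    have h0 : qe M (esy M k F' 0) = 1 := by rw [esy_zero, qe_one]
    rw [pow_zero, one_smul, h0, one_mul, Nat.sub_zero] at hqrel
    have h2 : qe M F' ^ n = - ∑ i ∈ Finset.range n, ((-1 : ℂ) ^ (i + 1)) •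
        (qe M (esy M k F' (i + 1)) * qe M F' ^ (n - (i + 1))) := by
      rw [add_comm] at hqrel
      exact eq_neg_of_add_eq_zero_left hqrel
    rw [h2, ← Finset.sum_neg_distrib, ← Finset.sum_range_reflect]
    refine Finset.sum_congr rfl fun i hi => ?_
    have hi' := Finset.mem_range.mp hi
    simp only [hb, if_pos hi']
    have e1 : n - 1 - i + 1 = n - i := by omega
    have e2 : n - (n - i) = i := by omega
    rw [e1, e2, neg_mul, smul_mul_assoc]

/-- **bounded denominators.** -/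
theorem Cic.bd (h : Cic O K) (hθ : IsR O M k₀ θ)
    (hsep : ∀ g : SL(2, ℤ), g ∉ Gamma M → θ ∣[k₀] g ≠ θ) (hF : IsR K.toSubring M k F) :
    ∃ r : ℕ, IsR O M k ((2 : ℂ) ^ r • F) := by
  classical
  have h1 : ∀ a : GM M, ∃ r : ℕ, CoeffIn O (qe M ((2 : ℂ) ^ r • tr k F a)) :=
    fun a => h.bd_infty hθ hsep (hF.tr a)
  choose r hr using h1
  set R := ∑ a : GM M, r a with hR
  refine ⟨R, hF.isF.smul _, fun g => ?_⟩
  have hle : r (g : GM M) ≤ R :=
    Finset.single_le_sum (f := r) (fun _ _ => Nat.zero_le _) (Finset.mem_univ _)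
  have h2 : ((2 : ℂ) ^ R • F) ∣[k] g = (2 : ℂ) ^ (R - r (g : GM M)) •
      ((2 : ℂ) ^ r (g : GM M) • tr k F (g : GM M)) := by
    rw [SL_smul_slash, tr_mk hF.isF, smul_smul, ← pow_add, Nat.sub_add_cancel hle]
  rw [h2, qe_smul ((hF.isF.tr _).smul _)]
  exact (hr _).smul (two_pow_mem _ _)

end Crest.Agent.R007.Rat
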