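import Crest.Agent.R007.OpNd

/-! Row 7: realisation of additive functionals on the Hecke algebra by forms with coefficients in a
given subfield (node (I1)/(VPHI), first half). -/

set_option autoImplicit false

namespace Crest.Agent.R007.Realise

open Matrix UpperHalfPlane ModularForm CongruenceSubgroup Matrix.SpecialLinearGroup
open scoped MatrixGroups ModularForm Manifold Pointwise
open Crest.NumberTheoryR.HeckeTwoAdic
open Crest.Agent.R007.Op

variable {N : ℕ} [NeZero N] {k : ℕ}

/-- all coefficients of `f` and of its diamond translates lie in `K` -/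
def IsK (K : Subfield ℂ) (f : MF N k) : Prop :=
  ∀ (g : SL(2, ℤ)) (hg : g ∈ Gamma0 N) (n : ℕ), an (Dop N k g hg f) n ∈ K

theorem IsK.mono {K K' : Subfield ℂ} (h : K ≤ K') {f : MF N k} (hf : IsK K f) : IsK K' f :=
  fun g hg n => h (hf g hg n)

theorem Dop_one (h1 : (1 : SL(2, ℤ)) ∈ Gamma0 N) (f : MF N k) : Dop N k 1 h1 f = f := by
  apply DFunLike.coe_injective
  rw [Dop_coe, SlashAction.slash_one]

theorem Dop_mul {g h : SL(2, ℤ)} (hg : g ∈ Gamma0 N) (hh : h ∈ Gamma0 N)
    (hgh : g * h ∈ Gamma0 N) (f : MF N k) : Dop N k h hh (Dop N k g hg f) = Dop N k (g * h) hgh f := by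
  apply DFunLike.coe_injective
  rw [Dop_coe, Dop_coe, Dop_coe, SlashAction.slash_mul]

theorem IsK.an {K : Subfield ℂ} {f : MF N k} (hf : IsK K f) (n : ℕ) : an f n ∈ K := by
  have h := hf 1 (Gamma0 N).one_mem n
  rwa [Dop_one] at h

theorem IsK.zero (K : Subfield ℂ) : IsK K (0 : MF N k) := fun g hg n => by
  rw [map_zero, an_zero']; exact K.zero_mem

theorem IsK.add {K : Subfield ℂ} {f f' : MF N k} (hf : IsK K f) (hf' : IsK K f') :
    IsK K (f + f') := fun g hg n => by
  rw [map_add, an_add]; exact K.add_mem (hf g hg n) (hf' g hg n)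

theorem IsK.smul {K : Subfield ℂ} {c : ℂ} (hc : c ∈ K) {f : MF N k} (hf : IsK K f) :
    IsK K (c • f) := fun g hg n => by
  rw [map_smul, an_smul]; exact K.mul_mem hc (hf g hg n)

theorem IsK.neg {K : Subfield ℂ} {f : MF N k} (hf : IsK K f) : IsK K (-f) := by
  have := hf.smul (K.neg_mem K.one_mem)
  simpa using this

theorem IsK.sum {K : Subfield ℂ} {ι : Type*} (s : Finset ι) (f : ι → MF N k)
    (h : ∀ i ∈ s, IsK K (f i)) : IsK K (∑ i ∈ s, f i) := by
  classical
  induction s using Finset.induction_on with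
  | empty => simpa using IsK.zero K
  | insert i s hi ih =>
    rw [Finset.sum_insert hi]
    exact (h i (Finset.mem_insert_self _ _)).add (ih fun j hj => h j (Finset.mem_insert_of_mem hj))

theorem IsK.dop {K : Subfield ℂ} {f : MF N k} (hf : IsK K f) {g : SL(2, ℤ)} (hg : g ∈ Gamma0 N) :
    IsK K (Dop N k g hg f) := fun g' hg' n => by
  rw [Dop_mul hg hg' ((Gamma0 N).mul_mem hg hg')]
  exact hf _ _ n

theorem natCast_zpow_mem (K : Subfield ℂ) (l : ℕ) (m : ℤ) : ((l : ℂ)) ^ m ∈ K :=
  zpow_mem (natCast_mem K l) m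

theorem IsK.top {K : Subfield ℂ} {f : MF N k} (hf : IsK K f) {l : ℕ} (hl : l.Prime)
    (hN : ¬ l ∣ N) {g : SL(2, ℤ)} (hg : IsDiam N l g) : IsK K (Top N k l hl hN g hg f) :=
  fun g' hg' n => by
    rw [Top_Dop hl hN hg hg', an_Top]
    refine K.add_mem (hf _ _ _) ?_
    split_ifs
    · refine K.mul_mem (natCast_zpow_mem K l _) ?_
      exact (hf.dop hg').dop hg.1 |>.an _
    · exact K.zero_mem

section stage

variable {T D : ℕ → (i : ℕ) → (MF N i →ₗ[ℂ] MF N i)}

theorem stage_isK (K : Subfield ℂ) (hD : IsDiamondFamily N D) (hT : IsHeckeFamily N T D) {k : ℕ}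
    {a : EndProd N k} (ha : a ∈ stage N T D k) :
    ∀ (i : Fin k) (f : MF N ((i : ℕ) + 1)), IsK K f → IsK K (a i f) := by
  unfold stage at ha
  induction ha using Subring.closure_induction with
  | mem x hx =>
    obtain ⟨l, hl, h2, hx⟩ := hx
    have hN : ¬ l ∣ N := fun h => h2 (h.mul_left 2)
    obtain ⟨g, hg⟩ := exists_isDiam ((Nat.Prime.coprime_iff_not_dvd hl).mpr hN)
    rcases hx with rfl | rfl
    · intro i f hf
      change IsK K (T l ((i : ℕ) + 1) f)
      rw [T_eq_Top hD hT hl h2 hN hg]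
      exact hf.top hl hN hg
    · intro i f hf
      change IsK K (((l : ℂ) ^ (i : ℕ)) • D l ((i : ℕ) + 1) f)
      rw [D_eq_Dop hD hg]
      exact (hf.dop hg.1).smul (pow_mem (natCast_mem K l) _)
  | zero => exact fun i f _ => IsK.zero K
  | one => exact fun i f hf => hf
  | add x y _ _ hx hy => exact fun i f hf => (hx i f hf).add (hy i f hf)
  | neg x _ hx => exact fun i f hf => (hx i f hf).neg
  | mul x y _ _ hx hy => exact fun i f hf => hx i _ (hy i f hf)

theorem mem_bot_iff (x : ℂ) : x ∈ (⊥ : Subfield ℂ) ↔ ∃ q : ℚ, (q : ℂ) = x := by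
  constructor
  · intro hx
    let S : Subfield ℂ := (algebraMap ℚ ℂ).fieldRange
    have h1 : (⊥ : Subfield ℂ) ≤ S := bot_le
    obtain ⟨q, hq⟩ := h1 hx
    exact ⟨q, by rw [← hq]; rfl⟩
  · rintro ⟨q, rfl⟩
    exact SubfieldClass.ratCast_mem _ q

/-- **Realisation of additive functionals.** -/
theorem realise (hfin : ∀ i, FiniteDimensional ℂ (MF N i))
    (hD : IsDiamondFamily N D) (hT : IsHeckeFamily N T D) {k : ℕ}
    (hspan : ∀ i : Fin k, Submodule.span ℂ {f : MF N ((i : ℕ) + 1) | IsK ⊥ f} = ⊤)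
    (K : Subfield ℂ) (φ : stage N T D k →+ ℂ) (hφ : ∀ s, φ s ∈ K) :
    ∃ F : (i : Fin k) → MF N ((i : ℕ) + 1), (∀ i, IsK K (F i)) ∧
      ∀ s : stage N T D k, φ s = ∑ i : Fin k, an ((s : EndProd N k) i (F i)) 1 := by
  classical
  -- finite rational spanning families
  have hfg : ∀ i : Fin k, ∃ S : Finset (MF N ((i : ℕ) + 1)),
      (↑S ⊆ {f : MF N ((i : ℕ) + 1) | IsK ⊥ f}) ∧ Submodule.span ℂ (S : Set (MF N ((i : ℕ) + 1))) = ⊤ := by
    intro i
    have := hfin ((i : ℕ) + 1)
    have h1 : (Submodule.span ℂ {f : MF N ((i : ℕ) + 1) | IsK ⊥ f}).FG := by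
      rw [hspan i]; exact Module.Finite.fg_top
    rw [Submodule.fg_span_iff_fg_span_finset_subset] at h1
    obtain ⟨S, hS, hS2⟩ := h1
    exact ⟨S, hS, by rw [← hS2, hspan i]⟩
  choose S hS hS2 using hfg
  let J := Σ i : Fin k, {x // x ∈ S i}
  let a1 : EndProd N k → J → ℂ := fun t j => an (t j.1 (j.2 : MF N ((j.1 : ℕ) + 1))) 1
  let Θ : stage N T D k →+ (J → ℂ) :=
    { toFun := fun s => a1 s
      map_zero' := by
        funext j
        change an ((0 : Module.End ℂ (MF N ((j.1 : ℕ) + 1))) _) 1 = 0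
        rw [LinearMap.zero_apply, an_zero']
      map_add' := by
        intro s t
        funext j
        change an (((s : EndProd N k) j.1 + (t : EndProd N k) j.1) _) 1 = _
        rw [LinearMap.add_apply, an_add]; rfl }
  have hΘ : Function.Injective Θ := by
    rw [injective_iff_map_eq_zero]
    intro s hs
    apply Subtype.ext
    apply left_nondeg hD hT (Submodule.subset_span s.2)
    intro F
    refine Finset.sum_eq_zero fun i _ => ?_
    have h1 : ∀ f : MF N ((i : ℕ) + 1), an ((s : EndProd N k) i f) 1 = 0 := by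
      intro f
      have hf : f ∈ Submodule.span ℂ (S i : Set (MF N ((i : ℕ) + 1))) := by
        rw [hS2]; trivial
      induction hf using Submodule.span_induction with
      | mem x hx => exact congrFun hs ⟨i, x, hx⟩
      | zero => rw [map_zero, an_zero']
      | add x y _ _ hx hy => rw [map_add, an_add, hx, hy, add_zero]
      | smul c x _ hx => rw [map_smul, an_smul, hx, mul_zero]
    exact h1 _
  let φ' : stage N T D k →+ K :=
    { toFun := fun s => ⟨φ s, hφ s⟩
      map_zero' := Subtype.ext (map_zero φ)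
      map_add' := fun s t => Subtype.ext (map_add φ s t) }
  obtain ⟨h, hh⟩ := (Module.Baer.of_divisible (A := K)).extension_property_addMonoidHom Θ hΘ φ'
  have hh' : ∀ s, (h (Θ s) : ℂ) = φ s := fun s =>
    congrArg Subtype.val (DFunLike.congr_fun hh s)
  let c : J → K := fun j => h (Pi.single j 1)
  refine ⟨fun i => ∑ x : {x // x ∈ S i}, (c ⟨i, x⟩ : ℂ) • (x : MF N ((i : ℕ) + 1)), ?_, ?_⟩
  · intro i
    exact IsK.sum _ _ fun x _ => (IsK.mono bot_le (hS i x.2)).smul (c ⟨i, x⟩).2
  · intro s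
    rw [← hh' s]
    -- rationality of the coordinates
    have hq : ∀ j : J, ∃ q : ℚ, (q : ℂ) = Θ s j := by
      intro j
      rw [← mem_bot_iff]
      exact (stage_isK ⊥ hD hT s.2 j.1 _ (hS j.1 j.2.2)).an 1
    choose q hq using hq
    have e1 : Θ s = ∑ j : J, q j • (Pi.single j (1 : ℂ) : J → ℂ) := by
      funext j
      rw [Finset.sum_apply, Finset.sum_eq_single j]
      · rw [Pi.smul_apply, Pi.single_eq_same, ← hq j, Rat.smul_one_eq_cast]
      · intro j' _ hj'
        rw [Pi.smul_apply, Pi.single_eq_of_ne hj'.symm, smul_zero]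
      · intro hj; exact absurd (Finset.mem_univ j) hj
    have e2 : h (Θ s) = ∑ j : J, q j • c j := by
      rw [e1, map_sum]
      exact Finset.sum_congr rfl fun j _ => map_rat_smul h (q j) _
    rw [e2]
    have e3 : ((∑ j : J, q j • c j : K) : ℂ) = ∑ j : J, (c j : ℂ) * Θ s j := by
      rw [AddSubmonoidClass.coe_finsetSum]
      refine Finset.sum_congr rfl fun j _ => ?_
      rw [← hq j, Rat.smul_def]
      push_cast
      ring
    rw [e3, Fintype.sum_sigma]
    refine Finset.sum_congr rfl fun i _ => ?_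
    have e4 : an ((s : EndProd N k) i (∑ x : {x // x ∈ S i}, (c ⟨i, x⟩ : ℂ) • (x : MF N ((i : ℕ) + 1)))) 1
        = anL N ((i : ℕ) + 1) 1 ((s : EndProd N k) i
          (∑ x : {x // x ∈ S i}, (c ⟨i, x⟩ : ℂ) • (x : MF N ((i : ℕ) + 1)))) := rfl
    rw [e4, map_sum, map_sum]
    refine Finset.sum_congr rfl fun x _ => ?_
    rw [map_smul, map_smul, smul_eq_mul]
    rfl

end stage

end Crest.Agent.R007.Realise
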