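import Crest.Agent.R007.RatBDO
import Crest.Agent.R007.RatDesc
import Crest.Agent.R007.RatG1
import Crest.Agent.R007.Realise

/-!
Row 7 (S0007), section A, node (BD) on `Γ₁(N)`, `N` odd: a form whose q-expansion at infinity has
coefficients in `Coef.K0` is `Coef.OO`-integral at all cusps after multiplication by a power of `2`.
-/

set_option autoImplicit false

noncomputable section

namespace Crest.Agent.R007.Rat

open UpperHalfPlane ModularForm CongruenceSubgroup Matrix.SpecialLinearGroup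
open scoped MatrixGroups Manifold
open Crest.NumberTheoryR.HeckeTwoAdic

variable {M : ℕ} [NeZero M] {k : ℤ}

/-- `K`-rational at infinity implies `K`-rational at all cusps (`ζ_M ∈ K`). -/
theorem isR_of_infty (hM : 3 ≤ M) (K : Subfield ℂ) (hz : Wp.zeta M ∈ K) {F : ℍ → ℂ}
    (hF : IsF M k F) (h : CoeffIn K.toSubring (qe M F)) : IsR K.toSubring M k F := by
  refine ⟨hF, fun g n => ?_⟩
  refine RatAlg.mem_of_fixed _ _ fun σ hσ => ?_
  have hs : (σ : ℂ →+* ℂ) (Wp.zeta M) = Wp.zeta M ^ (1 : ℤ) := by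
    rw [zpow_one]
    exact hσ _ hz
  obtain ⟨F', hF'⟩ := exists_gal hM hs hF
  have htw : ∀ g : SL(2, ℤ), Tw 1 M g g := fun g => by simp [Tw]
  have e1 : F' = F := by
    refine qe_inj hF'.right hF ?_
    have h1 := hF'.eq 1 1 (htw 1)
    rw [SlashAction.slash_one, SlashAction.slash_one] at h1
    rw [h1]
    ext n
    rw [PowerSeries.coeff_map]
    exact hσ _ (h n)
  have h2 := congrArg (PowerSeries.coeff n) (hF'.eq g g (htw g))
  rw [PowerSeries.coeff_map, e1] at h2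
  exact h2.symm

/-- odd level: `K0`-rational at infinity implies `K0`-rational at all cusps. -/
theorem isR_K0_of_infty (hM : Odd M) {F : ℍ → ℂ}
    (hF : IsF M k F) (h : CoeffIn Coef.K0.toSubring (qe M F)) : IsR Coef.K0.toSubring M k F := by
  rcases Nat.lt_or_ge M 3 with h3 | h3
  · obtain rfl : M = 1 := by
      obtain ⟨c, hc⟩ := hM
      omega
    exact ⟨hF, fun g => by rw [slash_one_level hF]; exact h⟩
  · exact isR_of_infty h3 _ (zeta_mem_K0 hM) hF h

/-- **(BD)**, odd level, hypothesis only at infinity. -/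
theorem bd_infty_OO (hM : Odd M) {F : ℍ → ℂ} (hF : IsF M k F)
    (h : CoeffIn Coef.K0.toSubring (qe M F)) : ∃ r : ℕ, IsR Coef.OO M k ((2 : ℂ) ^ r • F) :=
  bd_OO hM (isR_K0_of_infty hM hF h)

variable {N i : ℕ} [NeZero N]

/-- **(BD)** for forms on `Γ₁(N)`, `N` odd; at all cusps. -/
theorem bd_MF_isR (hN : Odd N) (f : MF N i) (hf : ∀ n, Op.an f n ∈ Coef.K0) :
    ∃ r : ℕ, IsR Coef.OO N (i : ℤ) ((2 : ℂ) ^ r • (f : ℍ → ℂ)) := by
  refine bd_infty_OO hN (isF_of_MF f) fun n => ?_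
  rw [coeff_qe_MF f N (isF_of_MF f)]
  split_ifs
  · exact hf _
  · exact Subring.zero_mem _

/-- **(BD)** for forms on `Γ₁(N)`, `N` odd: diamond translates. -/
theorem bd_MF (hN : Odd N) (f : MF N i) (hf : ∀ n, Op.an f n ∈ Coef.K0) :
    ∃ r : ℕ, ∀ (g : SL(2, ℤ)) (hg : g ∈ Gamma0 N) (n : ℕ),
      (2 : ℂ) ^ r * Op.an (Op.Dop N i g hg f) n ∈ Coef.OO := by
  obtain ⟨r, hr⟩ := bd_MF_isR hN f hf
  refine ⟨r, fun g hg n => ?_⟩
  have h1 := hr.coeff g (N * n)
  rw [SL_smul_slash] at h1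
  have hL : IsF N (i : ℤ) (Op.Dop N i g hg f : ℍ → ℂ) := isF_of_MF _
  have e1 := coeff_qe_MF (Op.Dop N i g hg f) N hL (N * n)
  rw [if_pos (dvd_mul_right _ _), Nat.mul_div_cancel_left _ (Nat.pos_of_ne_zero (NeZero.ne N))] at e1
  rw [Op.Dop_coe] at hL e1
  rw [qe_smul hL, PowerSeries.coeff_smul, e1, smul_eq_mul] at h1
  exact h1

/-- an element of `Coef.OO` which is rational has odd denominator -/
lemma exists_odd_of_mem {x : ℂ} (hx : x ∈ Coef.OO) (hq : x ∈ (⊥ : Subfield ℂ)) :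
    ∃ a b : ℤ, Odd b ∧ (b : ℂ) * x = a := by
  obtain ⟨q, rfl⟩ := (Realise.mem_bot_iff x).1 hq
  have h1 := Coef.ratCast_mem_iff.1 hx
  refine ⟨q.num, q.den, by exact_mod_cast h1, ?_⟩
  have h2 : (q : ℂ) = (q.num : ℂ) / (q.den : ℂ) := by exact_mod_cast (Rat.num_div_den q).symm
  have h3 : (q.den : ℂ) ≠ 0 := by exact_mod_cast q.den_nz
  rw [h2]
  push_cast
  field_simp

/-- **(BD)** for rational forms on `Γ₁(N)`, `N` odd (helper425's `hbd`). -/
theorem bd_MF_rat (hN : Odd N) (f : MF N i) (hf : Realise.IsK ⊥ f) :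
    ∃ r : ℕ, ∀ (g : SL(2, ℤ)) (hg : g ∈ Gamma0 N) (n : ℕ),
      ∃ a b : ℤ, Odd b ∧ (b : ℂ) * ((2 : ℂ) ^ r * Op.an (Op.Dop N i g hg f) n) = a := by
  obtain ⟨r, hr⟩ := bd_MF hN f (fun n => bot_le (a := Coef.K0) (hf.an n))
  refine ⟨r, fun g hg n => exists_odd_of_mem (hr g hg n) ?_⟩
  exact mul_mem (pow_mem (ofNat_mem _ 2) _) (hf g hg n)

end Crest.Agent.R007.Rat
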