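import Crest.Agent.R007.Wp5

/-!
R007/Wp6: the weight 3 forms `Q M ![1,0]`, `Q M ![0,1]` separate `SL(2,ℤ)/Γ(M)` (`M ≥ 3`).
-/

set_option autoImplicit false

namespace Crest.Agent.R007.Wp

open UpperHalfPlane hiding I
open Complex PeriodPair ModularForm Matrix Function Filter CongruenceSubgroup
open scoped MatrixGroups Real PeriodPair Nat Topology Manifold

noncomputable section

lemma cQ_eq_of_eq {M : ℕ} (hM : M ≠ 0) {v w : Fin 2 → ℤ} (h : Q M v = Q M w) : cQ M v = cQ M w := by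
  haveI : NeZero M := ⟨hM⟩
  have h1 := congrArg (Rat.qe M) h
  rw [qe_Q, qe_Q] at h1
  funext n
  have := congrArg (PowerSeries.coeff n) h1
  simpa using this

lemma cP_eq_of_eq {M : ℕ} (hM : M ≠ 0) {v w : Fin 2 → ℤ} (h : P M v = P M w) : cP M v = cP M w := by
  haveI : NeZero M := ⟨hM⟩
  have h1 := congrArg (Rat.qe M) h
  rw [qe_P, qe_P] at h1
  funext n
  have := congrArg (PowerSeries.coeff n) h1
  simpa using this

lemma cQ_zero (M : ℕ) (v : Fin 2 → ℤ) : cQ M v 0 = cQ0 M v := by simp [cQ]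

lemma cP_zero (M : ℕ) (v : Fin 2 → ℤ) : cP M v 0 = cP0 M v := by simp [cP]

lemma cQ_one (M : ℕ) (v : Fin 2 → ℤ) : cQ M v 1 = chi M 2 (v 0) (v 1) 1 1 := by simp [cQ]

/-- coefficient of `q = 𝕢^M` when `v 0 ≡ 0`. -/
lemma cQ_M {M : ℕ} (hM : M ≠ 0) {v : Fin 2 → ℤ} (h0 : (v 0 : ZMod M) = 0) :
    cQ M v M = zeta M ^ (v 1) - zeta M ^ (-(v 1)) := by
  rw [cQ, if_neg hM, zero_add, Finset.sum_eq_single (M, 1)]
  · simp [chi, h0]
    ring
  · rintro ⟨e, d⟩ hp hne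
    rw [Nat.mem_divisorsAntidiagonal] at hp
    obtain ⟨hp, -⟩ := hp
    simp only at hp ⊢
    have hndvd : ¬ ((e : ZMod M) = 0) := by
      intro h
      rw [ZMod.natCast_eq_zero_iff] at h
      have he : e ∣ M := ⟨d, hp.symm⟩
      have h1 : e = M := Nat.dvd_antisymm he h
      subst h1
      have h2 : d = 1 := by
        have : e * d = e * 1 := by rw [hp, mul_one]
        exact Nat.eq_of_mul_eq_mul_left (Nat.pos_of_ne_zero hM) this
      exact hne (by rw [h2])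
    simp [chi, h0, hndvd]
  · intro h
    exact absurd (Nat.mem_divisorsAntidiagonal.2 ⟨mul_one M, hM⟩) h

lemma zeta_zpow_eq_iff {M : ℕ} (hM : M ≠ 0) (a b : ℤ) :
    zeta M ^ a = zeta M ^ b ↔ (a : ZMod M) = b := by
  have hp := isPrimitiveRoot_zeta hM
  have hz := zeta_ne_zero M
  have h1 : zeta M ^ a = zeta M ^ b ↔ zeta M ^ (a - b) = 1 := by
    rw [zpow_sub₀ hz, div_eq_one_iff_eq (zpow_ne_zero _ hz)]
  rw [h1, hp.zpow_eq_one_iff_dvd, ← ZMod.intCast_zmod_eq_zero_iff_dvd, Int.cast_sub, sub_eq_zero]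

lemma zeta_zpow_ne_one {M : ℕ} (hM : M ≠ 0) {b : ℤ} (hb : (b : ZMod M) ≠ 0) : 1 - zeta M ^ b ≠ 0 := by
  intro h
  apply hb
  have := (zeta_zpow_eq_iff hM b 0).1 (by rw [zpow_zero]; linear_combination -h)
  simpa using this

lemma row_one_of_eq {M : ℕ} (hM : 3 ≤ M) {w : Fin 2 → ℤ} (hw : (w 0 : ZMod M) ≠ 0 ∨ (w 1 : ZMod M) ≠ 0)
    (h : Q M w = Q M ![0, 1]) : (w 0 : ZMod M) = 0 ∧ (w 1 : ZMod M) = 1 := by
  have hM0 : M ≠ 0 := by omega
  haveI : Fact (1 < M) := ⟨by omega⟩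
  have hone : (1 : ZMod M) ≠ 0 := one_ne_zero
  have hc := cQ_eq_of_eq hM0 h
  have e0 : cQ0 M w = cQ0 M ![0, 1] := by rw [← cQ_zero, ← cQ_zero, hc]
  have hv : ((![0, 1] : Fin 2 → ℤ) 0 : ZMod M) ≠ 0 ∨ ((![0, 1] : Fin 2 → ℤ) 1 : ZMod M) ≠ 0 :=
    Or.inr (by simp)
  rw [cQ0_eq hM0 hw, cQ0_eq hM0 hv] at e0
  simp only [Matrix.cons_val_zero, Int.cast_zero, if_true, Matrix.cons_val_one, zpow_one] at e0
  set y := zeta M with hy
  have hz := isPrimitiveRoot_zeta hM0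
  have hy0 : y ≠ 0 := zeta_ne_zero M
  have hy1 : 1 - y ≠ 0 := by
    have := zeta_zpow_ne_one hM0 (b := 1) (by simp)
    simpa using this
  have hy2 : 1 + y ≠ 0 := by
    intro h2
    have h3 : y ^ 2 = 1 := by linear_combination (y - 1) * h2
    have := hz.dvd_of_pow_eq_one 2 h3
    have := Nat.le_of_dvd (by norm_num) this
    omega
  have hne : y * (1 + y) / (1 - y) ^ 3 ≠ 0 :=
    div_ne_zero (mul_ne_zero hy0 hy2) (pow_ne_zero _ hy1)
  have hw0 : (w 0 : ZMod M) = 0 := by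
    by_contra hcon
    rw [if_neg hcon] at e0
    exact hne e0.symm
  refine ⟨hw0, ?_⟩
  rw [if_pos hw0] at e0
  have hw1 : (w 1 : ZMod M) ≠ 0 := by tauto
  have eM : cQ M w M = cQ M ![0, 1] M := by rw [hc]
  rw [cQ_M hM0 hw0, cQ_M hM0 (v := ![0, 1]) (by simp)] at eM
  simp only [Matrix.cons_val_one, zpow_one, _root_.zpow_neg, ← hy] at eM
  set x := y ^ (w 1) with hx
  have hx0 : x ≠ 0 := zpow_ne_zero _ hy0
  have hx1 : 1 - x ≠ 0 := zeta_zpow_ne_one hM0 hw1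
  have key : (x - y) * (x * y + 1) = 0 := by
    have h5 : x - x⁻¹ = y - y⁻¹ := by simpa using eM
    field_simp at h5
    linear_combination h5
  have hxy : x = y := by
    rcases mul_eq_zero.1 key with h6 | h6
    · linear_combination h6
    · -- x y = -1
      rw [div_eq_div_iff (pow_ne_zero _ hx1) (pow_ne_zero _ hy1)] at e0
      have hx' : x = -y⁻¹ := by
        field_simp
        linear_combination h6
      rw [hx'] at e0
      field_simp at e0
      have h7 : y ^ 2 + 1 = 0 := by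
        have h8 : 8 * y * (y ^ 2 + 1) = 0 := by
          first
          | linear_combination e0
          | linear_combination -e0
        rcases mul_eq_zero.1 h8 with h9 | h9
        · exact absurd h9 (by simpa using hy0)
        · exact h9
      rw [hx']
      field_simp
      linear_combination -h7
  have := (zeta_zpow_eq_iff hM0 (w 1) 1).1 (by rw [zpow_one]; exact hxy)
  simpa using this

lemma row_zero_of_eq {M : ℕ} (hM : 3 ≤ M) {w : Fin 2 → ℤ} (hw0 : (w 0 : ZMod M) = 1)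
    (h : Q M w = Q M ![1, 0]) : (w 1 : ZMod M) = 0 := by
  have hM0 : M ≠ 0 := by omega
  have hc := cQ_eq_of_eq hM0 h
  have e1 : cQ M w 1 = cQ M ![1, 0] 1 := by rw [hc]
  have hne : ¬ ((-1 : ZMod M) = 1) := by
    intro h1
    have h2 : ((2 : ℕ) : ZMod M) = 0 := by
      push_cast
      linear_combination -h1
    rw [ZMod.natCast_eq_zero_iff] at h2
    have := Nat.le_of_dvd (by norm_num) h2
    omega
  rw [cQ_one, cQ_one] at e1
  simp [chi, hw0, hne] at e1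
  have := (zeta_zpow_eq_iff hM0 (w 1) 0).1 (by rw [zpow_zero]; exact e1)
  simpa using this

/-- **Separation**: the weight `3` forms `Q M ![1,0]`, `Q M ![0,1]` of level `Γ(M)`, `M ≥ 3`, are
both fixed by `g ∈ SL(2,ℤ)` only if `g ∈ Γ(M)`. -/
theorem mem_Gamma_of_Q_fixed {M : ℕ} (hM : 3 ≤ M) {g : SL(2, ℤ)}
    (h0 : Q M ![1, 0] ∣[(3 : ℤ)] g = Q M ![1, 0]) (h1 : Q M ![0, 1] ∣[(3 : ℤ)] g = Q M ![0, 1]) :
    g ∈ CongruenceSubgroup.Gamma M := by
  have hM0 : M ≠ 0 := by omega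
  haveI : Fact (1 < M) := ⟨by omega⟩
  rw [Q_slash] at h0 h1
  have hv : ((![0, 1] : Fin 2 → ℤ) 0 : ZMod M) ≠ 0 ∨ ((![0, 1] : Fin 2 → ℤ) 1 : ZMod M) ≠ 0 :=
    Or.inr (by simp)
  obtain ⟨hc, hd⟩ := row_one_of_eq hM (vecMul_ne hv g) h1
  simp [Matrix.vecMul, dotProduct, Fin.sum_univ_two] at hc hd
  have hdet := g.det_coe
  rw [Matrix.det_fin_two] at hdet
  have hdet' : ((g 0 0 : ℤ) : ZMod M) * (g 1 1 : ℤ) - ((g 0 1 : ℤ) : ZMod M) * (g 1 0 : ℤ) = 1 := by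
    exact_mod_cast congrArg (Int.cast : ℤ → ZMod M) hdet
  rw [hc, hd] at hdet'
  have ha : ((g 0 0 : ℤ) : ZMod M) = 1 := by linear_combination hdet'
  have hb := row_zero_of_eq hM (w := ![1, 0] ᵥ* (g : Matrix (Fin 2) (Fin 2) ℤ))
    (by simp [Matrix.vecMul, dotProduct, Fin.sum_univ_two, ha]) h0
  simp [Matrix.vecMul, dotProduct, Fin.sum_univ_two] at hb
  rw [Gamma_mem]
  exact ⟨ha, hb, hc, hd⟩

end

end Crest.Agent.R007.Wp
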