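import Crest.Agent.R007.RatMain
import Crest.Agent.R007.Wp6

/-!
Row 7 (S0007), section A: a separating form; Theorem A unconditional.
-/

set_option autoImplicit false

noncomputable section

namespace Crest.Agent.R007.Rat

open UpperHalfPlane ModularForm CongruenceSubgroup Matrix.SpecialLinearGroup
open scoped MatrixGroups Manifold

variable {S : Subring ℂ} {M : ℕ} [NeZero M] {k l k₀ : ℤ}

/-- From two forms separating the cosets jointly, get one. -/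
theorem exists_sep {f₁ f₂ : ℍ → ℂ} (h1 : IsR S M k₀ f₁) (h2 : IsR S M k₀ f₂)
    (hsep : ∀ g : SL(2, ℤ), f₁ ∣[k₀] g = f₁ → f₂ ∣[k₀] g = f₂ → g ∈ Gamma M) :
    ∃ θ, IsR S M k₀ θ ∧ ∀ g : SL(2, ℤ), g ∉ Gamma M → θ ∣[k₀] g ≠ θ := by
  classical
  let B : GM M → Set ℕ := fun a => {n | a ≠ 1 ∧ tr k₀ (f₁ + (n : ℂ) • f₂) a = f₁ + (n : ℂ) • f₂}
  have hB : ∀ a, (B a).Finite := by
    intro a
    refine Set.Subsingleton.finite ?_
    rintro n ⟨ha, hn⟩ m ⟨-, hm⟩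
    induction a using QuotientGroup.induction_on with
    | H g =>
      have hgM : g ∉ Gamma M := fun hg => ha ((QuotientGroup.eq_one_iff g).mpr hg)
      rw [tr_mk (h1.isF.add (h2.isF.smul _)), SlashAction.add_slash, SL_smul_slash] at hn hm
      by_contra hnm
      have hnm' : (n : ℂ) - m ≠ 0 := sub_ne_zero.mpr (by exact_mod_cast hnm)
      have e1 : ((n : ℂ) - m) • (f₂ ∣[k₀] g - f₂) = 0 := by
        have h3 : ((n : ℂ) - m) • (f₂ ∣[k₀] g - f₂) =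
            (f₁ ∣[k₀] g + (n : ℂ) • f₂ ∣[k₀] g) - (f₁ ∣[k₀] g + (m : ℂ) • f₂ ∣[k₀] g)
            - (f₁ + (n : ℂ) • f₂) + (f₁ + (m : ℂ) • f₂) := by
          ext τ
          simp
          ring
        rw [h3, hn, hm]
        abel
      have e2 : f₂ ∣[k₀] g = f₂ := sub_eq_zero.mp ((smul_eq_zero.mp e1).resolve_left hnm')
      rw [e2] at hn
      exact hgM (hsep g (add_right_cancel hn) e2)
  have hfin : (⋃ a, B a).Finite := Set.finite_iUnion hB
  obtain ⟨n, hn⟩ := hfin.infinite_compl.nonempty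
  refine ⟨f₁ + (n : ℂ) • f₂, h1.add (h2.smul (natCast_mem S n)), fun g hg heq => ?_⟩
  apply hn
  refine Set.mem_iUnion.mpr ⟨(g : GM M), fun h => hg ((QuotientGroup.eq_one_iff g).mp h), ?_⟩
  rw [tr_mk (h1.isF.add (h2.isF.smul _))]
  exact heq

/-- A separating form with coefficients in `K ∋ ζ_M`. -/
theorem exists_theta (hM : 3 ≤ M) (K : Subfield ℂ) (hz : Wp.zeta M ∈ K) :
    ∃ θ, IsR K.toSubring M 3 θ ∧ ∀ g : SL(2, ℤ), g ∉ Gamma M → θ ∣[(3 : ℤ)] g ≠ θ := by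
  have hM0 : M ≠ 0 := NeZero.ne M
  have h1M : (1 : ZMod M) ≠ 0 := by
    have : Fact (1 < M) := ⟨by omega⟩
    exact one_ne_zero
  refine exists_sep (f₁ := Wp.Q M ![1, 0]) (f₂ := Wp.Q M ![0, 1])
    ⟨Wp.isF_Q hM0 _, fun g n => Wp.qe_Q_slash_mem hz (by left; simpa using h1M) g n⟩
    ⟨Wp.isF_Q hM0 _, fun g n => Wp.qe_Q_slash_mem hz (by right; simpa using h1M) g n⟩
    (fun g h0 h1 => Wp.mem_Gamma_of_Q_fixed hM h0 h1)

/-- **Theorem A.** -/
theorem mem_Sp (hM : 3 ≤ M) (K : Subfield ℂ) (hz : Wp.zeta M ∈ K) {F : ℍ → ℂ} (hF : IsF M k F) :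
    F ∈ Sp K.toSubring M k := by
  obtain ⟨θ, hθ, hsep⟩ := exists_theta hM K hz
  exact mem_Sp_of_sep K hθ hsep hF

end Crest.Agent.R007.Rat
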