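import Crest.Agent.R007.RatBD
import Crest.Agent.R007.RatSep
import Crest.Agent.R007.CoefO

/-!
Row 7 (S0007), section A, node (BD): bounded denominators for the concrete ring `Coef.OO` and its
fraction field `Coef.K0` (generated by the roots of unity of odd order), and all odd levels.
-/

set_option autoImplicit false

noncomputable section

namespace Crest.Agent.R007.Rat

open UpperHalfPlane ModularForm CongruenceSubgroup Matrix.SpecialLinearGroup
open scoped MatrixGroups Manifold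

/-- `Coef.OO` is completely integrally closed with fraction field `Coef.K0`, and denominators are
powers of `2`. -/
theorem cic_OO : Cic Coef.OO Coef.K0 where
  le := fun _ hx => Coef.OO_le_K0 hx
  frac := fun _ hx => Coef.two_pow_mul_mem hx
  cic := by
    intro a ha ha0 x hx
    by_cases hx0 : x = 0
    · rw [hx0]; exact Coef.OO.zero_mem
    have hxK : x ∈ Coef.K0 := by
      have h1 : a * x ∈ Coef.OO := by simpa using hx 1
      have h2 : x = (a * x) / a := by field_simp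
      rw [h2]
      exact div_mem (Coef.OO_le_K0 h1) (Coef.OO_le_K0 ha)
    obtain ⟨m, hm⟩ := Coef.two_pow_mul_mem hxK
    obtain ⟨s, w, hw⟩ := Coef.exists_eq_two_pow_mul_unit (z := ⟨a, ha⟩)
      (fun h => ha0 (congrArg (Subtype.val : Coef.OO → ℂ) h))
    obtain ⟨n, u, hu⟩ := Coef.exists_eq_two_pow_mul_unit (z := ⟨(2 : ℂ) ^ m * x, hm⟩)
      (fun h => (mul_ne_zero (pow_ne_zero _ two_ne_zero) hx0)
        (congrArg (Subtype.val : Coef.OO → ℂ) h))
    have hw' : a = (2 : ℂ) ^ s * ((w : Coef.OO) : ℂ) := congrArg (Subtype.val : Coef.OO → ℂ) hw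
    have hu' : (2 : ℂ) ^ m * x = (2 : ℂ) ^ n * ((u : Coef.OO) : ℂ) :=
      congrArg (Subtype.val : Coef.OO → ℂ) hu
    rcases le_or_gt m n with hmn | hmn
    · obtain ⟨d, rfl⟩ := Nat.exists_eq_add_of_le hmn
      have h3 : x = (2 : ℂ) ^ d * ((u : Coef.OO) : ℂ) := by
        have h4 : (2 : ℂ) ^ m ≠ 0 := pow_ne_zero _ two_ne_zero
        apply mul_left_cancel₀ h4
        rw [hu', pow_add]; ring
      rw [h3]
      exact Coef.OO.mul_mem (pow_mem (by exact_mod_cast natCast_mem Coef.OO 2) _)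
        (u : Coef.OO).2
    · exfalso
      have hb := hx (s + 1)
      have h5 : (2 : Coef.OO) ^ (m * (s + 1)) ∣ (2 : Coef.OO) ^ (s + n * (s + 1)) := by
        have h6 : (2 : Coef.OO) ^ (m * (s + 1)) ∣
            (2 : Coef.OO) ^ (s + n * (s + 1)) * ((w * u ^ (s + 1) : Coef.OOˣ) : Coef.OO) := by
          refine ⟨⟨a * x ^ (s + 1), hb⟩, ?_⟩
          apply Subtype.ext
          have h7 : ((2 : ℂ) ^ m * x) ^ (s + 1) = ((2 : ℂ) ^ n * ((u : Coef.OO) : ℂ)) ^ (s + 1) := by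
            rw [hu']
          push_cast
          have h8 : (2 : ℂ) ^ (m * (s + 1)) * (a * x ^ (s + 1)) =
              a * ((2 : ℂ) ^ m * x) ^ (s + 1) := by
            rw [mul_pow, ← pow_mul]; ring
          have h9 : (2 : ℂ) ^ (s + n * (s + 1)) * (((w : Coef.OO) : ℂ) * ((u : Coef.OO) : ℂ) ^ (s + 1)) =
              ((2 : ℂ) ^ s * ((w : Coef.OO) : ℂ)) * ((2 : ℂ) ^ n * ((u : Coef.OO) : ℂ)) ^ (s + 1) := by
            rw [mul_pow, ← pow_mul, pow_add]; ring
          rw [← hw', ← h7, ← h8] at h9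
          exact h9
        exact (Units.dvd_mul_right).mp h6
      rw [pow_dvd_pow_iff Coef.two_ne_zero_OO Coef.two_not_isUnit] at h5
      have h10 : (n + 1) * (s + 1) ≤ m * (s + 1) := Nat.mul_le_mul_right _ hmn
      nlinarith

/-! ### `ζ_M`, `M` odd -/

variable {M : ℕ} [NeZero M] {k : ℤ}

omit [NeZero M] in
lemma zeta_zpow_pow (hM : M ≠ 0) (b : ℤ) : (Wp.zeta M ^ b) ^ M = 1 := by
  rw [← zpow_natCast, ← zpow_mul, mul_comm, zpow_mul, zpow_natCast, Wp.zeta_pow M hM, one_zpow]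

omit [NeZero M] in
lemma zeta_zpow_mem_OO (hM : Odd M) (b : ℤ) : Wp.zeta M ^ b ∈ Coef.OO :=
  Coef.root_mem hM (zeta_zpow_pow hM.pos.ne' b)

omit [NeZero M] in
lemma zeta_mem_K0 (hM : Odd M) : Wp.zeta M ∈ Coef.K0 := by
  simpa using Coef.OO_le_K0 (zeta_zpow_mem_OO hM 1)

omit [NeZero M] in
lemma chi_mem_OO (hM : Odd M) (s : ℕ) (a b : ℤ) (d e : ℕ) : Wp.chi M s a b d e ∈ Coef.OO := by
  unfold Wp.chi
  refine add_mem ?_ (mul_mem (pow_mem (neg_mem (one_mem _)) _) ?_)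
  · split_ifs
    · exact mul_mem (pow_mem (natCast_mem _ _) _) (pow_mem (zeta_zpow_mem_OO hM _) _)
    · exact zero_mem _
  · split_ifs
    · exact mul_mem (pow_mem (natCast_mem _ _) _) (pow_mem (zeta_zpow_mem_OO hM _) _)
    · exact zero_mem _

omit [NeZero M] in
theorem cQ_mem_OO (hM : Odd M) {v : Fin 2 → ℤ}
    (hv : (v 0 : ZMod M) ≠ 0 ∨ (v 1 : ZMod M) ≠ 0) (n : ℕ) : Wp.cQ M v n ∈ Coef.OO := by
  have hM0 : M ≠ 0 := hM.pos.ne'
  refine add_mem ?_ (sum_mem fun p _ => chi_mem_OO hM _ _ _ _ _)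
  split_ifs
  · rw [Wp.cQ0_eq hM0 hv]
    split_ifs with h0
    · have hb : (v 1 : ZMod M) ≠ 0 := by tauto
      have h1 := Wp.zeta_zpow_ne_one hM0 hb
      rw [div_eq_mul_inv, ← inv_pow]
      refine mul_mem (mul_mem (zeta_zpow_mem_OO hM _) (add_mem (one_mem _) (zeta_zpow_mem_OO hM _)))
        (pow_mem (Coef.inv_one_sub_mem hM (zeta_zpow_pow hM0 _) ?_) _)
      intro h2
      apply h1
      rw [h2, sub_self]
    · exact zero_mem _
  · exact zero_mem _

/-- The weight 3 division values `Q M v` have coefficients in `Coef.OO` at all cusps (`M` odd). -/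
theorem isR_Q (hM : Odd M) {v : Fin 2 → ℤ} (hv : (v 0 : ZMod M) ≠ 0 ∨ (v 1 : ZMod M) ≠ 0) :
    IsR Coef.OO M 3 (Wp.Q M v) where
  isF := Wp.isF_Q (NeZero.ne M) v
  coeff := fun g n => by
    rw [Wp.Q_slash, Wp.qe_Q, PowerSeries.coeff_mk]
    exact cQ_mem_OO hM (Wp.vecMul_ne hv g) n

/-- A separating form with coefficients in `Coef.OO`, `M ≥ 3` odd. -/
theorem exists_theta_OO (hM : Odd M) (h3 : 3 ≤ M) :
    ∃ θ, IsR Coef.OO M 3 θ ∧ ∀ g : SL(2, ℤ), g ∉ Gamma M → θ ∣[(3 : ℤ)] g ≠ θ := by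
  have h1M : (1 : ZMod M) ≠ 0 := by
    have : Fact (1 < M) := ⟨by omega⟩
    exact one_ne_zero
  exact exists_sep (isR_Q hM (by left; simpa using h1M)) (isR_Q hM (by right; simpa using h1M))
    (fun g h0 h1 => Wp.mem_Gamma_of_Q_fixed h3 h0 h1)

/-- **(BD) bounded denominators**: a form of odd level `M` whose q-expansions at all cusps have
coefficients in `Coef.K0` becomes `Coef.OO`-integral at all cusps after multiplication by a power
of `2`. -/
theorem bd_OO (hM : Odd M) {F : ℍ → ℂ} (hF : IsR Coef.K0.toSubring M k F) :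
    ∃ r : ℕ, IsR Coef.OO M k ((2 : ℂ) ^ r • F) := by
  rcases Nat.lt_or_ge M 3 with h3 | h3
  · obtain rfl : M = 1 := by
      obtain ⟨c, hc⟩ := hM
      omega
    exact cic_OO.levelOne' (M := 1) hF.isF hF
  · obtain ⟨θ, hθ, hsep⟩ := exists_theta_OO hM h3
    exact cic_OO.bd hθ hsep hF

/-- Variant for a subfield of `Coef.K0`. -/
theorem bd_OO' {K : Subfield ℂ} (hK : K ≤ Coef.K0) (hM : Odd M) {F : ℍ → ℂ}
    (hF : IsR K.toSubring M k F) : ∃ r : ℕ, IsR Coef.OO M k ((2 : ℂ) ^ r • F) :=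
  bd_OO hM (hF.mono_ring (fun _ hx => hK hx))

/-- Every form of odd level `M` is a `ℂ`-combination of forms with coefficients in `Coef.OO` at
all cusps. -/
theorem mem_Sp_OO (hM : Odd M) {F : ℍ → ℂ} (hF : IsF M k F) : F ∈ Sp Coef.OO M k := by
  rcases Nat.lt_or_ge M 3 with h3 | h3
  · obtain rfl : M = 1 := by
      obtain ⟨c, hc⟩ := hM
      omega
    exact levelOneSpan Coef.OO 1 k F hF
  · have h1 := mem_Sp h3 Coef.K0 (zeta_mem_K0 hM) hF
    refine Submodule.span_le.2 ?_ h1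
    intro f hf
    obtain ⟨r, hr⟩ := bd_OO hM hf
    have h2 : f = ((2 : ℂ) ^ r)⁻¹ • ((2 : ℂ) ^ r • f) := by
      rw [smul_smul, inv_mul_cancel₀ (pow_ne_zero _ two_ne_zero), one_smul]
    rw [h2]
    exact Submodule.smul_mem _ _ (Submodule.subset_span hr)

end Crest.Agent.R007.Rat
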