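import Mathlib

/-!
Row 7 (S0007), section A: division of holomorphic functions on the upper half plane
and the bound for roots of monic polynomials.
-/

set_option autoImplicit false

noncomputable section

namespace Crest.Agent.R007.Rat

open UpperHalfPlane Filter Topology
open scoped Manifold

/-- If `|u| ≤ B |v|` with `B` continuous, `v ≠ 0`, then `u = w v` with `w` holomorphic. -/
theorem exists_div {u v : ℍ → ℂ} (hu : MDiff u) (hv : MDiff v) (hv0 : v ≠ 0) {B : ℍ → ℝ}
    (hB : Continuous B) (h : ∀ τ, ‖u τ‖ ≤ B τ * ‖v τ‖) :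
    ∃ w : ℍ → ℂ, MDiff w ∧ u = w * v := by
  classical
  have hu' := UpperHalfPlane.mdifferentiable_iff.mp hu
  have hv' := UpperHalfPlane.mdifferentiable_iff.mp hv
  have hopen : IsOpen {z : ℂ | 0 < z.im} := isOpen_upperHalfPlaneSet
  set f : ℂ → ℂ := fun z => (u ∘ ofComplex) z / (v ∘ ofComplex) z with hf
  set W : ℂ → ℂ := fun z => limUnder (𝓝[≠] z) f with hW
  -- differentiability of f away from zeros of v
  have hfd : ∀ z : ℂ, 0 < z.im → (v ∘ ofComplex) z ≠ 0 → DifferentiableAt ℂ f z := by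
    intro z hz hvz
    exact ((hu' z hz).differentiableAt (hopen.mem_nhds hz)).div
      ((hv' z hz).differentiableAt (hopen.mem_nhds hz)) hvz
  have hWf : ∀ z : ℂ, 0 < z.im → (v ∘ ofComplex) z ≠ 0 → W z = f z := by
    intro z hz hvz
    have hc : Tendsto f (𝓝[≠] z) (𝓝 (f z)) :=
      (hfd z hz hvz).continuousAt.tendsto.mono_left nhdsWithin_le_nhds
    exact hc.limUnder_eq
  have hWd : ∀ z : ℂ, 0 < z.im → DifferentiableAt ℂ W z := by
    intro z hz
    -- v is nonzero in a punctured neighbourhood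
    have h1 : ∀ᶠ y in 𝓝[≠] (⟨z, hz⟩ : ℍ), v y ≠ 0 := by
      by_contra hcon
      rw [Filter.not_eventually] at hcon
      exact hv0 (eq_zero_of_frequently hv (hcon.mono fun y hy => not_not.mp hy))
    have h2 : ∀ᶠ y in 𝓝[≠] z, (v ∘ ofComplex) y ≠ 0 := by
      rw [eventually_nhdsWithin_iff] at h1 ⊢
      have h3 : ∀ᶠ y in 𝓝 z, y ∈ {y : ℂ | 0 < y.im} := hopen.mem_nhds hz
      have h4 : Tendsto ofComplex (𝓝 z) (𝓝 (⟨z, hz⟩ : ℍ)) := by
        have := (contMDiffAt_ofComplex (n := 0) hz).continuousAt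
        have h5 : ofComplex z = ⟨z, hz⟩ := ofComplex_apply_of_im_pos hz
        rw [ContinuousAt, h5] at this
        exact this
      filter_upwards [h3, h4.eventually h1] with y hy1 hy2 hy3
      apply hy2
      intro h6
      apply hy3
      rw [ofComplex_apply_of_im_pos hy1] at h6
      have := congrArg (fun τ : ℍ => (τ : ℂ)) h6
      simpa using this
    -- bound for B
    have h3 : ∀ᶠ y in 𝓝 z, y ∈ {y : ℂ | 0 < y.im} := hopen.mem_nhds hz
    have h4 : ContinuousAt (B ∘ ofComplex) z :=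
      hB.continuousAt.comp (contMDiffAt_ofComplex (n := 0) hz).continuousAt
    have h5 : ∀ᶠ y in 𝓝 z, (B ∘ ofComplex) y < (B ∘ ofComplex) z + 1 :=
      h4.eventually_lt continuousAt_const (by linarith)
    have h6 := eventually_nhdsWithin_iff.mp h2
    obtain ⟨s, hs, hsz⟩ := Filter.eventually_iff_exists_mem.mp (h3.and (h5.and h6))
    have hd : DifferentiableOn ℂ f (s \ {z}) := by
      intro y hy
      exact (hfd y (hsz y hy.1).1 ((hsz y hy.1).2.2 hy.2)).differentiableWithinAt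
    have hb : BddAbove (norm ∘ f '' (s \ {z})) := by
      refine ⟨(B ∘ ofComplex) z + 1, ?_⟩
      rintro _ ⟨y, hy, rfl⟩
      obtain ⟨hy1, hy2, hy3⟩ := hsz y hy.1
      have hvy := hy3 hy.2
      simp only [Function.comp_apply, hf, norm_div]
      have hpos : 0 < ‖v (ofComplex y)‖ := norm_pos_iff.mpr hvy
      rw [div_le_iff₀ hpos]
      refine (h _).trans ?_
      exact mul_le_mul_of_nonneg_right hy2.le (norm_nonneg _)
    have hg := Complex.differentiableOn_update_limUnder_of_bddAbove hs hd hb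
    have hg' : DifferentiableAt ℂ (Function.update f z (limUnder (𝓝[≠] z) f)) z :=
      hg.differentiableAt hs
    refine hg'.congr_of_eventuallyEq ?_
    filter_upwards [hs] with y hy
    by_cases hyz : y = z
    · subst hyz
      simp [hW]
    · rw [Function.update_of_ne hyz]
      exact hWf y (hsz y hy).1 ((hsz y hy).2.2 hyz)
  refine ⟨fun τ => W τ, ?_, ?_⟩
  · rw [UpperHalfPlane.mdifferentiable_iff]
    intro z hz
    refine (DifferentiableAt.congr_of_eventuallyEq (hWd z hz) ?_).differentiableWithinAt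
    filter_upwards [hopen.mem_nhds hz] with y hy
    simp only [Function.comp_apply]
    rw [ofComplex_apply_of_im_pos hy]
  · ext τ
    by_cases hvt : v τ = 0
    · have := h τ
      rw [hvt] at this
      simp only [norm_zero, mul_zero, norm_le_zero_iff] at this
      simp [this, hvt]
    · have h1 : (v ∘ ofComplex) (τ : ℂ) ≠ 0 := by simpa using hvt
      have := hWf τ τ.im_pos h1
      simp only [Pi.mul_apply]
      rw [this]
      simp only [hf, Function.comp_apply, ofComplex_apply]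
      field_simp

/-- root bound -/
lemma root_bound (n : ℕ) (hn : 0 < n) (e : ℕ → ℂ) (he : e 0 = 1) (x d : ℂ)
    (h : ∑ i ∈ Finset.range (n + 1), e i * d ^ i * x ^ (n - i) = 0) :
    ‖x‖ ≤ (1 + ∑ i ∈ Finset.range (n + 1), ‖e i‖) * ‖d‖ := by
  set S := ∑ i ∈ Finset.range (n + 1), ‖e i‖ with hS
  have hSnn : 0 ≤ S := Finset.sum_nonneg fun _ _ => norm_nonneg _
  by_contra hcon
  push Not at hcon
  have hxpos : 0 < ‖x‖ := lt_of_le_of_lt (by positivity) hcon
  have hdx : ‖d‖ ≤ ‖x‖ := by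
    refine le_trans ?_ hcon.le
    nlinarith [norm_nonneg d]
  rw [Finset.sum_range_succ'] at h
  simp only [pow_zero, mul_one, he, Nat.sub_zero, one_mul] at h
  have h1 : x ^ n = - ∑ i ∈ Finset.range n, e (i + 1) * d ^ (i + 1) * x ^ (n - (i + 1)) := by
    linear_combination h
  have h2 : ‖x‖ ^ n ≤ ∑ i ∈ Finset.range n, ‖e (i + 1)‖ * (‖d‖ * ‖x‖ ^ (n - 1)) := by
    rw [← norm_pow, h1, norm_neg]
    refine (norm_sum_le _ _).trans (Finset.sum_le_sum fun i hi => ?_)
    rw [Finset.mem_range] at hi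
    rw [norm_mul, norm_mul, norm_pow, norm_pow, mul_assoc]
    refine mul_le_mul_of_nonneg_left ?_ (norm_nonneg _)
    rw [pow_succ' ‖d‖ i, mul_assoc]
    refine mul_le_mul_of_nonneg_left ?_ (norm_nonneg _)
    calc ‖d‖ ^ i * ‖x‖ ^ (n - (i + 1)) ≤ ‖x‖ ^ i * ‖x‖ ^ (n - (i + 1)) :=
          mul_le_mul_of_nonneg_right (pow_le_pow_left₀ (norm_nonneg _) hdx i) (by positivity)
      _ = ‖x‖ ^ (n - 1) := by rw [← pow_add]; congr 1; omega
  rw [← Finset.sum_mul] at h2
  have h3 : ∑ i ∈ Finset.range n, ‖e (i + 1)‖ ≤ S := by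
    rw [hS, Finset.sum_range_succ']
    linarith [norm_nonneg (e 0)]
  have h4 : ‖x‖ ^ n = ‖x‖ * ‖x‖ ^ (n - 1) := by
    rw [← pow_succ']; congr 1; omega
  rw [h4] at h2
  have hp : 0 < ‖x‖ ^ (n - 1) := by positivity
  have h5 : ‖x‖ * ‖x‖ ^ (n - 1) ≤ (S * ‖d‖) * ‖x‖ ^ (n - 1) := by
    refine h2.trans ?_
    rw [mul_assoc]
    exact mul_le_mul_of_nonneg_right h3 (by positivity)
  have h6 : ‖x‖ ≤ S * ‖d‖ := le_of_mul_le_mul_right h5 hp
  nlinarith [norm_nonneg d]

end Crest.Agent.R007.Rat
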