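import Crest.Agent.R007.RatRing
import Crest.Agent.R007.RatDiv

/-!
Row 7 (S0007), section A: conjugates of forms are forms.
-/

set_option autoImplicit false

noncomputable section

namespace Crest.Agent.R007.Rat

open UpperHalfPlane ModularForm CongruenceSubgroup Matrix.SpecialLinearGroup
open scoped MatrixGroups Manifold

variable {S : Subring ℂ} {M : ℕ} [NeZero M] {k l k₀ : ℤ} {θ F : ℍ → ℂ}

/-- level one forms are spanned by forms with coefficients in `S` -/
def LevelOneSpan (S : Subring ℂ) (M : ℕ) : Prop := ∀ (k : ℤ) (f : ℍ → ℂ), IsF 1 k f → f ∈ Sp S M k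

omit [NeZero M] in
lemma Sp.cast {k k' : ℤ} (hk : k = k') {f : ℍ → ℂ} (hf : f ∈ Sp S M k) : f ∈ Sp S M k' := hk ▸ hf

/-- `F δ` is a combination of forms with coefficients in `S`. -/
theorem mul_del_mem (hLO : LevelOneSpan S M) (hθ : IsR S M k₀ θ) (hF : IsF M k F) :
    F * del M k₀ θ ∈ Sp S M (k + wdel M k₀) := by
  rw [interp hθ.isF hF]
  refine Submodule.sum_mem _ fun t ht => Submodule.smul_mem _ _ ?_
  rw [Finset.mem_powerset] at ht
  have hc : t.card ≤ (nt M).card := Finset.card_le_card ht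
  have h1 : θ ^ ((nt M).card - t.card) ∈ Sp S M ((((nt M).card - t.card : ℕ) : ℤ) * k₀) :=
    Submodule.subset_span (hθ.pow _)
  have h2 : IsF M (k + (t.card : ℤ) * k₀) (F * ∏ a ∈ t, tr k₀ θ a) :=
    hF.mul (IsF.prod t _ fun a _ => hθ.isF.tr a)
  have h3 := hLO _ _ h2.Tr
  refine Sp.cast ?_ (Sp.mul h1 h3)
  rw [wdel, Nat.cast_sub hc]
  ring

/-- zero from nonvanishing factor -/
lemma eq_zero_of_mul {u v : ℍ → ℂ} (hu : MDiff u) (hv : MDiff v) (hv0 : v ≠ 0) (h : u * v = 0) : u = 0 :=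
  ((UpperHalfPlane.mul_eq_zero_iff hu hv).mp h).resolve_right hv0

omit [NeZero M] in
lemma IsF.continuous {f : ℍ → ℂ} (hf : IsF M k f) : Continuous f := hf.holo.continuous

/-- Conjugation of forms. -/
theorem exists_conj {σ : ℂ →+* ℂ} (hσ : ∀ c ∈ S, σ c = c) (hLO : LevelOneSpan S M)
    (hθ : IsR S M k₀ θ) (hD0 : del M k₀ θ ≠ 0) (hF : IsF M k F) :
    ∃ F', IsF M k F' ∧ Cj σ M (k + wdel M k₀) (F * del M k₀ θ) (F' * del M k₀ θ) := by
  classical
  set D := del M k₀ θ with hD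
  set n := Fintype.card (GM M) with hn
  have hnpos : 0 < n := Fintype.card_pos
  have hDR : IsR S M (wdel M k₀) D := hθ.del
  have hDF : IsF M (wdel M k₀) D := hDR.isF
  obtain ⟨H', hH'⟩ := Sp.exists_cj hσ (mul_del_mem hLO hθ hF)
  rw [← hD] at hH'
  -- conjugates of the symmetric functions
  have hE : ∀ i : ℕ, ∃ e, Cj σ M ((i : ℤ) * k) (esy M k F i) e := fun i =>
    Sp.exists_cj hσ (hLO _ _ (hF.esy i))
  choose E' hE' using hE
  have hE0 : E' 0 = 1 := by
    have h1 := hE' 0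
    rw [esy_zero] at h1
    refine Cj.unique h1 (Cj.one.cast (by simp))
  -- the equation for H = F D
  have eq1 : ∑ i ∈ Finset.range (n + 1), ((-1 : ℂ) ^ i) •
      (esy M k F i * (D ^ i * (F * D) ^ (n - i))) = 0 := by
    have h1 := norm_root hF
    have h2 : ∑ i ∈ Finset.range (n + 1), ((-1 : ℂ) ^ i) •
      (esy M k F i * (D ^ i * (F * D) ^ (n - i))) =
      (∑ i ∈ Finset.range (n + 1), ((-1 : ℂ) ^ i) • (esy M k F i * F ^ (n - i))) * D ^ n := by
      rw [Finset.sum_mul]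
      refine Finset.sum_congr rfl fun i hi => ?_
      rw [Finset.mem_range] at hi
      rw [mul_pow, smul_mul_assoc]
      congr 1
      have : D ^ n = D ^ i * D ^ (n - i) := by rw [← pow_add]; congr 1; omega
      rw [this]; ring
    rw [h2, h1, zero_mul]
  -- conjugate
  have hwt : ∀ i ∈ Finset.range (n + 1), ((i : ℤ) * k + ((i : ℤ) * wdel M k₀ +
      (((n - i : ℕ) : ℤ) * (k + wdel M k₀)))) = (n : ℤ) * (k + wdel M k₀) := by
    intro i hi
    rw [Finset.mem_range] at hi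
    rw [Nat.cast_sub (by omega)]
    ring
  have cj1 : Cj σ M ((n : ℤ) * (k + wdel M k₀))
      (∑ i ∈ Finset.range (n + 1), ((-1 : ℂ) ^ i) • (esy M k F i * (D ^ i * (F * D) ^ (n - i))))
      (∑ i ∈ Finset.range (n + 1), (σ ((-1 : ℂ) ^ i)) • (E' i * (D ^ i * H' ^ (n - i)))) := by
    refine Cj.sum _ _ _ fun i hi => ?_
    refine Cj.smul _ ?_
    refine ((hE' i).mul (((Cj.of_isR hσ hDR).pow i).mul (hH'.pow (n - i)))).cast (hwt i hi)
  rw [eq1] at cj1
  have eq2 := cj1.unique Cj.zero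
  have eq3 : ∀ τ : ℍ, ∑ i ∈ Finset.range (n + 1), (((-1 : ℂ) ^ i) * E' i τ) * D τ ^ i * H' τ ^ (n - i) = 0 := by
    intro τ
    have := congrFun eq2 τ
    simp only [Finset.sum_apply, Pi.smul_apply, Pi.mul_apply, Pi.pow_apply, smul_eq_mul, Pi.zero_apply,
      map_pow, map_neg, map_one] at this
    rw [← this]
    refine Finset.sum_congr rfl fun i _ => by ring
  -- bound
  have bound : ∀ τ : ℍ, ‖H' τ‖ ≤ (1 + ∑ i ∈ Finset.range (n + 1), ‖((-1 : ℂ) ^ i) * E' i τ‖) * ‖D τ‖ := by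
    intro τ
    exact root_bound n hnpos (fun i => ((-1 : ℂ) ^ i) * E' i τ) (by simp [hE0]) _ _ (eq3 τ)
  have hcont : Continuous fun τ : ℍ => (1 + ∑ i ∈ Finset.range (n + 1), ‖((-1 : ℂ) ^ i) * E' i τ‖) := by
    refine continuous_const.add (continuous_finsetSum _ fun i _ => ?_)
    exact (continuous_const.mul (hE' i).right.continuous).norm
  obtain ⟨F', hF'd, hF'⟩ := exists_div hH'.right.holo hDF.holo hD0 hcont bound
  -- F' is slash invariant and bounded
  have slash_F' : ∀ g : SL(2, ℤ), H' ∣[k + wdel M k₀] g = (F' ∣[k] g) * (D ∣[wdel M k₀] g) := by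
    intro g
    rw [hF', mul_slash_SL2]
  have holoS : ∀ g : SL(2, ℤ), MDiff (F' ∣[k] g) := fun g => by
    rw [SL_slash]; exact hF'd.slash k _
  refine ⟨F', ⟨?_, hF'd, ?_⟩, ?_⟩
  · intro γ hγ
    have h1 := slash_F' γ
    rw [hH'.right.slash γ hγ, hDF.slash γ hγ, hF'] at h1
    have h2 : (F' ∣[k] γ - F') * D = 0 := by rw [sub_mul, ← h1, sub_self]
    exact sub_eq_zero.mp (eq_zero_of_mul ((holoS γ).sub hF'd) hDF.holo hD0 h2)
  · intro g
    -- F' satisfies the conjugated norm equation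
    have h1 : (∑ i ∈ Finset.range (n + 1), ((-1 : ℂ) ^ i) • (E' i * F' ^ (n - i))) * D ^ n = 0 := by
      rw [Finset.sum_mul]
      have h2 := eq2
      rw [← h2]
      refine Finset.sum_congr rfl fun i hi => ?_
      rw [Finset.mem_range] at hi
      simp only [map_pow, map_neg, map_one]
      rw [hF', mul_pow, smul_mul_assoc]
      congr 1
      have : D ^ n = D ^ i * D ^ (n - i) := by rw [← pow_add]; congr 1; omega
      rw [this]; ring
    have hholo : MDiff (∑ i ∈ Finset.range (n + 1), ((-1 : ℂ) ^ i) • (E' i * F' ^ (n - i))) := by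
      refine MDifferentiable.sum fun i _ => ?_
      exact ((hE' i).right.holo.mul (hF'd.pow _)).const_smul _
    have hDn : D ^ n ≠ 0 := by
      intro h0
      have h3 : qe M D ^ n = 0 := by rw [← qe_pow hDF, h0, qe_zero]
      exact hD0 ((qe_eq_zero_iff hDF).mp ((pow_eq_zero_iff hnpos.ne').mp h3))
    have h4 := eq_zero_of_mul hholo (hDF.pow n).holo hDn h1
    -- slash by g
    have h5 : ∑ i ∈ Finset.range (n + 1), ((-1 : ℂ) ^ i) •
        ((E' i ∣[(i : ℤ) * k] g) * (F' ∣[k] g) ^ (n - i)) = 0 := by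
      have h6 : (∑ i ∈ Finset.range (n + 1), ((-1 : ℂ) ^ i) • (E' i * F' ^ (n - i))) ∣[(n : ℤ) * k] g = 0 := by
        rw [h4, SlashAction.zero_slash]
      rw [← h6, SlashAction.sum_slash]
      refine Finset.sum_congr rfl fun i hi => ?_
      rw [Finset.mem_range] at hi
      rw [SL_smul_slash, show (n : ℤ) * k = (i : ℤ) * k + ((n - i : ℕ) : ℤ) * k by
        rw [Nat.cast_sub (by omega)]; ring, mul_slash_SL2, pow_slash']
    have h7 : ∀ τ : ℍ, ‖(F' ∣[k] g) τ‖ ≤
        (1 + ∑ i ∈ Finset.range (n + 1), ‖((-1 : ℂ) ^ i) * (E' i ∣[(i : ℤ) * k] g) τ‖) * ‖(1 : ℂ)‖ := by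
      intro τ
      refine root_bound n hnpos (fun i => ((-1 : ℂ) ^ i) * (E' i ∣[(i : ℤ) * k] g) τ) ?_ _ 1 ?_
      · simp [hE0, one_slash]
      · have := congrFun h5 τ
        simp only [Finset.sum_apply, Pi.smul_apply, Pi.mul_apply, Pi.pow_apply, smul_eq_mul,
          Pi.zero_apply] at this
        rw [← this]
        refine Finset.sum_congr rfl fun i _ => by ring
    have h8 : ∀ i : ℕ, IsBoundedAtImInfty (E' i ∣[(i : ℤ) * k] g) := fun i => (hE' i).right.bdd g
    rw [isBoundedAtImInfty_iff]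
    simp_rw [isBoundedAtImInfty_iff] at h8
    choose Mi Ai hMi using h8
    refine ⟨1 + ∑ i ∈ Finset.range (n + 1), |Mi i|, ∑ i ∈ Finset.range (n + 1), |Ai i|, fun z hz => ?_⟩
    refine (h7 z).trans ?_
    rw [norm_one, mul_one]
    refine add_le_add le_rfl (Finset.sum_le_sum fun i hi => ?_)
    rw [norm_mul, norm_pow, norm_neg, norm_one, one_pow, one_mul]
    refine (hMi i z ?_).trans (le_abs_self _)
    refine le_trans ?_ hz
    refine (le_abs_self _).trans ?_
    exact Finset.single_le_sum (f := fun i => |Ai i|) (fun j _ => abs_nonneg _) hi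
  · rw [← hF']
    exact hH'

end Crest.Agent.R007.Rat
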