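import Crest.Agent.R007.RatSep
import Crest.Prelude.Def_HeckeTwo

/-!
Row 7 (S0007), section A: finite-dimensionality of spaces of modular forms of level `Γ(M)`, `Γ₁(N)`.
-/

set_option autoImplicit false

noncomputable section

namespace Crest.Agent.R007.Rat

open UpperHalfPlane ModularForm CongruenceSubgroup Matrix.SpecialLinearGroup
open scoped MatrixGroups Manifold

/-- The space of forms of level `Γ(M)` and weight `k`, inside functions. -/
def FS (M : ℕ) (k : ℤ) : Submodule ℂ (ℍ → ℂ) where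
  carrier := {f | IsF M k f}
  add_mem' hf hg := hf.add hg
  zero_mem' := IsF.zero
  smul_mem' c _ hf := hf.smul c

variable {M : ℕ} {k l k₀ : ℤ}

lemma mem_FS {f : ℍ → ℂ} : f ∈ FS M k ↔ IsF M k f := Iff.rfl

/-- level one forms, as the bundled space. -/
instance finite_FS_one (k : ℤ) : FiniteDimensional ℂ (FS 1 k) := by
  let φ : FS 1 k →ₗ[ℂ] ModularForm 𝒮ℒ k :=
    { toFun := fun f => (isMF_of_isF f.2).toSL
      map_add' := fun f g => by ext τ; rfl
      map_smul' := fun c f => by ext τ; rfl }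
  refine FiniteDimensional.of_injective φ ?_
  intro f g h
  ext τ
  exact congrArg (fun F : ModularForm 𝒮ℒ k => F τ) h

/-- multiplication by a fixed function -/
def mulL (u : ℍ → ℂ) : (ℍ → ℂ) →ₗ[ℂ] (ℍ → ℂ) := LinearMap.mulLeft ℂ u

theorem finite_FS_of_three_le [NeZero M] (hM : 3 ≤ M) (k : ℤ) : FiniteDimensional ℂ (FS M k) := by
  classical
  obtain ⟨θ, hθ, hsep⟩ := exists_theta hM ⊤ (by trivial)
  set D := del M 3 θ with hD
  have hD0 : D ≠ 0 := del_ne_zero hθ.isF hsep
  have hDF : IsF M (wdel M 3) D := hθ.isF.del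
  let W : Submodule ℂ (ℍ → ℂ) := ⨆ t : (nt M).powerset,
    (FS 1 (k + ((t : Finset (GM M)).card : ℤ) * 3)).map
      (mulL (θ ^ ((nt M).card - (t : Finset (GM M)).card)))
  have hWfin : FiniteDimensional ℂ W := by
    have : ∀ t : (nt M).powerset, FiniteDimensional ℂ ((FS 1 (k + ((t : Finset (GM M)).card : ℤ) * 3)).map
      (mulL (θ ^ ((nt M).card - (t : Finset (GM M)).card)))) := fun t => inferInstance
    exact Submodule.finiteDimensional_iSup _
  have hmem : ∀ f ∈ FS M k, D * f ∈ W := by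
    intro f hf
    rw [mul_comm, interp hθ.isF hf]
    refine Submodule.sum_mem _ fun t ht => Submodule.smul_mem _ _ ?_
    refine Submodule.mem_iSup_of_mem ⟨t, ht⟩ ?_
    refine ⟨_, ?_, rfl⟩
    exact (hf.mul (IsF.prod t _ fun a _ => hθ.isF.tr a)).Tr
  let φ : FS M k →ₗ[ℂ] W :=
    { toFun := fun f => ⟨D * f.1, hmem f.1 f.2⟩
      map_add' := fun f g => by
        ext τ
        simp [mul_add]
      map_smul' := fun c f => by
        ext τ
        simp [mul_left_comm] }
  refine FiniteDimensional.of_injective φ ?_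
  rw [injective_iff_map_eq_zero]
  intro f hf
  have h1 : (f : ℍ → ℂ) * D = 0 := by
    have := congrArg Subtype.val hf
    rw [mul_comm]
    exact this
  have h2 := eq_zero_of_mul (IsF.holo f.2) hDF.holo hD0 h1
  exact Subtype.ext h2

instance finite_FS [NeZero M] (k : ℤ) : FiniteDimensional ℂ (FS M k) := by
  have h3 : NeZero (M * 3) := ⟨mul_ne_zero (NeZero.ne M) (by norm_num)⟩
  have hM : 3 ≤ M * 3 := by have := Nat.pos_of_ne_zero (NeZero.ne M); omega
  have := finite_FS_of_three_le hM k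
  have hle : FS M k ≤ FS (M * 3) k := fun f hf => IsF.mono (Dvd.intro 3 rfl) hf
  exact Submodule.finiteDimensional_of_le hle

/-! ### level `Γ₁(N)` -/

open Crest.NumberTheoryR.HeckeTwoAdic

lemma Gamma_le_Gamma1 (N : ℕ) : Gamma N ≤ Gamma1 N := by
  intro γ hγ
  rw [Gamma_mem] at hγ
  rw [Gamma1_mem]
  exact ⟨hγ.1, hγ.2.2.2, hγ.2.2.1⟩

lemma isF_of_MF {N i : ℕ} [NeZero N] (f : MF N i) : IsF N (i : ℤ) f where
  slash γ hγ := by
    exact SlashInvariantFormClass.slash_action_eq f (mapGL ℝ γ)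
      (Subgroup.mem_map_of_mem _ (Gamma_le_Gamma1 N hγ))
  holo := ModularFormClass.holo f
  bdd g := ModularFormClass.bdd_at_infty_slash f g

/-- A form on `Γ(N)` which is invariant under `Γ₁(N)` is in `MF N i`. -/
def IsF.toMF {N i : ℕ} [NeZero N] {f : ℍ → ℂ} (hf : IsF N (i : ℤ) f)
    (h : ∀ γ ∈ Gamma1 N, f ∣[(i : ℤ)] γ = f) : MF N i where
  toFun := f
  slash_action_eq' γ hγ := by
    obtain ⟨g, hg, rfl⟩ := hγ
    exact h g hg
  holo' := hf.holo
  bdd_at_cusps' {c} hc := by
    rw [Subgroup.IsArithmetic.isCusp_iff_isCusp_SL2Z] at hc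
    rw [OnePoint.isBoundedAt_iff_forall_SL2Z hc]
    intro g _
    exact hf.bdd g

instance finite_MF (N i : ℕ) [NeZero N] : FiniteDimensional ℂ (MF N i) := by
  let φ : MF N i →ₗ[ℂ] FS N (i : ℤ) :=
    { toFun := fun f => ⟨f, isF_of_MF f⟩
      map_add' := fun f g => by ext τ; rfl
      map_smul' := fun c f => by ext τ; rfl }
  refine FiniteDimensional.of_injective φ ?_
  intro f g h
  ext τ
  exact congrFun (congrArg Subtype.val h) τ

end Crest.Agent.R007.Rat
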