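import Mathlib

/-!
# Function-level modular forms for `Γ(M)` (row 7, section A)
-/

set_option autoImplicit false

namespace Crest.Agent.R007.RatAlg

open UpperHalfPlane ModularForm CongruenceSubgroup Matrix
open scoped MatrixGroups ModularForm Manifold

noncomputable section

/-- `F : ℍ → ℂ` is a modular form of weight `k` for `Γ(M)` (holomorphic at all cusps). -/
structure IsMF (M : ℕ) (k : ℤ) (F : ℍ → ℂ) : Prop where
  holo : MDiff F
  inv : ∀ γ : SL(2, ℤ), γ ∈ Gamma M → F ∣[k] γ = F
  bdd : ∀ γ : SL(2, ℤ), IsBoundedAtImInfty (F ∣[k] γ)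

variable {M : ℕ} {k k₁ k₂ : ℤ} {F G : ℍ → ℂ}

/-- the bundled modular form. -/
def IsMF.toMF [NeZero M] (h : IsMF M k F) :
    ModularForm ((Gamma M : Subgroup SL(2, ℤ)) : Subgroup (GL (Fin 2) ℝ)) k where
  toFun := F
  slash_action_eq' := by
    rintro _ ⟨γ, hγ, rfl⟩
    exact h.inv γ hγ
  holo' := h.holo
  bdd_at_cusps' := by
    intro c hc
    rw [Subgroup.IsArithmetic.isCusp_iff_isCusp_SL2Z] at hc
    rw [OnePoint.isBoundedAt_iff_forall_SL2Z hc]
    intro γ _
    exact h.bdd γ

@[simp] theorem IsMF.coe_toMF [NeZero M] (h : IsMF M k F) : (h.toMF : ℍ → ℂ) = F := rfl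

theorem isMF_of_mf [NeZero M]
    (f : ModularForm ((Gamma M : Subgroup SL(2, ℤ)) : Subgroup (GL (Fin 2) ℝ)) k) :
    IsMF M k f where
  holo := ModularFormClass.holo f
  inv γ hγ := SlashInvariantForm.slash_action_eqn f _ ⟨γ, hγ, rfl⟩
  bdd γ := ModularFormClass.bdd_at_infty_slash f γ

theorem mem_strictPeriods_Gamma (M : ℕ) :
    (M : ℝ) ∈ ((Gamma M : Subgroup SL(2, ℤ)) : Subgroup (GL (Fin 2) ℝ)).strictPeriods := by
  rw [Subgroup.mem_strictPeriods_iff]
  refine ⟨ModularGroup.T ^ (M : ℤ), ?_, ?_⟩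
  · simpa using ModularGroup_T_pow_mem_Gamma M M (dvd_refl _)
  · ext i j
    rw [Matrix.SpecialLinearGroup.mapGL_coe_matrix]
    simp only [Matrix.SpecialLinearGroup.map_apply_coe, RingHom.mapMatrix_apply,
      ModularGroup.coe_T_zpow]
    fin_cases i <;> fin_cases j <;> simp

theorem M_pos [NeZero M] : (0 : ℝ) < (M : ℝ) := by
  have := NeZero.pos M
  exact_mod_cast this

theorem IsMF.periodic [NeZero M] (h : IsMF M k F) : Function.Periodic (F ∘ ofComplex) (M : ℝ) :=
  SlashInvariantFormClass.periodic_comp_ofComplex h.toMF (mem_strictPeriods_Gamma M)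

theorem IsMF.bdd_infty (h : IsMF M k F) : IsBoundedAtImInfty F := by
  simpa using h.bdd 1

theorem IsMF.analyticAt [NeZero M] (h : IsMF M k F) :
    AnalyticAt ℂ (cuspFunction (M : ℝ) F) 0 :=
  analyticAt_cuspFunction_zero M_pos h.periodic h.holo h.bdd_infty

theorem IsMF.zero : IsMF M k (0 : ℍ → ℂ) where
  holo := mdifferentiable_const
  inv γ _ := by simp
  bdd γ := by
    simp only [SlashAction.zero_slash]
    exact Filter.const_boundedAtFilter _ (0 : ℂ)

theorem IsMF.add (hF : IsMF M k F) (hG : IsMF M k G) : IsMF M k (F + G) where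
  holo := hF.holo.add hG.holo
  inv γ hγ := by rw [SlashAction.add_slash, hF.inv γ hγ, hG.inv γ hγ]
  bdd γ := by
    rw [SlashAction.add_slash]
    exact (hF.bdd γ).add (hG.bdd γ)

theorem IsMF.smul (hF : IsMF M k F) (c : ℂ) : IsMF M k (c • F) where
  holo := hF.holo.const_smul c
  inv γ hγ := by rw [SL_smul_slash, hF.inv γ hγ]
  bdd γ := by
    rw [SL_smul_slash]
    exact (hF.bdd γ).smul c

theorem IsMF.neg (hF : IsMF M k F) : IsMF M k (-F) := by
  simpa using hF.smul (-1)

theorem IsMF.sub (hF : IsMF M k F) (hG : IsMF M k G) : IsMF M k (F - G) := by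
  rw [sub_eq_add_neg]
  exact hF.add hG.neg

theorem IsMF.mul (hF : IsMF M k₁ F) (hG : IsMF M k₂ G) : IsMF M (k₁ + k₂) (F * G) where
  holo := hF.holo.mul hG.holo
  inv γ hγ := by rw [mul_slash_SL2, hF.inv γ hγ, hG.inv γ hγ]
  bdd γ := by
    rw [mul_slash_SL2]
    exact (hF.bdd γ).mul (hG.bdd γ)

theorem IsMF.cast (hF : IsMF M k₁ F) (h : k₁ = k₂) : IsMF M k₂ F := h ▸ hF

theorem IsMF.one : IsMF M 0 (1 : ℍ → ℂ) where
  holo := mdifferentiable_const
  inv γ _ := is_invariant_one γ
  bdd γ := by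
    rw [is_invariant_one γ]
    exact Filter.const_boundedAtFilter _ (1 : ℂ)

theorem IsMF.pow (hF : IsMF M k F) (n : ℕ) : IsMF M (n * k) (F ^ n) := by
  induction n with
  | zero => simpa using IsMF.one
  | succ n ih =>
    rw [pow_succ]
    exact (ih.mul hF).cast (by push_cast; ring)

theorem IsMF.sum {ι : Type*} {s : Finset ι} {f : ι → ℍ → ℂ} (h : ∀ i ∈ s, IsMF M k (f i)) :
    IsMF M k (∑ i ∈ s, f i) := by
  classical
  induction s using Finset.induction_on with
  | empty => simpa using IsMF.zero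
  | insert i s hi ih =>
    rw [Finset.sum_insert hi]
    exact (h i (Finset.mem_insert_self i s)).add
      (ih fun j hj => h j (Finset.mem_insert_of_mem hj))

theorem IsMF.prod {ι : Type*} {s : Finset ι} {f : ι → ℍ → ℂ} (h : ∀ i ∈ s, IsMF M k (f i)) :
    IsMF M (s.card * k) (∏ i ∈ s, f i) := by
  classical
  induction s using Finset.induction_on with
  | empty => simpa using IsMF.one
  | insert i s hi ih =>
    rw [Finset.prod_insert hi, Finset.card_insert_of_notMem hi]
    exact ((h i (Finset.mem_insert_self i s)).mul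
      (ih fun j hj => h j (Finset.mem_insert_of_mem hj))).cast (by push_cast; ring)

theorem pow_slash_SL2 (n : ℕ) (γ : SL(2, ℤ)) (F : ℍ → ℂ) :
    (F ^ n) ∣[(n : ℤ) * k] γ = (F ∣[k] γ) ^ n := by
  induction n with
  | zero => simpa using is_invariant_one γ
  | succ n ih =>
    rw [pow_succ, pow_succ, ← ih, ← mul_slash_SL2]
    congr 1
    push_cast; ring

theorem prod_slash_SL2 {ι : Type*} {s : Finset ι} {f : ι → ℍ → ℂ} (γ : SL(2, ℤ)) :
    (∏ i ∈ s, f i) ∣[(s.card : ℤ) * k] γ = ∏ i ∈ s, (f i ∣[k] γ) := by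
  classical
  induction s using Finset.induction_on with
  | empty => simpa using is_invariant_one γ
  | insert i s hi ih =>
    rw [Finset.prod_insert hi, Finset.prod_insert hi, ← ih, ← mul_slash_SL2,
      Finset.card_insert_of_notMem hi]
    congr 1
    push_cast; ring

theorem IsMF.slash (hF : IsMF M k F) (δ : SL(2, ℤ)) : IsMF M k (F ∣[k] δ) where
  holo := hF.holo.slash k _
  inv γ hγ := by
    have hn := Gamma_normal M
    have h1 : δ * γ * δ⁻¹ ∈ Gamma M := hn.conj_mem γ hγ δ
    rw [← SlashAction.slash_mul]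
    have h2 : δ * γ = (δ * γ * δ⁻¹) * δ := by group
    rw [h2, SlashAction.slash_mul, hF.inv _ h1]
  bdd γ := by
    rw [← SlashAction.slash_mul]
    exact hF.bdd _

theorem IsMF.of_one {N : ℕ} (hF : IsMF 1 k F) : IsMF N k F where
  holo := hF.holo
  inv γ _ := hF.inv γ (by rw [Gamma_one_top]; trivial)
  bdd := hF.bdd

theorem isMF_one_of (hF : IsMF M k F) (h : ∀ γ : SL(2, ℤ), F ∣[k] γ = F) : IsMF 1 k F where
  holo := hF.holo
  inv γ _ := h γ
  bdd := hF.bdd

theorem slash_eq_one (hF : IsMF 1 k F) (γ : SL(2, ℤ)) : F ∣[k] γ = F :=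
  hF.inv γ (by rw [Gamma_one_top]; trivial)

/-! ### q-expansions -/

/-- `M`-periodic, holomorphic, bounded at infinity. -/
structure QF (M : ℕ) (F : ℍ → ℂ) : Prop where
  holo : MDiff F
  per : Function.Periodic (F ∘ ofComplex) (M : ℝ)
  bdd : IsBoundedAtImInfty F

theorem IsMF.qf [NeZero M] (h : IsMF M k F) : QF M F := ⟨h.holo, h.periodic, h.bdd_infty⟩

/-- q-expansion with respect to the width `M`. -/
abbrev qe (M : ℕ) (F : ℍ → ℂ) : PowerSeries ℂ := qExpansion (M : ℝ) F

theorem QF.analyticAt [NeZero M] (h : QF M F) :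
    AnalyticAt ℂ (cuspFunction (M : ℝ) F) 0 :=
  analyticAt_cuspFunction_zero M_pos h.per h.holo h.bdd

theorem QF.add (hF : QF M F) (hG : QF M G) : QF M (F + G) where
  holo := hF.holo.add hG.holo
  per := hF.per.add hG.per
  bdd := Filter.BoundedAtFilter.add hF.bdd hG.bdd

theorem QF.smul (hF : QF M F) (c : ℂ) : QF M (c • F) where
  holo := hF.holo.const_smul c
  per := by
    intro x
    have := hF.per x
    simp only [Function.comp_apply, Pi.smul_apply] at this ⊢
    rw [this]
  bdd := Filter.BoundedAtFilter.smul c hF.bdd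

theorem QF.mul (hF : QF M F) (hG : QF M G) : QF M (F * G) where
  holo := hF.holo.mul hG.holo
  per := hF.per.mul hG.per
  bdd := Filter.BoundedAtFilter.mul hF.bdd hG.bdd

theorem QF.one : QF M (1 : ℍ → ℂ) where
  holo := mdifferentiable_const
  per := fun x => rfl
  bdd := Filter.const_boundedAtFilter _ (1 : ℂ)

theorem QF.zero : QF M (0 : ℍ → ℂ) where
  holo := mdifferentiable_const
  per := fun x => rfl
  bdd := Filter.const_boundedAtFilter _ (0 : ℂ)

theorem QF.pow (hF : QF M F) (n : ℕ) : QF M (F ^ n) := by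
  induction n with
  | zero => simpa using QF.one
  | succ n ih => rw [pow_succ]; exact ih.mul hF

theorem QF.sum {ι : Type*} {s : Finset ι} {f : ι → ℍ → ℂ} (h : ∀ i ∈ s, QF M (f i)) :
    QF M (∑ i ∈ s, f i) := by
  classical
  induction s using Finset.induction_on with
  | empty => simpa using QF.zero
  | insert i s hi ih =>
    rw [Finset.sum_insert hi]
    exact (h i (Finset.mem_insert_self i s)).add
      (ih fun j hj => h j (Finset.mem_insert_of_mem hj))

theorem QF.prod {ι : Type*} {s : Finset ι} {f : ι → ℍ → ℂ} (h : ∀ i ∈ s, QF M (f i)) :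
    QF M (∏ i ∈ s, f i) := by
  classical
  induction s using Finset.induction_on with
  | empty => simpa using QF.one
  | insert i s hi ih =>
    rw [Finset.prod_insert hi]
    exact (h i (Finset.mem_insert_self i s)).mul
      (ih fun j hj => h j (Finset.mem_insert_of_mem hj))

theorem qe_add [NeZero M] (hF : QF M F) (hG : QF M G) : qe M (F + G) = qe M F + qe M G :=
  qExpansion_add hF.analyticAt hG.analyticAt

theorem qe_smul [NeZero M] (hF : QF M F) (c : ℂ) : qe M (c • F) = c • qe M F :=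
  qExpansion_smul hF.analyticAt c

theorem qe_mul [NeZero M] (hF : QF M F) (hG : QF M G) : qe M (F * G) = qe M F * qe M G :=
  qExpansion_mul hF.analyticAt hG.analyticAt

theorem qe_zero : qe M (0 : ℍ → ℂ) = 0 := qExpansion_zero _

theorem qe_one : qe M (1 : ℍ → ℂ) = 1 := qExpansion_one _

theorem qe_pow [NeZero M] (hF : QF M F) (n : ℕ) : qe M (F ^ n) = qe M F ^ n := by
  induction n with
  | zero => simpa using qe_one
  | succ n ih => rw [pow_succ, pow_succ, qe_mul (hF.pow n) hF, ih]

theorem qe_sum [NeZero M] {ι : Type*} {s : Finset ι} {f : ι → ℍ → ℂ} (h : ∀ i ∈ s, QF M (f i)) :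
    qe M (∑ i ∈ s, f i) = ∑ i ∈ s, qe M (f i) := by
  classical
  induction s using Finset.induction_on with
  | empty => simpa using qe_zero
  | insert i s hi ih =>
    rw [Finset.sum_insert hi, Finset.sum_insert hi,
      qe_add (h i (Finset.mem_insert_self i s)) (QF.sum fun j hj => h j (Finset.mem_insert_of_mem hj)),
      ih fun j hj => h j (Finset.mem_insert_of_mem hj)]

theorem qe_eq_zero_iff [NeZero M] (hF : QF M F) : qe M F = 0 ↔ F = 0 :=
  qExpansion_eq_zero_iff M_pos hF.per hF.holo hF.bdd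

theorem QF.mul_eq_zero [NeZero M] (hF : QF M F) (hG : QF M G) : F * G = 0 ↔ F = 0 ∨ G = 0 := by
  rw [← qe_eq_zero_iff (hF.mul hG), qe_mul hF hG, _root_.mul_eq_zero, qe_eq_zero_iff hF,
    qe_eq_zero_iff hG]

theorem QF.prod_ne_zero [NeZero M] {ι : Type*} {s : Finset ι} {f : ι → ℍ → ℂ}
    (h : ∀ i ∈ s, QF M (f i)) (h0 : ∀ i ∈ s, f i ≠ 0) : ∏ i ∈ s, f i ≠ 0 := by
  classical
  induction s using Finset.induction_on with
  | empty =>
    simp only [Finset.prod_empty]
    intro h
    have := congrFun h UpperHalfPlane.I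
    simp at this
  | insert i s hi ih =>
    rw [Finset.prod_insert hi]
    intro h1
    rcases ((h i (Finset.mem_insert_self i s)).mul_eq_zero
      (QF.prod fun j hj => h j (Finset.mem_insert_of_mem hj))).mp h1 with h2 | h2
    · exact h0 i (Finset.mem_insert_self i s) h2
    · exact ih (fun j hj => h j (Finset.mem_insert_of_mem hj))
        (fun j hj => h0 j (Finset.mem_insert_of_mem hj)) h2

end

end Crest.Agent.R007.RatAlg
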