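import Crest.Agent.R007.RatFin

/-!
Row 7 (S0007), section A, node GAL: the action of `Aut(ℂ)` on forms of level `Γ(M)`.
-/

set_option autoImplicit false

noncomputable section

namespace Crest.Agent.R007.Rat

open UpperHalfPlane ModularForm CongruenceSubgroup Matrix.SpecialLinearGroup
open scoped MatrixGroups Manifold

/-- `g' = diag(1,s)⁻¹ g diag(1,s)` modulo `M`. -/
def Tw (s : ℤ) (M : ℕ) (g g' : SL(2, ℤ)) : Prop :=
  ((g' 0 0 : ℤ) : ZMod M) = (g 0 0 : ℤ) ∧ ((g' 0 1 : ℤ) : ZMod M) = (s : ZMod M) * (g 0 1 : ℤ) ∧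
    (s : ZMod M) * ((g' 1 0 : ℤ) : ZMod M) = (g 1 0 : ℤ) ∧ ((g' 1 1 : ℤ) : ZMod M) = (g 1 1 : ℤ)

lemma Tw.one (s : ℤ) (M : ℕ) : Tw s M 1 1 := by
  simp [Tw]

/-- `f'` is the `σ`-conjugate of `f`, where `σ (ζ_M) = ζ_M ^ s`. -/
structure CjT (σ : ℂ →+* ℂ) (s : ℤ) (M : ℕ) (k : ℤ) (f f' : ℍ → ℂ) : Prop where
  left : IsF M k f
  right : IsF M k f'
  eq : ∀ g g' : SL(2, ℤ), Tw s M g g' → qe M (f' ∣[k] g') = PowerSeries.map σ (qe M (f ∣[k] g))

section

variable {σ : ℂ →+* ℂ} {s : ℤ} {M : ℕ} [NeZero M] {k l : ℤ} {f f' h h' : ℍ → ℂ}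

omit [NeZero M] in
lemma CjT.cast {k k' : ℤ} (hk : k = k') (hf : CjT σ s M k f f') : CjT σ s M k' f f' := hk ▸ hf

omit [NeZero M] in
lemma CjT.zero : CjT σ s M k 0 0 := ⟨IsF.zero, IsF.zero, fun g g' _ => by
  rw [SlashAction.zero_slash, SlashAction.zero_slash, qe_zero, map_zero]⟩

omit [NeZero M] in
lemma CjT.one : CjT σ s M 0 1 1 := ⟨IsF.one, IsF.one, fun g g' _ => by
  rw [one_slash, one_slash, qe_one, map_one]⟩

lemma CjT.add (hf : CjT σ s M k f f') (hh : CjT σ s M k h h') : CjT σ s M k (f + h) (f' + h') :=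
  ⟨hf.left.add hh.left, hf.right.add hh.right, fun g g' hg => by
    rw [SlashAction.add_slash, SlashAction.add_slash, qe_add (hf.left.slash_SL g) (hh.left.slash_SL g),
      qe_add (hf.right.slash_SL g') (hh.right.slash_SL g'), map_add, hf.eq g g' hg, hh.eq g g' hg]⟩

lemma CjT.smul (c : ℂ) (hf : CjT σ s M k f f') : CjT σ s M k (c • f) (σ c • f') :=
  ⟨hf.left.smul c, hf.right.smul _, fun g g' hg => by
    rw [SL_smul_slash, SL_smul_slash, qe_smul (hf.left.slash_SL g), qe_smul (hf.right.slash_SL g'),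
      map_smul_ps, hf.eq g g' hg]⟩

lemma CjT.neg (hf : CjT σ s M k f f') : CjT σ s M k (-f) (-f') := by
  simpa using hf.smul (-1)

lemma CjT.sub (hf : CjT σ s M k f f') (hh : CjT σ s M k h h') : CjT σ s M k (f - h) (f' - h') := by
  simpa [sub_eq_add_neg] using hf.add hh.neg

lemma CjT.mul (hf : CjT σ s M k f f') (hh : CjT σ s M l h h') :
    CjT σ s M (k + l) (f * h) (f' * h') :=
  ⟨hf.left.mul hh.left, hf.right.mul hh.right, fun g g' hg => by
    rw [mul_slash_SL2, mul_slash_SL2, qe_mul (hf.left.slash_SL g) (hh.left.slash_SL g),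
      qe_mul (hf.right.slash_SL g') (hh.right.slash_SL g'), map_mul, hf.eq g g' hg, hh.eq g g' hg]⟩

lemma CjT.sum {ι : Type*} (t : Finset ι) (F F' : ι → ℍ → ℂ)
    (hF : ∀ i ∈ t, CjT σ s M k (F i) (F' i)) : CjT σ s M k (∑ i ∈ t, F i) (∑ i ∈ t, F' i) := by
  classical
  induction t using Finset.induction_on with
  | empty => simpa using CjT.zero
  | insert a t ha ih =>
    rw [Finset.sum_insert ha, Finset.sum_insert ha]
    exact (hF a (by simp)).add (ih fun i hi => hF i (by simp [hi]))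

lemma CjT.prod {ι : Type*} (t : Finset ι) (F F' : ι → ℍ → ℂ)
    (hF : ∀ i ∈ t, CjT σ s M k (F i) (F' i)) :
    CjT σ s M ((t.card : ℤ) * k) (∏ i ∈ t, F i) (∏ i ∈ t, F' i) := by
  classical
  induction t using Finset.induction_on with
  | empty => simpa using CjT.one
  | insert a t ha ih =>
    rw [Finset.prod_insert ha, Finset.prod_insert ha, Finset.card_insert_of_notMem ha]
    exact ((hF a (by simp)).mul (ih fun i hi => hF i (by simp [hi]))).cast (by push_cast; ring)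

lemma CjT.pow (hf : CjT σ s M k f f') (n : ℕ) : CjT σ s M ((n : ℤ) * k) (f ^ n) (f' ^ n) := by
  induction n with
  | zero => simpa using CjT.one
  | succ n ih => rw [pow_succ, pow_succ]; exact (ih.mul hf).cast (by push_cast; ring)

/-- Uniqueness of conjugates. -/
lemma CjT.unique (h1 : CjT σ s M k f f') (h2 : CjT σ s M k f h') : f' = h' := by
  refine qe_inj h1.right h2.right ?_
  have e1 := h1.eq 1 1 (Tw.one s M)
  have e2 := h2.eq 1 1 (Tw.one s M)
  simp only [SlashAction.slash_one] at e1 e2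
  rw [e1, e2]

omit [NeZero M] in
lemma CjT.qe_eq (h1 : CjT σ s M k f f') : qe M f' = PowerSeries.map σ (qe M f) := by
  have e1 := h1.eq 1 1 (Tw.one s M)
  simpa only [SlashAction.slash_one] using e1

lemma map_ps_eq_zero {p : PowerSeries ℂ} (h : PowerSeries.map σ p = 0) : p = 0 := by
  ext n
  have := congrArg (PowerSeries.coeff n) h
  rw [PowerSeries.coeff_map, map_zero] at this
  rw [map_zero]
  exact (map_eq_zero σ).mp this

lemma CjT.ne_zero (h1 : CjT σ s M k f f') (hf : f ≠ 0) : f' ≠ 0 := by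
  intro h0
  apply hf
  refine (qe_eq_zero_iff h1.left).mp (map_ps_eq_zero (σ := σ) ?_)
  rw [← h1.qe_eq, h0, qe_zero]

/-- conjugate of a quotient -/
lemma CjT.of_mul {F F' D D' : ℍ → ℂ} (hF : IsF M k F) (hF' : IsF M k F') (hD : CjT σ s M l D D')
    (hD0 : D ≠ 0) (h : CjT σ s M (k + l) (F * D) (F' * D')) : CjT σ s M k F F' := by
  refine ⟨hF, hF', fun g g' hg => ?_⟩
  have h1 := h.eq g g' hg
  rw [mul_slash_SL2, mul_slash_SL2, qe_mul (hF.slash_SL g) (hD.left.slash_SL g),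
    qe_mul (hF'.slash_SL g') (hD.right.slash_SL g'), map_mul, hD.eq g g' hg] at h1
  have h2 : PowerSeries.map σ (qe M (D ∣[l] g)) ≠ 0 := by
    intro h0
    have h3 := (qe_eq_zero_iff (hD.left.slash_SL g)).mp (map_ps_eq_zero h0)
    exact hD0 ((SlashAction.slash_eq_zero_iff _ _ _).mp h3)
  exact mul_right_cancel₀ h2 h1

lemma CjT.of_rational_level_one {S : Subring ℂ} (hσ : ∀ c ∈ S, σ c = c) (hf : IsR S 1 k f) :
    CjT σ s M k f f := by
  have h1 : IsR S M k f := hf.mono_level (one_dvd M)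
  refine ⟨h1.isF, h1.isF, fun g g' _ => ?_⟩
  rw [slash_one_level hf.isF, slash_one_level hf.isF]
  ext n
  rw [PowerSeries.coeff_map, hσ]
  have := h1.coeff 1 n
  simpa using this

lemma ringHom_fixes_bot (σ : ℂ →+* ℂ) : ∀ c ∈ (⊥ : Subfield ℂ).toSubring, σ c = c := by
  intro c hc
  have h1 : (⊥ : Subfield ℂ) ≤ RingHom.eqLocusField σ (RingHom.id ℂ) := bot_le
  exact h1 hc

/-- Level one forms have conjugates. -/
lemma exists_cjT_level_one (σ : ℂ →+* ℂ) (s : ℤ) (hf : IsF 1 k f) : ∃ f', CjT σ s M k f f' := by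
  have h1 : f ∈ Sp (⊥ : Subfield ℂ).toSubring 1 k := levelOneSpan_field ⊥ k f hf
  induction h1 using Submodule.span_induction with
  | mem x hx => exact ⟨x, CjT.of_rational_level_one (ringHom_fixes_bot σ) hx⟩
  | zero => exact ⟨0, CjT.zero⟩
  | add x y hx hy ihx ihy =>
    obtain ⟨x', hx'⟩ := ihx (Sp.isF hx)
    obtain ⟨y', hy'⟩ := ihy (Sp.isF hy)
    exact ⟨_, hx'.add hy'⟩
  | smul c x hx ihx =>
    obtain ⟨x', hx'⟩ := ihx (Sp.isF hx)
    exact ⟨_, hx'.smul c⟩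

end

/-! ### the division values -/

section Wp

variable {σ : ℂ →+* ℂ} {s : ℤ} {M : ℕ} [NeZero M]

/-- `v · diag(1,s)` -/
def twv (s : ℤ) (v : Fin 2 → ℤ) : Fin 2 → ℤ := ![v 0, s * v 1]

omit [NeZero M] in
lemma map_chi (hs : σ (Wp.zeta M) = Wp.zeta M ^ s) (j : ℕ) (a b : ℤ) (d e : ℕ) :
    σ (Wp.chi M j a b d e) = Wp.chi M j a (s * b) d e := by
  unfold Wp.chi
  have h1 : ∀ b : ℤ, σ ((Wp.zeta M ^ b) ^ d) = (Wp.zeta M ^ (s * b)) ^ d := fun b => by
    rw [map_pow, map_zpow₀, hs, ← zpow_mul]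
  simp only [map_add, map_mul, map_pow, map_neg, map_one, apply_ite σ, map_zero, map_natCast]
  have h2 : (σ (Wp.zeta M ^ b)) ^ d = (Wp.zeta M ^ (s * b)) ^ d := by rw [← map_pow]; exact h1 b
  have h3 : (σ (Wp.zeta M ^ (-b))) ^ d = (Wp.zeta M ^ (-(s * b))) ^ d := by
    rw [← map_pow, h1 (-b), mul_neg]
  rw [h2, h3]

lemma map_cQ (hs : σ (Wp.zeta M) = Wp.zeta M ^ s) (hcop : IsUnit (s : ZMod M)) {v : Fin 2 → ℤ}
    (hv : (v 0 : ZMod M) ≠ 0 ∨ (v 1 : ZMod M) ≠ 0) (n : ℕ) :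
    σ (Wp.cQ M v n) = Wp.cQ M (twv s v) n := by
  have hM : M ≠ 0 := NeZero.ne M
  have hv' : ((twv s v) 0 : ZMod M) ≠ 0 ∨ (((twv s v) 1 : ℤ) : ZMod M) ≠ 0 := by
    rcases hv with hv | hv
    · left; simpa [twv] using hv
    · right
      simp only [twv, Matrix.cons_val_one, Matrix.cons_val_fin_one, Int.cast_mul]
      intro h0
      exact hv ((hcop.mul_right_eq_zero).mp h0)
  unfold Wp.cQ
  rw [map_add, map_sum]
  congr 1
  · split_ifs
    · rw [Wp.cQ0_eq hM hv, Wp.cQ0_eq hM hv']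
      have e0 : (twv s v) 0 = v 0 := rfl
      have e1 : (twv s v) 1 = s * v 1 := rfl
      rw [e0, e1, apply_ite σ, map_zero]
      have h1 : σ (Wp.zeta M ^ (v 1)) = Wp.zeta M ^ (s * v 1) := by
        rw [map_zpow₀, hs, ← zpow_mul]
      simp only [map_div₀, map_mul, map_add, map_one, map_pow, map_sub, h1]
    · exact map_zero σ
  · refine Finset.sum_congr rfl fun p _ => ?_
    rw [map_chi hs]
    rfl

/-- conjugates of `Q_v`. -/
lemma cjT_Q (hs : σ (Wp.zeta M) = Wp.zeta M ^ s) (hcop : IsUnit (s : ZMod M)) {v : Fin 2 → ℤ}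
    (hv : (v 0 : ZMod M) ≠ 0 ∨ (v 1 : ZMod M) ≠ 0) :
    CjT σ s M 3 (Wp.Q M v) (Wp.Q M (twv s v)) := by
  have hM : M ≠ 0 := NeZero.ne M
  refine ⟨Wp.isF_Q hM _, Wp.isF_Q hM _, fun g g' hg => ?_⟩
  rw [Wp.Q_slash, Wp.Q_slash]
  have h1 : Wp.Q M (Matrix.vecMul (twv s v) (g' : Matrix (Fin 2) (Fin 2) ℤ)) =
      Wp.Q M (twv s (Matrix.vecMul v (g : Matrix (Fin 2) (Fin 2) ℤ))) := by
    refine Wp.Q_congr hM fun i => ?_
    obtain ⟨h00, h01, h10, h11⟩ := hg
    fin_cases i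
    · simp only [twv, Matrix.vecMul, dotProduct, Fin.sum_univ_two, Fin.zero_eta, Matrix.cons_val_zero,
        Matrix.cons_val_one, Matrix.cons_val_fin_one]
      push_cast
      rw [h00]
      linear_combination (v 1 : ZMod M) * h10
    · simp only [twv, Matrix.vecMul, dotProduct, Fin.sum_univ_two, Fin.mk_one, Matrix.cons_val_zero,
        Matrix.cons_val_one, Matrix.cons_val_fin_one]
      push_cast
      rw [h01, h11]
      ring
  rw [h1, Wp.qe_Q, Wp.qe_Q]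
  ext n
  rw [PowerSeries.coeff_map, PowerSeries.coeff_mk, PowerSeries.coeff_mk,
    map_cQ hs hcop (Wp.vecMul_ne hv g)]

end Wp

end Crest.Agent.R007.Rat
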