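import Crest.Agent.R007.RatGal

/-!
Row 7 (S0007), section A, node GAL: every automorphism of `ℂ` acts on forms of level `Γ(M)`.
-/

set_option autoImplicit false

noncomputable section

namespace Crest.Agent.R007.Rat

open UpperHalfPlane ModularForm CongruenceSubgroup Matrix.SpecialLinearGroup
open scoped MatrixGroups Manifold

variable {σ : ℂ →+* ℂ} {s : ℤ} {M : ℕ} [NeZero M] {k l k₀ : ℤ} {F θ : ℍ → ℂ}

/-- all translates have conjugates -/
def Good (σ : ℂ →+* ℂ) (s : ℤ) (M : ℕ) (k : ℤ) (f : ℍ → ℂ) : Prop :=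
  ∀ g : SL(2, ℤ), ∃ f', CjT σ s M k (f ∣[k] g) f'

lemma Good.add {f h : ℍ → ℂ} (hf : Good σ s M k f) (hh : Good σ s M k h) : Good σ s M k (f + h) := by
  intro g
  obtain ⟨f', hf'⟩ := hf g
  obtain ⟨h', hh'⟩ := hh g
  exact ⟨_, by rw [SlashAction.add_slash]; exact hf'.add hh'⟩

lemma Good.smul {f : ℍ → ℂ} (c : ℂ) (hf : Good σ s M k f) : Good σ s M k (c • f) := by
  intro g
  obtain ⟨f', hf'⟩ := hf g
  exact ⟨_, by rw [SL_smul_slash]; exact hf'.smul c⟩

lemma good_Q (hs : σ (Wp.zeta M) = Wp.zeta M ^ s) (hcop : IsUnit (s : ZMod M)) {v : Fin 2 → ℤ}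
    (hv : (v 0 : ZMod M) ≠ 0 ∨ (v 1 : ZMod M) ≠ 0) : Good σ s M 3 (Wp.Q M v) := by
  intro g
  rw [Wp.Q_slash]
  exact ⟨_, cjT_Q hs hcop (Wp.vecMul_ne hv g)⟩

omit [NeZero M] in
lemma Good.tr {f : ℍ → ℂ} (hf : Good σ s M k f) (a : GM M) : ∃ f', CjT σ s M k (tr k f a) f' := hf _

/-- Conjugation of forms, general `σ`. -/
theorem exists_gal_of_sep (hθF : IsF M k₀ θ) (hθ : Good σ s M k₀ θ)
    (hD0 : del M k₀ θ ≠ 0) (hF : IsF M k F) : ∃ F', CjT σ s M k F F' := by
  classical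
  set D := del M k₀ θ with hD
  set n := Fintype.card (GM M) with hn
  have hnpos : 0 < n := Fintype.card_pos
  have hDF : IsF M (wdel M k₀) D := hθF.del
  obtain ⟨θ', hθ'⟩ := hθ 1
  rw [SlashAction.slash_one] at hθ'
  have htr : ∀ a : GM M, ∃ f', CjT σ s M k₀ (tr k₀ θ a) f' := fun a => hθ.tr a
  choose θa hθa using htr
  -- conjugate of D
  obtain ⟨D', hDD'⟩ : ∃ D', CjT σ s M (wdel M k₀) D D' :=
    ⟨_, CjT.prod (nt M) (fun a => θ - tr k₀ θ a) (fun a => θ' - θa a) fun a _ => hθ'.sub (hθa a)⟩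
  have hD'0 : D' ≠ 0 := hDD'.ne_zero hD0
  have hD'F : IsF M (wdel M k₀) D' := hDD'.right
  -- conjugate of F D
  obtain ⟨H', hH'⟩ : ∃ H', CjT σ s M (k + wdel M k₀) (F * D) H' := by
    rw [interp hθF hF]
    have hterm : ∀ t ∈ (nt M).powerset, ∃ u, CjT σ s M (k + wdel M k₀) (((-1 : ℂ) ^ t.card) •
        (θ ^ ((nt M).card - t.card) * Tr M (k + (t.card : ℤ) * k₀) (F * ∏ a ∈ t, tr k₀ θ a))) u := by
      intro t ht
      rw [Finset.mem_powerset] at ht
      have hc : t.card ≤ (nt M).card := Finset.card_le_card ht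
      have h2 : IsF M (k + (t.card : ℤ) * k₀) (F * ∏ a ∈ t, tr k₀ θ a) :=
        hF.mul (IsF.prod t _ fun a _ => hθF.tr a)
      obtain ⟨u, hu⟩ := exists_cjT_level_one (M := M) σ s h2.Tr
      refine ⟨_, CjT.smul _ (((hθ'.pow ((nt M).card - t.card)).mul hu).cast ?_)⟩
      rw [wdel, Nat.cast_sub hc]
      ring
    choose! u hu using hterm
    exact ⟨_, CjT.sum _ _ u hu⟩
  -- conjugates of the symmetric functions
  have hE : ∀ i : ℕ, ∃ e, CjT σ s M ((i : ℤ) * k) (esy M k F i) e := fun i =>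
    exists_cjT_level_one σ s (hF.esy i)
  choose E' hE' using hE
  have hE0 : E' 0 = 1 := by
    have h1 := hE' 0
    rw [esy_zero] at h1
    refine CjT.unique h1 (CjT.one.cast (by simp))
  -- the equation for H = F D
  have eq1 : ∑ i ∈ Finset.range (n + 1), ((-1 : ℂ) ^ i) •
      (esy M k F i * (D ^ i * (F * D) ^ (n - i))) = 0 := by
    have h1 := norm_root hF
    have h2 : ∑ i ∈ Finset.range (n + 1), ((-1 : ℂ) ^ i) •
      (esy M k F i * (D ^ i * (F * D) ^ (n - i))) =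
      (∑ i ∈ Finset.range (n + 1), ((-1 : ℂ) ^ i) • (esy M k F i * F ^ (n - i))) * D ^ n := by
      rw [Finset.sum_mul]
      refine Finset.sum_congr rfl fun i hi => ?_
      rw [Finset.mem_range] at hi
      rw [mul_pow, smul_mul_assoc]
      congr 1
      have : D ^ n = D ^ i * D ^ (n - i) := by rw [← pow_add]; congr 1; omega
      rw [this]; ring
    rw [h2, h1, zero_mul]
  -- conjugate
  have hwt : ∀ i ∈ Finset.range (n + 1), ((i : ℤ) * k + ((i : ℤ) * wdel M k₀ +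
      (((n - i : ℕ) : ℤ) * (k + wdel M k₀)))) = (n : ℤ) * (k + wdel M k₀) := by
    intro i hi
    rw [Finset.mem_range] at hi
    rw [Nat.cast_sub (by omega)]
    ring
  have cj1 : CjT σ s M ((n : ℤ) * (k + wdel M k₀))
      (∑ i ∈ Finset.range (n + 1), ((-1 : ℂ) ^ i) • (esy M k F i * (D ^ i * (F * D) ^ (n - i))))
      (∑ i ∈ Finset.range (n + 1), (σ ((-1 : ℂ) ^ i)) • (E' i * (D' ^ i * H' ^ (n - i)))) := by
    refine CjT.sum _ _ _ fun i hi => ?_
    refine CjT.smul _ ?_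
    refine ((hE' i).mul ((hDD'.pow i).mul (hH'.pow (n - i)))).cast (hwt i hi)
  rw [eq1] at cj1
  have eq2 := cj1.unique CjT.zero
  have eq3 : ∀ τ : ℍ, ∑ i ∈ Finset.range (n + 1), (((-1 : ℂ) ^ i) * E' i τ) * D' τ ^ i * H' τ ^ (n - i) = 0 := by
    intro τ
    have := congrFun eq2 τ
    simp only [Finset.sum_apply, Pi.smul_apply, Pi.mul_apply, Pi.pow_apply, smul_eq_mul, Pi.zero_apply,
      map_pow, map_neg, map_one] at this
    rw [← this]
    refine Finset.sum_congr rfl fun i _ => by ring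
  -- bound
  have bound : ∀ τ : ℍ, ‖H' τ‖ ≤ (1 + ∑ i ∈ Finset.range (n + 1), ‖((-1 : ℂ) ^ i) * E' i τ‖) * ‖D' τ‖ := by
    intro τ
    exact root_bound n hnpos (fun i => ((-1 : ℂ) ^ i) * E' i τ) (by simp [hE0]) _ _ (eq3 τ)
  have hcont : Continuous fun τ : ℍ => (1 + ∑ i ∈ Finset.range (n + 1), ‖((-1 : ℂ) ^ i) * E' i τ‖) := by
    refine continuous_const.add (continuous_finsetSum _ fun i _ => ?_)
    exact (continuous_const.mul (hE' i).right.continuous).norm
  obtain ⟨F', hF'd, hF'⟩ := exists_div hH'.right.holo hD'F.holo hD'0 hcont bound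
  -- F' is slash invariant and bounded
  have slash_F' : ∀ g : SL(2, ℤ), H' ∣[k + wdel M k₀] g = (F' ∣[k] g) * (D' ∣[wdel M k₀] g) := by
    intro g
    rw [hF', mul_slash_SL2]
  have holoS : ∀ g : SL(2, ℤ), MDiff (F' ∣[k] g) := fun g => by
    rw [SL_slash]; exact hF'd.slash k _
  have hF'F : IsF M k F' := by
    refine ⟨?_, hF'd, ?_⟩
    · intro γ hγ
      have h1 := slash_F' γ
      rw [hH'.right.slash γ hγ, hD'F.slash γ hγ, hF'] at h1
      have h2 : (F' ∣[k] γ - F') * D' = 0 := by rw [sub_mul, ← h1, sub_self]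
      exact sub_eq_zero.mp (eq_zero_of_mul ((holoS γ).sub hF'd) hD'F.holo hD'0 h2)
    · intro g
      -- F' satisfies the conjugated norm equation
      have h1 : (∑ i ∈ Finset.range (n + 1), ((-1 : ℂ) ^ i) • (E' i * F' ^ (n - i))) * D' ^ n = 0 := by
        rw [Finset.sum_mul]
        have h2 := eq2
        rw [← h2]
        refine Finset.sum_congr rfl fun i hi => ?_
        rw [Finset.mem_range] at hi
        simp only [map_pow, map_neg, map_one]
        rw [hF', mul_pow, smul_mul_assoc]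
        congr 1
        have : D' ^ n = D' ^ i * D' ^ (n - i) := by rw [← pow_add]; congr 1; omega
        rw [this]; ring
      have hholo : MDiff (∑ i ∈ Finset.range (n + 1), ((-1 : ℂ) ^ i) • (E' i * F' ^ (n - i))) := by
        refine MDifferentiable.sum fun i _ => ?_
        exact ((hE' i).right.holo.mul (hF'd.pow _)).const_smul _
      have hDn : D' ^ n ≠ 0 := by
        intro h0
        have h3 : qe M D' ^ n = 0 := by rw [← qe_pow hD'F, h0, qe_zero]
        exact hD'0 ((qe_eq_zero_iff hD'F).mp ((pow_eq_zero_iff hnpos.ne').mp h3))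
      have h4 := eq_zero_of_mul hholo (hD'F.pow n).holo hDn h1
      -- slash by g
      have h5 : ∑ i ∈ Finset.range (n + 1), ((-1 : ℂ) ^ i) •
          ((E' i ∣[(i : ℤ) * k] g) * (F' ∣[k] g) ^ (n - i)) = 0 := by
        have h6 : (∑ i ∈ Finset.range (n + 1), ((-1 : ℂ) ^ i) • (E' i * F' ^ (n - i))) ∣[(n : ℤ) * k] g = 0 := by
          rw [h4, SlashAction.zero_slash]
        rw [← h6, SlashAction.sum_slash]
        refine Finset.sum_congr rfl fun i hi => ?_
        rw [Finset.mem_range] at hi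
        rw [SL_smul_slash, show (n : ℤ) * k = (i : ℤ) * k + ((n - i : ℕ) : ℤ) * k by
          rw [Nat.cast_sub (by omega)]; ring, mul_slash_SL2, pow_slash']
      have h7 : ∀ τ : ℍ, ‖(F' ∣[k] g) τ‖ ≤
          (1 + ∑ i ∈ Finset.range (n + 1), ‖((-1 : ℂ) ^ i) * (E' i ∣[(i : ℤ) * k] g) τ‖) * ‖(1 : ℂ)‖ := by
        intro τ
        refine root_bound n hnpos (fun i => ((-1 : ℂ) ^ i) * (E' i ∣[(i : ℤ) * k] g) τ) ?_ _ 1 ?_
        · simp [hE0, one_slash]
        · have := congrFun h5 τ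
          simp only [Finset.sum_apply, Pi.smul_apply, Pi.mul_apply, Pi.pow_apply, smul_eq_mul,
            Pi.zero_apply] at this
          rw [← this]
          refine Finset.sum_congr rfl fun i _ => by ring
      have h8 : ∀ i : ℕ, IsBoundedAtImInfty (E' i ∣[(i : ℤ) * k] g) := fun i => (hE' i).right.bdd g
      rw [isBoundedAtImInfty_iff]
      simp_rw [isBoundedAtImInfty_iff] at h8
      choose Mi Ai hMi using h8
      refine ⟨1 + ∑ i ∈ Finset.range (n + 1), |Mi i|, ∑ i ∈ Finset.range (n + 1), |Ai i|, fun z hz => ?_⟩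
      refine (h7 z).trans ?_
      rw [norm_one, mul_one]
      refine add_le_add le_rfl (Finset.sum_le_sum fun i hi => ?_)
      rw [norm_mul, norm_pow, norm_neg, norm_one, one_pow, one_mul]
      refine (hMi i z ?_).trans (le_abs_self _)
      refine le_trans ?_ hz
      refine (le_abs_self _).trans ?_
      exact Finset.single_le_sum (f := fun i => |Ai i|) (fun j _ => abs_nonneg _) hi
  refine ⟨F', CjT.of_mul hF hF'F hDD' hD0 ?_⟩
  rw [← hF']
  exact hH'

/-- explicit version of `exists_sep`. -/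
theorem exists_sep_nat {f₁ f₂ : ℍ → ℂ} (h1 : IsF M k₀ f₁) (h2 : IsF M k₀ f₂)
    (hsep : ∀ g : SL(2, ℤ), f₁ ∣[k₀] g = f₁ → f₂ ∣[k₀] g = f₂ → g ∈ Gamma M) :
    ∃ n : ℕ, ∀ g : SL(2, ℤ), g ∉ Gamma M → (f₁ + (n : ℂ) • f₂) ∣[k₀] g ≠ f₁ + (n : ℂ) • f₂ := by
  classical
  let B : GM M → Set ℕ := fun a => {n | a ≠ 1 ∧ tr k₀ (f₁ + (n : ℂ) • f₂) a = f₁ + (n : ℂ) • f₂}
  have hB : ∀ a, (B a).Finite := by
    intro a
    refine Set.Subsingleton.finite ?_
    rintro n ⟨ha, hn⟩ m ⟨-, hm⟩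
    induction a using QuotientGroup.induction_on with
    | H g =>
      have hgM : g ∉ Gamma M := fun hg => ha ((QuotientGroup.eq_one_iff g).mpr hg)
      rw [tr_mk (h1.add (h2.smul _)), SlashAction.add_slash, SL_smul_slash] at hn hm
      by_contra hnm
      have hnm' : (n : ℂ) - m ≠ 0 := sub_ne_zero.mpr (by exact_mod_cast hnm)
      have e1 : ((n : ℂ) - m) • (f₂ ∣[k₀] g - f₂) = 0 := by
        have h3 : ((n : ℂ) - m) • (f₂ ∣[k₀] g - f₂) =
            (f₁ ∣[k₀] g + (n : ℂ) • f₂ ∣[k₀] g) - (f₁ ∣[k₀] g + (m : ℂ) • f₂ ∣[k₀] g)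
            - (f₁ + (n : ℂ) • f₂) + (f₁ + (m : ℂ) • f₂) := by
          ext τ
          simp
          ring
        rw [h3, hn, hm]
        abel
      have e2 : f₂ ∣[k₀] g = f₂ := sub_eq_zero.mp ((smul_eq_zero.mp e1).resolve_left hnm')
      rw [e2] at hn
      exact hgM (hsep g (add_right_cancel hn) e2)
  have hfin : (⋃ a, B a).Finite := Set.finite_iUnion hB
  obtain ⟨n, hn⟩ := hfin.infinite_compl.nonempty
  refine ⟨n, fun g hg heq => ?_⟩
  apply hn
  refine Set.mem_iUnion.mpr ⟨(g : GM M), fun h => hg ((QuotientGroup.eq_one_iff g).mp h), ?_⟩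
  rw [tr_mk (h1.add (h2.smul _))]
  exact heq

/-- `σ(ζ) = ζ^s` forces `s` to be a unit mod `M`. -/
lemma isUnit_of_map_zeta (hs : σ (Wp.zeta M) = Wp.zeta M ^ s) : IsUnit (s : ZMod M) := by
  have hM : M ≠ 0 := NeZero.ne M
  have hp := Wp.isPrimitiveRoot_zeta hM
  have hp' : IsPrimitiveRoot (Wp.zeta M ^ s) M := by
    rw [← hs]
    exact hp.map_of_injective σ.injective
  have h1 : IsCoprime s (M : ℤ) := by
    rw [Int.isCoprime_iff_gcd_eq_one]
    by_contra hne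
    set d := Int.gcd s M with hd
    have hdpos : 0 < d := Int.gcd_pos_of_ne_zero_right _ (by exact_mod_cast hM)
    have hd1 : (d : ℤ) ∣ s := Int.gcd_dvd_left _ _
    have hd2 : (d : ℤ) ∣ M := Int.gcd_dvd_right _ _
    obtain ⟨a, ha⟩ := hd1
    obtain ⟨b, hb⟩ := hd2
    have hd2' : d ∣ M := Int.natCast_dvd_natCast.mp ⟨b, hb⟩
    have h2 : (Wp.zeta M ^ s) ^ (M / d) = 1 := by
      rw [← zpow_natCast, ← zpow_mul]
      have h3 : s * ((M / d : ℕ) : ℤ) = (M : ℤ) * a := by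
        have h4 : ((M / d : ℕ) : ℤ) * d = M := by exact_mod_cast Nat.div_mul_cancel hd2'
        rw [ha, ← h4]; ring
      rw [h3, zpow_mul, zpow_natCast, Wp.zeta_pow M hM, one_zpow]
    have h5 := hp'.dvd_of_pow_eq_one _ h2
    have h6 : M / d < M := Nat.div_lt_self (Nat.pos_of_ne_zero hM) (by
      rcases Nat.lt_or_ge 1 d with h | h
      · exact h
      · exfalso; apply hne; omega)
    have h7 : 0 < M / d := Nat.div_pos (Nat.le_of_dvd (Nat.pos_of_ne_zero hM) hd2') hdpos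
    exact absurd (Nat.le_of_dvd h7 h5) (by omega)
  obtain ⟨a, b, hab⟩ := h1
  refine IsUnit.of_mul_eq_one (a : ZMod M) ?_
  have := congrArg (Int.cast : ℤ → ZMod M) hab
  push_cast at this
  rw [ZMod.natCast_self, mul_zero, add_zero] at this
  rw [mul_comm]
  exact this

/-- **GAL**: every endomorphism `σ` of `ℂ` with `σ(ζ_M) = ζ_M^s` acts on the forms of level `Γ(M)`. -/
theorem exists_gal (hM : 3 ≤ M) (hs : σ (Wp.zeta M) = Wp.zeta M ^ s) (hF : IsF M k F) :
    ∃ F', CjT σ s M k F F' := by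
  have hM0 : M ≠ 0 := NeZero.ne M
  have h1M : (1 : ZMod M) ≠ 0 := by
    have : Fact (1 < M) := ⟨by omega⟩
    exact one_ne_zero
  have hcop := isUnit_of_map_zeta hs
  obtain ⟨n, hn⟩ := exists_sep_nat (M := M) (k₀ := 3) (f₁ := Wp.Q M ![1, 0]) (f₂ := Wp.Q M ![0, 1])
    (Wp.isF_Q hM0 _) (Wp.isF_Q hM0 _) (fun g h0 h1 => Wp.mem_Gamma_of_Q_fixed hM h0 h1)
  have hgood : Good σ s M 3 (Wp.Q M ![1, 0] + (n : ℂ) • Wp.Q M ![0, 1]) :=
    (good_Q hs hcop (by left; simpa using h1M)).add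
      ((good_Q hs hcop (by right; simpa using h1M)).smul _)
  have hIsF : IsF M 3 (Wp.Q M ![1, 0] + (n : ℂ) • Wp.Q M ![0, 1]) :=
    (Wp.isF_Q hM0 _).add ((Wp.isF_Q hM0 _).smul _)
  exact exists_gal_of_sep hIsF hgood (del_ne_zero hIsF hn) hF

/-- every ring endomorphism of `ℂ` acts on `ζ_M` by a power. -/
lemma exists_zpow_zeta (σ : ℂ →+* ℂ) (M : ℕ) [NeZero M] : ∃ s : ℤ, σ (Wp.zeta M) = Wp.zeta M ^ s := by
  have hM : M ≠ 0 := NeZero.ne M
  have hp := Wp.isPrimitiveRoot_zeta hM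
  have h1 : (σ (Wp.zeta M)) ^ M = 1 := by rw [← map_pow, Wp.zeta_pow M hM, map_one]
  obtain ⟨i, -, hi⟩ := hp.eq_pow_of_pow_eq_one h1
  exact ⟨i, by rw [zpow_natCast, hi]⟩

end Crest.Agent.R007.Rat
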