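import Crest.Agent.R007.RatTrace

/-!
Row 7 (S0007), section A: forms whose q-expansions at all cusps have coefficients in a subring.
-/

set_option autoImplicit false

noncomputable section

namespace Crest.Agent.R007.Rat

open UpperHalfPlane ModularForm CongruenceSubgroup Matrix.SpecialLinearGroup
open scoped MatrixGroups Manifold

/-- Power series with coefficients in `S`. -/
def CoeffIn (S : Subring ℂ) (p : PowerSeries ℂ) : Prop := ∀ n, PowerSeries.coeff n p ∈ S

section CoeffIn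

variable {S : Subring ℂ} {p q : PowerSeries ℂ}

lemma CoeffIn.zero : CoeffIn S 0 := fun n => by rw [map_zero]; exact S.zero_mem
lemma CoeffIn.one : CoeffIn S 1 := fun n => by
  rw [PowerSeries.coeff_one]; split_ifs; exacts [S.one_mem, S.zero_mem]
lemma CoeffIn.add (hp : CoeffIn S p) (hq : CoeffIn S q) : CoeffIn S (p + q) := fun n => by
  rw [map_add]; exact S.add_mem (hp n) (hq n)
lemma CoeffIn.neg (hp : CoeffIn S p) : CoeffIn S (-p) := fun n => by
  rw [map_neg]; exact S.neg_mem (hp n)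
lemma CoeffIn.sub (hp : CoeffIn S p) (hq : CoeffIn S q) : CoeffIn S (p - q) := by
  rw [sub_eq_add_neg]; exact hp.add hq.neg
lemma CoeffIn.mul (hp : CoeffIn S p) (hq : CoeffIn S q) : CoeffIn S (p * q) := fun n => by
  rw [PowerSeries.coeff_mul]; exact S.sum_mem fun x _ => S.mul_mem (hp _) (hq _)
lemma CoeffIn.smul {c : ℂ} (hc : c ∈ S) (hp : CoeffIn S p) : CoeffIn S (c • p) := fun n => by
  rw [PowerSeries.coeff_smul]; exact S.mul_mem hc (hp n)
lemma CoeffIn.mono {S' : Subring ℂ} (h : S ≤ S') (hp : CoeffIn S p) : CoeffIn S' p := fun n => h (hp n)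

end CoeffIn

/-- `f` is a form of weight `k`, level `Γ(M)` whose q-expansions (period `M`) at infinity of all
`f ∣ g`, `g ∈ SL₂(ℤ)`, have coefficients in `S`. -/
structure IsR (S : Subring ℂ) (M : ℕ) (k : ℤ) (f : ℍ → ℂ) : Prop where
  isF : IsF M k f
  coeff : ∀ g : SL(2, ℤ), CoeffIn S (qe M (f ∣[k] g))

section

variable {S : Subring ℂ} {M : ℕ} [NeZero M] {k l : ℤ} {f f' : ℍ → ℂ}

omit [NeZero M] in
lemma IsR.cast {k k' : ℤ} (hk : k = k') (hf : IsR S M k f) : IsR S M k' f := hk ▸ hf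

omit [NeZero M] in
lemma IsR.zero : IsR S M k 0 := ⟨IsF.zero, fun g => by
  rw [SlashAction.zero_slash, qe_zero]; exact CoeffIn.zero⟩

omit [NeZero M] in
lemma IsR.one : IsR S M 0 1 := ⟨IsF.one, fun g => by
  rw [one_slash, qe_one]; exact CoeffIn.one⟩

lemma IsR.add (hf : IsR S M k f) (hf' : IsR S M k f') : IsR S M k (f + f') :=
  ⟨hf.isF.add hf'.isF, fun g => by
    rw [SlashAction.add_slash, qe_add (hf.isF.slash_SL g) (hf'.isF.slash_SL g)]
    exact (hf.coeff g).add (hf'.coeff g)⟩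

lemma IsR.smul {c : ℂ} (hc : c ∈ S) (hf : IsR S M k f) : IsR S M k (c • f) :=
  ⟨hf.isF.smul c, fun g => by
    rw [SL_smul_slash, qe_smul (hf.isF.slash_SL g)]
    exact (hf.coeff g).smul hc⟩

lemma IsR.neg (hf : IsR S M k f) : IsR S M k (-f) := by
  simpa using hf.smul (S.neg_mem S.one_mem)

lemma IsR.sub (hf : IsR S M k f) (hf' : IsR S M k f') : IsR S M k (f - f') := by
  simpa [sub_eq_add_neg] using hf.add hf'.neg

lemma IsR.mul (hf : IsR S M k f) (hf' : IsR S M l f') : IsR S M (k + l) (f * f') :=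
  ⟨hf.isF.mul hf'.isF, fun g => by
    rw [mul_slash_SL2, qe_mul (hf.isF.slash_SL g) (hf'.isF.slash_SL g)]
    exact (hf.coeff g).mul (hf'.coeff g)⟩

lemma IsR.sum {ι : Type*} (s : Finset ι) (F : ι → ℍ → ℂ) (h : ∀ i ∈ s, IsR S M k (F i)) :
    IsR S M k (∑ i ∈ s, F i) := by
  classical
  induction s using Finset.induction_on with
  | empty => simpa using IsR.zero
  | insert a s ha ih =>
    rw [Finset.sum_insert ha]
    exact (h a (by simp)).add (ih fun i hi => h i (by simp [hi]))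

lemma IsR.prod {ι : Type*} (s : Finset ι) (F : ι → ℍ → ℂ) (h : ∀ i ∈ s, IsR S M k (F i)) :
    IsR S M ((s.card : ℤ) * k) (∏ i ∈ s, F i) := by
  classical
  induction s using Finset.induction_on with
  | empty => simpa using IsR.one
  | insert a s ha ih =>
    rw [Finset.prod_insert ha, Finset.card_insert_of_notMem ha]
    exact ((h a (by simp)).mul (ih fun i hi => h i (by simp [hi]))).cast (by push_cast; ring)

lemma IsR.pow (hf : IsR S M k f) (n : ℕ) : IsR S M ((n : ℤ) * k) (f ^ n) := by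
  induction n with
  | zero => simpa using IsR.one
  | succ n ih => rw [pow_succ]; exact (ih.mul hf).cast (by push_cast; ring)

omit [NeZero M] in
lemma IsR.slash_SL (hf : IsR S M k f) (g : SL(2, ℤ)) : IsR S M k (f ∣[k] g) :=
  ⟨hf.isF.slash_SL g, fun h => by rw [← SlashAction.slash_mul]; exact hf.coeff _⟩

omit [NeZero M] in
lemma IsR.tr (hf : IsR S M k f) (a : GM M) : IsR S M k (tr k f a) := hf.slash_SL _

lemma IsR.del {θ : ℍ → ℂ} (hθ : IsR S M k θ) : IsR S M (wdel M k) (del M k θ) :=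
  IsR.prod _ _ fun a _ => hθ.sub (hθ.tr a)

omit [NeZero M] in
lemma IsR.mono_ring {S' : Subring ℂ} (h : S ≤ S') (hf : IsR S M k f) : IsR S' M k f :=
  ⟨hf.isF, fun g => (hf.coeff g).mono h⟩

/-- change of period in q-expansions -/
lemma qe_mul_level (hf : IsF M k f) (d : ℕ) [NeZero d] (n : ℕ) :
    PowerSeries.coeff n (qe (M * d) f) = if d ∣ n then PowerSeries.coeff (n / d) (qe M f) else 0 := by
  have hMd : NeZero (M * d) := ⟨mul_ne_zero (NeZero.ne M) (NeZero.ne d)⟩
  have hf' : IsF (M * d) k f := hf.mono (Dvd.intro d rfl)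
  have key := ModularFormClass.qExpansion_coeff_unique (f := hf'.toModularForm)
    (h := ((M * d : ℕ) : ℝ))
    (c := fun n => if d ∣ n then PowerSeries.coeff (n / d) (qe M f) else 0) Mpos
    mem_strictPeriods ?_ n
  · exact key.symm
  · intro τ
    have h1 := hasSum_qExpansion (h := (M : ℝ)) Mpos hf.periodic hf.holo hf.bdd_infty τ
    have hq : Function.Periodic.qParam (M : ℝ) (τ : ℂ) =
        Function.Periodic.qParam ((M * d : ℕ) : ℝ) (τ : ℂ) ^ d := by
      rw [Function.Periodic.qParam, Function.Periodic.qParam, ← Complex.exp_nat_mul]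
      congr 1
      push_cast
      have h2 : (M : ℂ) ≠ 0 := by exact_mod_cast NeZero.ne M
      have h3 : (d : ℂ) ≠ 0 := by exact_mod_cast NeZero.ne d
      field_simp
    have hinj : Function.Injective (fun m : ℕ => d * m) := fun a b hab =>
      Nat.eq_of_mul_eq_mul_left (Nat.pos_of_ne_zero (NeZero.ne d)) hab
    rw [← hinj.hasSum_iff]
    · change HasSum _ (f τ)
      convert h1 using 2 with m
      simp only [Function.comp_apply, dvd_mul_right, if_true]
      rw [Nat.mul_div_cancel_left _ (Nat.pos_of_ne_zero (NeZero.ne d)), pow_mul, ← hq]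
      rfl
    · intro m hm
      have : ¬ d ∣ m := fun ⟨c, hc⟩ => hm ⟨c, hc.symm⟩
      simp [this]

lemma IsR.mono_level {M' : ℕ} [NeZero M'] (h : M ∣ M') (hf : IsR S M k f) : IsR S M' k f := by
  obtain ⟨d, rfl⟩ := h
  have hd : NeZero d := ⟨fun h0 => NeZero.ne (M * d) (by rw [h0, mul_zero])⟩
  refine ⟨hf.isF.mono (Dvd.intro d rfl), fun g n => ?_⟩
  rw [qe_mul_level (hf.isF.slash_SL g)]
  split_ifs
  · exact hf.coeff g _
  · exact S.zero_mem

end

/-! ### conjugation of coefficients -/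

/-- `f'` is the `σ`-conjugate of `f` (at all cusps). -/
structure Cj (σ : ℂ →+* ℂ) (M : ℕ) (k : ℤ) (f f' : ℍ → ℂ) : Prop where
  left : IsF M k f
  right : IsF M k f'
  eq : ∀ g : SL(2, ℤ), qe M (f' ∣[k] g) = PowerSeries.map σ (qe M (f ∣[k] g))

section

variable {σ : ℂ →+* ℂ} {M : ℕ} [NeZero M] {k l : ℤ} {f f' h h' : ℍ → ℂ}

omit [NeZero M] in
lemma Cj.cast {k k' : ℤ} (hk : k = k') (hf : Cj σ M k f f') : Cj σ M k' f f' := hk ▸ hf

omit [NeZero M] in
lemma Cj.zero : Cj σ M k 0 0 := ⟨IsF.zero, IsF.zero, fun g => by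
  rw [SlashAction.zero_slash, qe_zero, map_zero]⟩

omit [NeZero M] in
lemma Cj.one : Cj σ M 0 1 1 := ⟨IsF.one, IsF.one, fun g => by
  rw [one_slash, qe_one, map_one]⟩

lemma Cj.add (hf : Cj σ M k f f') (hh : Cj σ M k h h') : Cj σ M k (f + h) (f' + h') :=
  ⟨hf.left.add hh.left, hf.right.add hh.right, fun g => by
    rw [SlashAction.add_slash, SlashAction.add_slash, qe_add (hf.left.slash_SL g) (hh.left.slash_SL g),
      qe_add (hf.right.slash_SL g) (hh.right.slash_SL g), map_add, hf.eq, hh.eq]⟩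

lemma map_smul_ps (σ : ℂ →+* ℂ) (c : ℂ) (p : PowerSeries ℂ) :
    PowerSeries.map σ (c • p) = σ c • PowerSeries.map σ p := by
  ext n
  simp

lemma Cj.smul (c : ℂ) (hf : Cj σ M k f f') : Cj σ M k (c • f) (σ c • f') :=
  ⟨hf.left.smul c, hf.right.smul _, fun g => by
    rw [SL_smul_slash, SL_smul_slash, qe_smul (hf.left.slash_SL g), qe_smul (hf.right.slash_SL g),
      map_smul_ps, hf.eq]⟩

lemma Cj.mul (hf : Cj σ M k f f') (hh : Cj σ M l h h') : Cj σ M (k + l) (f * h) (f' * h') :=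
  ⟨hf.left.mul hh.left, hf.right.mul hh.right, fun g => by
    rw [mul_slash_SL2, mul_slash_SL2, qe_mul (hf.left.slash_SL g) (hh.left.slash_SL g),
      qe_mul (hf.right.slash_SL g) (hh.right.slash_SL g), map_mul, hf.eq, hh.eq]⟩

lemma Cj.sum {ι : Type*} (s : Finset ι) (F F' : ι → ℍ → ℂ) (hF : ∀ i ∈ s, Cj σ M k (F i) (F' i)) :
    Cj σ M k (∑ i ∈ s, F i) (∑ i ∈ s, F' i) := by
  classical
  induction s using Finset.induction_on with
  | empty => simpa using Cj.zero
  | insert a s ha ih =>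
    rw [Finset.sum_insert ha, Finset.sum_insert ha]
    exact (hF a (by simp)).add (ih fun i hi => hF i (by simp [hi]))

lemma Cj.pow (hf : Cj σ M k f f') (n : ℕ) : Cj σ M ((n : ℤ) * k) (f ^ n) (f' ^ n) := by
  induction n with
  | zero => simpa using Cj.one
  | succ n ih => rw [pow_succ, pow_succ]; exact (ih.mul hf).cast (by push_cast; ring)

omit [NeZero M] in
lemma Cj.of_isR {S : Subring ℂ} (hσ : ∀ c ∈ S, σ c = c) (hf : IsR S M k f) : Cj σ M k f f :=
  ⟨hf.isF, hf.isF, fun g => by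
    ext n
    rw [PowerSeries.coeff_map, hσ _ (hf.coeff g n)]⟩

/-- Uniqueness of conjugates. -/
lemma Cj.unique (h1 : Cj σ M k f f') (h2 : Cj σ M k f h') : f' = h' := by
  refine qe_inj h1.right h2.right ?_
  have e1 := h1.eq 1
  have e2 := h2.eq 1
  simp only [SlashAction.slash_one] at e1 e2
  rw [e1, e2]

/-- the C-span of the forms with coefficients in S -/
def Sp (S : Subring ℂ) (M : ℕ) (k : ℤ) : Submodule ℂ (ℍ → ℂ) :=
  Submodule.span ℂ {f | IsR S M k f}

omit [NeZero M] in
lemma Sp.isF {S : Subring ℂ} (hf : f ∈ Sp S M k) : IsF M k f := by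
  induction hf using Submodule.span_induction with
  | mem x hx => exact hx.isF
  | zero => exact IsF.zero
  | add x y _ _ hx hy => exact hx.add hy
  | smul c x _ hx => exact hx.smul c

lemma Sp.mul {S : Subring ℂ} (hf : f ∈ Sp S M k) (hh : h ∈ Sp S M l) : f * h ∈ Sp S M (k + l) := by
  induction hf using Submodule.span_induction with
  | mem x hx =>
    induction hh using Submodule.span_induction with
    | mem y hy => exact Submodule.subset_span (hx.mul hy)
    | zero => rw [mul_zero]; exact Submodule.zero_mem _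
    | add y z _ _ hy hz => rw [mul_add]; exact Submodule.add_mem _ hy hz
    | smul c y _ hy => rw [mul_smul_comm]; exact Submodule.smul_mem _ _ hy
  | zero => rw [zero_mul]; exact Submodule.zero_mem _
  | add y z _ _ hy hz => rw [add_mul]; exact Submodule.add_mem _ hy hz
  | smul c y _ hy => rw [smul_mul_assoc]; exact Submodule.smul_mem _ _ hy

lemma Sp.exists_cj {S : Subring ℂ} (hσ : ∀ c ∈ S, σ c = c) (hf : f ∈ Sp S M k) :
    ∃ f', Cj σ M k f f' := by
  induction hf using Submodule.span_induction with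
  | mem x hx => exact ⟨x, Cj.of_isR hσ hx⟩
  | zero => exact ⟨0, Cj.zero⟩
  | add x y _ _ hx hy =>
    obtain ⟨x', hx'⟩ := hx
    obtain ⟨y', hy'⟩ := hy
    exact ⟨_, hx'.add hy'⟩
  | smul c x _ hx =>
    obtain ⟨x', hx'⟩ := hx
    exact ⟨_, hx'.smul c⟩

end

end Crest.Agent.R007.Rat
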