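import Crest.Agent.R007.RatL1
import Crest.Agent.R007.Lat5

/-!
Row 7 (S0007), section D: Sturm bound in level one over a subring `O` of `ℂ`, modulo any additive
subgroup `I` with `O • I ⊆ I`.
-/

set_option autoImplicit false

noncomputable section

namespace Crest.Agent.R007.Rat

open UpperHalfPlane ModularForm CongruenceSubgroup Matrix.SpecialLinearGroup
open scoped MatrixGroups Manifold

/-- **Sturm bound**, level one: if the coefficients `a_n`, `12 n ≤ k`, are in `I`, all are. -/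
theorem sturm_one (O : Subring ℂ) (I : AddSubgroup ℂ) (hI : ∀ a ∈ O, ∀ x ∈ I, a * x ∈ I) :
    ∀ (m : ℕ) (k : ℤ), k < m → ∀ f, IsF 1 k f → CoeffIn O (qe 1 f) →
      (∀ n : ℕ, 12 * (n : ℤ) ≤ k → (qe 1 f).coeff n ∈ I) → ∀ n, (qe 1 f).coeff n ∈ I := by
  intro m
  induction m using Nat.strong_induction_on with
  | _ m ih =>
    intro k hkm f hf hO hin
    have hzero : f = 0 → ∀ n, (qe 1 f).coeff n ∈ I := by
      rintro rfl n
      rw [qe_zero, map_zero]
      exact I.zero_mem
    rcases lt_or_ge k 0 with hneg | hnn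
    · have : f = 0 := ModularFormClass.levelOne_neg_weight_eq_zero hneg hf.toSL
      exact hzero this
    rcases Int.even_or_odd k with hev | hodd
    swap
    · have := ModularForm.levelOne_odd_weight_eq_zero hodd hf.toSL
      have h2 : (hf.toSL : ℍ → ℂ) = 0 := by rw [this]; rfl
      exact hzero h2
    lift k to ℕ using hnn
    have hevk : Even k := by exact_mod_cast hev
    rcases Nat.lt_or_ge k 3 with hk3 | hk3
    · interval_cases k
      · -- weight 0
        have hf' : IsF 1 0 f := by simpa using hf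
        obtain ⟨c, hc⟩ := ModularFormClass.levelOne_weight_zero_const hf'.toSL
        have hfc : f = c • (1 : ℍ → ℂ) := by
          have : f = Function.const _ c := hc
          rw [this]; funext z; simp
        have hq : qe 1 f = c • (1 : PowerSeries ℂ) := by
          rw [hfc, qe_smul IsF.one, qe_one]
        intro n
        rcases Nat.eq_zero_or_pos n with rfl | hn
        · exact hin 0 (by simp)
        · rw [hq, PowerSeries.coeff_smul, PowerSeries.coeff_one, if_neg hn.ne', smul_zero]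
          exact I.zero_mem
      · exact absurd hevk (by decide)
      · have hf' : IsF 1 2 f := by simpa using hf
        have := rank_zero_iff_forall_zero.mp ModularForm.levelOne_weight_two_rank_zero hf'.toSL
        have h2 : (hf'.toSL : ℍ → ℂ) = 0 := by rw [this]; rfl
        exact hzero h2
    -- weight ≥ 4, even
    obtain ⟨a, b, hb, hab⟩ : ∃ a b : ℕ, b ≤ 1 ∧ 4 * a + 6 * b = k := by
      obtain ⟨r, hr⟩ := hevk
      rcases Nat.even_or_odd r with ⟨t, ht⟩ | ⟨t, ht⟩
      · exact ⟨t, 0, by norm_num, by omega⟩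
      · exact ⟨t - 1, 1, le_refl _, by omega⟩
    set c₀ : ℂ := (qe 1 f).coeff 0 with hc₀
    have hc₀O : c₀ ∈ O := hO 0
    have hc₀I : c₀ ∈ I := hin 0 (by positivity)
    have hmon : IsR O 1 k (mon a b 0) := (isR_mon a b 0).cast (by push_cast; omega)
    have hmonq : CoeffIn O (qe 1 (mon a b 0)) := by
      have := hmon.coeff 1
      simpa using this
    have hG : IsF 1 k (f + (-c₀) • mon a b 0) := hf.add (hmon.isF.smul _)
    have hGq : qe 1 (f + (-c₀) • mon a b 0) = qe 1 f + (-c₀) • qe 1 (mon a b 0) := by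
      rw [qe_add hf (hmon.isF.smul _), qe_smul hmon.isF]
    have hG0 : (qExpansion 1 (hG.toSL : ℍ → ℂ)).coeff 0 = 0 := by
      rw [IsF.coe_toSL, ← qe_one_eq, hGq, map_add, PowerSeries.coeff_smul, coeff_zero_mon, ← hc₀]
      simp
    let g := CuspForm.discriminantEquiv (ModularForm.toCuspForm hG.toSL hG0)
    have hg : IsF 1 ((k : ℤ) - 12) g := isF_of_SL g
    have h5 : f + (-c₀) • mon a b 0 = dl * (g : ℍ → ℂ) := by
      have := ModularForm.discriminant_mul_discriminantEquiv (ModularForm.toCuspForm hG.toSL hG0)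
      rw [dl, this]
      funext z
      simp
    have hgq : CoeffIn O (qe 1 (g : ℍ → ℂ)) := by
      refine coeffIn_of_mul_X (d := qe 1 dl) (p := qe 1 (f + (-c₀) • mon a b 0)) coeffIn_dl ?_
        coeff_zero_dl coeff_one_dl ?_
      · rw [hGq]
        exact hO.add (hmonq.smul (O.neg_mem hc₀O))
      · rw [h5, qe_mul isF_dl hg]
    have hcm : ∀ n, (qe 1 (mon a b 0)).coeff n * c₀ ∈ I := fun n => hI _ (hmonq n) _ hc₀I
    have hpq : qe 1 f = c₀ • qe 1 (mon a b 0) + qe 1 dl * qe 1 (g : ℍ → ℂ) := by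
      rw [← qe_mul isF_dl hg, ← h5, hGq]
      simp
    have hrel : ∀ n, (qe 1 f).coeff n =
        (qe 1 (mon a b 0)).coeff n * c₀ + (qe 1 dl * qe 1 (g : ℍ → ℂ)).coeff n := by
      intro n
      rw [hpq, map_add, PowerSeries.coeff_smul, smul_eq_mul, mul_comm c₀]
    -- low coefficients of `g`
    have hglow : ∀ n : ℕ, 12 * (n : ℤ) ≤ (k : ℤ) - 12 → (qe 1 (g : ℍ → ℂ)).coeff n ∈ I := by
      intro n
      induction n using Nat.strong_induction_on with
      | _ n ihn =>
        intro hn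
        have h1 : (qe 1 dl * qe 1 (g : ℍ → ℂ)).coeff (n + 1) ∈ I := by
          have h2 := hrel (n + 1)
          have h3 : (qe 1 dl * qe 1 (g : ℍ → ℂ)).coeff (n + 1) =
              (qe 1 f).coeff (n + 1) - (qe 1 (mon a b 0)).coeff (n + 1) * c₀ := by
            rw [h2]; ring
          rw [h3]
          exact I.sub_mem (hin (n + 1) (by push_cast; omega)) (hcm _)
        have h2 : (qe 1 dl * qe 1 (g : ℍ → ℂ)).coeff (n + 1) =
            ∑ x ∈ Finset.range (n + 2), (qe 1 dl).coeff x * (qe 1 (g : ℍ → ℂ)).coeff (n + 1 - x) := by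
          rw [PowerSeries.coeff_mul, Finset.Nat.sum_antidiagonal_eq_sum_range_succ_mk]
        rw [Finset.sum_range_succ', Finset.sum_range_succ'] at h2
        simp only [coeff_zero_dl, zero_mul, add_zero, zero_add, coeff_one_dl, one_mul] at h2
        have h3 : (qe 1 (g : ℍ → ℂ)).coeff (n + 1 - 1) =
            (qe 1 dl * qe 1 (g : ℍ → ℂ)).coeff (n + 1) -
            ∑ x ∈ Finset.range n, (qe 1 dl).coeff (x + 1 + 1) *
              (qe 1 (g : ℍ → ℂ)).coeff (n + 1 - (x + 1 + 1)) := by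
          rw [h2]; ring
        rw [Nat.add_sub_cancel] at h3
        rw [h3]
        refine I.sub_mem h1 (I.sum_mem fun x hx => hI _ (coeffIn_dl (S := O) _) _ (ihn _ ?_ ?_))
        · have := Finset.mem_range.mp hx
          omega
        · have := Finset.mem_range.mp hx
          push_cast [Nat.cast_sub]
          omega
    have hgall := ih (k + 1 - 12) (by omega) ((k : ℤ) - 12) (by omega) g hg hgq hglow
    intro n
    rw [hrel n]
    refine I.add_mem (hcm n) ?_
    rw [PowerSeries.coeff_mul]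
    exact I.sum_mem fun x _ => hI _ (coeffIn_dl (S := O) _) _ (hgall _)

/-- level one order bound -/
theorem ord_bound_one {O : Subring ℂ} {I : AddSubgroup ℂ} (hI : ∀ a ∈ O, ∀ x ∈ I, a * x ∈ I)
    {k : ℤ} {f : ℍ → ℂ} (hf : IsF 1 k f) (hO : CoeffIn O (qe 1 f))
    (hne : ∃ n, (qe 1 f).coeff n ∉ I) : ∃ n : ℕ, 12 * (n : ℤ) ≤ k ∧ (qe 1 f).coeff n ∉ I := by
  by_contra hcon
  push Not at hcon
  obtain ⟨n, hn⟩ := hne
  exact hn (sturm_one O I hI (k + 1).toNat k (by omega) f hf hO hcon n)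

end Crest.Agent.R007.Rat

namespace Crest.Agent.R007.Lat

open UpperHalfPlane ModularForm CongruenceSubgroup Matrix
open scoped MatrixGroups Manifold ModularForm

/-- elements of `MX M k` are the lifts of forms in the sense of `Rat.IsF`. -/
lemma isF_res {M : ℕ} [NeZero M] {k : ℕ} {F : X → ℂ} (hF : F ∈ MX M k) :
    Rat.IsF M (k : ℤ) (res F) := by
  obtain ⟨f, rfl⟩ := hF
  rw [res_lift]
  exact Rat.IsF.of_modularForm f

lemma mem_MX_of_isF {M : ℕ} [NeZero M] {k : ℕ} {f : ℍ → ℂ} (hf : Rat.IsF M (k : ℤ) f) :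
    lift k f ∈ MX M k :=
  ⟨hf.toModularForm, rfl⟩

lemma qf_res_eq {M : ℕ} [NeZero M] (hM : Odd M) {k : ℕ} {F : X → ℂ} (hF : F ∈ MX M k) :
    qf (res F) = emb M ℂ (Rat.qe M (res F)) :=
  qf_eq' M hM (res_mem_PB hF)

lemma qf_res_coeff {M : ℕ} [NeZero M] (hM : Odd M) {k : ℕ} {F : X → ℂ} (hF : F ∈ MX M k) (n : ℕ) :
    (qf (res F)).coeff ((n : ℚ) / M) = (Rat.qe M (res F)).coeff n := by
  rw [qf_res_eq hM hF, emb_coeff]

lemma qf_res_coeff_one {k : ℕ} {F : X → ℂ} (hF : F ∈ MX 1 k) (n : ℕ) :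
    (qf (res F)).coeff (n : ℚ) = (Rat.qe 1 (res F)).coeff n := by
  have := qf_res_coeff (M := 1) odd_one hF n
  simpa using this

/-- **ORDER BOUND**, level one, in the language of `MX`. -/
theorem ord_bound {O : Subring ℂ} {I : AddSubgroup ℂ} (hI : ∀ a ∈ O, ∀ x ∈ I, a * x ∈ I)
    {k : ℕ} {A : X → ℂ} (hA : A ∈ MX 1 k) (hO : ∀ r, (qf (res A)).coeff r ∈ O)
    (hne : ∃ r, (qf (res A)).coeff r ∉ I) : ∃ n : ℕ, 12 * n ≤ k ∧ (qf (res A)).coeff (n : ℚ) ∉ I := by
  have h1 : ∃ n, (Rat.qe 1 (res A)).coeff n ∉ I := by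
    obtain ⟨r, hr⟩ := hne
    by_cases h : ∃ n : ℕ, (n : ℚ) / (1 : ℕ) = r
    · obtain ⟨n, rfl⟩ := h
      exact ⟨n, by rwa [qf_res_coeff (M := 1) odd_one hA] at hr⟩
    · exfalso
      push Not at h
      apply hr
      rw [qf_res_eq (M := 1) odd_one hA, emb_coeff_of_notMem 1 _ h]
      exact I.zero_mem
  obtain ⟨n, hn, hn'⟩ := Rat.ord_bound_one hI (isF_res hA)
    (fun n => by rw [← qf_res_coeff_one hA]; exact hO _) h1
  exact ⟨n, by exact_mod_cast hn, by rwa [qf_res_coeff_one hA]⟩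

end Crest.Agent.R007.Lat
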