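import Crest.Agent.R007.RatBasic

/-!
Row 7 (S0007), section A: translates, traces, and the interpolation identity.
-/

set_option autoImplicit false

noncomputable section

namespace Crest.Agent.R007.Rat

open UpperHalfPlane ModularForm CongruenceSubgroup Matrix.SpecialLinearGroup
open scoped MatrixGroups Manifold

variable {M : ℕ} {k l : ℤ} {f f' : ℍ → ℂ}

instance instNormalGamma (M : ℕ) : (Gamma M).Normal := Gamma_normal M

/-- The finite group `SL₂(ℤ)/Γ(M)`. -/
abbrev GM (M : ℕ) : Type := SL(2, ℤ) ⧸ Gamma M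

instance instFiniteGM [NeZero M] : Finite (GM M) := Subgroup.finite_quotient_of_finiteIndex

instance instFintypeGM [NeZero M] : Fintype (GM M) := Fintype.ofFinite _

/-- translate by a coset -/
def tr (k : ℤ) (f : ℍ → ℂ) (a : GM M) : ℍ → ℂ := f ∣[k] a.out

lemma tr_mk (hf : IsF M k f) (g : SL(2, ℤ)) : tr k f (g : GM M) = f ∣[k] g := by
  obtain ⟨h, hh⟩ := QuotientGroup.mk_out_eq_mul (Gamma M) g
  rw [tr, hh, SlashAction.slash_mul, (hf.slash_SL g).slash _ h.2]

lemma tr_one (hf : IsF M k f) : tr k f (1 : GM M) = f := by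
  have := tr_mk hf 1
  simpa using this

lemma tr_slash (hf : IsF M k f) (a : GM M) (g : SL(2, ℤ)) :
    tr k f a ∣[k] g = tr k f (a * (g : GM M)) := by
  induction a using QuotientGroup.induction_on with
  | H a => rw [← QuotientGroup.mk_mul, tr_mk hf, tr_mk hf, SlashAction.slash_mul]

lemma IsF.tr (hf : IsF M k f) (a : GM M) : IsF M k (tr k f a) := hf.slash_SL _

lemma tr_tr (hf : IsF M k f) (a b : GM M) : tr k (tr k f a) b = tr k f (a * b) := by
  induction b using QuotientGroup.induction_on with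
  | H b => rw [tr_mk (hf.tr a), tr_slash hf]

lemma tr_add (a : GM M) : tr k (f + f') a = tr k f a + tr k f' a := SlashAction.add_slash _ _ _ _

lemma tr_mul (a : GM M) : tr (k + l) (f * f') a = tr k f a * tr l f' a := mul_slash_SL2 _ _ _ _ _

lemma tr_prod {ι : Type*} (s : Finset ι) (F : ι → ℍ → ℂ) (k : ℤ) (a : GM M) :
    tr ((s.card : ℤ) * k) (∏ i ∈ s, F i) a = ∏ i ∈ s, tr k (F i) a := prod_slash' _ _ _ _

/-- The trace to level one. -/
def Tr (M : ℕ) [NeZero M] (k : ℤ) (f : ℍ → ℂ) : ℍ → ℂ := ∑ a : GM M, tr k f a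

lemma IsF.Tr [NeZero M] (hf : IsF M k f) : IsF 1 k (Tr M k f) where
  slash γ _ := by
    rw [Rat.Tr, SlashAction.sum_slash]
    simp_rw [tr_slash hf]
    exact Fintype.sum_equiv (Equiv.mulRight (γ : GM M)) _ _ (fun a => rfl)
  holo := (IsF.sum (M := M) Finset.univ _ (fun a _ => hf.tr a)).holo
  bdd g := (IsF.sum (M := M) Finset.univ _ (fun a _ => hf.tr a)).bdd g

/-- The set of nontrivial cosets. -/
def nt (M : ℕ) [NeZero M] : Finset (GM M) := by classical exact Finset.univ.erase 1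

lemma mem_nt [NeZero M] (a : GM M) : a ∈ nt M ↔ a ≠ 1 := by
  classical
  simp [nt]

/-- `δ = ∏_{a ≠ 1} (θ - θ|a)` -/
def del (M : ℕ) [NeZero M] (k : ℤ) (θ : ℍ → ℂ) : ℍ → ℂ := ∏ a ∈ nt M, (θ - tr k θ a)

/-- weight of δ -/
def wdel (M : ℕ) [NeZero M] (k : ℤ) : ℤ := ((nt M).card : ℤ) * k

lemma IsF.del [NeZero M] {θ : ℍ → ℂ} (hθ : IsF M k θ) : IsF M (wdel M k) (del M k θ) :=
  IsF.prod _ _ fun a _ => hθ.sub (hθ.tr a)

lemma del_ne_zero [NeZero M] {θ : ℍ → ℂ} (hθ : IsF M k θ)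
    (h : ∀ g : SL(2, ℤ), g ∉ Gamma M → θ ∣[k] g ≠ θ) : del M k θ ≠ 0 := by
  intro h0
  rw [del, prod_eq_zero_iff (fun a _ => (hθ.sub (hθ.tr a)).holo)] at h0
  obtain ⟨a, ha, h1⟩ := h0
  rw [mem_nt] at ha
  induction a using QuotientGroup.induction_on with
  | H g =>
    rw [tr_mk hθ] at h1
    refine h g ?_ (sub_eq_zero.mp h1).symm
    intro hg
    exact ha ((QuotientGroup.eq_one_iff g).mpr hg)

/-- The interpolation identity:
`F δ = ∑_t (-1)^|t| θ^{|s \ t|} Tr (F ∏_{a ∈ t} θ|a)`, `s` the set of nontrivial cosets. -/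
theorem interp [NeZero M] {θ F : ℍ → ℂ} {k₀ : ℤ} (hθ : IsF M k₀ θ) (hF : IsF M k F) :
    F * del M k₀ θ = ∑ t ∈ (nt M).powerset, ((-1 : ℂ) ^ t.card) •
      (θ ^ ((nt M).card - t.card) * Tr M (k + (t.card : ℤ) * k₀) (F * ∏ a ∈ t, tr k₀ θ a)) := by
  classical
  have key : ∀ b : GM M, ∏ a ∈ nt M, (θ - tr k₀ θ (a * b)) =
      ∑ t ∈ (nt M).powerset, ((-1 : ℂ) ^ t.card) •
        (θ ^ ((nt M).card - t.card) * ∏ a ∈ t, tr k₀ θ (a * b)) := by
    intro b
    have h1 : ∀ a, θ - tr k₀ θ (a * b) = (- tr k₀ θ (a * b)) + θ := by intro a; ring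
    simp_rw [h1]
    rw [Finset.prod_add]
    refine Finset.sum_congr rfl fun t ht => ?_
    rw [Finset.mem_powerset] at ht
    rw [Finset.prod_neg, Finset.prod_const, Finset.card_sdiff_of_subset ht]
    ext τ
    simp
    ring
  have htr : ∀ b : GM M, ∀ t : Finset (GM M),
      tr (k + (t.card : ℤ) * k₀) (F * ∏ a ∈ t, tr k₀ θ a) b =
        tr k F b * ∏ a ∈ t, tr k₀ θ (a * b) := by
    intro b t
    rw [tr_mul, tr_prod]
    simp_rw [tr_tr hθ]
  simp_rw [Tr, htr]
  have h2 : ∑ t ∈ (nt M).powerset, ((-1 : ℂ) ^ t.card) •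
      (θ ^ ((nt M).card - t.card) * ∑ b : GM M, tr k F b * ∏ a ∈ t, tr k₀ θ (a * b)) =
      ∑ b : GM M, tr k F b * ∏ a ∈ nt M, (θ - tr k₀ θ (a * b)) := by
    simp_rw [key, Finset.mul_sum, Finset.smul_sum]
    rw [Finset.sum_comm]
    refine Finset.sum_congr rfl fun b _ => Finset.sum_congr rfl fun t _ => ?_
    ext τ
    simp
    ring
  rw [h2, Finset.sum_eq_single (1 : GM M)]
  · rw [tr_one hF]
    simp [del]
  · intro b _ hb
    have : ∏ a ∈ nt M, (θ - tr k₀ θ (a * b)) = 0 := by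
      refine Finset.prod_eq_zero (i := b⁻¹) ?_ ?_
      · rw [mem_nt]; simpa using hb
      · rw [inv_mul_cancel, tr_one hθ, sub_self]
    rw [this, mul_zero]
  · simp

/-- elementary symmetric functions of the translates -/
def esy (M : ℕ) [NeZero M] (k : ℤ) (F : ℍ → ℂ) (i : ℕ) : ℍ → ℂ :=
  ∑ t ∈ Finset.powersetCard i (Finset.univ : Finset (GM M)), ∏ a ∈ t, tr k F a

lemma esy_zero [NeZero M] (k : ℤ) (F : ℍ → ℂ) : esy M k F 0 = 1 := by
  simp [esy]

lemma IsF.esy [NeZero M] {F : ℍ → ℂ} (hF : IsF M k F) (i : ℕ) : IsF 1 ((i : ℤ) * k) (esy M k F i) := by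
  classical
  have h0 : IsF M ((i : ℤ) * k) (Rat.esy M k F i) := by
    refine IsF.sum _ _ fun t ht => ?_
    rw [Finset.mem_powersetCard] at ht
    have := IsF.prod t (fun a => Rat.tr k F a) (fun a _ => hF.tr a)
    rwa [ht.2] at this
  refine ⟨?_, h0.holo, h0.bdd⟩
  intro γ _
  rw [Rat.esy, SlashAction.sum_slash]
  have h1 : ∀ t ∈ Finset.powersetCard i (Finset.univ : Finset (GM M)),
      (∏ a ∈ t, Rat.tr k F a) ∣[(i : ℤ) * k] γ = ∏ a ∈ t.map (Equiv.mulRight (γ : GM M)).toEmbedding,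
        Rat.tr k F a := by
    intro t ht
    rw [Finset.mem_powersetCard] at ht
    have := prod_slash' t (fun a => Rat.tr k F a) k γ
    rw [ht.2] at this
    rw [this, Finset.prod_map]
    exact Finset.prod_congr rfl fun a _ => tr_slash hF a γ
  rw [Finset.sum_congr rfl h1]
  refine Finset.sum_bij' (fun t _ => t.map (Equiv.mulRight (γ : GM M)).toEmbedding)
    (fun t _ => t.map (Equiv.mulRight (γ : GM M)).symm.toEmbedding) ?_ ?_ ?_ ?_ ?_
  · intro t ht
    rw [Finset.mem_powersetCard] at ht ⊢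
    exact ⟨Finset.subset_univ _, by rw [Finset.card_map, ht.2]⟩
  · intro t ht
    rw [Finset.mem_powersetCard] at ht ⊢
    exact ⟨Finset.subset_univ _, by rw [Finset.card_map, ht.2]⟩
  · intro t _
    ext x
    simp
  · intro t _
    ext x
    simp
  · intro t _
    rfl

/-- `F` is a root of its norm polynomial. -/
theorem norm_root [NeZero M] {F : ℍ → ℂ} (hF : IsF M k F) :
    ∑ i ∈ Finset.range (Fintype.card (GM M) + 1), ((-1 : ℂ) ^ i) •
      (esy M k F i * F ^ (Fintype.card (GM M) - i)) = 0 := by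
  classical
  have h0 : ∏ a : GM M, (F - tr k F a) = 0 :=
    Finset.prod_eq_zero (i := (1 : GM M)) (Finset.mem_univ _) (by rw [tr_one hF, sub_self])
  rw [← h0]
  have h1 : ∀ a : GM M, F - tr k F a = (- tr k F a) + F := by intro a; ring
  simp_rw [h1]
  rw [Finset.prod_add, Finset.sum_powerset]
  rw [Finset.card_univ]
  refine Finset.sum_congr rfl fun i _ => ?_
  rw [esy, Finset.sum_mul, Finset.smul_sum]
  refine Finset.sum_congr rfl fun t ht => ?_
  rw [Finset.mem_powersetCard] at ht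
  rw [Finset.prod_neg, Finset.prod_const, Finset.card_sdiff_of_subset ht.1, ht.2, Finset.card_univ]
  ext τ
  simp
  ring

end Crest.Agent.R007.Rat
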