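import Crest.Agent.R007.Tc3

/-!
Row 7, section E (formal Tate curve), part 1: functions on the upper half plane represented by
power series in `y = q^{1/3}`.
-/

set_option autoImplicit false

namespace Crest.Agent.R007.Tate

open Crest.Agent.R007.Wp Crest.Agent.R007.Rat Crest.Agent.R007.WpId Crest.Agent.R007.Tc
open UpperHalfPlane hiding I
open Complex PeriodPair ModularForm Matrix Function Filter
open scoped MatrixGroups Real PeriodPair Manifold Topology

local notation "𝕢" => Function.Periodic.qParam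

noncomputable section

/-- `f(τ) = p(q^{1/3})`. -/
def Rep (p : PowerSeries ℂ) (f : ℍ → ℂ) : Prop :=
  ∀ τ : ℍ, HasSum (fun n => PowerSeries.coeff n p * 𝕢 (3 : ℝ) (τ : ℂ) ^ n) (f τ)

variable {p p' : PowerSeries ℂ} {f f' : ℍ → ℂ}

lemma Rep.add (h : Rep p f) (h' : Rep p' f') : Rep (p + p') (f + f') := fun τ => by
  have := (h τ).add (h' τ)
  simpa [add_mul] using this

lemma Rep.sub (h : Rep p f) (h' : Rep p' f') : Rep (p - p') (f - f') := fun τ => by
  have := (h τ).sub (h' τ)
  simpa [sub_mul] using this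

lemma Rep.C (c : ℂ) : Rep (PowerSeries.C c) (fun _ => c) := fun τ => by
  have := hasSum_single (f := fun n => PowerSeries.coeff n (PowerSeries.C c) *
    𝕢 (3 : ℝ) (τ : ℂ) ^ n) 0 (by
      intro n hn
      simp [PowerSeries.coeff_C, hn])
  simpa using this

lemma Rep.mul (h : Rep p f) (h' : Rep p' f') : Rep (p * p') (f * f') := fun τ => by
  have h1 := (h τ).summable.norm
  have h2 := (h' τ).summable.norm
  have h3 := (summable_norm_sum_mul_antidiagonal_of_summable_norm h1 h2).of_norm.hasSum
  rw [← tsum_mul_tsum_eq_tsum_sum_antidiagonal_of_summable_norm h1 h2, (h τ).tsum_eq,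
    (h' τ).tsum_eq] at h3
  refine HasSum.congr_fun' h3 fun n => ?_
  rw [PowerSeries.coeff_mul, Finset.sum_mul]
  refine Finset.sum_congr rfl fun x hx => ?_
  rw [← Finset.HasAntidiagonal.mem_antidiagonal.1 hx, pow_add]
  ring

lemma Rep.pow (h : Rep p f) (n : ℕ) : Rep (p ^ n) (f ^ n) := by
  induction n with
  | zero =>
    rw [pow_zero, pow_zero]
    have := Rep.C 1
    rwa [map_one] at this
  | succ n ih => rw [pow_succ, pow_succ]; exact ih.mul h

lemma Rep.eq_zero (h : Rep p 0) : p = 0 := by
  have h1 := hasFPowerSeries_of_hasSum (h := 3) (by norm_num) h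
  have h2 : ∀ᶠ q in 𝓝[≠] (0 : ℂ), (fun q : ℂ => ∑' n, PowerSeries.coeff n p * q ^ n) q = 0 := by
    rw [eventually_nhdsWithin_iff]
    filter_upwards [Metric.ball_mem_nhds (0 : ℂ) one_pos] with q hq hq0
    rw [mem_ball_zero_iff] at hq
    have h3 := Periodic.im_invQParam_pos_of_norm_lt_one (h := 3) (by norm_num) hq hq0
    have h4 := (h ⟨Periodic.invQParam 3 q, h3⟩).tsum_eq
    simpa [Periodic.qParam_right_inv (h := 3) (by norm_num) hq0] using h4
  have h3 := h1.hasFPowerSeriesAt
  have h4 := h3.analyticAt.frequently_zero_iff_eventually_zero.1 h2.frequently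
  have h5 := (h3.congr h4).eq_zero
  rw [FormalMultilinearSeries.ofScalars_series_eq_zero] at h5
  ext n
  have := congrFun h5 n
  simpa using this

lemma Rep.unique (h : Rep p f) (h' : Rep p' f) : p = p' := by
  rw [← sub_eq_zero]
  apply Rep.eq_zero
  have := h.sub h'
  rwa [sub_self] at this

lemma rep_qe {k : ℤ} (hf : IsF 3 k f) : Rep (qe 3 f) f := fun τ => by
  have := UpperHalfPlane.hasSum_qExpansion (h := ((3 : ℕ) : ℝ)) (by norm_num) hf.periodic hf.holo
    hf.bdd_infty τ
  simpa using! this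

lemma rep_sQ (v : Fin 2 → ℤ) : Rep (sQ 3 v) (Q 3 v) := fun τ => by
  have := hasSum_Q (M := 3) (by norm_num) v τ
  simpa [sQ] using this

end

end Crest.Agent.R007.Tate
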