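import Crest.Agent.R007.Tate1

/-!
Row 7, section E (formal Tate curve), part 2: the universal series and their values at the
roots of unity `exp(2πi/M)`.
-/

set_option autoImplicit false

namespace Crest.Agent.R007.Tate

open Crest.Agent.R007.Wp Crest.Agent.R007.Rat Crest.Agent.R007.WpId Crest.Agent.R007.Tc
open UpperHalfPlane hiding I
open Complex PeriodPair ModularForm Matrix Function Filter
open scoped MatrixGroups Real PeriodPair Manifold Topology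

local notation "𝕢" => Function.Periodic.qParam

noncomputable section

section ring

variable {R : Type*} [CommRing R]

/-- `∑_N y^{3N} ∑_{d ∣ N} d (u^d + u^{-d} - 2)` -/
def S1 (u : Rˣ) : PowerSeries R := PowerSeries.mk fun n =>
  if 3 ∣ n then ∑ d ∈ (n / 3).divisors,
    (d : R) * (((u ^ d : Rˣ) : R) + ((u⁻¹ ^ d : Rˣ) : R) - 2) else 0

/-- `∑_N y^{3N} ∑_{d ∣ N} d² (u^d - u^{-d})` -/
def S2 (u : Rˣ) : PowerSeries R := PowerSeries.mk fun n =>
  if 3 ∣ n then ∑ d ∈ (n / 3).divisors,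
    (d : R) ^ 2 * (((u ^ d : Rˣ) : R) - ((u⁻¹ ^ d : Rˣ) : R)) else 0

lemma map_S1 {R' : Type*} [CommRing R'] (φ : R →+* R') (u : Rˣ) :
    PowerSeries.map φ (S1 u) = S1 (Units.map φ u) := by
  ext n
  rw [PowerSeries.coeff_map, S1, S1, PowerSeries.coeff_mk, PowerSeries.coeff_mk]
  split_ifs
  · simp [map_sum, map_ofNat]
  · simp

lemma map_S2 {R' : Type*} [CommRing R'] (φ : R →+* R') (u : Rˣ) :
    PowerSeries.map φ (S2 u) = S2 (Units.map φ u) := by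
  ext n
  rw [PowerSeries.coeff_map, S2, S2, PowerSeries.coeff_mk, PowerSeries.coeff_mk]
  split_ifs
  · simp [map_sum]
  · simp

end ring

lemma sum_filter_dvd {M : ℕ} (hM : M ≠ 0) (N : ℕ) (F : ℕ → ℂ) :
    ∑ p ∈ (M * N).divisorsAntidiagonal, (if M ∣ p.1 then F p.2 else 0) = ∑ d ∈ N.divisors, F d := by
  rw [← Finset.sum_filter]
  refine Finset.sum_nbij' (fun p => p.2) (fun d => (M * (N / d), d)) ?_ ?_ ?_ ?_ ?_
  · intro p hp
    rw [Finset.mem_filter, Nat.mem_divisorsAntidiagonal] at hp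
    obtain ⟨⟨h1, h2⟩, e, he⟩ := hp
    rw [Nat.mem_divisors]
    refine ⟨⟨e, ?_⟩, fun h => h2 (by rw [h, mul_zero])⟩
    rw [he, mul_assoc] at h1
    rw [mul_comm, Nat.eq_of_mul_eq_mul_left (Nat.pos_of_ne_zero hM) h1]
  · intro d hd
    rw [Nat.mem_divisors] at hd
    rw [Finset.mem_filter, Nat.mem_divisorsAntidiagonal]
    refine ⟨⟨?_, mul_ne_zero hM hd.2⟩, dvd_mul_right _ _⟩
    simp only
    rw [mul_assoc, Nat.div_mul_cancel hd.1]
  · intro p hp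
    rw [Finset.mem_filter, Nat.mem_divisorsAntidiagonal] at hp
    obtain ⟨⟨h1, h2⟩, e, he⟩ := hp
    rw [he, mul_assoc] at h1
    have h3 := Nat.eq_of_mul_eq_mul_left (Nat.pos_of_ne_zero hM) h1
    have h4 : p.2 ≠ 0 := fun h => h2 (by rw [← h3, h]; simp)
    ext
    · simp only
      rw [← h3, Nat.mul_div_cancel _ (Nat.pos_of_ne_zero h4), he]
    · rfl
  · intro d hd
    rfl
  · intro p hp
    rfl

/-- the vector `(0, 1)` -/
def v01 : Fin 2 → ℤ := ![0, 1]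

lemma chi_v01 {M : ℕ} (s : ℕ) (β : ℤ) (d e : ℕ) : chi M s 0 β d e =
    if M ∣ e then (d : ℂ) ^ s * ((zeta M ^ β) ^ d + (-1) ^ (s + 1) * (zeta M ^ (-β)) ^ d) else 0 := by
  unfold chi
  by_cases h : M ∣ e
  · have h1 : ((e : ℤ) : ZMod M) = ((0 : ℤ) : ZMod M) := by
      rw [Int.cast_natCast, Int.cast_zero]; exact (ZMod.natCast_eq_zero_iff e M).2 h
    have h2 : ((-(e : ℤ) : ℤ) : ZMod M) = ((0 : ℤ) : ZMod M) := by
      rw [Int.cast_neg, h1]; simp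
    rw [if_pos h1, if_pos h2, if_pos h]
    ring
  · have h1 : ¬ ((e : ℤ) : ZMod M) = ((0 : ℤ) : ZMod M) := by
      rw [Int.cast_natCast, Int.cast_zero]; exact fun h' => h ((ZMod.natCast_eq_zero_iff e M).1 h')
    have h2 : ¬ ((-(e : ℤ) : ℤ) : ZMod M) = ((0 : ℤ) : ZMod M) := by
      intro h'
      apply h1
      rw [Int.cast_neg, Int.cast_zero, neg_eq_zero] at h'
      rw [h', Int.cast_zero]
    rw [if_neg h1, if_neg h2, if_neg h]
    ring

/-- `exp(2πi/M)` as a unit -/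
def zu (M : ℕ) : ℂˣ := Units.mk0 (zeta M) (zeta_ne_zero M)

lemma zu_val (M : ℕ) : ((zu M : ℂˣ) : ℂ) = zeta M := rfl

lemma zu_inv_val (M : ℕ) : (((zu M)⁻¹ : ℂˣ) : ℂ) = (zeta M)⁻¹ := by simp [zu]

lemma zu_pow_val (M d : ℕ) : (((zu M) ^ d : ℂˣ) : ℂ) = zeta M ^ d := by
  rw [Units.val_pow_eq_pow_val, zu_val]

lemma zu_inv_pow_val (M d : ℕ) : (((zu M)⁻¹ ^ d : ℂˣ) : ℂ) = (zeta M)⁻¹ ^ d := by
  rw [Units.val_pow_eq_pow_val, zu_inv_val]

lemma cQ_v01 {M : ℕ} (hM : M ≠ 0) (N : ℕ) : cQ M v01 (M * N) = (if N = 0 then cQ0 M v01 else 0) +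
    ∑ d ∈ N.divisors, (d : ℂ) ^ 2 * (((zu M ^ d : ℂˣ) : ℂ) - (((zu M)⁻¹ ^ d : ℂˣ) : ℂ)) := by
  rw [cQ, ← sum_filter_dvd hM]
  congr 1
  · simp [hM]
  · refine Finset.sum_congr rfl fun p _ => ?_
    rw [show v01 0 = 0 from rfl, show v01 1 = 1 from rfl, chi_v01, zu_pow_val, zu_inv_pow_val]
    split_ifs
    · rw [_root_.zpow_neg, _root_.zpow_one]
      ring
    · rfl

lemma cP_v01 {M : ℕ} (hM : M ≠ 0) (N : ℕ) : cP M v01 (M * N) = (if N = 0 then cP0 M v01 else 0) +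
    ∑ d ∈ N.divisors, (d : ℂ) * (((zu M ^ d : ℂˣ) : ℂ) + (((zu M)⁻¹ ^ d : ℂˣ) : ℂ) - 2) := by
  rw [cP, ← sum_filter_dvd hM]
  congr 1
  · simp [hM]
  · refine Finset.sum_congr rfl fun p _ => ?_
    rw [show v01 0 = 0 from rfl, show v01 1 = 1 from rfl, chi_v01, chi_v01, zu_pow_val,
      zu_inv_pow_val]
    split_ifs
    · rw [_root_.zpow_neg, _root_.zpow_one, neg_zero, _root_.zpow_zero, one_pow]
      ring
    · ring

lemma cQ_v01_of_not {M : ℕ} {n : ℕ} (hn : ¬ M ∣ n) : cQ M v01 n = 0 := by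
  have h0 : n ≠ 0 := by rintro rfl; exact hn (dvd_zero M)
  rw [cQ, if_neg h0, zero_add]
  refine Finset.sum_eq_zero fun p hp => ?_
  rw [Nat.mem_divisorsAntidiagonal] at hp
  rw [show v01 0 = 0 from rfl, show v01 1 = 1 from rfl, chi_v01, if_neg]
  intro h
  exact hn (h.trans ⟨p.2, hp.1.symm⟩)

lemma cP_v01_of_not {M : ℕ} {n : ℕ} (hn : ¬ M ∣ n) : cP M v01 n = 0 := by
  have h0 : n ≠ 0 := by rintro rfl; exact hn (dvd_zero M)
  rw [cP, if_neg h0, zero_add]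
  refine Finset.sum_eq_zero fun p hp => ?_
  rw [Nat.mem_divisorsAntidiagonal] at hp
  have h1 : ¬ M ∣ p.1 := fun h => hn (h.trans ⟨p.2, hp.1.symm⟩)
  rw [show v01 0 = 0 from rfl, show v01 1 = 1 from rfl, chi_v01, chi_v01, if_neg h1, if_neg h1,
    sub_zero]

lemma qParam_pow {M : ℕ} (hM : M ≠ 0) (τ : ℍ) : 𝕢 (M : ℝ) (τ : ℂ) ^ M = 𝕢 1 (τ : ℂ) := by
  have hM' : (M : ℂ) ≠ 0 := by exact_mod_cast hM
  rw [Periodic.qParam, Periodic.qParam, ← Complex.exp_nat_mul]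
  congr 1
  push_cast
  field_simp

/-- transfer of a sum over multiples of `M` to a power series in `y³`. -/
lemma rep_of_hasSum {M : ℕ} (hM : M ≠ 0) {f : ℍ → ℂ} {c : ℕ → ℂ} (p : PowerSeries ℂ)
    (hs : ∀ τ : ℍ, HasSum (fun n : ℕ => c n * 𝕢 (M : ℝ) (τ : ℂ) ^ n) (f τ))
    (h0 : ∀ n, ¬ M ∣ n → c n = 0) (hp : ∀ n, ¬ 3 ∣ n → PowerSeries.coeff n p = 0)
    (h : ∀ N, PowerSeries.coeff (3 * N) p = c (M * N)) : Rep p f := fun τ => by
  have i1 : Function.Injective fun N : ℕ => M * N := fun a b hab =>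
    Nat.eq_of_mul_eq_mul_left (Nat.pos_of_ne_zero hM) hab
  have i2 : Function.Injective fun N : ℕ => 3 * N := fun a b hab =>
    Nat.eq_of_mul_eq_mul_left (by norm_num) hab
  have h1 := (i1.hasSum_iff (f := fun n : ℕ => c n * 𝕢 (M : ℝ) (τ : ℂ) ^ n) (a := f τ) (by
    intro n hn
    have : ¬ M ∣ n := fun ⟨k, hk⟩ => hn ⟨k, hk.symm⟩
    rw [h0 n this, zero_mul])).2 (hs τ)
  have h2 := (i2.hasSum_iff (f := fun n : ℕ => PowerSeries.coeff n p * 𝕢 (3 : ℝ) (τ : ℂ) ^ n)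
    (a := f τ) (by
    intro n hn
    have : ¬ 3 ∣ n := fun ⟨k, hk⟩ => hn ⟨k, hk.symm⟩
    rw [hp n this, zero_mul]))
  rw [← h2]
  refine HasSum.congr_fun' h1 fun N => ?_
  simp only [Function.comp_apply]
  have e3 := qParam_pow (M := 3) (by norm_num) τ
  rw [h, pow_mul, pow_mul, qParam_pow hM, ← e3]
  norm_num

lemma rep_Q {M : ℕ} (hM : M ≠ 0) : Rep (S2 (zu M) + PowerSeries.C (cQ0 M v01)) (Q M v01) := by
  refine rep_of_hasSum hM _ (hasSum_Q hM v01) (fun n hn => cQ_v01_of_not hn) ?_ ?_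
  · intro n hn
    have h0 : n ≠ 0 := by rintro rfl; exact hn (dvd_zero 3)
    rw [map_add, S2, PowerSeries.coeff_mk, if_neg hn, PowerSeries.coeff_C, if_neg h0, add_zero]
  · intro N
    rw [cQ_v01 hM, map_add, S2, PowerSeries.coeff_mk, if_pos (dvd_mul_right 3 N),
      Nat.mul_div_cancel_left N (by norm_num), PowerSeries.coeff_C, add_comm]
    simp

lemma rep_P {M : ℕ} (hM : M ≠ 0) : Rep (S1 (zu M) + PowerSeries.C (cP0 M v01)) (P M v01) := by
  refine rep_of_hasSum hM _ (hasSum_P hM v01) (fun n hn => cP_v01_of_not hn) ?_ ?_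
  · intro n hn
    have h0 : n ≠ 0 := by rintro rfl; exact hn (dvd_zero 3)
    rw [map_add, S1, PowerSeries.coeff_mk, if_neg hn, PowerSeries.coeff_C, if_neg h0, add_zero]
  · intro N
    rw [cP_v01 hM, map_add, S1, PowerSeries.coeff_mk, if_pos (dvd_mul_right 3 N),
      Nat.mul_div_cancel_left N (by norm_num), PowerSeries.coeff_C, add_comm]
    simp

end

end Crest.Agent.R007.Tate
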