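import Crest.Agent.R007.Tate2

/-!
Row 7, section E (formal Tate curve), part 3: the universal Weierstrass equation.
-/

set_option autoImplicit false

namespace Crest.Agent.R007.Tate

open Crest.Agent.R007.Wp Crest.Agent.R007.Rat Crest.Agent.R007.WpId Crest.Agent.R007.Tc
open UpperHalfPlane hiding I
open Complex PeriodPair ModularForm Matrix Function Filter
open scoped MatrixGroups Real PeriodPair Manifold Topology

noncomputable section

section ident

variable {R : Type*} [CommRing R]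

/-- `(1-u)² ℘` -/
def XX (i : ℂ →+* R) (u : Rˣ) : PowerSeries R :=
  PowerSeries.C (u : R) + PowerSeries.C ((1 - (u : R)) ^ 2) * (S1 u + PowerSeries.C (i (1 / 12)))

/-- `(u-1)³ ℘'` -/
def HH (u : Rˣ) : PowerSeries R :=
  -PowerSeries.C ((u : R) * (1 + u)) + PowerSeries.C (((u : R) - 1) ^ 3) * S2 u

/-- the defect of the Weierstrass equation -/
def Dft (e4 e6 : PowerSeries ℂ) (i : ℂ →+* R) (u : Rˣ) : PowerSeries R :=
  HH u ^ 2 - 4 * XX i u ^ 3 + PowerSeries.C (i (1 / 12)) * PowerSeries.map i e4 *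
    PowerSeries.C (((u : R) - 1) ^ 4) * XX i u -
    PowerSeries.C (i (1 / 216)) * PowerSeries.map i e6 * PowerSeries.C (((u : R) - 1) ^ 6)

variable {R' : Type*} [CommRing R'] (φ : R →+* R')

lemma map_XX (i : ℂ →+* R) (u : Rˣ) :
    PowerSeries.map φ (XX i u) = XX (φ.comp i) (Units.map φ u) := by
  simp only [XX, map_add, map_mul, map_S1, PowerSeries.map_C, map_pow, map_sub, map_one,
    RingHom.comp_apply, Units.coe_map, MonoidHom.coe_coe]

lemma map_HH (u : Rˣ) : PowerSeries.map φ (HH u) = HH (Units.map φ u) := by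
  simp only [HH, map_add, map_mul, map_neg, map_S2, PowerSeries.map_C, map_pow, map_sub, map_one,
    Units.coe_map, MonoidHom.coe_coe]

lemma map_Dft (e4 e6 : PowerSeries ℂ) (i : ℂ →+* R) (u : Rˣ) :
    PowerSeries.map φ (Dft e4 e6 i u) = Dft e4 e6 (φ.comp i) (Units.map φ u) := by
  have h : ∀ p : PowerSeries ℂ, PowerSeries.map φ (PowerSeries.map i p) =
      PowerSeries.map (φ.comp i) p := fun p => by
    ext n; simp
  simp only [Dft, map_add, map_mul, map_sub, map_HH, map_XX, PowerSeries.map_C, map_pow,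
    map_one, RingHom.comp_apply, Units.coe_map, MonoidHom.coe_coe, h, map_ofNat]

end ident

section zeta

variable {v : Fin 2 → ℤ} (hv : NZ 3 v)

/-- the `q`-series of `E₄` -/
def e4 (v : Fin 2 → ℤ) : PowerSeries ℂ := qe 3 (A1 v) ^ 4 - 24 * qe 3 (A1 v) * sQ 3 v

/-- the `q`-series of `E₆` -/
def e6 (v : Fin 2 → ℤ) : PowerSeries ℂ :=
  qe 3 (A1 v) ^ 6 - 36 * qe 3 (A1 v) ^ 3 * sQ 3 v + 216 * sQ 3 v ^ 2

lemma NZ_v01 {M : ℕ} (hM : 2 ≤ M) : NZ M v01 := by
  right
  have : Fact (1 < M) := ⟨hM⟩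
  simp [v01]

lemma rep_natCast (n : ℕ) : Rep (n : PowerSeries ℂ) (fun _ => (n : ℂ)) := by
  have := Rep.C (n : ℂ)
  rwa [map_natCast] at this

include hv in
lemma rep_e4 : Rep (e4 v) (E (k := 4) (by norm_num) : ℍ → ℂ) := by
  have ha := rep_qe (isF_A1 hv)
  have hb := rep_sQ v
  have h := (ha.pow 4).sub (((rep_natCast 24).mul ha).mul hb)
  have e : (E (k := 4) (by norm_num) : ℍ → ℂ) =
      (A1 v ^ 4 - (fun _ => ((24 : ℕ) : ℂ)) * A1 v * Q 3 v : ℍ → ℂ) := by
    funext τ
    rw [E4_eq hv τ]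
    simp only [Pi.sub_apply, Pi.mul_apply, Pi.pow_apply, A3]
    push_cast
    ring
  rw [e, e4]
  exact_mod_cast h

include hv in
lemma rep_e6 : Rep (e6 v) (E (k := 6) (by norm_num) : ℍ → ℂ) := by
  have ha := rep_qe (isF_A1 hv)
  have hb := rep_sQ v
  have h := ((ha.pow 6).sub (((rep_natCast 36).mul (ha.pow 3)).mul hb)).add
    ((rep_natCast 216).mul (hb.pow 2))
  have e : (E (k := 6) (by norm_num) : ℍ → ℂ) =
      (A1 v ^ 6 - (fun _ => ((36 : ℕ) : ℂ)) * A1 v ^ 3 * Q 3 v +
        (fun _ => ((216 : ℕ) : ℂ)) * Q 3 v ^ 2 : ℍ → ℂ) := by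
    funext τ
    rw [E6_eq hv τ]
    simp only [Pi.sub_apply, Pi.mul_apply, Pi.pow_apply, Pi.add_apply, A3]
    push_cast
    ring
  rw [e, e6]
  exact_mod_cast h

include hv in
theorem Dft_zeta {M : ℕ} (hM : 2 ≤ M) : Dft (e4 v) (e6 v) (RingHom.id ℂ) (zu M) = 0 := by
  have hM0 : M ≠ 0 := by omega
  have hN := NZ_v01 hM
  have hb : (v01 1 : ZMod M) ≠ 0 := by
    rcases hN with h | h
    · simp [v01] at h
    · exact h
  have hz : 1 - zeta M ≠ 0 := by
    have := Wp.zeta_zpow_ne_one hM0 hb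
    simpa [v01] using this
  have hP := rep_P hM0
  have hQ := rep_Q hM0
  -- the relation between the series
  have hrel : (S2 (zu M) + PowerSeries.C (cQ0 M v01)) ^ 2 =
      PowerSeries.C (4 : ℂ) * (S1 (zu M) + PowerSeries.C (cP0 M v01)) ^ 3 -
      PowerSeries.C (1 / 12 : ℂ) * e4 v * (S1 (zu M) + PowerSeries.C (cP0 M v01)) +
      PowerSeries.C (1 / 216 : ℂ) * e6 v := by
    have h1 := hQ.pow 2
    have h2 := (((Rep.C 4).mul (hP.pow 3)).sub (((Rep.C (1 / 12)).mul (rep_e4 hv)).mul hP)).add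
      ((Rep.C (1 / 216)).mul (rep_e6 hv))
    refine h1.unique ?_
    have e : (Q M v01 ^ 2 : ℍ → ℂ) = (fun _ => (4 : ℂ)) * P M v01 ^ 3 -
        (fun _ => (1 / 12 : ℂ)) * (E (k := 4) (by norm_num) : ℍ → ℂ) * P M v01 +
        (fun _ => (1 / 216 : ℂ)) * (E (k := 6) (by norm_num) : ℍ → ℂ) := by
      funext τ
      simp only [Pi.sub_apply, Pi.mul_apply, Pi.pow_apply, Pi.add_apply]
      rw [Q_sq hM0 hN τ]
      ring
    rw [e]
    exact h2
  have hXX : XX (RingHom.id ℂ) (zu M) =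
      PowerSeries.C ((1 - zeta M) ^ 2) * (S1 (zu M) + PowerSeries.C (cP0 M v01)) := by
    have e1 : (1 - zeta M) ^ 2 * cP0 M v01 = zeta M + (1 - zeta M) ^ 2 * (1 / 12) := by
      rw [cP0_eq hM0 hN, if_pos (by simp [v01]), show v01 1 = 1 from rfl, _root_.zpow_one]
      field_simp
      ring
    rw [XX, zu_val, mul_add, mul_add, ← map_mul, ← map_mul, e1, map_add, RingHom.id_apply]
    ring
  have hHH : HH (zu M) =
      PowerSeries.C ((zeta M - 1) ^ 3) * (S2 (zu M) + PowerSeries.C (cQ0 M v01)) := by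
    have e1 : (zeta M - 1) ^ 3 * cQ0 M v01 = -(zeta M * (1 + zeta M)) := by
      rw [cQ0_eq hM0 hN, if_pos (by simp [v01]), show v01 1 = 1 from rfl, _root_.zpow_one]
      field_simp
      ring
    rw [HH, zu_val, ← map_neg, ← e1, map_mul]
    ring
  rw [Dft, hXX, hHH, zu_val]
  have h4 : (4 : PowerSeries ℂ) = PowerSeries.C 4 := by rw [map_ofNat]
  have hid : ∀ p : PowerSeries ℂ, PowerSeries.map (RingHom.id ℂ) p = p := fun p => by
    ext n; simp
  rw [h4, hid, hid]
  simp only [map_pow, map_sub, map_one, RingHom.id_apply]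
  linear_combination (PowerSeries.C (zeta M) - 1) ^ 6 * hrel

end zeta

section laurent

lemma zeta_injective {M N : ℕ} (hM : M ≠ 0) (hN : N ≠ 0) (h : zeta M = zeta N) : M = N := by
  have h1 := isPrimitiveRoot_zeta hM
  have h2 := isPrimitiveRoot_zeta hN
  rw [h] at h1
  exact h1.unique h2

lemma laurent_eq_zero (p : LaurentPolynomial ℂ)
    (h : ∀ M, 2 ≤ M → LaurentPolynomial.eval₂ (RingHom.id ℂ) (zu M) p = 0) : p = 0 := by
  obtain ⟨n, f, hf⟩ := p.exists_T_pow
  have hroot : ∀ M, 2 ≤ M → f.IsRoot (zeta M) := fun M hM => by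
    have h1 := congrArg (LaurentPolynomial.eval₂ (RingHom.id ℂ) (zu M)) hf
    rw [LaurentPolynomial.eval₂_toLaurent, map_mul, h M hM, zero_mul, zu_val] at h1
    exact h1
  have hf0 : f = 0 := by
    refine Polynomial.eq_zero_of_infinite_isRoot f ?_
    refine Set.infinite_of_injective_forall_mem (f := fun k : ℕ => zeta (k + 2)) ?_ ?_
    · intro a b hab
      have := zeta_injective (by omega) (by omega) hab
      omega
    · intro k
      exact hroot _ (by omega)
  have h2 : p = p * LaurentPolynomial.T n * LaurentPolynomial.T (-n) := by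
    rw [mul_assoc, ← LaurentPolynomial.T_add, add_neg_cancel, LaurentPolynomial.T_zero, mul_one]
  rw [h2, ← hf, hf0, map_zero, zero_mul]

/-- the variable of the Laurent polynomial ring as a unit -/
def tu : (LaurentPolynomial ℂ)ˣ where
  val := LaurentPolynomial.T 1
  inv := LaurentPolynomial.T (-1)
  val_inv := by rw [← LaurentPolynomial.T_add, add_neg_cancel, LaurentPolynomial.T_zero]
  inv_val := by rw [← LaurentPolynomial.T_add, neg_add_cancel, LaurentPolynomial.T_zero]

lemma map_tu {R : Type*} [CommRing R] (i : ℂ →+* R) (u : Rˣ) :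
    Units.map (LaurentPolynomial.eval₂ i u : LaurentPolynomial ℂ →* R) tu = u := by
  apply Units.ext
  rw [Units.coe_map]
  change LaurentPolynomial.eval₂ i u (LaurentPolynomial.T 1) = u
  rw [LaurentPolynomial.eval₂_T, _root_.zpow_one]

lemma eval₂_comp_C {R : Type*} [CommRing R] (i : ℂ →+* R) (u : Rˣ) :
    (LaurentPolynomial.eval₂ i u).comp LaurentPolynomial.C = i := by
  ext x
  rw [RingHom.comp_apply, LaurentPolynomial.eval₂_C]

variable {v : Fin 2 → ℤ} (hv : NZ 3 v)

include hv in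
theorem Dft_laurent : Dft (e4 v) (e6 v) LaurentPolynomial.C tu = 0 := by
  ext1 n
  rw [map_zero]
  apply laurent_eq_zero
  intro M hM
  rw [← PowerSeries.coeff_map, map_Dft, eval₂_comp_C, map_tu, Dft_zeta hv hM, map_zero]

include hv in
/-- **the universal Weierstrass equation** -/
theorem Dft_eq_zero {R : Type*} [CommRing R] (i : ℂ →+* R) (u : Rˣ) :
    Dft (e4 v) (e6 v) i u = 0 := by
  have h := congrArg (PowerSeries.map (LaurentPolynomial.eval₂ i u)) (Dft_laurent hv)
  rwa [map_Dft, eval₂_comp_C, map_tu, map_zero] at h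

end laurent

end

end Crest.Agent.R007.Tate
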