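import Crest.Agent.R007.Tate3

/-!
Row 7, section E (formal Tate curve), part 4: exchange of the variables and the final statement.

`A = ℂ[[y]]`, `y = q^{1/3}`, `a = qe 3 (A1 v)`, `b = sQ 3 v`.  The series `ξ, η ∈ A[[T]]` satisfy
`(1+T)(T ξ' - 2 ξ) + 2 η = T a ξ + T³ b` and `η² - a T ξ η - b T³ η = ξ³`, and have coefficients
in `O[[y]]`.
-/

set_option autoImplicit false

namespace Crest.Agent.R007.Tate

open Crest.Agent.R007.Wp Crest.Agent.R007.Rat Crest.Agent.R007.Tc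
open PowerSeries

noncomputable section

/-! ### exchange of variables -/

/-- `ℂ[[T]][[y]] → ℂ[[y]][[T]]` -/
def swap : PowerSeries (PowerSeries ℂ) →+* PowerSeries (PowerSeries ℂ) where
  toFun F := PowerSeries.mk fun i => PowerSeries.mk fun j => coeff i (coeff j F)
  map_one' := by
    ext i j
    simp only [coeff_mk, coeff_one]
    by_cases hi : i = 0 <;> by_cases hj : j = 0 <;> simp [hi, hj, coeff_one]
  map_zero' := by ext i j; simp
  map_add' F G := by ext i j; simp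
  map_mul' F G := by
    ext i j
    simp only [coeff_mk, coeff_mul, map_sum]
    rw [Finset.sum_comm]

lemma coeff_swap (F : PowerSeries (PowerSeries ℂ)) (i j : ℕ) :
    coeff j (coeff i (swap F)) = coeff i (coeff j F) := by
  simp [swap]

lemma swap_C (g : PowerSeries ℂ) : swap (C g) = PowerSeries.map C g := by
  ext i j
  rw [coeff_swap, coeff_map, coeff_C, coeff_C]
  split_ifs <;> simp

lemma swap_map_C (p : PowerSeries ℂ) : swap (PowerSeries.map C p) = C p := by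
  ext i j
  rw [coeff_swap, coeff_map, coeff_C, coeff_C]
  split_ifs <;> simp

/-- `(1+T) d/dT` commutes with the exchange of variables. -/
lemma deriv_swap {F G : PowerSeries (PowerSeries ℂ)}
    (h : ∀ j, (1 + X) * d⁄dX ℂ (coeff j F) = coeff j G) :
    (1 + X) * d⁄dX (PowerSeries ℂ) (swap F) = swap G := by
  ext i j
  rw [coeff_swap, ← h j, add_mul, add_mul, one_mul, one_mul, map_add, map_add, map_add]
  have e1 : coeff j (coeff i (d⁄dX (PowerSeries ℂ) (swap F))) = coeff i (d⁄dX ℂ (coeff j F)) := by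
    rw [coeff_derivative, coeff_derivative, ← coeff_swap]
    have : ((i : PowerSeries ℂ) + 1) = C ((i : ℂ) + 1) := by simp
    rw [this, coeff_mul_C]
  have e2 : coeff j (coeff i (X * d⁄dX (PowerSeries ℂ) (swap F))) =
      coeff i (X * d⁄dX ℂ (coeff j F)) := by
    cases i with
    | zero => simp
    | succ i =>
      rw [coeff_succ_X_mul, coeff_succ_X_mul, coeff_derivative, coeff_derivative, ← coeff_swap]
      have : ((i : PowerSeries ℂ) + 1) = C ((i : ℂ) + 1) := by simp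
      rw [this, coeff_mul_C]
  rw [e1, e2]

/-! ### the unit `1 + T` -/

/-- `1 + T` as a unit of `ℂ[[T]]` -/
def wt : (PowerSeries ℂ)ˣ := Units.mkOfMulEqOne (1 + X) (PowerSeries.mk fun n => (-1) ^ n) (by
  ext n
  rw [add_mul, one_mul, map_add, coeff_one]
  cases n with
  | zero => simp
  | succ n => rw [coeff_succ_X_mul]; simp [pow_succ])

lemma wt_val : ((wt : (PowerSeries ℂ)ˣ) : PowerSeries ℂ) = 1 + X := rfl

lemma wt_inv_val : ((wt⁻¹ : (PowerSeries ℂ)ˣ) : PowerSeries ℂ) = PowerSeries.mk fun n => (-1) ^ n :=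
  rfl

lemma deriv_wt : d⁄dX ℂ ((wt : (PowerSeries ℂ)ˣ) : PowerSeries ℂ) = 1 := by
  rw [wt_val, map_add, ← map_one C, derivative_C, zero_add, map_one, derivative_X]

lemma deriv_wt_inv : (1 + X) * d⁄dX ℂ ((wt⁻¹ : (PowerSeries ℂ)ˣ) : PowerSeries ℂ) =
    - ((wt⁻¹ : (PowerSeries ℂ)ˣ) : PowerSeries ℂ) := by
  have h : ((wt : (PowerSeries ℂ)ˣ) : PowerSeries ℂ) * ((wt⁻¹ : (PowerSeries ℂ)ˣ) : PowerSeries ℂ) =
      1 := wt.mul_inv
  have h2 := congrArg (d⁄dX ℂ) h
  rw [Derivation.leibniz, deriv_wt, smul_eq_mul, smul_eq_mul, mul_one, ← map_one C,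
    derivative_C, wt_val] at h2
  linear_combination h2

lemma deriv_pow (d : ℕ) : (1 + X) * d⁄dX ℂ ((wt ^ d : (PowerSeries ℂ)ˣ) : PowerSeries ℂ) =
    (d : PowerSeries ℂ) * ((wt ^ d : (PowerSeries ℂ)ˣ) : PowerSeries ℂ) := by
  rw [Units.val_pow_eq_pow_val, Derivation.leibniz_pow, deriv_wt]
  cases d with
  | zero => simp
  | succ d =>
    rw [Nat.add_sub_cancel, nsmul_eq_mul, smul_eq_mul, mul_one, wt_val, pow_succ]
    ring

lemma deriv_inv_pow (d : ℕ) : (1 + X) * d⁄dX ℂ ((wt⁻¹ ^ d : (PowerSeries ℂ)ˣ) : PowerSeries ℂ) =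
    -((d : PowerSeries ℂ) * ((wt⁻¹ ^ d : (PowerSeries ℂ)ˣ) : PowerSeries ℂ)) := by
  rw [Units.val_pow_eq_pow_val, Derivation.leibniz_pow]
  cases d with
  | zero => simp
  | succ d =>
    rw [Nat.add_sub_cancel, nsmul_eq_mul, smul_eq_mul, pow_succ]
    have := deriv_wt_inv
    linear_combination ((d + 1 : ℕ) : PowerSeries ℂ) *
      ((wt⁻¹ : (PowerSeries ℂ)ˣ) : PowerSeries ℂ) ^ d * this

lemma deriv_S1 (j : ℕ) : (1 + X) * d⁄dX ℂ (coeff j (S1 wt)) = coeff j (S2 wt) := by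
  rw [S1, S2, coeff_mk, coeff_mk]
  split_ifs
  · rw [map_sum, Finset.mul_sum]
    refine Finset.sum_congr rfl fun d _ => ?_
    have h2 : d⁄dX ℂ (2 : PowerSeries ℂ) = 0 := by
      have : (2 : PowerSeries ℂ) = C 2 := by rw [map_ofNat]
      rw [this, derivative_C]
    have hd : d⁄dX ℂ (d : PowerSeries ℂ) = 0 := by
      have : (d : PowerSeries ℂ) = C (d : ℂ) := by rw [map_natCast]
      rw [this, derivative_C]
    rw [Derivation.leibniz, hd, smul_zero, add_zero, smul_eq_mul, map_sub, map_add, h2, sub_zero]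
    linear_combination (d : PowerSeries ℂ) * deriv_pow d + (d : PowerSeries ℂ) * deriv_inv_pow d
  · simp

/-! ### the series -/

/-- `∑ y^{3N} ∑ d ((1+T)^d + (1+T)^{-d} - 2)` -/
def T1 : PowerSeries (PowerSeries ℂ) := swap (S1 wt)

/-- `∑ y^{3N} ∑ d² ((1+T)^d - (1+T)^{-d})` -/
def T2 : PowerSeries (PowerSeries ℂ) := swap (S2 wt)

lemma deriv_T1 : (1 + X) * d⁄dX (PowerSeries ℂ) T1 = T2 := deriv_swap deriv_S1

/-- the universal `T² ℘` -/
def Xi : PowerSeries (PowerSeries ℂ) := 1 + X + X ^ 2 * (T1 + C (C (1 / 12)))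

/-- the universal `T³ ℘'` -/
def Hh : PowerSeries (PowerSeries ℂ) := -((1 + X) * (2 + X)) + X ^ 3 * T2

lemma swap_XX : swap (XX C wt) = Xi := by
  have e : (1 - ((wt : (PowerSeries ℂ)ˣ) : PowerSeries ℂ)) ^ 2 = X ^ 2 := by rw [wt_val]; ring
  rw [XX, e, wt_val, map_add swap, map_mul swap, map_add swap, swap_C, swap_C, swap_C]
  simp only [map_add, map_one, map_X, map_pow, map_C]
  rfl

lemma swap_HH : swap (HH wt) = Hh := by
  have e : ((wt : (PowerSeries ℂ)ˣ) : PowerSeries ℂ) *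
    (1 + ((wt : (PowerSeries ℂ)ˣ) : PowerSeries ℂ)) = (1 + X) * (2 + X) := by rw [wt_val]; ring
  have e' : (((wt : (PowerSeries ℂ)ˣ) : PowerSeries ℂ) - 1) ^ 3 = X ^ 3 := by rw [wt_val]; ring
  rw [HH, e, e', map_add swap, map_mul swap, map_neg swap, swap_C, swap_C]
  simp only [map_add, map_one, map_X, map_pow, map_mul, map_ofNat]
  rfl

/-- the universal Weierstrass equation over `ℂ[[y]]` -/
theorem weierstrass {v : Fin 2 → ℤ} (hv : NZ 3 v) :
    Hh ^ 2 - 4 * Xi ^ 3 + C (C (1 / 12)) * C (e4 v) * X ^ 4 * Xi -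
      C (C (1 / 216)) * C (e6 v) * X ^ 6 = 0 := by
  have h := congrArg swap (Dft_eq_zero hv C wt)
  have e : ((wt : (PowerSeries ℂ)ˣ) : PowerSeries ℂ) - 1 = X := by rw [wt_val]; ring
  rw [Dft, e] at h
  simp only [map_sub, map_add, map_mul, map_pow, swap_XX, swap_HH, swap_map_C, map_zero,
    map_ofNat] at h
  rw [swap_C, swap_C, swap_C, map_X, map_C, map_C] at h
  exact h

/-- `ξ = T² x` -/
def xi (v : Fin 2 → ℤ) : PowerSeries (PowerSeries ℂ) :=
  Xi - C (C (1 / 12)) * C (qe 3 (A1 v)) ^ 2 * X ^ 2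

/-- `η = -T³ y` -/
def eta (v : Fin 2 → ℤ) : PowerSeries (PowerSeries ℂ) :=
  C (C (1 / 2)) * (X * C (qe 3 (A1 v)) * xi v + X ^ 3 * C (sQ 3 v) - Hh)

lemma two_eta (v : Fin 2 → ℤ) :
    2 * eta v = X * C (qe 3 (A1 v)) * xi v + X ^ 3 * C (sQ 3 v) - Hh := by
  have h2 : (2 : PowerSeries (PowerSeries ℂ)) * C (C (1 / 2)) = 1 := by
    have : (2 : PowerSeries (PowerSeries ℂ)) = C (C 2) := by rw [map_ofNat, map_ofNat]
    rw [this, ← map_mul, ← map_mul]
    norm_num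
  rw [eta, ← mul_assoc, h2, one_mul]

lemma h12 : (12 : PowerSeries (PowerSeries ℂ)) * C (C (1 / 12)) = 1 := by
  have : (12 : PowerSeries (PowerSeries ℂ)) = C (C 12) := by rw [map_ofNat, map_ofNat]
  rw [this, ← map_mul, ← map_mul]
  norm_num

lemma h216 : (C (C (1 / 216)) : PowerSeries (PowerSeries ℂ)) = 8 * C (C (1 / 12)) ^ 3 := by
  have : (8 : PowerSeries (PowerSeries ℂ)) = C (C 8) := by rw [map_ofNat, map_ofNat]
  rw [this, ← map_pow, ← map_pow, ← map_mul, ← map_mul]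
  norm_num

lemma deriv_generic {A : Type*} [CommRing A] (F : PowerSeries A) (c e : A) :
    d⁄dX A (1 + X + X ^ 2 * (F + C c) - C e * X ^ 2) =
      1 + 2 * X * (F + C c) + X ^ 2 * d⁄dX A F - C e * (2 * X) := by
  have hc : ∀ c : A, d⁄dX A (C c) = 0 := fun c => derivative_C
  have h1 : d⁄dX A (1 : PowerSeries A) = 0 := by
    rw [← map_one C, hc]
  have hX : d⁄dX A (X ^ 2 : PowerSeries A) = 2 * X := by
    rw [Derivation.leibniz_pow, derivative_X]
    simp
  rw [map_sub, map_add, map_add, h1, derivative_X, Derivation.leibniz, hX, map_add, hc,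
    Derivation.leibniz, hX, hc]
  simp only [smul_eq_mul, mul_zero, add_zero]
  ring

/-- the derivation relation -/
theorem R1 (v : Fin 2 → ℤ) : (1 + X) * (X * d⁄dX (PowerSeries ℂ) (xi v) - 2 * xi v) + 2 * eta v =
    X * C (qe 3 (A1 v)) * xi v + X ^ 3 * C (sQ 3 v) := by
  rw [two_eta]
  have hd : d⁄dX (PowerSeries ℂ) (xi v) = 1 + 2 * X * (T1 + C (C (1 / 12))) +
      X ^ 2 * d⁄dX (PowerSeries ℂ) T1 - C (C (1 / 12) * qe 3 (A1 v) ^ 2) * (2 * X) := by
    rw [← deriv_generic, xi, Xi, map_mul, map_pow]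
  rw [hd, xi, Xi, Hh, map_mul, map_pow]
  have := deriv_T1
  linear_combination X ^ 3 * this

/-- the curve -/
theorem R2 {v : Fin 2 → ℤ} (hv : NZ 3 v) :
    eta v ^ 2 - C (qe 3 (A1 v)) * X * xi v * eta v - C (sQ 3 v) * X ^ 3 * eta v = xi v ^ 3 := by
  have hI := weierstrass hv
  have h2 := two_eta v
  have hx : Xi = xi v + C (C (1 / 12)) * C (qe 3 (A1 v)) ^ 2 * X ^ 2 := by rw [xi]; ring
  have h4 : (4 : PowerSeries (PowerSeries ℂ)) ≠ 0 := by
    have : (4 : PowerSeries (PowerSeries ℂ)) = C (C 4) := by rw [map_ofNat, map_ofNat]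
    rw [this]
    intro h
    have h1 := (PowerSeries.C_injective) (h.trans (map_zero C).symm)
    have h2 := (PowerSeries.C_injective) (h1.trans (map_zero C).symm)
    norm_num at h2
  apply mul_left_cancel₀ h4
  rw [hx, h216, e4, e6] at hI
  simp only [map_sub, map_add, map_mul, map_pow, map_ofNat] at hI
  have h := h12
  generalize (C (C (1 / 12)) : PowerSeries (PowerSeries ℂ)) = t at hI h
  generalize (C (qe 3 (A1 v)) : PowerSeries (PowerSeries ℂ)) = a at hI h2 ⊢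
  generalize (C (sQ 3 v) : PowerSeries (PowerSeries ℂ)) = b at hI h2 ⊢
  generalize xi v = ξ at hI h2 ⊢
  generalize eta v = η at h2 ⊢
  generalize Hh = H at hI h2
  generalize (X : PowerSeries (PowerSeries ℂ)) = x at hI h2 ⊢
  have e1 : 4 * (η ^ 2 - a * x * ξ * η - b * x ^ 3 * η) = H ^ 2 - (x * a * ξ + x ^ 3 * b) ^ 2 := by
    linear_combination (2 * η + (x * a * ξ + x ^ 3 * b - H) - 2 * (a * x * ξ + b * x ^ 3)) * h2
  rw [e1]
  linear_combination hI + (a ^ 2 * x ^ 2 * ξ ^ 2 + t * a ^ 4 * x ^ 4 * ξ + 2 * a * b * x ^ 4 * ξ +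
    (t ^ 2 * a ^ 6 - 24 * t ^ 2 * a ^ 3 * b) * x ^ 6 + b ^ 2 * (144 * t ^ 2 + 12 * t + 1) * x ^ 6) * h

end

end Crest.Agent.R007.Tate
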