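import Crest.Agent.R007.Wp4
import Crest.Agent.R007.RatRing

/-!
Row 7, section E (M2): 2-integrality of the coefficients of the Weierstrass division values.
-/

set_option autoImplicit false

namespace Crest.Agent.R007.Tc

open Crest.Agent.R007.Wp Crest.Agent.R007.Rat

noncomputable section

/-- A ring of coefficients: contains all roots of unity of odd order and the inverses of the odd
numbers. -/
structure OddRing (O : Subring ℂ) : Prop where
  zeta_mem : ∀ M : ℕ, Odd M → zeta M ∈ O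
  inv_mem : ∀ n : ℕ, Odd n → ((n : ℂ))⁻¹ ∈ O

variable {O : Subring ℂ} (hO : OddRing O)

lemma inv_root_mem {u : ℂ} {M : ℕ} (hM : Odd M) (hu : u ∈ O) (h1 : u ^ M = 1) : u⁻¹ ∈ O := by
  have hu0 : u ≠ 0 := by
    rintro rfl
    rw [zero_pow hM.pos.ne'] at h1
    exact zero_ne_one h1
  have : u⁻¹ = u ^ (M - 1) := by
    have h2 : u ^ (M - 1) * u = 1 := by
      rw [← pow_succ, Nat.sub_add_cancel hM.pos, h1]
    exact (eq_inv_of_mul_eq_one_left h2).symm
  rw [this]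
  exact O.pow_mem hu _

include hO in
lemma inv_one_sub_mem {u : ℂ} {M : ℕ} (hM : Odd M) (hu : u ∈ O) (h1 : u ^ M = 1) (hne : u ≠ 1) :
    (1 - u)⁻¹ ∈ O := by
  have hs : ∑ j ∈ Finset.range M, u ^ j = 0 := by
    have := mul_neg_geom_sum u M
    rw [h1, sub_self] at this
    rcases mul_eq_zero.1 this with h | h
    · exact absurd (sub_eq_zero.1 h).symm hne
    · exact h
  have h2 : (M : ℂ) = (1 - u) * ∑ j ∈ Finset.range M, ∑ i ∈ Finset.range j, u ^ i := by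
    rw [Finset.mul_sum]
    have : ∀ j ∈ Finset.range M, (1 - u) * ∑ i ∈ Finset.range j, u ^ i = 1 - u ^ j := by
      intro j _
      exact mul_neg_geom_sum u j
    rw [Finset.sum_congr rfl this, Finset.sum_sub_distrib, hs]
    simp
  have hM0 : (M : ℂ) ≠ 0 := by exact_mod_cast hM.pos.ne'
  have h3 : (1 - u)⁻¹ = (∑ j ∈ Finset.range M, ∑ i ∈ Finset.range j, u ^ i) * ((M : ℂ))⁻¹ := by
    have h4 : 1 - u ≠ 0 := sub_ne_zero.2 hne.symm
    rw [eq_mul_inv_iff_mul_eq₀ hM0, h2, ← mul_assoc, inv_mul_cancel₀ h4, one_mul]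
  rw [h3]
  exact O.mul_mem (O.sum_mem fun j _ => O.sum_mem fun i _ => O.pow_mem hu _) (hO.inv_mem M hM)

lemma sq_ne_one_of {u : ℂ} {M : ℕ} (hM : Odd M) (h1 : u ^ M = 1) (hne : u ≠ 1) : u ^ 2 ≠ 1 := by
  intro h
  obtain ⟨k, hk⟩ := hM
  rw [hk, pow_succ, pow_mul, h, one_pow, one_mul] at h1
  exact hne h1

include hO in
lemma inv_one_add_mem {u : ℂ} {M : ℕ} (hM : Odd M) (hu : u ∈ O) (h1 : u ^ M = 1) (hne : u ≠ 1) :
    (1 + u)⁻¹ ∈ O := by
  have h2 := sq_ne_one_of hM h1 hne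
  have h3 : (u ^ 2) ^ M = 1 := by rw [← pow_mul, mul_comm, pow_mul, h1, one_pow]
  have h4 := inv_one_sub_mem hO hM (O.pow_mem hu 2) h3 h2
  have h5 : (1 + u)⁻¹ = (1 - u) * (1 - u ^ 2)⁻¹ := by
    have h6 : 1 - u ≠ 0 := sub_ne_zero.2 hne.symm
    have h7 : 1 - u ^ 2 ≠ 0 := sub_ne_zero.2 h2.symm
    have h8 : 1 + u ≠ 0 := by
      intro h
      apply h7
      linear_combination (1 - u) * h
    field_simp
    ring
  rw [h5]
  exact O.mul_mem (O.sub_mem O.one_mem hu) h4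

include hO in
lemma zeta_zpow_mem {M : ℕ} (hM : Odd M) (b : ℤ) : zeta M ^ b ∈ O := by
  have h1 := hO.zeta_mem M hM
  have h2 := inv_root_mem hM h1 (zeta_pow M hM.pos.ne')
  rcases Int.eq_nat_or_neg b with ⟨n, rfl | rfl⟩
  · rw [zpow_natCast]; exact O.pow_mem h1 _
  · rw [zpow_neg, zpow_natCast, ← inv_pow]; exact O.pow_mem h2 _

lemma zeta_zpow_pow {M : ℕ} (hM : M ≠ 0) (b : ℤ) : (zeta M ^ b) ^ M = 1 := by
  rw [← zpow_natCast, ← zpow_mul, mul_comm, zpow_mul, zpow_natCast, zeta_pow M hM, one_zpow]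

lemma zeta_zpow_ne_one {M : ℕ} (hM : M ≠ 0) {b : ℤ} (hb : (b : ZMod M) ≠ 0) : zeta M ^ b ≠ 1 := by
  intro h
  rw [(isPrimitiveRoot_zeta hM).zpow_eq_one_iff_dvd] at h
  exact hb ((ZMod.intCast_zmod_eq_zero_iff_dvd b M).2 h)

lemma half_mem_of_even {x : ℤ} (h : Even x) : ((x : ℂ)) / 2 ∈ O := by
  obtain ⟨k, rfl⟩ := h
  have : (((k + k : ℤ)) : ℂ) / 2 = (k : ℂ) := by push_cast; ring
  rw [this]
  exact intCast_mem O k

include hO in
lemma chi_mem {M : ℕ} (hM : Odd M) (s : ℕ) (a β : ℤ) (d e : ℕ) : chi M s a β d e ∈ O := by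
  unfold chi
  have h1 : ∀ b : ℤ, ∀ n : ℕ, (n : ℂ) ^ s * (zeta M ^ b) ^ n ∈ O := fun b n =>
    O.mul_mem (O.pow_mem (natCast_mem O n) _) (O.pow_mem (zeta_zpow_mem hO hM b) _)
  refine O.add_mem ?_ (O.mul_mem (O.pow_mem (O.neg_mem O.one_mem) _) ?_)
  · split_ifs
    · exact h1 _ _
    · exact O.zero_mem
  · split_ifs
    · exact h1 _ _
    · exact O.zero_mem

include hO in
/-- the key congruence `d² ≡ d mod 2` (with the sign `-1 ≡ 1`). -/
lemma chi_sub_mem {M : ℕ} (hM : Odd M) (a β : ℤ) (d e : ℕ) :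
    (chi M 2 a β d e - chi M 1 a β d e) / 2 ∈ O := by
  unfold chi
  have h1 : ∀ b : ℤ, ((d : ℂ) ^ 2 * (zeta M ^ b) ^ d - (d : ℂ) ^ 1 * (zeta M ^ b) ^ d) / 2 ∈ O := by
    intro b
    have h2 : ((d : ℂ) ^ 2 * (zeta M ^ b) ^ d - (d : ℂ) ^ 1 * (zeta M ^ b) ^ d) / 2 =
        (((d : ℤ) * ((d : ℤ) - 1) : ℤ) : ℂ) / 2 * (zeta M ^ b) ^ d := by push_cast; ring
    rw [h2]
    exact O.mul_mem (half_mem_of_even (Int.even_mul_pred_self _)) (O.pow_mem (zeta_zpow_mem hO hM b) _)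
  have h3 : ∀ b : ℤ, ((d : ℂ) ^ 2 * (zeta M ^ b) ^ d + (d : ℂ) ^ 1 * (zeta M ^ b) ^ d) / 2 ∈ O := by
    intro b
    have h2 : ((d : ℂ) ^ 2 * (zeta M ^ b) ^ d + (d : ℂ) ^ 1 * (zeta M ^ b) ^ d) / 2 =
        (((d : ℤ) * ((d : ℤ) + 1) : ℤ) : ℂ) / 2 * (zeta M ^ b) ^ d := by push_cast; ring
    rw [h2]
    exact O.mul_mem (half_mem_of_even (Int.even_mul_succ_self _)) (O.pow_mem (zeta_zpow_mem hO hM b) _)
  have h4 := h1 β
  have h5 := h3 (-β)
  by_cases p : ((e : ℤ) : ZMod M) = a <;> by_cases r : ((-(e : ℤ) : ℤ) : ZMod M) = a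
  · simp only [if_pos p, if_pos r]
    convert O.sub_mem h4 h5 using 1; ring
  · simp only [if_pos p, if_neg r]
    convert h4 using 1; ring
  · simp only [if_neg p, if_pos r]
    convert O.neg_mem h5 using 1; ring
  · simp only [if_neg p, if_neg r]
    convert O.zero_mem using 1; ring

/-- nonzero mod `M` -/
def NZ (M : ℕ) (v : Fin 2 → ℤ) : Prop := (v 0 : ZMod M) ≠ 0 ∨ (v 1 : ZMod M) ≠ 0

section consts

variable {M : ℕ} {v w : Fin 2 → ℤ}

include hO in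
lemma cQ0_mem (hM : Odd M) (hv : NZ M v) : cQ0 M v ∈ O := by
  rw [cQ0_eq hM.pos.ne' hv]
  split_ifs with h
  · have hb : (v 1 : ZMod M) ≠ 0 := by rcases hv with h' | h'; exacts [absurd h h', h']
    have h1 := zeta_zpow_mem hO hM (v 1)
    have h2 := inv_one_sub_mem hO hM h1 (zeta_zpow_pow hM.pos.ne' _) (zeta_zpow_ne_one hM.pos.ne' hb)
    rw [div_eq_mul_inv, ← inv_pow]
    exact O.mul_mem (O.mul_mem h1 (O.add_mem O.one_mem h1)) (O.pow_mem h2 _)
  · exact O.zero_mem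

include hO in
lemma cP0_mem (hM : Odd M) (hv : NZ M v) : cP0 M v - 1 / 12 ∈ O := by
  rw [cP0_eq hM.pos.ne' hv]
  split_ifs with h
  · have hb : (v 1 : ZMod M) ≠ 0 := by rcases hv with h' | h'; exacts [absurd h h', h']
    have h1 := zeta_zpow_mem hO hM (v 1)
    have h2 := inv_one_sub_mem hO hM h1 (zeta_zpow_pow hM.pos.ne' _) (zeta_zpow_ne_one hM.pos.ne' hb)
    rw [add_sub_cancel_left, div_eq_mul_inv, ← inv_pow]
    exact O.mul_mem h1 (O.pow_mem h2 _)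
  · convert O.zero_mem using 1; ring

include hO in
lemma cQ0_sub_cP0_mem (hM : Odd M) (hv : NZ M v) : (cQ0 M v - (cP0 M v - 1 / 12)) / 2 ∈ O := by
  rw [cQ0_eq hM.pos.ne' hv, cP0_eq hM.pos.ne' hv]
  split_ifs with h
  · have hb : (v 1 : ZMod M) ≠ 0 := by rcases hv with h' | h'; exacts [absurd h h', h']
    have h1 := zeta_zpow_mem hO hM (v 1)
    have h3 := zeta_zpow_ne_one hM.pos.ne' hb
    have h2 := inv_one_sub_mem hO hM h1 (zeta_zpow_pow hM.pos.ne' _) h3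
    have h4 : 1 - zeta M ^ v 1 ≠ 0 := sub_ne_zero.2 h3.symm
    have : (zeta M ^ v 1 * (1 + zeta M ^ v 1) / (1 - zeta M ^ v 1) ^ 3 -
      (1 / 12 + zeta M ^ v 1 / (1 - zeta M ^ v 1) ^ 2 - 1 / 12)) / 2 =
      (zeta M ^ v 1) ^ 2 * ((1 - zeta M ^ v 1)⁻¹) ^ 3 := by
      field_simp
      ring
    rw [this]
    exact O.mul_mem (O.pow_mem h1 _) (O.pow_mem h2 _)
  · convert O.zero_mem using 1; ring

end consts

/-- coefficientwise membership in `2 O` -/
def In2 (O : Subring ℂ) (p : PowerSeries ℂ) : Prop := ∀ n, PowerSeries.coeff n p / 2 ∈ O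

section In2

variable {p q : PowerSeries ℂ}

lemma In2.coeffIn (hp : In2 O p) : CoeffIn O p := fun n => by
  have := O.mul_mem (intCast_mem O 2) (hp n)
  convert this using 1
  push_cast; ring

lemma In2.add (hp : In2 O p) (hq : In2 O q) : In2 O (p + q) := fun n => by
  rw [map_add, add_div]; exact O.add_mem (hp n) (hq n)

lemma In2.neg (hp : In2 O p) : In2 O (-p) := fun n => by
  rw [map_neg, neg_div]; exact O.neg_mem (hp n)

lemma In2.sub (hp : In2 O p) (hq : In2 O q) : In2 O (p - q) := by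
  rw [sub_eq_add_neg]; exact hp.add hq.neg

lemma In2.zero : In2 O 0 := fun n => by
  rw [map_zero, zero_div]; exact O.zero_mem

lemma In2.mul_left (hp : CoeffIn O p) (hq : In2 O q) : In2 O (p * q) := fun n => by
  rw [PowerSeries.coeff_mul, Finset.sum_div]
  refine O.sum_mem fun x _ => ?_
  rw [mul_div_assoc]
  exact O.mul_mem (hp _) (hq _)

lemma In2.mul_right (hp : In2 O p) (hq : CoeffIn O q) : In2 O (p * q) := by
  rw [mul_comm]; exact In2.mul_left hq hp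

lemma In2.smul {c : ℂ} (hc : c ∈ O) (hp : In2 O p) : In2 O (c • p) := fun n => by
  rw [PowerSeries.coeff_smul, smul_eq_mul, mul_div_assoc]; exact O.mul_mem hc (hp n)

lemma In2.two_smul (hp : CoeffIn O p) : In2 O ((2 : ℂ) • p) := fun n => by
  rw [PowerSeries.coeff_smul, smul_eq_mul]
  convert hp n using 1; ring

lemma In2.of_half (hp : CoeffIn O ((1 / 2 : ℂ) • p)) : In2 O p := fun n => by
  have := hp n
  rw [PowerSeries.coeff_smul, smul_eq_mul] at this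
  convert this using 1; ring

lemma In2.half (hp : In2 O p) : CoeffIn O ((1 / 2 : ℂ) • p) := fun n => by
  rw [PowerSeries.coeff_smul, smul_eq_mul]
  convert hp n using 1; ring

lemma In2.C {c : ℂ} (hc : c / 2 ∈ O) : In2 O (PowerSeries.C c) := fun n => by
  rw [PowerSeries.coeff_C]
  split_ifs
  · exact hc
  · rw [zero_div]; exact O.zero_mem

end In2

/-- the q-series of `Q` and `P` -/
def sQ (M : ℕ) (v : Fin 2 → ℤ) : PowerSeries ℂ := PowerSeries.mk (cQ M v)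
def sP (M : ℕ) (v : Fin 2 → ℤ) : PowerSeries ℂ := PowerSeries.mk (cP M v)

section series

variable {M : ℕ} {v w : Fin 2 → ℤ}

include hO in
lemma sQ_coeffIn (hM : Odd M) (hv : NZ M v) : CoeffIn O (sQ M v) := fun n => by
  rw [sQ, PowerSeries.coeff_mk, cQ]
  refine O.add_mem ?_ (O.sum_mem fun p _ => chi_mem hO hM _ _ _ _ _)
  split_ifs
  · exact cQ0_mem hO hM hv
  · exact O.zero_mem

include hO in
lemma sP_coeffIn (hM : Odd M) (hv : NZ M v) : CoeffIn O (sP M v - PowerSeries.C (1 / 12 : ℂ)) :=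
  fun n => by
  rw [map_sub, sP, PowerSeries.coeff_mk, cP, PowerSeries.coeff_C]
  have h1 : ∑ p ∈ n.divisorsAntidiagonal, (chi M 1 (v 0) (v 1) p.2 p.1 - chi M 1 0 0 p.2 p.1) ∈ O :=
    O.sum_mem fun p _ => O.sub_mem (chi_mem hO hM _ _ _ _ _) (chi_mem hO hM _ _ _ _ _)
  have h2 : (if n = 0 then cP0 M v else 0) - (if n = 0 then (1 / 12 : ℂ) else 0) ∈ O := by
    split_ifs
    · exact cP0_mem hO hM hv
    · rw [sub_zero]; exact O.zero_mem
  convert O.add_mem h2 h1 using 1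
  ring

include hO in
lemma sP_sub_coeffIn (hM : Odd M) (hv : NZ M v) (hw : NZ M w) : CoeffIn O (sP M v - sP M w) := by
  have := (sP_coeffIn hO hM hv).sub (sP_coeffIn hO hM hw)
  convert this using 1
  ring

include hO in
/-- `(Q_v - Q_w) - (P_v - P_w) ≡ 0 mod 2`. -/
lemma sQ_sub_sP (hM : Odd M) (hv : NZ M v) (hw : NZ M w) :
    In2 O ((sQ M v - sQ M w) - (sP M v - sP M w)) := fun n => by
  simp only [map_sub, sQ, sP, PowerSeries.coeff_mk, cQ, cP]
  have h1 : ∀ v : Fin 2 → ℤ, (∑ p ∈ n.divisorsAntidiagonal,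
      (chi M 2 (v 0) (v 1) p.2 p.1 - chi M 1 (v 0) (v 1) p.2 p.1)) / 2 ∈ O := fun v => by
    rw [Finset.sum_div]
    exact O.sum_mem fun p _ => chi_sub_mem hO hM _ _ _ _
  have h2 : ∀ v : Fin 2 → ℤ, NZ M v → ((if n = 0 then cQ0 M v else 0) -
      ((if n = 0 then cP0 M v else 0) - (if n = 0 then (1 / 12 : ℂ) else 0))) / 2 ∈ O := fun v hv => by
    split_ifs
    · exact cQ0_sub_cP0_mem hO hM hv
    · convert O.zero_mem using 1; ring
  have h3 := O.sub_mem (O.add_mem (h1 v) (h2 v hv)) (O.add_mem (h1 w) (h2 w hw))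
  convert h3 using 1
  simp only [Finset.sum_sub_distrib]
  ring

end series

end

end Crest.Agent.R007.Tc
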