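import Crest.Agent.R007.Tc1

/-!
Row 7, section E (M2): a power series whose square is `1 + 12 c` is `≡ 1 mod 2`.
-/

set_option autoImplicit false

namespace Crest.Agent.R007.Tc

open Crest.Agent.R007.Wp Crest.Agent.R007.Rat

noncomputable section

variable {O : Subring ℂ}

/-- square roots of series `≡ b₀ mod 4` -/
lemma In2_of_sq {a b : PowerSeries ℂ} (h : a ^ 2 = b)
    (h0 : PowerSeries.coeff 0 a ≠ 0) (h0' : (PowerSeries.coeff 0 a)⁻¹ ∈ O)
    (hb : ∀ n, 0 < n → PowerSeries.coeff n b / 4 ∈ O) :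
    ∀ n, 0 < n → PowerSeries.coeff n a / 2 ∈ O := by
  intro n
  induction n using Nat.strong_induction_on with
  | _ n ih =>
    intro hn
    obtain ⟨m, rfl⟩ : ∃ m, n = m + 1 := ⟨n - 1, by omega⟩
    have h1 : PowerSeries.coeff (m + 1) b =
        ∑ p ∈ Finset.HasAntidiagonal.antidiagonal (m + 1), PowerSeries.coeff p.1 a * PowerSeries.coeff p.2 a := by
      rw [← h, sq, PowerSeries.coeff_mul]
    rw [Finset.Nat.sum_antidiagonal_eq_sum_range_succ_mk, Finset.sum_range_succ,
      Finset.sum_range_succ'] at h1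
    simp only [Nat.sub_self, Nat.sub_zero] at h1
    set S := ∑ k ∈ Finset.range m, PowerSeries.coeff (k + 1) a * PowerSeries.coeff (m + 1 - (k + 1)) a
      with hS
    have hS4 : S / 4 ∈ O := by
      rw [hS, Finset.sum_div]
      refine O.sum_mem fun k hk => ?_
      have hk' := Finset.mem_range.1 hk
      have e1 := ih (k + 1) (by omega) (by omega)
      have e2 := ih (m + 1 - (k + 1)) (by omega) (by omega)
      convert O.mul_mem e1 e2 using 1
      ring
    have h2 : PowerSeries.coeff (m + 1) a / 2 =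
        (PowerSeries.coeff (m + 1) b / 4 - S / 4) * (PowerSeries.coeff 0 a)⁻¹ := by
      rw [h1]
      field_simp
      ring
    rw [h2]
    exact O.mul_mem (O.sub_mem (hb _ hn) hS4) h0'

lemma zeta3_sq {u : ℂ} (h3 : u ^ 3 = 1) (h1 : u ≠ 1) : u ^ 2 + u + 1 = 0 := by
  have : (u - 1) * (u ^ 2 + u + 1) = 0 := by linear_combination h3
  rcases mul_eq_zero.1 this with h | h
  · exact absurd (sub_eq_zero.1 h) h1
  · exact h

/-- the constant term of `12 P_v` for vectors of order 3 -/
lemma cP0_three {v : Fin 2 → ℤ} (hv : NZ 3 v) :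
    12 * cP0 3 v = if (v 0 : ZMod 3) = 0 then -3 else 1 := by
  rw [cP0_eq (by norm_num) hv]
  split_ifs with h
  · have hb : (v 1 : ZMod 3) ≠ 0 := by rcases hv with h' | h'; exacts [absurd h h', h']
    have h3 := zeta_zpow_pow (M := 3) (by norm_num) (v 1)
    have h1 := zeta_zpow_ne_one (M := 3) (by norm_num) hb
    have h2 := zeta3_sq h3 h1
    have h4 : 1 - zeta 3 ^ v 1 ≠ 0 := sub_ne_zero.2 h1.symm
    have h5 : zeta 3 ^ v 1 ≠ 0 := zpow_ne_zero _ (zeta_ne_zero 3)
    have h6 : (1 - zeta 3 ^ v 1) ^ 2 = -3 * zeta 3 ^ v 1 := by linear_combination h2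
    rw [h6]
    field_simp
    ring
  · ring

/-- HASSE at the level of series: if `a² = 12 P_v` then `a ≡ 1 mod 2`. -/
lemma hasse_series (hO : OddRing O) {v : Fin 2 → ℤ} (hv : NZ 3 v) {a : PowerSeries ℂ}
    (h : a ^ 2 = (12 : ℂ) • sP 3 v) : In2 O (a - 1) := by
  have ho3 : Odd 3 := by decide
  have hc : PowerSeries.coeff 0 a ^ 2 = 12 * cP0 3 v := by
    have := congrArg (PowerSeries.coeff 0) h
    have e : PowerSeries.coeff 0 (a ^ 2) = PowerSeries.coeff 0 a ^ 2 := by
      simp
    rw [e] at this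
    simpa [sP, cP] using this
  rw [cP0_three hv] at hc
  set a0 := PowerSeries.coeff 0 a with ha0
  have hz := hO.zeta_mem 3 ho3
  have hz3 : zeta 3 ^ 3 = 1 := zeta_pow 3 (by norm_num)
  have hz1 : zeta 3 ≠ 1 := (isPrimitiveRoot_zeta (M := 3) (by norm_num)).ne_one (by norm_num)
  have hzz := zeta3_sq hz3 hz1
  have h3inv : ((3 : ℂ))⁻¹ ∈ O := by exact_mod_cast hO.inv_mem 3 ho3
  have key : (a0 - 1) / 2 ∈ O ∧ a0 ≠ 0 ∧ a0⁻¹ ∈ O := by
    split_ifs at hc with hv0
    · have h4 : (a0 - (2 * zeta 3 + 1)) * (a0 + (2 * zeta 3 + 1)) = 0 := by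
        linear_combination hc - 4 * hzz
      have hne : a0 ≠ 0 := by rintro h0; rw [h0] at hc; norm_num at hc
      have hmem : a0 ∈ O := by
        rcases mul_eq_zero.1 h4 with h5 | h5
        · rw [sub_eq_zero.1 h5]
          exact O.add_mem (O.mul_mem (intCast_mem O 2) hz) O.one_mem
        · rw [eq_neg_of_add_eq_zero_left h5]
          exact O.neg_mem (O.add_mem (O.mul_mem (intCast_mem O 2) hz) O.one_mem)
      refine ⟨?_, hne, ?_⟩
      · rcases mul_eq_zero.1 h4 with h5 | h5
        · rw [sub_eq_zero.1 h5]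
          convert hz using 1; ring
        · rw [eq_neg_of_add_eq_zero_left h5]
          convert O.sub_mem (O.neg_mem hz) O.one_mem using 1; ring
      · have : a0⁻¹ = -(a0 * (3 : ℂ)⁻¹) := by
          field_simp
          linear_combination hc
        rw [this]
        exact O.neg_mem (O.mul_mem hmem h3inv)
    · have h4 : (a0 - 1) * (a0 + 1) = 0 := by linear_combination hc
      rcases mul_eq_zero.1 h4 with h5 | h5
      · have : a0 = 1 := sub_eq_zero.1 h5
        rw [this]
        refine ⟨?_, one_ne_zero, ?_⟩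
        · convert O.zero_mem using 1; ring
        · rw [inv_one]; exact O.one_mem
      · have : a0 = -1 := eq_neg_of_add_eq_zero_left h5
        rw [this]
        refine ⟨?_, by norm_num, ?_⟩
        · convert O.neg_mem O.one_mem using 1; ring
        · convert O.neg_mem O.one_mem using 1; norm_num
  have h5 := In2_of_sq (O := O) h key.2.1 key.2.2 (by
    intro n hn
    rw [PowerSeries.coeff_smul, smul_eq_mul]
    have := sP_coeffIn hO ho3 hv n
    rw [map_sub, PowerSeries.coeff_C, if_neg hn.ne', sub_zero] at this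
    convert O.mul_mem (intCast_mem O 3) this using 1
    push_cast; ring)
  intro n
  rw [map_sub, PowerSeries.coeff_one]
  split_ifs with hn
  · subst hn; exact key.1
  · rw [sub_zero]; exact h5 n (Nat.pos_of_ne_zero hn)

end

end Crest.Agent.R007.Tc
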