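import Mathlib
import Crest.Agent.R007.Tlb3

/-!
# Row 7, node N2 (TLB), part 4: mixed weights (no homogeneity needed)
-/

set_option autoImplicit false

namespace Crest.Agent.R007.Tlb

open UpperHalfPlane ModularForm CongruenceSubgroup Matrix
open scoped MatrixGroups Manifold ModularForm
open Crest.Agent.R007.Lat Crest.Agent.R007.Link

/-- `n` as a unit of `ℂ` -/
noncomputable def un (n : ℕ) (hn : n ≠ 0) : ℂˣ := Units.mk0 (n : ℂ) (by exact_mod_cast hn)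

@[simp] lemma un_val (n : ℕ) (hn : n ≠ 0) : (un n hn : ℂ) = n := rfl

lemma iG_sc_smul (n : ℕ) (hn : n ≠ 0) (h : 0 < (sc (n : ℤ)).det) (x : X) :
    iG (sc (n : ℤ)) h • x = ⟨x.t, un n hn * x.w⟩ := by
  apply X.ext
  · rw [smul_t]
    have hn0 : ((n : ℤ) : ℝ) ≠ 0 := by exact_mod_cast hn
    have hh : ((iG (sc (n : ℤ)) h : GL(2, ℝ)⁺) : GL (Fin 2) ℝ) =
        .scalar (Fin 2) (Units.mk0 ((n : ℤ) : ℝ) hn0) := by
      apply Units.ext
      rw [iG_val, sc_map, Matrix.GeneralLinearGroup.coe_scalar, Matrix.smul_one_eq_diagonal]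
      rfl
    change ((iG (sc (n : ℤ)) h : GL(2, ℝ)⁺) : GL (Fin 2) ℝ) • x.t = x.t
    rw [hh, UpperHalfPlane.glScalar_smul]
  · rw [smul_w]
    congr 1
    apply Units.ext
    rw [dn_val, un_val, denom, iG_val]
    simp [sc]

lemma si_smul (n : ℕ) (hn : n ≠ 0) (x : X) : si n hn • x = ⟨x.t, (un n hn)⁻¹ * x.w⟩ := by
  rw [si, inv_smul_eq_iff, iG_sc_smul n hn]
  apply X.ext
  · rfl
  · simp

lemma iG_utU_smul (l : ℕ) (hl : l ≠ 0) (j : ℕ) (x : X) :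
    iG (ut ((1 : ℕ) : ℤ) (j : ℤ) (l : ℤ)) (utU l hl j) • x =
      ⟨iG (ut ((1 : ℕ) : ℤ) (j : ℤ) (l : ℤ)) (utU l hl j) • x.t, un l hl * x.w⟩ := by
  apply X.ext
  · rfl
  · rw [smul_w]
    congr 1
    apply Units.ext
    rw [dn_ut, un_val]
    simp

lemma iG_utL_smul (l : ℕ) (hl : l ≠ 0) (x : X) :
    iG (ut (l : ℤ) ((0 : ℕ) : ℤ) ((1 : ℕ) : ℤ)) (utL l hl) • x =
      ⟨iG (ut (l : ℤ) ((0 : ℕ) : ℤ) ((1 : ℕ) : ℤ)) (utL l hl) • x.t, x.w⟩ := by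
  apply X.ext
  · rfl
  · rw [smul_w]
    have : dn (iG (ut (l : ℤ) ((0 : ℕ) : ℤ) ((1 : ℕ) : ℤ)) (utL l hl)) x.t = 1 := by
      apply Units.ext
      rw [dn_ut]
      simp
    rw [this, one_mul]

/-- no homogeneity needed -/
theorem res_sl_dUp' (F : X → ℂ) {l : ℕ} (hl : l ≠ 0) (j : ℕ) :
    res (sl F (dUp l hl j)) =
      fun τ => res F (iG (ut ((1 : ℕ) : ℤ) (j : ℤ) (l : ℤ)) (utU l hl j) • τ) := by
  funext τ
  rw [res_apply, sl_apply, dUp_eq, mul_smul, iG_utU_smul l hl, si_smul, res_apply]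
  congr 1
  apply X.ext
  · rfl
  · simp

theorem res_sl_dLo' (F : X → ℂ) {l : ℕ} (hl : l ≠ 0) (σ : SL(2, ℤ)) :
    res (sl F (sG σ * dLo l hl)) = (l : ℂ) •
      fun τ => res (SX l hl σ F) (iG (ut (l : ℤ) ((0 : ℕ) : ℤ) ((1 : ℕ) : ℤ)) (utL l hl) • τ) := by
  have hl' : (l : ℂ) ≠ 0 := by exact_mod_cast hl
  funext τ
  rw [res_apply, sl_apply, dLo_eq, ← mul_assoc, mul_smul, iG_utL_smul l hl, Pi.smul_apply, res_apply,
    SX_apply, Pi.smul_apply, sl_apply, smul_smul, mul_inv_cancel₀ hl', one_smul]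

/-- coefficients of `F ∥ (1/ℓ, j/ℓ; 0, 1)`, any function `F` on `X` -/
theorem coeff_dUp' {F : X → ℂ} (hF : res F ∈ PO) {l : ℕ} (hl : l ≠ 0) (ho : Odd l) (j : ℕ)
    (r : ℚ) : (qf (res (sl F (dUp l hl j)))).coeff r = ee (r * j) * (qf (res F)).coeff (r * l) := by
  have hl' : (l : ℚ) ≠ 0 := by exact_mod_cast hl
  rw [res_sl_dUp']
  have h1 := qf_comp_ut hF (a := 1) (b := j) odd_one ho (utU l hl j) (r * l)
  have h2 : r * (l : ℚ) * ((1 : ℕ) : ℚ) / l = r := by push_cast; field_simp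
  have h3 : r * (l : ℚ) * (j : ℚ) / l = r * j := by field_simp
  rw [h2, h3] at h1
  exact h1

theorem dUp_PO {F : X → ℂ} (hF : res F ∈ PO) {l : ℕ} (hl : l ≠ 0) (ho : Odd l) (j : ℕ) :
    res (sl F (dUp l hl j)) ∈ PO := by
  rw [res_sl_dUp']
  obtain ⟨M, hM, hf⟩ := hF
  have : NeZero M := ⟨hM.pos.ne'⟩
  exact ⟨M * l, hM.mul ho, PB_comp_ut hf (Nat.pos_of_ne_zero hl) (utU l hl j)⟩

theorem dLo_PO {F : X → ℂ} {l : ℕ} (hl : l ≠ 0) (σ : SL(2, ℤ)) (hF : res (SX l hl σ F) ∈ PO) :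
    (fun τ => res (SX l hl σ F) (iG (ut (l : ℤ) ((0 : ℕ) : ℤ) ((1 : ℕ) : ℤ)) (utL l hl) • τ)) ∈ PO ∧
    res (sl F (sG σ * dLo l hl)) ∈ PO := by
  have h1 : (fun τ => res (SX l hl σ F) (iG (ut (l : ℤ) ((0 : ℕ) : ℤ) ((1 : ℕ) : ℤ)) (utL l hl) • τ)) ∈ PO := by
    obtain ⟨M, hM, hf⟩ := hF
    have : NeZero M := ⟨hM.pos.ne'⟩
    exact ⟨M * 1, by simpa using hM, PB_comp_ut hf Nat.one_pos (utL l hl)⟩
  refine ⟨h1, ?_⟩
  rw [res_sl_dLo']
  exact Subalgebra.smul_mem _ h1 _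

/-- coefficients of `F ∥ (σ (1, 0; 0, 1/ℓ))`, any function `F` on `X` -/
theorem coeff_dLo' {F : X → ℂ} {l : ℕ} (hl : l ≠ 0) (ho : Odd l) (σ : SL(2, ℤ))
    (hF : res (SX l hl σ F) ∈ PO) (r : ℚ) :
    (qf (res (sl F (sG σ * dLo l hl)))).coeff r =
      (l : ℂ) * (qf (res (SX l hl σ F))).coeff (r / l) := by
  have hl' : (l : ℚ) ≠ 0 := by exact_mod_cast hl
  rw [res_sl_dLo', qf_smul _ (dLo_PO hl σ hF).1, HahnSeries.coeff_smul, smul_eq_mul]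
  have h1 := qf_comp_ut hF (b := 0) ho odd_one (utL l hl) (r / l)
  have h2 : r / (l : ℚ) * (l : ℚ) / ((1 : ℕ) : ℚ) = r := by push_cast; field_simp
  have h3 : r / (l : ℚ) * ((0 : ℕ) : ℚ) / ((1 : ℕ) : ℚ) = 0 := by push_cast; simp
  rw [h2, h3] at h1
  rw [h1]
  have : ee 0 = 1 := by simp [ee]
  rw [this, one_mul]

theorem dlT_PO {F : X → ℂ} (hF : res F ∈ PO) {l : ℕ} (hl : l ≠ 0) (ho : Odd l) (σ : SL(2, ℤ))
    (hS : res (SX l hl σ F) ∈ PO) : res ((dlT l hl σ).map (sl F)).sum ∈ PO := by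
  rw [dlT_sum, res_add, res_sum]
  exact add_mem (qf_sum _ _ fun j _ => dUp_PO hF hl ho j).1 (dLo_PO hl σ hS).2

open Classical in
/-- **TLB, mixed weights, exact.** `F` with integral exponents. -/
theorem coeff_dlT {F : X → ℂ} (hF : res F ∈ PO) (hint : ∀ r, (qf (res F)).coeff r ≠ 0 → ∃ n : ℤ, r = n)
    {l : ℕ} (hl : l ≠ 0) (ho : Odd l) (σ : SL(2, ℤ)) (hS : res (SX l hl σ F) ∈ PO) (r : ℚ) :
    (qf (res ((dlT l hl σ).map (sl F)).sum)).coeff r =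
      (l : ℂ) * ((if ∃ n : ℤ, r = n then (qf (res F)).coeff (r * l) else 0) +
        (qf (res (SX l hl σ F))).coeff (r / l)) := by
  obtain ⟨h1, h2⟩ := qf_sum (Finset.range l) (fun j => res (sl F (dUp l hl j)))
    fun j _ => dUp_PO hF hl ho j
  rw [dlT_sum, res_add, res_sum, qf_add h1 (dLo_PO hl σ hS).2, HahnSeries.coeff_add, h2,
    HahnSeries.coeff_sum, coeff_dLo' hl ho σ hS, mul_add]
  congr 1
  rw [Finset.sum_congr rfl fun j _ => coeff_dUp' hF hl ho j r, ← Finset.sum_mul]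
  by_cases hr : ∃ n : ℤ, r = n
  · rw [if_pos hr]
    obtain ⟨n, rfl⟩ := hr
    rw [sum_ee_int]
  · rw [if_neg hr, mul_zero]
    by_cases h3 : (qf (res F)).coeff (r * l) = 0
    · rw [h3, mul_zero]
    · rw [sum_ee_not_int hr (hint _ h3), zero_mul]

/-- additivity of the list sum -/
theorem dlT_add (l : ℕ) (hl : l ≠ 0) (σ : SL(2, ℤ)) (F G : X → ℂ) :
    ((dlT l hl σ).map (sl (F + G))).sum = ((dlT l hl σ).map (sl F)).sum + ((dlT l hl σ).map (sl G)).sum := by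
  have : ∀ L : List GL(2, ℝ)⁺, (L.map (sl (F + G))).sum = (L.map (sl F)).sum + (L.map (sl G)).sum := by
    intro L
    induction L with
    | nil => simp
    | cons a L ih =>
      rw [List.map_cons, List.map_cons, List.map_cons, List.sum_cons, List.sum_cons, List.sum_cons,
        ih, sl_add]
      abel
  exact this _

/-- relation with `TX` -/
theorem dlT_eq_TX (l : ℕ) (hl : l ≠ 0) (σ : SL(2, ℤ)) (F : X → ℂ) :
    ((dlT l hl σ).map (sl F)).sum = (l : ℂ) • TX l hl σ F := by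
  have hl' : (l : ℂ) ≠ 0 := by exact_mod_cast hl
  rw [dlT_sum, TX_apply, smul_smul, mul_inv_cancel₀ hl', one_smul]

end Crest.Agent.R007.Tlb
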