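import Crest.Agent.R007.PsInt

/-!
R007/TwB (T2b of helper801's list): the series `∑_{m ∣ n} m((1+T)^m + (1+T)^{-m} - 2)`.
-/

set_option autoImplicit false

namespace Crest.Agent.R007.TwB

open PowerSeries Crest.Agent.R007.PsInt
open scoped Nat ArithmeticFunction.sigma

noncomputable section

lemma hasSubst_expm : HasSubst (expm ℂ) := HasSubst.of_constantCoeff_zero' (by simp [expm])

lemma CIn_one_add_X (S : Subring ℂ) : CIn S (1 + X : PowerSeries ℂ) := CIn.add CIn.one CIn_X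

/-- `(1+T)^{-1}` -/
def iv : PowerSeries ℂ := (1 + X)⁻¹

lemma mul_iv : (1 + X : PowerSeries ℂ) * iv = 1 :=
  PowerSeries.mul_inv_cancel _ (by simp)

lemma CIn_iv (S : Subring ℂ) : CIn S iv := by
  refine CIn.of_mul_eq_one (CIn_one_add_X S) ⟨1, S.one_mem, by simp⟩ mul_iv

lemma subst_one_add_X : PowerSeries.subst (expm ℂ) (1 + X : PowerSeries ℂ) = exp ℂ := by
  rw [subst_add hasSubst_expm, subst_X hasSubst_expm, ← one_add_expm]
  congr 1
  rw [← coe_substAlgHom hasSubst_expm, map_one]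

lemma subst_pow' (n : ℕ) (p : PowerSeries ℂ) :
    PowerSeries.subst (expm ℂ) (p ^ n) = (PowerSeries.subst (expm ℂ) p) ^ n := by
  rw [← coe_substAlgHom hasSubst_expm, map_pow]

lemma subst_iv : PowerSeries.subst (expm ℂ) iv = evalNegHom (exp ℂ) := by
  have h1 : PowerSeries.subst (expm ℂ) (1 + X : PowerSeries ℂ) * PowerSeries.subst (expm ℂ) iv = 1 := by
    rw [← subst_mul hasSubst_expm, mul_iv, ← coe_substAlgHom hasSubst_expm, map_one]
  rw [subst_one_add_X] at h1
  have h2 := exp_mul_exp_neg_eq_one (A := ℂ)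
  calc PowerSeries.subst (expm ℂ) iv = (exp ℂ * evalNegHom (exp ℂ)) * PowerSeries.subst (expm ℂ) iv := by
        rw [h2, one_mul]
    _ = evalNegHom (exp ℂ) * (exp ℂ * PowerSeries.subst (expm ℂ) iv) := by ring
    _ = _ := by rw [h1, mul_one]

/-- `m((1+T)^m + (1+T)^{-m} - 2)` -/
def R1 (m : ℕ) : PowerSeries ℂ := (m : PowerSeries ℂ) * ((1 + X) ^ m + iv ^ m - 2)

lemma CIn_R1 (S : Subring ℂ) (m : ℕ) : CIn S (R1 m) := by
  refine (CIn.natCast m).mul ((((CIn_one_add_X S).pow m).add ((CIn_iv S).pow m)).sub ?_)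
  have := CIn.natCast (S := S) 2
  exact_mod_cast this

lemma subst_R1 (m : ℕ) : PowerSeries.subst (expm ℂ) (R1 m) =
    (m : PowerSeries ℂ) * (rescale (m : ℂ) (exp ℂ) + rescale (-(m : ℂ)) (exp ℂ) - 2) := by
  have e1 : PowerSeries.subst (expm ℂ) (R1 m) = (m : PowerSeries ℂ) *
      ((PowerSeries.subst (expm ℂ) (1 + X : PowerSeries ℂ)) ^ m +
        (PowerSeries.subst (expm ℂ) iv) ^ m - 2) := by
    rw [R1]
    simp only [← coe_substAlgHom hasSubst_expm, map_mul, map_sub, map_add, map_pow, map_natCast,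
      map_ofNat]
  rw [e1, subst_one_add_X, subst_iv, exp_pow_eq_rescale_exp]
  congr 3
  rw [evalNegHom, ← map_pow, exp_pow_eq_rescale_exp, rescale_rescale]
  congr 1
  ring_nf

lemma coeff_subst_R1 (m i : ℕ) : coeff i (PowerSeries.subst (expm ℂ) (R1 m)) =
    if Even i ∧ 2 ≤ i then 2 / (i ! : ℂ) * (m : ℂ) ^ (i + 1) else 0 := by
  rw [subst_R1]
  have hm : (m : PowerSeries ℂ) = C (m : ℂ) := by simp
  have h2 : (2 : PowerSeries ℂ) = C (2 : ℂ) := (map_ofNat C 2).symm
  have hc : (algebraMap ℚ ℂ) (1 / (i ! : ℚ)) = 1 / (i ! : ℂ) := by simp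
  rw [hm, coeff_C_mul, map_sub, map_add, coeff_rescale, coeff_rescale, coeff_exp, h2, coeff_C, hc]
  rcases Nat.even_or_odd i with he | ho
  · rw [Even.neg_pow he]
    by_cases hi : 2 ≤ i
    · have h0 : ¬ (i = 0) := by omega
      have hcond : Even i ∧ 2 ≤ i := And.intro he hi
      simp only [h0, hcond, if_false, if_true, and_self, sub_zero]
      rw [pow_succ]
      ring
    · have h0 : i = 0 := by
        obtain ⟨j, rfl⟩ := he
        omega
      subst h0
      simp
      right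
      norm_num
  · rw [Odd.neg_pow ho]
    have hno : ¬ (Even i ∧ 2 ≤ i) := by
      rintro ⟨h, -⟩
      exact (Nat.not_even_iff_odd.2 ho) h
    have h0 : ¬ (i = 0) := by rintro rfl; simp at ho
    simp only [h0, hno, if_false, sub_zero]
    ring

/-- **T2b** -/
theorem T2b (n : ℕ) : ∃ R : PowerSeries ℂ, (∀ S : Subring ℂ, CIn S R) ∧
    PowerSeries.subst (expm ℂ) R = PowerSeries.mk (fun i => if Even i ∧ 2 ≤ i then
      2 / (i ! : ℂ) * ((σ (i + 1) n : ℕ) : ℂ) else 0) := by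
  refine ⟨∑ m ∈ n.divisors, R1 m, fun S => CIn.sum fun m _ => CIn_R1 S m, ?_⟩
  have e1 : PowerSeries.subst (expm ℂ) (∑ m ∈ n.divisors, R1 m) =
      ∑ m ∈ n.divisors, PowerSeries.subst (expm ℂ) (R1 m) := by
    simp only [← coe_substAlgHom hasSubst_expm, map_sum]
  rw [e1]
  ext i
  rw [map_sum, coeff_mk, Finset.sum_congr rfl fun m _ => coeff_subst_R1 m i]
  split_ifs with h
  · rw [← Finset.mul_sum, ArithmeticFunction.sigma_apply]
    push_cast
    rfl
  · simp

end

end Crest.Agent.R007.TwB
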