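import Mathlib

/-!
R007/Wp1: Weierstrass division values: definitions, periodicity, parity, SL2(Z)-equivariance.
-/

set_option autoImplicit false

namespace Crest.Agent.R007.Wp

open UpperHalfPlane hiding I
open Complex PeriodPair ModularForm Matrix
open scoped MatrixGroups Real PeriodPair

noncomputable section

/-- The period pair `(τ, 1)`. -/
def PP (τ : ℍ) : PeriodPair where
  ω₁ := τ
  ω₂ := 1
  indep := by
    rw [LinearIndependent.pair_iff]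
    intro s t h
    have him := congrArg Complex.im h
    simp only [real_smul, add_im, mul_im, ofReal_re, ofReal_im, zero_mul, add_zero, mul_one,
      one_im, zero_im, UpperHalfPlane.coe_im] at him
    have hs : s = 0 := by
      have := τ.im_pos.ne'
      simpa [this] using him
    subst hs
    simp at h
    exact ⟨rfl, by exact_mod_cast h⟩

@[simp] lemma PP_ω₁ (τ : ℍ) : (PP τ).ω₁ = (τ : ℂ) := rfl
@[simp] lemma PP_ω₂ (τ : ℍ) : (PP τ).ω₂ = 1 := rfl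

lemma mem_PP {τ : ℍ} {x : ℂ} : x ∈ (PP τ).lattice ↔ ∃ m n : ℤ, (m : ℂ) * τ + n = x := by
  rw [PeriodPair.mem_lattice]; simp

/-- If `c • L = L'` then `℘[L'](c z) = c⁻² ℘[L](z)`. -/
lemma weierstrassP_scale {L L' : PeriodPair} {c : ℂ} (hc : c ≠ 0)
    (h : ∀ x, x ∈ L.lattice ↔ c * x ∈ L'.lattice) (z : ℂ) :
    ℘[L'] (c * z) = (c ^ 2)⁻¹ * ℘[L] z := by
  let e : L.lattice ≃ L'.lattice :=
    { toFun := fun x => ⟨c * x, (h _).1 x.2⟩
      invFun := fun y => ⟨c⁻¹ * y, (h _).2 (by rw [mul_inv_cancel_left₀ hc]; exact y.2)⟩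
      left_inv := fun x => by ext; simp [inv_mul_cancel_left₀ hc]
      right_inv := fun y => by ext; simp [mul_inv_cancel_left₀ hc] }
  rw [weierstrassP, weierstrassP, ← e.tsum_eq, ← tsum_mul_left]
  congr 1
  ext l
  have : ((e l : L'.lattice) : ℂ) = c * l := rfl
  rw [this, ← mul_sub, mul_pow, mul_pow]
  rw [one_div, one_div, mul_inv, mul_inv, one_div, one_div, mul_sub]

lemma derivWeierstrassP_scale {L L' : PeriodPair} {c : ℂ} (hc : c ≠ 0)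
    (h : ∀ x, x ∈ L.lattice ↔ c * x ∈ L'.lattice) (z : ℂ) :
    ℘'[L'] (c * z) = (c ^ 3)⁻¹ * ℘'[L] z := by
  let e : L.lattice ≃ L'.lattice :=
    { toFun := fun x => ⟨c * x, (h _).1 x.2⟩
      invFun := fun y => ⟨c⁻¹ * y, (h _).2 (by rw [mul_inv_cancel_left₀ hc]; exact y.2)⟩
      left_inv := fun x => by ext; simp [inv_mul_cancel_left₀ hc]
      right_inv := fun y => by ext; simp [mul_inv_cancel_left₀ hc] }
  rw [derivWeierstrassP, derivWeierstrassP, ← e.tsum_eq, mul_neg, ← tsum_mul_left]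
  congr 2
  ext l
  have : ((e l : L'.lattice) : ℂ) = c * l := rfl
  rw [this, ← mul_sub, mul_pow]
  rw [div_eq_mul_inv, div_eq_mul_inv, mul_inv]
  ring

/-- The division point `(v₀ τ + v₁)/M`. -/
def pt (M : ℕ) (v : Fin 2 → ℤ) (τ : ℍ) : ℂ := ((v 0 : ℂ) * τ + v 1) / M

/-- Normalised division value `(2πi)⁻² ℘((v₀τ+v₁)/M)`. -/
def P (M : ℕ) (v : Fin 2 → ℤ) (τ : ℍ) : ℂ := ((2 * π * I) ^ 2)⁻¹ * ℘[PP τ] (pt M v τ)

/-- Normalised division value `(2πi)⁻³ ℘'((v₀τ+v₁)/M)`. -/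
def Q (M : ℕ) (v : Fin 2 → ℤ) (τ : ℍ) : ℂ := ((2 * π * I) ^ 3)⁻¹ * ℘'[PP τ] (pt M v τ)

lemma pt_add {M : ℕ} (hM : M ≠ 0) (v w : Fin 2 → ℤ) (τ : ℍ) :
    pt M (v + (M : ℤ) • w) τ = pt M v τ + ((w 0 : ℂ) * τ + w 1) := by
  have : (M : ℂ) ≠ 0 := by exact_mod_cast hM
  simp only [pt, Pi.add_apply, Pi.smul_apply, smul_eq_mul]
  push_cast
  field_simp
  ring

lemma pt_neg (M : ℕ) (v : Fin 2 → ℤ) (τ : ℍ) : pt M (-v) τ = - pt M v τ := by
  simp only [pt, Pi.neg_apply]; push_cast; ring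

lemma P_add {M : ℕ} (hM : M ≠ 0) (v w : Fin 2 → ℤ) : P M (v + (M : ℤ) • w) = P M v := by
  funext τ
  have hl : ((w 0 : ℂ) * τ + w 1) ∈ (PP τ).lattice := mem_PP.2 ⟨w 0, w 1, rfl⟩
  rw [P, P, pt_add hM]
  congr 1
  exact (PP τ).weierstrassP_add_coe _ ⟨_, hl⟩

lemma Q_add {M : ℕ} (hM : M ≠ 0) (v w : Fin 2 → ℤ) : Q M (v + (M : ℤ) • w) = Q M v := by
  funext τ
  have hl : ((w 0 : ℂ) * τ + w 1) ∈ (PP τ).lattice := mem_PP.2 ⟨w 0, w 1, rfl⟩
  rw [Q, Q, pt_add hM]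
  congr 1
  exact (PP τ).derivWeierstrassP_add_coe _ ⟨_, hl⟩

lemma P_neg (M : ℕ) (v : Fin 2 → ℤ) : P M (-v) = P M v := by
  funext τ; rw [P, P, pt_neg, weierstrassP_neg]

lemma Q_neg (M : ℕ) (v : Fin 2 → ℤ) : Q M (-v) = - Q M v := by
  funext τ; rw [Pi.neg_apply, Q, Q, pt_neg, derivWeierstrassP_neg]; ring

/-- `v` and `w` congruent mod `M`. -/
lemma P_congr {M : ℕ} (hM : M ≠ 0) {v w : Fin 2 → ℤ} (h : ∀ i, (v i : ZMod M) = w i) :
    P M v = P M w := by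
  have : ∃ u : Fin 2 → ℤ, v = w + (M : ℤ) • u := by
    have h' : ∀ i, ∃ t : ℤ, v i = w i + M * t := fun i => by
      have := (ZMod.intCast_eq_intCast_iff_dvd_sub (w i) (v i) M).1 (h i).symm
      obtain ⟨t, ht⟩ := this
      exact ⟨t, by linarith⟩
    choose t ht using h'
    exact ⟨t, by ext i; simp [ht i]⟩
  obtain ⟨u, rfl⟩ := this
  exact P_add hM w u

lemma Q_congr {M : ℕ} (hM : M ≠ 0) {v w : Fin 2 → ℤ} (h : ∀ i, (v i : ZMod M) = w i) :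
    Q M v = Q M w := by
  have : ∃ u : Fin 2 → ℤ, v = w + (M : ℤ) • u := by
    have h' : ∀ i, ∃ t : ℤ, v i = w i + M * t := fun i => by
      have := (ZMod.intCast_eq_intCast_iff_dvd_sub (w i) (v i) M).1 (h i).symm
      obtain ⟨t, ht⟩ := this
      exact ⟨t, by linarith⟩
    choose t ht using h'
    exact ⟨t, by ext i; simp [ht i]⟩
  obtain ⟨u, rfl⟩ := this
  exact Q_add hM w u

section slash

variable (γ : SL(2, ℤ)) (τ : ℍ)

lemma coe_smul_eq : ((γ • τ : ℍ) : ℂ) * denom γ τ = (γ 0 0 : ℂ) * τ + γ 0 1 := by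
  have h := UpperHalfPlane.specialLinearGroup_apply γ τ
  have hd : denom γ τ ≠ 0 := denom_ne_zero _ _
  rw [h]
  simp only [algebraMap_int_eq, eq_intCast, ofReal_intCast]
  have : denom γ τ = (γ 1 0 : ℂ) * τ + γ 1 1 := by
    simp [denom]
  rw [← this, div_mul_cancel₀ _ hd]

lemma denom_eq' : denom γ τ = (γ 1 0 : ℂ) * τ + γ 1 1 := by
  simp [denom]

lemma lattice_smul (x : ℂ) :
    x ∈ (PP (γ • τ)).lattice ↔ denom γ τ * x ∈ (PP τ).lattice := by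
  have hd : denom γ τ ≠ 0 := denom_ne_zero _ _
  have hdet : (γ 0 0 : ℤ) * γ 1 1 - γ 0 1 * γ 1 0 = 1 := by
    have := γ.det_coe; rwa [Matrix.det_fin_two] at this
  constructor
  · rintro hx
    obtain ⟨m, n, rfl⟩ := mem_PP.1 hx
    refine mem_PP.2 ⟨m * γ 0 0 + n * γ 1 0, m * γ 0 1 + n * γ 1 1, ?_⟩
    have e1 := coe_smul_eq γ τ
    have e2 := denom_eq' γ τ
    push_cast
    linear_combination (-(m : ℂ)) * e1 - (n : ℂ) * e2
  · intro hx
    obtain ⟨m, n, hmn⟩ := mem_PP.1 hx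
    refine mem_PP.2 ⟨m * γ 1 1 - n * γ 1 0, - m * γ 0 1 + n * γ 0 0, ?_⟩
    apply mul_left_cancel₀ hd
    rw [← hmn]
    have e1 := coe_smul_eq γ τ
    have e2 := denom_eq' γ τ
    have e3 : (γ 0 0 : ℂ) * γ 1 1 - γ 0 1 * γ 1 0 = 1 := by exact_mod_cast hdet
    push_cast
    linear_combination ((m : ℂ) * γ 1 1 - n * γ 1 0) * e1 + (- (m : ℂ) * γ 0 1 + n * γ 0 0) * e2 +
      ((m : ℂ) * τ + n) * e3

lemma pt_smul (M : ℕ) (v : Fin 2 → ℤ) :
    denom γ τ * pt M v (γ • τ) = pt M (v ᵥ* (γ : Matrix (Fin 2) (Fin 2) ℤ)) τ := by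
  have e1 := coe_smul_eq γ τ
  have e2 := denom_eq' γ τ
  simp only [pt, Matrix.vecMul, dotProduct, Fin.sum_univ_two]
  push_cast
  rw [← mul_div_assoc]
  congr 1
  linear_combination (v 0 : ℂ) * e1 + (v 1 : ℂ) * e2

theorem P_slash (M : ℕ) (v : Fin 2 → ℤ) :
    P M v ∣[(2 : ℤ)] γ = P M (v ᵥ* (γ : Matrix (Fin 2) (Fin 2) ℤ)) := by
  funext τ
  have hd : denom γ τ ≠ 0 := denom_ne_zero _ _
  rw [ModularForm.SL_slash_apply, P, P, ← pt_smul γ τ,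
    weierstrassP_scale hd (lattice_smul γ τ)]
  rw [_root_.zpow_neg]
  norm_cast
  ring

theorem Q_slash (M : ℕ) (v : Fin 2 → ℤ) :
    Q M v ∣[(3 : ℤ)] γ = Q M (v ᵥ* (γ : Matrix (Fin 2) (Fin 2) ℤ)) := by
  funext τ
  have hd : denom γ τ ≠ 0 := denom_ne_zero _ _
  rw [ModularForm.SL_slash_apply, Q, Q, ← pt_smul γ τ,
    derivWeierstrassP_scale hd (lattice_smul γ τ)]
  rw [_root_.zpow_neg]
  norm_cast
  ring

end slash

end

end Crest.Agent.R007.Wp
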