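import Crest.Agent.R007.Wp1

/-!
R007/Wp2: q-series of Weierstrass division values.
-/

set_option autoImplicit false

namespace Crest.Agent.R007.Wp

open UpperHalfPlane hiding I
open Complex PeriodPair ModularForm Matrix Function
open scoped MatrixGroups Real PeriodPair Nat

local notation "𝕢" => Function.Periodic.qParam

noncomputable section

/-- The root of unity `exp(2πi/M)`. -/
def zeta (M : ℕ) : ℂ := cexp (2 * π * I / M)

lemma zeta_ne_zero (M : ℕ) : zeta M ≠ 0 := exp_ne_zero _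

lemma norm_zeta (M : ℕ) : ‖zeta M‖ = 1 := by
  rw [zeta, show (2 * π * I / M : ℂ) = ((2 * π / M : ℝ) : ℂ) * I by push_cast; ring]
  exact norm_exp_ofReal_mul_I _

lemma zeta_pow (M : ℕ) (hM : M ≠ 0) : zeta M ^ M = 1 := by
  have : (M : ℂ) ≠ 0 := by exact_mod_cast hM
  rw [zeta, ← Complex.exp_nat_mul, mul_div_cancel₀ _ this, exp_two_pi_mul_I]

lemma isPrimitiveRoot_zeta {M : ℕ} (hM : M ≠ 0) : IsPrimitiveRoot (zeta M) M :=
  Complex.isPrimitiveRoot_exp M hM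

/-- Row sums. -/
def row (s : ℕ) (w : ℂ) : ℂ := ∑' n : ℤ, 1 / (w + n) ^ s

lemma summable_row {s : ℕ} (hs : 2 ≤ s) (w : ℂ) : Summable fun n : ℤ => 1 / (w + n) ^ s := by
  have h := EisensteinSeries.linear_right_summable w 1 (k := (s : ℤ)) (by exact_mod_cast hs)
  refine h.congr fun n => ?_
  rw [one_div, zpow_natCast]; simp

lemma row_neg (s : ℕ) (w : ℂ) : row s (-w) = (-1) ^ s * row s w := by
  rw [row, row, ← (Equiv.neg ℤ).tsum_eq, ← tsum_mul_left]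
  congr 1
  ext n
  rw [Equiv.neg_apply, Int.cast_neg, ← neg_add, neg_pow, one_div, mul_inv, one_div]
  congr 1
  rw [← inv_pow]; norm_num

/-- The Lipschitz formula. -/
lemma row_eq {s : ℕ} (hs : 1 ≤ s) {w : ℂ} (hw : 0 < w.im) :
    row (s + 1) w = ((-2 * π * I) ^ (s + 1) / s !) *
      ∑' d : ℕ+, (d : ℂ) ^ s * cexp (2 * π * I * w) ^ (d : ℕ) :=
  EisensteinSeries.qExpansion_identity_pnat hs ⟨w, hw⟩

/-- general rearrangement of Lambert series -/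
lemma hasSum_lambert {χ : ℕ → ℕ → ℂ} {k : ℕ} {C : ℝ} (hχ : ∀ d e, ‖χ d e‖ ≤ C * (d : ℝ) ^ k)
    (c0 : ℂ) {q : ℂ} (hq : ‖q‖ < 1) :
    HasSum (fun n : ℕ => ((if n = 0 then c0 else 0) +
        ∑ p ∈ n.divisorsAntidiagonal, χ p.2 p.1) * q ^ n)
      (c0 + ∑' e : ℕ+, ∑' d : ℕ+, χ d e * q ^ (e * d : ℕ)) := by
  have hsum : Summable fun p : ℕ+ × ℕ+ => χ p.2 p.1 * q ^ (p.1 * p.2 : ℕ) := by
    have h1 : Summable fun c : (ℕ+ × ℕ+) ↦ C * ((c.2 : ℝ) ^ k * (‖q‖ ^ (c.1 * c.2 : ℕ))) :=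
      (summable_prod_mul_pow (𝕜 := ℝ) k (r := ‖q‖) (by simpa using hq)).mul_left C
    refine Summable.of_norm_bounded h1 fun c => ?_
    rw [norm_mul, norm_pow, ← mul_assoc]
    exact mul_le_mul_of_nonneg_right (hχ _ _) (by positivity)
  have e1 : ∑' e : ℕ+, ∑' d : ℕ+, χ d e * q ^ (e * d : ℕ) =
      ∑' p : ℕ+ × ℕ+, χ p.2 p.1 * q ^ (p.1 * p.2 : ℕ) := (hsum.tsum_prod).symm
  have h2 := hsum.hasSum
  rw [← e1, ← sigmaAntidiagonalEquivProd.hasSum_iff] at h2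
  have h3 := h2.sigma (g := fun n : ℕ+ => (∑ p ∈ (n : ℕ).divisorsAntidiagonal, χ p.2 p.1) *
      q ^ (n : ℕ)) (fun n => by
    have : HasSum (fun c : (n : ℕ).divisorsAntidiagonal =>
        ((fun p : ℕ+ × ℕ+ => χ p.2 p.1 * q ^ (p.1 * p.2 : ℕ)) ∘ sigmaAntidiagonalEquivProd)
          ⟨n, c⟩) (∑ c : (n : ℕ).divisorsAntidiagonal,
        ((fun p : ℕ+ × ℕ+ => χ p.2 p.1 * q ^ (p.1 * p.2 : ℕ)) ∘ sigmaAntidiagonalEquivProd)
          ⟨n, c⟩) := hasSum_fintype _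
    convert this using 1
    rw [Finset.sum_mul, ← Finset.sum_attach]
    apply Finset.sum_congr rfl
    intro c _
    have hc : c.1.1 * c.1.2 = n := (Nat.mem_divisorsAntidiagonal.1 c.2).1
    simp only [Function.comp_apply, sigmaAntidiagonalEquivProd, divisorsAntidiagonalFactors,
      Equiv.coe_fn_mk, PNat.mk_coe]
    rw [hc])
  have h4 : HasSum (fun n : ℕ+ => (fun n : ℕ => ((if n = 0 then c0 else 0) +
        ∑ p ∈ n.divisorsAntidiagonal, χ p.2 p.1) * q ^ n) (n : ℕ))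
        (∑' e : ℕ+, ∑' d : ℕ+, χ d e * q ^ (e * d : ℕ)) := by
    convert h3 using 1
    funext n
    simp [n.ne_zero]
  have h5 := (hasSum_pnat_iff (f := fun n : ℕ => ((if n = 0 then c0 else 0) +
        ∑ p ∈ n.divisorsAntidiagonal, χ p.2 p.1) * q ^ n)).1 h4
  have e6 : ((if (0 : ℕ) = 0 then c0 else 0) + ∑ p ∈ Nat.divisorsAntidiagonal 0, χ p.2 p.1) *
      q ^ 0 = c0 := by simp
  rw [e6, add_comm] at h5
  exact h5

/-- The constant in the Lipschitz formula. -/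
def KK (s : ℕ) : ℂ := (-2 * π * I) ^ (s + 1) / s !

/-- `∑_d d^s z^d q^{ed}`. -/
def AA (s : ℕ) (z q : ℂ) (e : ℕ) : ℂ := ∑' d : ℕ+, (d : ℂ) ^ s * z ^ (d : ℕ) * q ^ (e * d : ℕ)

lemma summable_prodAA (s : ℕ) {z q : ℂ} (hz : ‖z‖ = 1) (hq : ‖q‖ < 1) :
    Summable fun p : ℕ+ × ℕ+ => (p.2 : ℂ) ^ s * z ^ (p.2 : ℕ) * q ^ (p.1 * p.2 : ℕ) := by
  have h1 : Summable fun c : (ℕ+ × ℕ+) ↦ ((c.2 : ℝ) ^ s * (‖q‖ ^ (c.1 * c.2 : ℕ))) :=
    (summable_prod_mul_pow (𝕜 := ℝ) s (r := ‖q‖) (by simpa using hq))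
  refine Summable.of_norm_bounded h1 fun c => ?_
  rw [norm_mul, norm_mul, norm_pow, norm_pow, norm_pow, hz, one_pow, mul_one]
  simp

lemma summable_AA (s : ℕ) {z q : ℂ} (hz : ‖z‖ = 1) (hq : ‖q‖ < 1) :
    Summable fun e : ℕ+ => AA s z q e :=
  (summable_prodAA s hz hq).prod

lemma norm_zeta_zpow (M : ℕ) (β : ℤ) : ‖zeta M ^ β‖ = 1 := by
  rw [norm_zpow, norm_zeta, _root_.one_zpow]

lemma norm_q_lt {M : ℕ} (hM : M ≠ 0) (τ : ℍ) : ‖𝕢 (M : ℝ) (τ : ℂ)‖ < 1 :=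
  Periodic.norm_qParam_lt_one (by exact_mod_cast Nat.pos_of_ne_zero hM) τ.im_pos

lemma row_pos {M : ℕ} (hM : M ≠ 0) {s : ℕ} (hs : 1 ≤ s) (τ : ℍ) (β : ℤ) (e : ℕ+) :
    row (s + 1) ((((e : ℤ) : ℂ) * τ + β) / M) = KK s * AA s (zeta M ^ β) (𝕢 (M : ℝ) (τ : ℂ)) e := by
  have hM' : (M : ℂ) ≠ 0 := by exact_mod_cast hM
  have him : 0 < ((((e : ℤ) : ℂ) * τ + β) / M).im := by
    have e1 : ((((e : ℤ) : ℂ) * τ + β) / M).im = e * τ.im / M := by
      rw [Complex.div_natCast_im]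
      simp
    rw [e1]
    have := τ.im_pos
    have : (0 : ℝ) < M := by positivity
    positivity
  rw [row_eq hs him, KK, AA]
  congr 2
  funext d
  have e2 : cexp (2 * π * I * ((((e : ℤ) : ℂ) * τ + β) / M)) =
      zeta M ^ β * 𝕢 (M : ℝ) (τ : ℂ) ^ (e : ℕ) := by
    rw [zeta, Periodic.qParam, ← Complex.exp_int_mul, ← Complex.exp_nat_mul, ← Complex.exp_add]
    congr 1
    push_cast
    field_simp
    ring
  rw [e2, mul_pow, ← pow_mul, mul_assoc]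

lemma row_negE {M : ℕ} (hM : M ≠ 0) {s : ℕ} (hs : 1 ≤ s) (τ : ℍ) (β : ℤ) (e : ℕ+) :
    row (s + 1) ((((-(e : ℤ) : ℤ) : ℂ) * τ + β) / M) =
      (-1) ^ (s + 1) * (KK s * AA s (zeta M ^ (-β)) (𝕢 (M : ℝ) (τ : ℂ)) e) := by
  rw [← row_pos hM hs, ← row_neg]
  congr 1
  push_cast
  ring

/-- The residue class row sums. -/
def FF (M : ℕ) (s : ℕ) (τ : ℍ) (a β : ℤ) (e : ℤ) : ℂ :=
  if (e : ZMod M) = a then row (s + 1) (((e : ℂ) * τ + β) / M) else 0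

/-- coefficient of the Lambert series -/
def chi (M : ℕ) (s : ℕ) (a β : ℤ) (d e : ℕ) : ℂ :=
  (if ((e : ℤ) : ZMod M) = a then (d : ℂ) ^ s * (zeta M ^ β) ^ d else 0) +
  (-1) ^ (s + 1) * (if ((-(e : ℤ) : ℤ) : ZMod M) = a then (d : ℂ) ^ s * (zeta M ^ (-β)) ^ d else 0)

lemma norm_chi_le (M : ℕ) (s : ℕ) (a β : ℤ) (d e : ℕ) : ‖chi M s a β d e‖ ≤ 2 * (d : ℝ) ^ s := by
  have h1 : ∀ β : ℤ, ‖(d : ℂ) ^ s * (zeta M ^ β) ^ d‖ = (d : ℝ) ^ s := fun β => by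
    rw [norm_mul, norm_pow, norm_pow, norm_zeta_zpow, one_pow, mul_one]; simp
  have h2 : ∀ (p : Prop) [Decidable p] (β : ℤ),
      ‖(if p then (d : ℂ) ^ s * (zeta M ^ β) ^ d else 0)‖ ≤ (d : ℝ) ^ s := fun p _ β => by
    split_ifs
    · exact (h1 β).le
    · rw [norm_zero]; positivity
  refine (norm_add_le _ _).trans ?_
  rw [norm_mul, norm_pow, norm_neg, norm_one, one_pow, one_mul, two_mul]
  exact add_le_add (h2 _ _) (h2 _ _)

lemma FF_pos {M : ℕ} (hM : M ≠ 0) {s : ℕ} (hs : 1 ≤ s) (τ : ℍ) (a β : ℤ) (e : ℕ+) :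
    FF M s τ a β (e : ℤ) = if ((e : ℤ) : ZMod M) = a then
      KK s * AA s (zeta M ^ β) (𝕢 (M : ℝ) (τ : ℂ)) e else 0 := by
  rw [FF]; split_ifs
  · exact row_pos hM hs τ β e
  · rfl

lemma FF_neg {M : ℕ} (hM : M ≠ 0) {s : ℕ} (hs : 1 ≤ s) (τ : ℍ) (a β : ℤ) (e : ℕ+) :
    FF M s τ a β (-(e : ℤ)) = if ((-(e : ℤ) : ℤ) : ZMod M) = a then
      (-1) ^ (s + 1) * (KK s * AA s (zeta M ^ (-β)) (𝕢 (M : ℝ) (τ : ℂ)) e) else 0 := by
  rw [FF]; split_ifs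
  · exact row_negE hM hs τ β e
  · rfl

lemma summable_FF {M : ℕ} (hM : M ≠ 0) {s : ℕ} (hs : 1 ≤ s) (τ : ℍ) (a β : ℤ) :
    Summable (FF M s τ a β) := by
  have hq := norm_q_lt hM τ
  rw [summable_int_iff_summable_nat_and_neg]
  constructor
  · rw [← summable_pnat_iff_summable_nat (f := fun n : ℕ => FF M s τ a β (n : ℤ))]
    have h1 := (summable_AA s (norm_zeta_zpow M β) hq).norm.mul_left ‖KK s‖
    refine Summable.of_norm_bounded h1 fun e => ?_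
    have := FF_pos hM hs τ a β e
    rw [this]
    split_ifs
    · rw [norm_mul]
    · rw [norm_zero]; positivity
  · rw [← summable_pnat_iff_summable_nat (f := fun n : ℕ => FF M s τ a β (-(n : ℤ)))]
    have h1 := (summable_AA s (norm_zeta_zpow M (-β)) hq).norm.mul_left ‖KK s‖
    refine Summable.of_norm_bounded h1 fun e => ?_
    have := FF_neg hM hs τ a β e
    rw [this]
    split_ifs
    · rw [norm_mul, norm_mul, norm_pow, norm_neg, norm_one, one_pow, one_mul]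
    · rw [norm_zero]; positivity

/-- Value of the residue class row sum. -/
theorem tsum_FF {M : ℕ} (hM : M ≠ 0) {s : ℕ} (hs : 1 ≤ s) (τ : ℍ) (a β : ℤ) :
    ∑' e : ℤ, FF M s τ a β e = (if (a : ZMod M) = 0 then row (s + 1) ((β : ℂ) / M) else 0) +
      KK s * ∑' e : ℕ+, ∑' d : ℕ+, chi M s a β d e * 𝕢 (M : ℝ) (τ : ℂ) ^ (e * d : ℕ) := by
  have hq := norm_q_lt hM τ
  rw [tsum_int_eq_zero_add_tsum_pnat (summable_FF hM hs τ a β), add_assoc]
  congr 1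
  · rw [FF]
    simp only [Int.cast_zero, zero_mul, zero_add]
    by_cases h : (a : ZMod M) = 0
    · rw [if_pos h, if_pos h.symm]
    · rw [if_neg h, if_neg (fun h' => h h'.symm)]
  · have s1 : Summable fun e : ℕ+ => FF M s τ a β (e : ℤ) := by
      have h1 := (summable_AA s (norm_zeta_zpow M β) hq).norm.mul_left ‖KK s‖
      refine Summable.of_norm_bounded h1 fun e => ?_
      rw [FF_pos hM hs τ a β e]
      split_ifs
      · rw [norm_mul]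
      · rw [norm_zero]; positivity
    have s2 : Summable fun e : ℕ+ => FF M s τ a β (-(e : ℤ)) := by
      have h1 := (summable_AA s (norm_zeta_zpow M (-β)) hq).norm.mul_left ‖KK s‖
      refine Summable.of_norm_bounded h1 fun e => ?_
      rw [FF_neg hM hs τ a β e]
      split_ifs
      · rw [norm_mul, norm_mul, norm_pow, norm_neg, norm_one, one_pow, one_mul]
      · rw [norm_zero]; positivity
    rw [← s1.tsum_add s2, ← tsum_mul_left]
    congr 1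
    funext e
    rw [FF_pos hM hs τ a β e, FF_neg hM hs τ a β e]
    have t1 : ∀ z : ℂ, ‖z‖ = 1 →
        Summable fun d : ℕ+ => (d : ℂ) ^ s * z ^ (d : ℕ) * 𝕢 (M : ℝ) (τ : ℂ) ^ (e * d : ℕ) :=
      fun z hz => (summable_prodAA s hz hq).prod_factor e
    have t2 := t1 _ (norm_zeta_zpow M β)
    have t3 := t1 _ (norm_zeta_zpow M (-β))
    have e1 : ∀ d : ℕ+, chi M s a β d e * 𝕢 (M : ℝ) (τ : ℂ) ^ (e * d : ℕ) =
        (if ((e : ℤ) : ZMod M) = a then 1 else 0) *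
          ((d : ℂ) ^ s * (zeta M ^ β) ^ (d : ℕ) * 𝕢 (M : ℝ) (τ : ℂ) ^ (e * d : ℕ)) +
        ((-1) ^ (s + 1) * if ((-(e : ℤ) : ℤ) : ZMod M) = a then 1 else 0) *
          ((d : ℂ) ^ s * (zeta M ^ (-β)) ^ (d : ℕ) * 𝕢 (M : ℝ) (τ : ℂ) ^ (e * d : ℕ)) := by
      intro d
      rw [chi]
      split_ifs <;> ring
    rw [tsum_congr e1, (t2.mul_left _).tsum_add (t3.mul_left _), tsum_mul_left, tsum_mul_left,
      AA, AA]
    split_ifs <;> ring

end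

end Crest.Agent.R007.Wp
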