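import Crest.Agent.R007.Wp2

/-!
R007/Wp3: q-expansions of the Weierstrass division values.
-/

set_option autoImplicit false

namespace Crest.Agent.R007.Wp

open UpperHalfPlane hiding I
open Complex PeriodPair ModularForm Matrix Function Filter
open scoped MatrixGroups Real PeriodPair Nat Topology

local notation "𝕢" => Function.Periodic.qParam

noncomputable section

lemma _root_.HasSum.congr_fun' {ι : Type*} {f g : ι → ℂ} {a : ℂ} (h : HasSum f a)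
    (hfg : ∀ i, g i = f i) : HasSum g a := by
  have : g = f := funext hfg
  rw [this]; exact h

lemma hasSum_prod_deriv (τ : ℍ) (z : ℂ) :
    HasSum (fun x : ℤ × ℤ => -2 / (z - ((x.1 : ℂ) * τ + x.2)) ^ 3) (℘'[PP τ] z) := by
  have h := (PP τ).hasSum_derivWeierstrassP z
  rw [← (PP τ).latticeEquivProd.symm.toEquiv.hasSum_iff] at h
  convert h using 1
  funext x
  simp only [Function.comp_apply, LinearEquiv.coe_toEquiv, latticeEquiv_symm_apply]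
  simp

lemma hasSum_prod_P (τ : ℍ) (z : ℂ) :
    HasSum (fun x : ℤ × ℤ => 1 / (z - ((x.1 : ℂ) * τ + x.2)) ^ 2 - 1 / ((x.1 : ℂ) * τ + x.2) ^ 2)
      (℘[PP τ] z) := by
  have h := (PP τ).hasSum_weierstrassP z
  rw [← (PP τ).latticeEquivProd.symm.toEquiv.hasSum_iff] at h
  convert h using 1
  funext x
  simp only [Function.comp_apply, LinearEquiv.coe_toEquiv, latticeEquiv_symm_apply]
  simp

lemma hasSum_row_sub {s : ℕ} (hs : 2 ≤ s) (w : ℂ) :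
    HasSum (fun n : ℤ => 1 / (w - n) ^ s) (row s w) := by
  have h : HasSum (fun n : ℤ => 1 / (w + n) ^ s) (row s w) := (summable_row hs w).hasSum
  rw [← (Equiv.neg ℤ).hasSum_iff] at h
  refine h.congr_fun' fun n => ?_
  simp [sub_eq_add_neg]

lemma hasSum_rows_deriv (τ : ℍ) (z : ℂ) :
    HasSum (fun m : ℤ => -2 * row 3 (z - (m : ℂ) * τ)) (℘'[PP τ] z) := by
  refine (hasSum_prod_deriv τ z).prod_fiberwise fun m => ?_
  have h := (hasSum_row_sub (s := 3) (by norm_num) (z - (m : ℂ) * τ)).mul_left (-2)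
  refine h.congr_fun' fun n => ?_
  rw [sub_sub, div_eq_mul_one_div]

lemma hasSum_rows_P (τ : ℍ) (z : ℂ) :
    HasSum (fun m : ℤ => row 2 (z - (m : ℂ) * τ) - row 2 ((m : ℂ) * τ)) (℘[PP τ] z) := by
  refine (hasSum_prod_P τ z).prod_fiberwise fun m => ?_
  have h := (hasSum_row_sub (s := 2) (by norm_num) (z - (m : ℂ) * τ))
  have h2 : HasSum (fun n : ℤ => 1 / ((m : ℂ) * τ + n) ^ 2) (row 2 ((m : ℂ) * τ)) :=
    (summable_row (s := 2) (by norm_num) ((m : ℂ) * τ)).hasSum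
  have h3 := h.sub h2
  refine h3.congr_fun' fun n => ?_
  rw [sub_sub]

lemma inj_aux {M : ℕ} (hM : M ≠ 0) (a : ℤ) : Function.Injective fun m : ℤ => a - m * M := by
  intro m n h
  have hM' : (M : ℤ) ≠ 0 := by exact_mod_cast hM
  have : m * (M : ℤ) = n * M := by simpa using h
  exact mul_right_cancel₀ hM' this

lemma hasSum_FF_iff {M : ℕ} (hM : M ≠ 0) (s : ℕ) (τ : ℍ) (v : Fin 2 → ℤ) (S : ℂ) :
    HasSum (fun m : ℤ => row (s + 1) (pt M v τ - (m : ℂ) * τ)) S ↔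
      HasSum (FF M s τ (v 0) (v 1)) S := by
  have hM' : (M : ℂ) ≠ 0 := by exact_mod_cast hM
  rw [← (inj_aux hM (v 0)).hasSum_iff (f := FF M s τ (v 0) (v 1))]
  · apply iff_of_eq
    congr 1
    funext m
    simp only [Function.comp_apply, FF]
    rw [if_pos (by push_cast; simp)]
    congr 1
    rw [pt]
    push_cast
    field_simp
    ring
  · intro e he
    rw [FF, if_neg]
    intro h
    apply he
    have := (ZMod.intCast_eq_intCast_iff_dvd_sub e (v 0) M).1 h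
    obtain ⟨t, ht⟩ := this
    exact ⟨t, by show v 0 - t * M = e; linarith⟩

lemma pt_zero (M : ℕ) (τ : ℍ) : pt M 0 τ = 0 := by simp [pt]

/-- The constant term of `Q`. -/
def cQ0 (M : ℕ) (v : Fin 2 → ℤ) : ℂ :=
  ((2 * π * I) ^ 3)⁻¹ * (-2 * (if (v 0 : ZMod M) = 0 then row 3 ((v 1 : ℂ) / M) else 0))

/-- The constant term of `P`. -/
def cP0 (M : ℕ) (v : Fin 2 → ℤ) : ℂ :=
  ((2 * π * I) ^ 2)⁻¹ * ((if (v 0 : ZMod M) = 0 then row 2 ((v 1 : ℂ) / M) else 0) - row 2 0)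

/-- q-expansion coefficients of `Q`. -/
def cQ (M : ℕ) (v : Fin 2 → ℤ) (n : ℕ) : ℂ :=
  (if n = 0 then cQ0 M v else 0) + ∑ p ∈ n.divisorsAntidiagonal, chi M 2 (v 0) (v 1) p.2 p.1

/-- q-expansion coefficients of `P`. -/
def cP (M : ℕ) (v : Fin 2 → ℤ) (n : ℕ) : ℂ :=
  (if n = 0 then cP0 M v else 0) + ∑ p ∈ n.divisorsAntidiagonal,
    (chi M 1 (v 0) (v 1) p.2 p.1 - chi M 1 0 0 p.2 p.1)

lemma two_pi_I_ne : (2 * π * I : ℂ) ≠ 0 := two_pi_I_ne_zero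

theorem hasSum_Q {M : ℕ} (hM : M ≠ 0) (v : Fin 2 → ℤ) (τ : ℍ) :
    HasSum (fun n : ℕ => cQ M v n * 𝕢 (M : ℝ) (τ : ℂ) ^ n) (Q M v τ) := by
  have h1 := hasSum_rows_deriv τ (pt M v τ)
  have h2 : HasSum (fun m : ℤ => row 3 (pt M v τ - (m : ℂ) * τ)) (∑' e, FF M 2 τ (v 0) (v 1) e) :=
    (hasSum_FF_iff hM 2 τ v _).2 (summable_FF hM (by norm_num) τ _ _).hasSum
  have h3 := h1.unique (h2.mul_left (-2))
  have h4 := hasSum_lambert (χ := chi M 2 (v 0) (v 1)) (k := 2) (norm_chi_le M 2 _ _) (cQ0 M v)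
    (norm_q_lt hM τ)
  have h5 : Q M v τ = cQ0 M v + ∑' e : ℕ+, ∑' d : ℕ+,
      chi M 2 (v 0) (v 1) d e * 𝕢 (M : ℝ) (τ : ℂ) ^ (e * d : ℕ) := by
    rw [Q, h3, tsum_FF hM (by norm_num), cQ0]
    have hK : ((2 * π * I : ℂ) ^ 3)⁻¹ * (-2 * KK 2) = 1 := by
      have := two_pi_I_ne
      rw [KK]
      have h6 : ((-2 * π * I : ℂ)) = -(2 * π * I) := by ring
      rw [h6, show (2 + 1 : ℕ) = 3 from rfl, show ((2 ! : ℕ) : ℂ) = 2 by norm_num [Nat.factorial]]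
      generalize (2 * π * I : ℂ) = t at this
      field_simp
    linear_combination (∑' e : ℕ+, ∑' d : ℕ+,
      chi M 2 (v 0) (v 1) d e * 𝕢 (M : ℝ) (τ : ℂ) ^ (e * d : ℕ)) * hK
  rw [h5]
  exact h4

theorem hasSum_P {M : ℕ} (hM : M ≠ 0) (v : Fin 2 → ℤ) (τ : ℍ) :
    HasSum (fun n : ℕ => cP M v n * 𝕢 (M : ℝ) (τ : ℂ) ^ n) (P M v τ) := by
  have h1 := hasSum_rows_P τ (pt M v τ)
  have h2 : HasSum (fun m : ℤ => row 2 (pt M v τ - (m : ℂ) * τ)) (∑' e, FF M 1 τ (v 0) (v 1) e) :=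
    (hasSum_FF_iff hM 1 τ v _).2 (summable_FF hM (by norm_num) τ _ _).hasSum
  have h2' : HasSum (fun m : ℤ => row 2 ((m : ℂ) * τ)) (∑' e, FF M 1 τ 0 0 e) := by
    have h := (hasSum_FF_iff hM 1 τ 0 _).2 (summable_FF hM (by norm_num) τ 0 0).hasSum
    rw [← (Equiv.neg ℤ).hasSum_iff] at h
    convert h using 1
    funext m
    simp [pt_zero]
  have h3 := h1.unique (h2.sub h2')
  have hb : ∀ d e, ‖chi M 1 (v 0) (v 1) d e - chi M 1 0 0 d e‖ ≤ 4 * (d : ℝ) ^ 1 := fun d e => by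
    refine (norm_sub_le _ _).trans ?_
    have := add_le_add (norm_chi_le M 1 (v 0) (v 1) d e) (norm_chi_le M 1 0 0 d e)
    linarith
  have h4 := hasSum_lambert (χ := fun d e => chi M 1 (v 0) (v 1) d e - chi M 1 0 0 d e) (k := 1)
    hb (cP0 M v) (norm_q_lt hM τ)
  have hq := norm_q_lt hM τ
  have hs : ∀ a β : ℤ, Summable fun p : ℕ+ × ℕ+ =>
      chi M 1 a β p.2 p.1 * 𝕢 (M : ℝ) (τ : ℂ) ^ (p.1 * p.2 : ℕ) := fun a β => by
    have h1 : Summable fun c : (ℕ+ × ℕ+) ↦ (2 : ℝ) * ((c.2 : ℝ) ^ 1 *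
        (‖𝕢 (M : ℝ) (τ : ℂ)‖ ^ (c.1 * c.2 : ℕ))) :=
      (summable_prod_mul_pow (𝕜 := ℝ) 1 (r := ‖𝕢 (M : ℝ) (τ : ℂ)‖) (by simpa using hq)).mul_left 2
    refine Summable.of_norm_bounded h1 fun c => ?_
    rw [norm_mul, norm_pow, ← mul_assoc]
    exact mul_le_mul_of_nonneg_right (norm_chi_le M 1 a β _ _) (by positivity)
  have h5 : P M v τ = cP0 M v + ∑' e : ℕ+, ∑' d : ℕ+,
      (chi M 1 (v 0) (v 1) d e - chi M 1 0 0 d e) * 𝕢 (M : ℝ) (τ : ℂ) ^ (e * d : ℕ) := by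
    have e1 : ∑' e : ℕ+, ∑' d : ℕ+,
      (chi M 1 (v 0) (v 1) d e - chi M 1 0 0 d e) * 𝕢 (M : ℝ) (τ : ℂ) ^ (e * d : ℕ) =
      ∑' e : ℕ+, ∑' d : ℕ+, chi M 1 (v 0) (v 1) d e * 𝕢 (M : ℝ) (τ : ℂ) ^ (e * d : ℕ) -
      ∑' e : ℕ+, ∑' d : ℕ+, chi M 1 0 0 d e * 𝕢 (M : ℝ) (τ : ℂ) ^ (e * d : ℕ) := by
      rw [← (hs (v 0) (v 1)).prod.tsum_sub (hs 0 0).prod]
      congr 1
      funext e
      rw [← ((hs (v 0) (v 1)).prod_factor e).tsum_sub ((hs 0 0).prod_factor e)]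
      congr 1
      funext d
      ring
    rw [P, h3, tsum_FF hM (by norm_num), tsum_FF hM (by norm_num), cP0, e1]
    have hK : ((2 * π * I : ℂ) ^ 2)⁻¹ * KK 1 = 1 := by
      have := two_pi_I_ne
      rw [KK]
      have h6 : ((-2 * π * I : ℂ)) = -(2 * π * I) := by ring
      rw [h6, show (1 + 1 : ℕ) = 2 from rfl, show ((1 ! : ℕ) : ℂ) = 1 by norm_num [Nat.factorial]]
      generalize (2 * π * I : ℂ) = t at this
      field_simp
    simp only [Int.cast_zero, if_true, zero_div]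
    linear_combination (∑' e : ℕ+, ∑' d : ℕ+,
      chi M 1 (v 0) (v 1) d e * 𝕢 (M : ℝ) (τ : ℂ) ^ (e * d : ℕ) -
      ∑' e : ℕ+, ∑' d : ℕ+, chi M 1 0 0 d e * 𝕢 (M : ℝ) (τ : ℂ) ^ (e * d : ℕ)) * hK
  rw [h5]
  exact h4

end

end Crest.Agent.R007.Wp
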