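import Crest.Agent.R007.Wp3

/-!
R007/Wp4: constant terms of the Weierstrass division values.
-/

set_option autoImplicit false

namespace Crest.Agent.R007.Wp

open UpperHalfPlane hiding I
open Complex PeriodPair ModularForm Matrix Function Filter
open scoped MatrixGroups Real PeriodPair Nat Topology

local notation "𝕢" => Function.Periodic.qParam

noncomputable section

lemma tsum_mul_geom {u : ℂ} (hu : ‖u‖ < 1) : ∑' d : ℕ+, (d : ℂ) ^ 1 * u ^ (d : ℕ) = u / (1 - u) ^ 2 := by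
  have h := tsum_coe_mul_geometric_of_norm_lt_one hu
  rw [← h, ← tsum_pnat_eq_tsum_of_eq_zero (f := fun n : ℕ => (n : ℂ) * u ^ n) (by simp)]
  simp

lemma tsum_sq_mul_geom {u : ℂ} (hu : ‖u‖ < 1) :
    ∑' d : ℕ+, (d : ℂ) ^ 2 * u ^ (d : ℕ) = u * (1 + u) / (1 - u) ^ 3 := by
  have h0 : (1 - u) ≠ 0 := by
    intro h
    have : u = 1 := by linear_combination -h
    rw [this] at hu; simp at hu
  have h3 := hasSum_choose_mul_geometric_of_norm_lt_one 2 hu
  have h2 := hasSum_choose_mul_geometric_of_norm_lt_one 1 hu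
  have h1 := hasSum_choose_mul_geometric_of_norm_lt_one 0 hu
  have h := ((h3.mul_left 2).sub (h2.mul_left 3)).add h1
  have e1 : HasSum (fun n : ℕ => (n : ℂ) ^ 2 * u ^ n) (u * (1 + u) / (1 - u) ^ 3) := by
    have h' := h.congr_fun' (g := fun n : ℕ => (n : ℂ) ^ 2 * u ^ n) (fun n => by
      have c2 : (((n + 2).choose 2 : ℕ) : ℂ) = (n + 2) * (n + 1) / 2 := by
        rw [Nat.cast_choose_two]; push_cast; ring
      have c1 : (((n + 1).choose 1 : ℕ) : ℂ) = n + 1 := by simp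
      rw [c2, c1]
      simp
      ring)
    convert h' using 1
    field_simp
    ring
  have e2 := tsum_pnat_eq_tsum_of_eq_zero (f := fun n : ℕ => (n : ℂ) ^ 2 * u ^ n) (by simp)
  rw [e2, e1.tsum_eq]

/-- `e(x) = exp(2πix)`. -/
def ee (x : ℂ) : ℂ := cexp (2 * π * I * x)

lemma norm_ee_lt {w : ℂ} (hw : 0 < w.im) : ‖ee w‖ < 1 := by
  rw [ee, Complex.norm_exp]
  have : (2 * π * I * w).re = -(2 * π * w.im) := by
    simp
  rw [this]
  have := Real.pi_pos
  exact Real.exp_lt_one_iff.2 (by have : 0 < 2 * π * w.im := by positivity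
                                  linarith)

lemma row2_upper {w : ℂ} (hw : 0 < w.im) : row 2 w = (2 * π * I) ^ 2 * (ee w / (1 - ee w) ^ 2) := by
  rw [row_eq (s := 1) le_rfl hw, show cexp (2 * π * I * w) = ee w from rfl,
    tsum_mul_geom (norm_ee_lt hw)]
  norm_num [Nat.factorial]

lemma row3_upper {w : ℂ} (hw : 0 < w.im) :
    row 3 w = (-(2 * π * I) ^ 3 / 2) * (ee w * (1 + ee w) / (1 - ee w) ^ 3) := by
  rw [row_eq (s := 2) (by norm_num) hw, show cexp (2 * π * I * w) = ee w from rfl,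
    tsum_sq_mul_geom (norm_ee_lt hw)]
  rw [show (2 + 1 : ℕ) = 3 from rfl, show ((2 ! : ℕ) : ℂ) = 2 by norm_num [Nat.factorial]]
  ring

/-- approach a real non-integral point from above -/
lemma tendsto_row {s : ℕ} (hs : 2 ≤ s) {x : ℝ} (hx : ∀ n : ℤ, (x : ℂ) + n ≠ 0) :
    Tendsto (fun t : ℝ => row s ((x : ℂ) + t * I)) (𝓝[>] 0) (𝓝 (row s x)) := by
  refine tendsto_tsum_of_dominated_convergence (bound := fun n : ℤ => ‖1 / ((x : ℂ) + n) ^ s‖)
    (summable_row hs (x : ℂ)).norm (fun n => ?_) ?_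
  · have hc : ContinuousAt (fun t : ℝ => 1 / ((x : ℂ) + t * I + n) ^ s) 0 := by
      have : ((x : ℂ) + (0 : ℝ) * I + n) ^ s ≠ 0 := by
        apply pow_ne_zero; simpa using hx n
      fun_prop (disch := assumption)
    have h2 : Tendsto (fun t : ℝ => 1 / ((x : ℂ) + t * I + n) ^ s) (𝓝[>] 0)
        (𝓝 (1 / ((x : ℂ) + (0 : ℝ) * I + n) ^ s)) := hc.tendsto.mono_left nhdsWithin_le_nhds
    simpa using h2
  · filter_upwards with t n
    rw [norm_div, norm_div, norm_pow, norm_pow]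
    apply div_le_div_of_nonneg_left (by simp)
    · exact pow_pos (norm_pos_iff.2 (hx n)) _
    · apply pow_le_pow_left₀ (norm_nonneg _)
      have e1 : ((x : ℂ) + n) = ((x + n : ℝ) : ℂ) := by push_cast; ring
      have e2 : ((x : ℂ) + t * I + n) = ((x + n : ℝ) : ℂ) + t * I := by push_cast; ring
      rw [e1, e2, Complex.norm_real]
      have h := Complex.abs_re_le_norm (((x + n : ℝ) : ℂ) + t * I)
      simpa using h

lemma ee_ne_one {x : ℝ} (hx : ∀ n : ℤ, (x : ℂ) + n ≠ 0) : 1 - ee x ≠ 0 := by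
  intro h
  have h1 : cexp (2 * π * I * x) = 1 := by
    have : ee x = 1 := by linear_combination -h
    exact this
  obtain ⟨n, hn⟩ := Complex.exp_eq_one_iff.1 h1
  apply hx (-n)
  have h2 := two_pi_I_ne
  have : (x : ℂ) = n := by
    apply mul_left_cancel₀ h2
    rw [hn]; ring
  rw [this]; push_cast; ring

lemma tendsto_ee (x : ℝ) : Tendsto (fun t : ℝ => ee ((x : ℂ) + t * I)) (𝓝[>] 0) (𝓝 (ee x)) := by
  have hc : ContinuousAt (fun t : ℝ => ee ((x : ℂ) + t * I)) 0 := by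
    unfold ee; fun_prop
  have h2 := hc.tendsto.mono_left (nhdsWithin_le_nhds (s := Set.Ioi 0))
  simpa using h2

lemma row2_real {x : ℝ} (hx : ∀ n : ℤ, (x : ℂ) + n ≠ 0) :
    row 2 x = (2 * π * I) ^ 2 * (ee x / (1 - ee x) ^ 2) := by
  have h1 := tendsto_row (s := 2) le_rfl hx
  have h2 : Tendsto (fun t : ℝ => (2 * π * I : ℂ) ^ 2 * (ee ((x : ℂ) + t * I) /
      (1 - ee ((x : ℂ) + t * I)) ^ 2)) (𝓝[>] 0) (𝓝 ((2 * π * I) ^ 2 * (ee x / (1 - ee x) ^ 2))) :=
    ((tendsto_ee x).div (((tendsto_ee x).const_sub 1).pow 2)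
      (pow_ne_zero _ (ee_ne_one hx))).const_mul _
  refine tendsto_nhds_unique (h1.congr' ?_) h2
  filter_upwards [self_mem_nhdsWithin] with t ht
  exact row2_upper (by simpa using ht)

lemma row3_real {x : ℝ} (hx : ∀ n : ℤ, (x : ℂ) + n ≠ 0) :
    row 3 x = (-(2 * π * I) ^ 3 / 2) * (ee x * (1 + ee x) / (1 - ee x) ^ 3) := by
  have h1 := tendsto_row (s := 3) (by norm_num) hx
  have h2 : Tendsto (fun t : ℝ => (-(2 * π * I : ℂ) ^ 3 / 2) * (ee ((x : ℂ) + t * I) *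
      (1 + ee ((x : ℂ) + t * I)) / (1 - ee ((x : ℂ) + t * I)) ^ 3)) (𝓝[>] 0)
      (𝓝 ((-(2 * π * I) ^ 3 / 2) * (ee x * (1 + ee x) / (1 - ee x) ^ 3))) :=
    (((tendsto_ee x).mul ((tendsto_ee x).const_add 1)).div (((tendsto_ee x).const_sub 1).pow 3)
      (pow_ne_zero _ (ee_ne_one hx))).const_mul _
  refine tendsto_nhds_unique (h1.congr' ?_) h2
  filter_upwards [self_mem_nhdsWithin] with t ht
  exact row3_upper (by simpa using ht)

lemma row2_zero : row 2 0 = π ^ 2 / 3 := by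
  have h1 : Summable fun n : ℤ => 1 / ((0 : ℂ) + n) ^ 2 := summable_row le_rfl 0
  rw [row, tsum_int_eq_zero_add_two_mul_tsum_pnat (f := fun n : ℤ => 1 / ((0 : ℂ) + n) ^ 2)
    (fun n => by simp) h1]
  have h2 := hasSum_zeta_two
  have h3 : HasSum (fun n : ℕ => ((1 / (n : ℝ) ^ 2 : ℝ) : ℂ)) ((π ^ 2 / 6 : ℝ) : ℂ) :=
    Complex.hasSum_ofReal.2 h2
  have h4 := tsum_pnat_eq_tsum_of_eq_zero (f := fun n : ℕ => ((1 / (n : ℝ) ^ 2 : ℝ) : ℂ)) (by simp)
  rw [h3.tsum_eq] at h4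
  have h5 : ∑' n : ℕ+, 1 / ((0 : ℂ) + ((n : ℤ) : ℂ)) ^ 2 = ((π ^ 2 / 6 : ℝ) : ℂ) := by
    rw [← h4]
    congr 1
    funext n
    push_cast
    simp
  rw [h5]
  push_cast
  ring

lemma ee_div (M : ℕ) (b : ℤ) : ee ((b : ℂ) / M) = zeta M ^ b := by
  rw [ee, zeta, ← Complex.exp_int_mul]
  congr 1
  ring

lemma div_add_ne {M : ℕ} (hM : M ≠ 0) {b : ℤ} (hb : (b : ZMod M) ≠ 0) (n : ℤ) :
    (((b : ℝ) / M : ℝ) : ℂ) + n ≠ 0 := by
  intro h
  apply hb
  have hM' : (M : ℂ) ≠ 0 := by exact_mod_cast hM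
  have h1 : (b : ℂ) = ((-n * M : ℤ) : ℂ) := by
    push_cast at h ⊢
    field_simp at h
    linear_combination h
  have h2 : b = -n * M := by exact_mod_cast h1
  rw [h2]; simp

theorem cQ0_eq {M : ℕ} (hM : M ≠ 0) {v : Fin 2 → ℤ} (hv : (v 0 : ZMod M) ≠ 0 ∨ (v 1 : ZMod M) ≠ 0) :
    cQ0 M v = if (v 0 : ZMod M) = 0 then
      zeta M ^ (v 1) * (1 + zeta M ^ (v 1)) / (1 - zeta M ^ (v 1)) ^ 3 else 0 := by
  rw [cQ0]
  by_cases h : (v 0 : ZMod M) = 0
  · have hb : (v 1 : ZMod M) ≠ 0 := by tauto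
    rw [if_pos h, if_pos h]
    have h1 := row3_real (div_add_ne hM hb)
    push_cast at h1
    rw [h1, ee_div]
    have := two_pi_I_ne
    generalize (2 * π * I : ℂ) = t at this
    field_simp
    try ring
  · rw [if_neg h, if_neg h]; simp

theorem cP0_eq {M : ℕ} (hM : M ≠ 0) {v : Fin 2 → ℤ} (hv : (v 0 : ZMod M) ≠ 0 ∨ (v 1 : ZMod M) ≠ 0) :
    cP0 M v = 1 / 12 + if (v 0 : ZMod M) = 0 then
      zeta M ^ (v 1) / (1 - zeta M ^ (v 1)) ^ 2 else 0 := by
  have hpi : (π : ℂ) ≠ 0 := by exact_mod_cast Real.pi_ne_zero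
  have h12 : ((2 * π * I : ℂ) ^ 2)⁻¹ * (π ^ 2 / 3) = - (1 / 12) := by
    rw [mul_pow, I_sq]
    field_simp
    norm_num
  rw [cP0, row2_zero, mul_sub, h12]
  by_cases h : (v 0 : ZMod M) = 0
  · have hb : (v 1 : ZMod M) ≠ 0 := by tauto
    rw [if_pos h, if_pos h]
    have h1 := row2_real (div_add_ne hM hb)
    push_cast at h1
    rw [h1, ee_div]
    have := two_pi_I_ne
    generalize (2 * π * I : ℂ) = t at this
    rw [inv_mul_cancel_left₀ (pow_ne_zero 2 this)]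
    ring
  · rw [if_neg h, if_neg h]; ring

end

end Crest.Agent.R007.Wp
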