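import Crest.Agent.R007.Tc3
import Crest.Agent.R007.Lev1

/-!
R007/Wp9: the normalised lattice `2πi(ℤτ+ℤ)` and the q-expansions of its lattice sums `G k`.
-/

set_option autoImplicit false

namespace Crest.Agent.R007.Wp

open UpperHalfPlane hiding I
open Complex PeriodPair ModularForm Matrix Function Filter CongruenceSubgroup EisensteinSeries
open Crest.Agent.R007.WpId
open scoped MatrixGroups Real PeriodPair Nat Topology Manifold ArithmeticFunction.sigma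

local notation "𝕢" => Function.Periodic.qParam

noncomputable section

/-- The period pair `(2πiτ, 2πi)`. -/
def PN (τ : ℍ) : PeriodPair where
  ω₁ := 2 * π * I * τ
  ω₂ := 2 * π * I
  indep := by
    have h := (PP τ).indep
    rw [LinearIndependent.pair_iff] at h ⊢
    intro s t hst
    apply h s t
    simp only [PP_ω₁, PP_ω₂, real_smul, mul_one] at hst ⊢
    apply mul_left_cancel₀ two_pi_I_ne
    rw [mul_zero, ← hst]
    ring

@[simp] lemma PN_ω₁ (τ : ℍ) : (PN τ).ω₁ = 2 * π * I * (τ : ℂ) := rfl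
@[simp] lemma PN_ω₂ (τ : ℍ) : (PN τ).ω₂ = 2 * π * I := rfl

lemma mem_PN {τ : ℍ} {x : ℂ} : x ∈ (PN τ).lattice ↔
    ∃ m n : ℤ, (m : ℂ) * (2 * π * I * τ) + n * (2 * π * I) = x := by
  rw [PeriodPair.mem_lattice]; simp

lemma mem_PN_mul (τ : ℍ) (x : ℂ) : x ∈ (PP τ).lattice ↔ 2 * π * I * x ∈ (PN τ).lattice := by
  rw [mem_PP, mem_PN]
  constructor
  · rintro ⟨m, n, rfl⟩
    exact ⟨m, n, by ring⟩
  · rintro ⟨m, n, h⟩
    refine ⟨m, n, ?_⟩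
    apply mul_left_cancel₀ two_pi_I_ne
    rw [← h]; ring

theorem wp_PN (τ : ℍ) (z : ℂ) : ℘[PN τ] (2 * π * I * z) = ((2 * π * I) ^ 2)⁻¹ * ℘[PP τ] z :=
  weierstrassP_scale two_pi_I_ne (mem_PN_mul τ) z

theorem dwp_PN (τ : ℍ) (z : ℂ) : ℘'[PN τ] (2 * π * I * z) = ((2 * π * I) ^ 3)⁻¹ * ℘'[PP τ] z :=
  derivWeierstrassP_scale two_pi_I_ne (mem_PN_mul τ) z

theorem G_PN (τ : ℍ) (k : ℕ) : (PN τ).G k = ((2 * π * I) ^ k)⁻¹ * (PP τ).G k := by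
  rw [PeriodPair.G, PeriodPair.G, ← ((PN τ).latticeEquivProd.symm.toEquiv).tsum_eq,
    ← ((PP τ).latticeEquivProd.symm.toEquiv).tsum_eq, ← tsum_mul_left]
  refine tsum_congr fun x => ?_
  simp only [LinearEquiv.coe_toEquiv, PeriodPair.latticeEquiv_symm_apply, PN_ω₁, PN_ω₂, PP_ω₁,
    PP_ω₂]
  rw [← mul_inv, ← mul_pow]
  congr 2
  ring

/-- the division point in the normalised lattice -/
def ptN (M : ℕ) (v : Fin 2 → ℤ) (τ : ℍ) : ℂ := 2 * π * I * pt M v τ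

theorem wp_ptN (M : ℕ) (v : Fin 2 → ℤ) (τ : ℍ) : ℘[PN τ] (ptN M v τ) = P M v τ := wp_PN τ _

theorem dwp_ptN (M : ℕ) (v : Fin 2 → ℤ) (τ : ℍ) : ℘'[PN τ] (ptN M v τ) = Q M v τ := dwp_PN τ _

lemma ptN_notMem {M : ℕ} (hM : M ≠ 0) {v : Fin 2 → ℤ}
    (hv : (v 0 : ZMod M) ≠ 0 ∨ (v 1 : ZMod M) ≠ 0) (τ : ℍ) : ptN M v τ ∉ (PN τ).lattice := by
  rw [ptN, ← mem_PN_mul]
  exact pt_notMem hM hv τ

lemma three_ptN_mem (v : Fin 2 → ℤ) (τ : ℍ) : 3 * ptN 3 v τ ∈ (PN τ).lattice := by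
  have h := Tc.pt3_mem v τ
  rw [mem_PN_mul] at h
  convert h using 1
  rw [ptN]; ring

theorem g₂_PN (τ : ℍ) : (PN τ).g₂ = ((2 * π * I) ^ 4)⁻¹ * (PP τ).g₂ := by
  rw [PeriodPair.g₂, PeriodPair.g₂, G_PN]; ring

theorem g₃_PN (τ : ℍ) : (PN τ).g₃ = ((2 * π * I) ^ 6)⁻¹ * (PP τ).g₃ := by
  rw [PeriodPair.g₃, PeriodPair.g₃, G_PN]; ring

theorem tateA3_PN (v : Fin 2 → ℤ) (τ : ℍ) : tateA3 (PN τ) (ptN 3 v τ) = Tc.A3 v τ :=
  dwp_ptN 3 v τ

theorem tateA1_PN (v : Fin 2 → ℤ) (τ : ℍ) : tateA1 (PN τ) (ptN 3 v τ) = Tc.A1 v τ := by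
  rw [tateA1, Tc.A1, tateA1, g₂_PN, ptN, wp_PN, dwp_PN]
  have h := two_pi_I_ne
  generalize (2 * π * I : ℂ) = t at h
  generalize ℘'[PP τ] (pt 3 v τ) = y
  generalize ℘[PP τ] (pt 3 v τ) = x
  generalize (PP τ).g₂ = g
  by_cases hy : y = 0
  · simp [hy]
  · field_simp

/-- lattice sums of the normalised lattice, as functions on `ℍ` -/
def Gk (k : ℕ) (τ : ℍ) : ℂ := (PN τ).G k

theorem Gk_odd {k : ℕ} (hk : Odd k) : Gk k = 0 := by
  funext τ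
  exact (PN τ).G_eq_zero_of_odd k hk

theorem Gk_eq {k : ℕ} (hk : 3 ≤ k) :
    Gk k = (((2 * π * I) ^ k)⁻¹ * (2 * riemannZeta k)) • (E hk : ℍ → ℂ) := by
  funext τ
  rw [Gk, G_PN, G_PP_eq hk, Pi.smul_apply, smul_eq_mul]
  ring

lemma two_zeta {k : ℕ} (hk0 : k ≠ 0) (hk : Even k) :
    ((2 * π * I) ^ k)⁻¹ * (2 * riemannZeta k) = -(bernoulli k : ℂ) / k ! := by
  obtain ⟨m, rfl⟩ : ∃ m, k = 2 * m := by
    obtain ⟨m, hm⟩ := hk; exact ⟨m, by omega⟩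
  have hm : m ≠ 0 := by rintro rfl; exact hk0 rfl
  have h := riemannZeta_two_mul_nat hm
  have hcast : ((2 * m : ℕ) : ℂ) = 2 * (m : ℂ) := by push_cast; ring
  rw [hcast, h]
  have hpi : (π : ℂ) ≠ 0 := by exact_mod_cast Real.pi_ne_zero
  have hI : (2 * π * I : ℂ) ^ (2 * m) = (-1) ^ m * 2 ^ (2 * m) * π ^ (2 * m) := by
    rw [mul_pow, mul_pow, pow_mul I, I_sq]; ring
  rw [hI]
  have h2 : (2 : ℂ) ^ (2 * m) = 2 * 2 ^ (2 * m - 1) := by
    rw [← pow_succ']; congr 1; omega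
  have h1 : ((-1 : ℂ) ^ m) * (-1) ^ m = 1 := by rw [← mul_pow]; simp
  have hf : ((2 * m)! : ℂ) ≠ 0 := by exact_mod_cast (2 * m).factorial_ne_zero
  have hm1 : ((-1 : ℂ) ^ m) ≠ 0 := pow_ne_zero _ (by norm_num)
  rw [h2, pow_succ]
  field_simp

theorem isF_Gk {k : ℕ} (hk : 3 ≤ k) : Rat.IsF 1 k (Gk k) := by
  rw [Gk_eq hk]
  exact (Rat.isF_of_isMF (RatAlg.isMF_of_SL (E hk))).smul _

/-- **q-expansion of the normalised lattice sums.** -/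
theorem qe_Gk {k : ℕ} (hk : 3 ≤ k) (hk2 : Even k) :
    Rat.qe 1 (Gk k) = PowerSeries.mk fun n => if n = 0 then -(bernoulli k : ℂ) / k ! else
      2 / (k - 1)! * ((σ (k - 1) n : ℕ) : ℂ) := by
  have hE : Rat.IsF 1 k (E hk : ℍ → ℂ) := Rat.isF_of_isMF (RatAlg.isMF_of_SL (E hk))
  have hB : (bernoulli k : ℂ) ≠ 0 := by
    have h1 := two_zeta (by omega : k ≠ 0) hk2
    have h2 : riemannZeta k ≠ 0 := riemannZeta_ne_zero_of_one_lt_re (by norm_cast; omega)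
    intro h3
    rw [h3] at h1
    have h4 : ((2 * π * I) ^ k)⁻¹ * (2 * riemannZeta k) ≠ 0 :=
      mul_ne_zero (inv_ne_zero (pow_ne_zero _ two_pi_I_ne)) (mul_ne_zero two_ne_zero h2)
    apply h4
    rw [h1]; simp
  rw [Gk_eq hk, Rat.qe_smul hE, two_zeta (by omega) hk2]
  ext n
  have h := E_qExpansion_coeff hk hk2 n
  rw [PowerSeries.coeff_smul, PowerSeries.coeff_mk, Rat.qe, Nat.cast_one, h]
  have hf : (k ! : ℂ) = k * (k - 1)! := by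
    have : k ! = k * (k - 1)! := (Nat.mul_factorial_pred (by omega)).symm
    exact_mod_cast this
  have hf0 : ((k - 1)! : ℂ) ≠ 0 := by exact_mod_cast (k - 1).factorial_ne_zero
  have hk0 : (k : ℂ) ≠ 0 := by
    have : k ≠ 0 := by omega
    exact_mod_cast this
  split_ifs with hn
  · simp
  · rw [hf, smul_eq_mul]
    field_simp

theorem hasSum_Gk {k : ℕ} (hk : 3 ≤ k) (hk2 : Even k) (τ : ℍ) :
    HasSum (fun n : ℕ => (if n = 0 then -(bernoulli k : ℂ) / k ! else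
      2 / (k - 1)! * ((σ (k - 1) n : ℕ) : ℂ)) * 𝕢 (1 : ℝ) τ ^ n) (Gk k τ) := by
  have hF := isF_Gk hk
  have h := hasSum_qExpansion (h := ((1 : ℕ) : ℝ)) Rat.Mpos hF.periodic hF.holo hF.bdd_infty τ
  have h2 : ∀ n, PowerSeries.coeff n (qExpansion (1 : ℝ) (Gk k)) =
      if n = 0 then -(bernoulli k : ℂ) / k ! else 2 / (k - 1)! * ((σ (k - 1) n : ℕ) : ℂ) := by
    intro n
    have := congrArg (PowerSeries.coeff n) (qe_Gk hk hk2)
    rwa [PowerSeries.coeff_mk, Rat.qe, Nat.cast_one] at this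
  simp only [smul_eq_mul, Nat.cast_one] at h
  simp only [h2] at h
  exact h

/-- level `M` version -/
theorem coeff_qe_Gk {k : ℕ} (hk : 3 ≤ k) (hk2 : Even k) (M : ℕ) [NeZero M] (n : ℕ) :
    PowerSeries.coeff n (Rat.qe M (Gk k)) = if M ∣ n then (if n = 0 then -(bernoulli k : ℂ) / k ! else
      2 / (k - 1)! * ((σ (k - 1) (n / M) : ℕ) : ℂ)) else 0 := by
  have h := Rat.qe_mul_level (isF_Gk hk) M n
  rw [one_mul, qe_Gk hk hk2] at h
  rw [h]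
  split_ifs with h1 h2
  · subst h2; simp
  · rw [PowerSeries.coeff_mk, if_neg]
    obtain ⟨t, rfl⟩ := h1
    rw [Nat.mul_div_cancel_left _ (NeZero.pos M)]
    rintro rfl
    exact h2 (mul_zero _)
  · rfl

end

end Crest.Agent.R007.Wp
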